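import Vale.Agent.P237.Petty.Cor.Grid.Tiny.N13.Cert

/-!
# P237: a cell down to zero in dimension 13, subdivisions
-/

namespace Vale.Agent.P237.Petty.Cor.Grid.Tiny.N13

def covers22 : cell.Covers Vale.Agent.P237.Petty.Cor.Grid.N13.table row22.1 :=
  ⟨(.cut .d 0 (.cut .v 16777216 (.cut .v 8388608 (.pos 2 .mm ⟨⟨0, 0, 517162824, 0, 0, 771598065, 0, 0, 0, ⟨0, 0⟩, 0⟩, 0, 0⟩ 0 0) (.cut .d (-8388608) (.void 3 ⟨⟨100000, 0, 0, 0, 0, 0, 0, 0, 0, ⟨0, 0⟩, 0⟩, 0, 0⟩ 0 0) (.cut .d (-4194304) (.void 3 ⟨⟨100000, 0, 0, 0, 0, 0, 0, 0, 0, ⟨0, 0⟩, 0⟩, 0, 0⟩ 0 0) (.cut .d (-2097152) (.void 3 ⟨⟨0, 0, 0, 0, 0, 100000, 0, 0, 0, ⟨0, 0⟩, 0⟩, 0, 0⟩ 0 0) (.cut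 .d (-1048576) (.void 3 ⟨⟨0, 0, 0, 0, 0, 100000, 0, 0, 0, ⟨0, 0⟩, 0⟩, 0, 0⟩ 0 0) (.cut .d (-524288) (.void 3 ⟨⟨0, 0, 0, 0, 0, 100000, 0, 0, 0, ⟨0, 0⟩, 0⟩, 0, 0⟩ 0 0) (.cut .d (-262144) (.void 3 ⟨⟨0, 0, 0, 0, 0, 100000, 0, 0, 0, ⟨0, 0⟩, 0⟩, 0, 0⟩ 0 0) (.cut .s 13107200 (.pos 3 .mm ⟨⟨0, 0, 0, 0, 0, 753898506, 0, 0, 0, ⟨0, 0⟩, 0⟩, 0, 0⟩ 0 0) (.pos 3 .mm ⟨⟨0, 0, 0, 0, 0, 833324021, 0, 0, 0, ⟨0, 0⟩, 0⟩, 0, 0⟩ 0 0))))))))) (.cut .v 268435456 (.cut .v 67108864 (.cut .v 33554432 (.cut .d (-8388608) (.void 24 ⟨⟨99984, 0, 0, 0, 0, 0, 0, 0, 0, ⟨0, 0⟩, 0⟩, 0, 0⟩ 0 0) (.cut .v 25165824 (.cut .d (-4194304) (.void 25 ⟨⟨100000, 0, 0, 0, 0, 0, 0, 0, 0,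 ⟨0, 0⟩, 0⟩, 0, 0⟩ 0 0) (.cut .v 20971520 (.cut .d (-2097152) (.void 27 ⟨⟨100000, 0, 0, 0, 0, 0, 0, 0, 0, ⟨0, 0⟩, 0⟩, 0, 0⟩ 0 0) (.cut .v 18874368 (.cut .d (-1048576) (.void 29 ⟨⟨100000, 0, 0, 0, 0, 0, 0, 0, 0, ⟨0, 0⟩, 0⟩, 0, 0⟩ 0 0) (.cut .v 17825792 (.cut .d (-524288) (.void 31 ⟨⟨100000, 0, 0, 0, 0, 0, 0, 0, 0, ⟨0, 0⟩, 0⟩, 0, 0⟩ 0 0) (.cut .v 17301504 (.cut .d (-262144) (.void 33 ⟨⟨100000, 0, 0, 0, 0, 0, 0, 0, 0, ⟨0, 0⟩, 0⟩, 0, 0⟩ 0 0) (.cut .v 17039360 (.cut .d (-131072) (.void 35 ⟨⟨100000, 0, 0, 0, 0, 0, 0, 0, 0, ⟨0, 0⟩, 0⟩, 0, 0⟩ 0 0) (.cut .d (-65536) (.void 35 ⟨⟨100000, 0, 0, 0, 0, 0, 0, 0, 0, ⟨0, 0⟩, 0⟩, 0, 0⟩ 0 0) (.cut .d (-32768)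 (.void 35 ⟨⟨100000, 0, 0, 0, 0, 0, 0, 0, 0, ⟨0, 0⟩, 0⟩, 0, 0⟩ 0 0) (.cut .d (-16384) (.void 35 ⟨⟨0, 0, 0, 0, 0, 100000, 0, 0, 0, ⟨0, 0⟩, 0⟩, 0, 0⟩ 0 0) (.cut .v 16908288 (.cut .s 13107200 (.cut .s 13041664 (.cut .v 16842752 (.cut .s 13008896 (.cut .d (-8192) (.cut .s 12992512 (.pos 39 .mp ⟨⟨321514147, 0, 0, 0, 0, 178870773, 0, 0, 0, ⟨0, 0⟩, 0⟩, 0, 0⟩ 0 0) (.pos 39 .mp ⟨⟨325144164, 0, 0, 0, 0, 180352242, 0, 0, 0, ⟨0, 0⟩, 0⟩, 0, 0⟩ 0 0)) (.cut .v 16809984 (.cut .l 141961 (.cut .s 12992512 (.cut .s 12984320 (.pos 49 .mp ⟨⟨330064090, 0, 0, 0, 0, 153387079, 0, 0, 0, ⟨0, 0⟩, 0⟩, 0, 0⟩ 0 0) (.cut .s 12988416 (.pos 49 .mp ⟨⟨331629747, 0, 0,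 0, 0, 153558388, 0, 0, 0, ⟨0, 0⟩, 0⟩, 0, 0⟩ 0 0) (.pos 49 .mp ⟨⟨332321355, 0, 0, 0, 0, 154321814, 0, 0, 0, ⟨0, 0⟩, 0⟩, 0, 0⟩ 0 0))) (.cut .d (-4096) (.pos 49 .mp ⟨⟨325348031, 0, 0, 0, 0, 178240288, 0, 0, 0, ⟨0, 0⟩, 0⟩, 0, 0⟩ 0 0) (.cut .s 13000704 (.pos 49 .mp ⟨⟨331165718, 0, 0, 0, 0, 159150461, 0, 0, 0, ⟨0, 0⟩, 0⟩, 0, 0⟩ 0 0) (.pos 49 .mp ⟨⟨333047124, 0, 0, 0, 0, 159838084, 0, 0, 0, ⟨0, 0⟩, 0⟩, 0, 0⟩ 0 0)))) (.pos 49 .mp ⟨⟨331627111, 0, 0, 0, 0, 149181446, 0, 0, 0, ⟨0, 0⟩, 0⟩, 0, 0⟩ 0 0)) (.pos 50 .mp ⟨⟨419217968, 0, 0, 0, 0, 0, 0, 0, 0, ⟨0, 0⟩, 0⟩, 0, 0⟩ 0 0))) (.cut .d (-8192) (.cut .d (-12288) (.pos 39 .mp ⟨⟨332904278, 0, 0, 0, 0,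 185038148, 0, 0, 0, ⟨0, 0⟩, 0⟩, 0, 0⟩ 0 0) (.cut .l 141961 (.void 39 ⟨⟨0, 0, 0, 0, 0, 100000, 0, 0, 0, ⟨0, 0⟩, 0⟩, 0, 0⟩ 0 0) (.cut .s 13025280 (.pos 39 .mp ⟨⟨329467848, 0, 0, 0, 0, 178112655, 0, 0, 0, ⟨0, 0⟩, 0⟩, 0, 0⟩ 0 0) (.pos 39 .mp ⟨⟨332802599, 0, 0, 0, 0, 180767847, 0, 0, 0, ⟨0, 0⟩, 0⟩, 0, 0⟩ 0 0)))) (.cut .v 16809984 (.cut .l 141961 (.cut .s 13025280 (.cut .d (-4096) (.pos 49 .mp ⟨⟨329010609, 0, 0, 0, 0, 179814438, 0, 0, 0, ⟨0, 0⟩, 0⟩, 0, 0⟩ 0 0) (.cut .s 13017088 (.pos 49 .mp ⟨⟨334917306, 0, 0, 0, 0, 160589030, 0, 0, 0, ⟨0, 0⟩, 0⟩, 0, 0⟩ 0 0) (.cut .s 13021184 (.pos 49 .mp ⟨⟨336442839, 0, 0, 0, 0, 161432506, 0, 0, 0, ⟨0, 0⟩,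 0⟩, 0, 0⟩ 0 0) (.pos 49 .mp ⟨⟨337269486, 0, 0, 0, 0, 162016925, 0, 0, 0, ⟨0, 0⟩, 0⟩, 0, 0⟩ 0 0)))) (.cut .d (-4096) (.pos 49 .mp ⟨⟨332720232, 0, 0, 0, 0, 181476833, 0, 0, 0, ⟨0, 0⟩, 0⟩, 0, 0⟩ 0 0) (.cut .v 16793600 (.cut .l 70980 (.cut .d (-2048) (.pos 51 .mp ⟨⟨332810395, 0, 0, 0, 0, 180421831, 0, 0, 0, ⟨0, 0⟩, 0⟩, 0, 0⟩ 0 0) (.cut .s 13033472 (.pos 51 .mp ⟨⟨336553367, 0, 0, 0, 0, 165839561, 0, 0, 0, ⟨0, 0⟩, 0⟩, 0, 0⟩ 0 0) (.pos 51 .mp ⟨⟨338581760, 0, 0, 0, 0, 166392710, 0, 0, 0, ⟨0, 0⟩, 0⟩, 0, 0⟩ 0 0))) (.pos 51 .mp ⟨⟨337911978, 0, 0, 0, 0, 160603945, 0, 0, 0, ⟨0, 0⟩, 0⟩, 0, 0⟩ 0 0)) (.pos 52 .mp ⟨⟨429010602, 0, 0, 0, 0, 0, 0, 0, 0,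 ⟨0, 0⟩, 0⟩, 0, 0⟩ 0 0)))) (.pos 49 .mp ⟨⟨339182450, 0, 0, 0, 0, 152429551, 0, 0, 0, ⟨0, 0⟩, 0⟩, 0, 0⟩ 0 0)) (.pos 50 .mp ⟨⟨428046967, 0, 0, 0, 0, 0, 0, 0, 0, ⟨0, 0⟩, 0⟩, 0, 0⟩ 0 0)))) (.pos 40 .mp ⟨⟨435464802, 0, 0, 0, 0, 0, 0, 0, 0, ⟨0, 0⟩, 0⟩, 0, 0⟩ 0 0)) (.cut .v 16842752 (.cut .s 13074432 (.cut .d (-8192) (.cut .d (-12288) (.pos 39 .mp ⟨⟨340412849, 0, 0, 0, 0, 188897272, 0, 0, 0, ⟨0, 0⟩, 0⟩, 0, 0⟩ 0 0) (.cut .l 141961 (.void 39 ⟨⟨0, 0, 0, 0, 0, 100000, 0, 0, 0, ⟨0, 0⟩, 0⟩, 0, 0⟩ 0 0) (.cut .s 13058048 (.pos 39 .mp ⟨⟨336316249, 0, 0, 0, 0, 183195573, 0, 0, 0, ⟨0, 0⟩, 0⟩, 0, 0⟩ 0 0) (.cut .s 13066240 (.pos 39 .mp ⟨⟨341259812, 0, 0,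 0, 0, 179583409, 0, 0, 0, ⟨0, 0⟩, 0⟩, 0, 0⟩ 0 0) (.pos 39 .mp ⟨⟨343068371, 0, 0, 0, 0, 180814197, 0, 0, 0, ⟨0, 0⟩, 0⟩, 0, 0⟩ 0 0))))) (.cut .l 141961 (.cut .v 16809984 (.cut .s 13058048 (.cut .d (-4096) (.pos 49 .mp ⟨⟨336477496, 0, 0, 0, 0, 183228737, 0, 0, 0, ⟨0, 0⟩, 0⟩, 0, 0⟩ 0 0) (.cut .v 16793600 (.cut .l 70980 (.cut .d (-2048) (.pos 51 .mp ⟨⟨336560512, 0, 0, 0, 0, 182176412, 0, 0, 0, ⟨0, 0⟩, 0⟩, 0, 0⟩ 0 0) (.cut .s 13049856 (.pos 51 .mp ⟨⟨340525143, 0, 0, 0, 0, 167157965, 0, 0, 0, ⟨0, 0⟩, 0⟩, 0, 0⟩ 0 0) (.pos 51 .mp ⟨⟨342441519, 0, 0, 0, 0, 168018995, 0, 0, 0, ⟨0, 0⟩, 0⟩, 0, 0⟩ 0 0))) (.pos 51 .mp ⟨⟨341732993, 0, 0, 0, 0, 162425350,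 0, 0, 0, ⟨0, 0⟩, 0⟩, 0, 0⟩ 0 0)) (.pos 52 .mp ⟨⟨433594049, 0, 0, 0, 0, 0, 0, 0, 0, ⟨0, 0⟩, 0⟩, 0, 0⟩ 0 0))) (.cut .d (-4096) (.pos 49 .mp ⟨⟨340283004, 0, 0, 0, 0, 185071435, 0, 0, 0, ⟨0, 0⟩, 0⟩, 0, 0⟩ 0 0) (.cut .v 16793600 (.cut .l 70980 (.cut .d (-2048) (.pos 51 .mp ⟨⟨340358796, 0, 0, 0, 0, 184021754, 0, 0, 0, ⟨0, 0⟩, 0⟩, 0, 0⟩ 0 0) (.cut .v 16785408 (.cut .s 13066240 (.pos 61 .mp ⟨⟨344052556, 0, 0, 0, 0, 169452457, 0, 0, 0, ⟨0, 0⟩, 0⟩, 0, 0⟩ 0 0) (.cut .s 13070336 (.pos 61 .mp ⟨⟨348176637, 0, 0, 0, 0, 165864607, 0, 0, 0, ⟨0, 0⟩, 0⟩, 0, 0⟩ 0 0) (.pos 61 .mp ⟨⟨349054647, 0, 0, 0, 0, 166479817, 0, 0, 0, ⟨0, 0⟩, 0⟩, 0, 0⟩ 0 0))) (.pos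 62 .mp ⟨⟨438020509, 0, 0, 0, 0, 0, 0, 0, 0, ⟨0, 0⟩, 0⟩, 0, 0⟩ 0 0))) (.pos 51 .mp ⟨⟨345603222, 0, 0, 0, 0, 164279091, 0, 0, 0, ⟨0, 0⟩, 0⟩, 0, 0⟩ 0 0)) (.pos 52 .mp ⟨⟨438272352, 0, 0, 0, 0, 0, 0, 0, 0, ⟨0, 0⟩, 0⟩, 0, 0⟩ 0 0)))) (.pos 50 .mp ⟨⟨449975626, 0, 0, 0, 0, 0, 0, 0, 0, ⟨0, 0⟩, 0⟩, 0, 0⟩ 0 0)) (.cut .s 13058048 (.pos 39 .mp ⟨⟨344301871, 0, 0, 0, 0, 158876939, 0, 0, 0, ⟨0, 0⟩, 0⟩, 0, 0⟩ 0 0) (.pos 39 .mp ⟨⟨348216314, 0, 0, 0, 0, 160664689, 0, 0, 0, ⟨0, 0⟩, 0⟩, 0, 0⟩ 0 0)))) (.cut .d (-8192) (.cut .d (-12288) (.pos 39 .mp ⟨⟨348096743, 0, 0, 0, 0, 193171028, 0, 0, 0, ⟨0, 0⟩, 0⟩, 0, 0⟩ 0 0) (.cut .l 141961 (.void 39 ⟨⟨0, 0, 0, 0, 0,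 100000, 0, 0, 0, ⟨0, 0⟩, 0⟩, 0, 0⟩ 0 0) (.cut .s 13090816 (.cut .s 13082624 (.pos 39 .mp ⟨⟨344901852, 0, 0, 0, 0, 182033808, 0, 0, 0, ⟨0, 0⟩, 0⟩, 0, 0⟩ 0 0) (.pos 39 .mp ⟨⟨346760646, 0, 0, 0, 0, 183241503, 0, 0, 0, ⟨0, 0⟩, 0⟩, 0, 0⟩ 0 0)) (.cut .s 13099008 (.pos 39 .mp ⟨⟨348645145, 0, 0, 0, 0, 184436534, 0, 0, 0, ⟨0, 0⟩, 0⟩, 0, 0⟩ 0 0) (.pos 39 .mp ⟨⟨350555746, 0, 0, 0, 0, 185618149, 0, 0, 0, ⟨0, 0⟩, 0⟩, 0, 0⟩ 0 0))))) (.cut .l 141961 (.cut .v 16809984 (.cut .s 13090816 (.cut .d (-4096) (.cut .s 13082624 (.pos 49 .mp ⟨⟨344137372, 0, 0, 0, 0, 183546448, 0, 0, 0, ⟨0, 0⟩, 0⟩, 0, 0⟩ 0 0) (.pos 49 .mp ⟨⟨346083074, 0, 0, 0, 0, 184516214, 0,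 0, 0, ⟨0, 0⟩, 0⟩, 0, 0⟩ 0 0)) (.cut .v 16793600 (.cut .l 70980 (.cut .d (-2048) (.pos 51 .mp ⟨⟨344205861, 0, 0, 0, 0, 185959164, 0, 0, 0, ⟨0, 0⟩, 0⟩, 0, 0⟩ 0 0) (.cut .v 16785408 (.cut .l 35490 (.cut .d (-1024) (.pos 61 .mp ⟨⟨344240800, 0, 0, 0, 0, 185434246, 0, 0, 0, ⟨0, 0⟩, 0⟩, 0, 0⟩ 0 0) (.cut .s 13082624 (.pos 61 .mp ⟨⟨347239185, 0, 0, 0, 0, 172453433, 0, 0, 0, ⟨0, 0⟩, 0⟩, 0, 0⟩ 0 0) (.cut .s 13086720 (.pos 61 .mp ⟨⟨350287385, 0, 0, 0, 0, 170907072, 0, 0, 0, ⟨0, 0⟩, 0⟩, 0, 0⟩ 0 0) (.pos 61 .mp ⟨⟨351223280, 0, 0, 0, 0, 171460721, 0, 0, 0, ⟨0, 0⟩, 0⟩, 0, 0⟩ 0 0)))) (.pos 61 .mp ⟨⟨348843803, 0, 0, 0, 0, 166991211, 0, 0, 0, ⟨0, 0⟩, 0⟩,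 0, 0⟩ 0 0)) (.pos 62 .mp ⟨⟨442792071, 0, 0, 0, 0, 0, 0, 0, 0, ⟨0, 0⟩, 0⟩, 0, 0⟩ 0 0))) (.pos 51 .mp ⟨⟨349523297, 0, 0, 0, 0, 166163433, 0, 0, 0, ⟨0, 0⟩, 0⟩, 0, 0⟩ 0 0)) (.pos 52 .mp ⟨⟨443046680, 0, 0, 0, 0, 0, 0, 0, 0, ⟨0, 0⟩, 0⟩, 0, 0⟩ 0 0))) (.cut .d (-4096) (.cut .s 13099008 (.pos 49 .mp ⟨⟨348041227, 0, 0, 0, 0, 185509367, 0, 0, 0, ⟨0, 0⟩, 0⟩, 0, 0⟩ 0 0) (.pos 49 .mp ⟨⟨350011911, 0, 0, 0, 0, 186526076, 0, 0, 0, ⟨0, 0⟩, 0⟩, 0, 0⟩ 0 0)) (.cut .v 16793600 (.cut .l 70980 (.cut .d (-2048) (.pos 51 .mp ⟨⟨348102333, 0, 0, 0, 0, 187989972, 0, 0, 0, ⟨0, 0⟩, 0⟩, 0, 0⟩ 0 0) (.cut .v 16785408 (.cut .l 35490 (.cut .d (-1024) (.pos 61 .mp ⟨⟨348133590,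 0, 0, 0, 0, 187466321, 0, 0, 0, ⟨0, 0⟩, 0⟩, 0, 0⟩ 0 0) (.cut .v 16781312 (.cut .l 17745 (.cut .d (-512) (.pos 71 .mp ⟨⟨348149273, 0, 0, 0, 0, 187204378, 0, 0, 0, ⟨0, 0⟩, 0⟩, 0, 0⟩ 0 0) (.cut .s 13099008 (.pos 71 .mp ⟨⟨350648323, 0, 0, 0, 0, 175243197, 0, 0, 0, ⟨0, 0⟩, 0⟩, 0, 0⟩ 0 0) (.pos 71 .mp ⟨⟨352628037, 0, 0, 0, 0, 176226310, 0, 0, 0, ⟨0, 0⟩, 0⟩, 0, 0⟩ 0 0))) (.pos 71 .mp ⟨⟨352451253, 0, 0, 0, 0, 169350664, 0, 0, 0, ⟨0, 0⟩, 0⟩, 0, 0⟩ 0 0)) (.pos 72 .mp ⟨⟨447531096, 0, 0, 0, 0, 0, 0, 0, 0, ⟨0, 0⟩, 0⟩, 0, 0⟩ 0 0))) (.pos 61 .mp ⟨⟨352798613, 0, 0, 0, 0, 168926223, 0, 0, 0, ⟨0, 0⟩, 0⟩, 0, 0⟩ 0 0)) (.pos 62 .mp ⟨⟨447660791, 0, 0, 0,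 0, 0, 0, 0, 0, ⟨0, 0⟩, 0⟩, 0, 0⟩ 0 0))) (.pos 51 .mp ⟨⟨353493859, 0, 0, 0, 0, 168076619, 0, 0, 0, ⟨0, 0⟩, 0⟩, 0, 0⟩ 0 0)) (.pos 52 .mp ⟨⟨447918222, 0, 0, 0, 0, 0, 0, 0, 0, ⟨0, 0⟩, 0⟩, 0, 0⟩ 0 0)))) (.pos 50 .mp ⟨⟨459967061, 0, 0, 0, 0, 0, 0, 0, 0, ⟨0, 0⟩, 0⟩, 0, 0⟩ 0 0)) (.cut .s 13090816 (.pos 39 .mp ⟨⟨352181294, 0, 0, 0, 0, 162481936, 0, 0, 0, ⟨0, 0⟩, 0⟩, 0, 0⟩ 0 0) (.pos 39 .mp ⟨⟨356197464, 0, 0, 0, 0, 164326906, 0, 0, 0, ⟨0, 0⟩, 0⟩, 0, 0⟩ 0 0))))) (.pos 40 .mp ⟨⟨454815030, 0, 0, 0, 0, 0, 0, 0, 0, ⟨0, 0⟩, 0⟩, 0, 0⟩ 0 0))) (.cut .s 13172736 (.cut .v 16842752 (.cut .s 13139968 (.cut .d (-8192) (.cut .d (-12288) (.pos 39 .mp ⟨⟨355959963,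 0, 0, 0, 0, 197872710, 0, 0, 0, ⟨0, 0⟩, 0⟩, 0, 0⟩ 0 0) (.cut .l 141961 (.void 39 ⟨⟨0, 0, 0, 0, 0, 100000, 0, 0, 0, ⟨0, 0⟩, 0⟩, 0, 0⟩ 0 0) (.cut .s 13123584 (.cut .s 13115392 (.pos 39 .mp ⟨⟨352492848, 0, 0, 0, 0, 186785592, 0, 0, 0, ⟨0, 0⟩, 0⟩, 0, 0⟩ 0 0) (.pos 39 .mp ⟨⟨354456851, 0, 0, 0, 0, 187938099, 0, 0, 0, ⟨0, 0⟩, 0⟩, 0, 0⟩ 0 0)) (.cut .s 13131776 (.pos 39 .mp ⟨⟨356448160, 0, 0, 0, 0, 189074901, 0, 0, 0, ⟨0, 0⟩, 0⟩, 0, 0⟩ 0 0) (.pos 39 .mp ⟨⟨358467181, 0, 0, 0, 0, 190195224, 0, 0, 0, ⟨0, 0⟩, 0⟩, 0, 0⟩ 0 0))))) (.cut .l 141961 (.cut .v 16809984 (.cut .s 13123584 (.cut .d (-4096) (.cut .s 13115392 (.pos 49 .mp ⟨⟨351995206, 0, 0, 0,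 0, 187566513, 0, 0, 0, ⟨0, 0⟩, 0⟩, 0, 0⟩ 0 0) (.pos 49 .mp ⟨⟨353991195, 0, 0, 0, 0, 188630848, 0, 0, 0, ⟨0, 0⟩, 0⟩, 0, 0⟩ 0 0)) (.cut .v 16793600 (.cut .l 70980 (.cut .d (-2048) (.pos 51 .mp ⟨⟨352048848, 0, 0, 0, 0, 190115535, 0, 0, 0, ⟨0, 0⟩, 0⟩, 0, 0⟩ 0 0) (.cut .v 16785408 (.cut .l 35490 (.cut .d (-1024) (.pos 61 .mp ⟨⟨352076383, 0, 0, 0, 0, 189593130, 0, 0, 0, ⟨0, 0⟩, 0⟩, 0, 0⟩ 0 0) (.cut .v 16781312 (.cut .l 17745 (.cut .d (-512) (.pos 71 .mp ⟨⟨352090207, 0, 0, 0, 0, 189331809, 0, 0, 0, ⟨0, 0⟩, 0⟩, 0, 0⟩ 0 0) (.cut .l 8872 (.cut .v 16779264 (.cut .s 13115392 (.cut .s 13111296 (.pos 107 .mp ⟨⟨356898282, 0, 0, 0, 0, 172390036, 0,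 0, 0, ⟨0, 0⟩, 0⟩, 0, 0⟩ 0 0) (.pos 107 .mp ⟨⟨357874258, 0, 0, 0, 0, 172935731, 0, 0, 0, ⟨0, 0⟩, 0⟩, 0, 0⟩ 0 0)) (.cut .s 13119488 (.pos 107 .mp ⟨⟨358859643, 0, 0, 0, 0, 173474792, 0, 0, 0, ⟨0, 0⟩, 0⟩, 0, 0⟩ 0 0) (.pos 107 .mp ⟨⟨359854528, 0, 0, 0, 0, 174007069, 0, 0, 0, ⟨0, 0⟩, 0⟩, 0, 0⟩ 0 0))) (.pos 108 .mp ⟨⟨466942858, 0, 0, 0, 0, 0, 0, 0, 0, ⟨0, 0⟩, 0⟩, 0, 0⟩ 0 0)) (.pos 71 .mp ⟨⟨356353679, 0, 0, 0, 0, 171413526, 0, 0, 0, ⟨0, 0⟩, 0⟩, 0, 0⟩ 0 0))) (.pos 71 .mp ⟨⟨356448936, 0, 0, 0, 0, 171324253, 0, 0, 0, ⟨0, 0⟩, 0⟩, 0, 0⟩ 0 0)) (.pos 72 .mp ⟨⟨452496728, 0, 0, 0, 0, 0, 0, 0, 0, ⟨0, 0⟩, 0⟩, 0, 0⟩ 0 0))) (.pos 61 .mp ⟨⟨356804299, 0, 0,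 0, 0, 170888706, 0, 0, 0, ⟨0, 0⟩, 0⟩, 0, 0⟩ 0 0)) (.pos 62 .mp ⟨⟨452627878, 0, 0, 0, 0, 0, 0, 0, 0, ⟨0, 0⟩, 0⟩, 0, 0⟩ 0 0))) (.pos 51 .mp ⟨⟨357515562, 0, 0, 0, 0, 170016874, 0, 0, 0, ⟨0, 0⟩, 0⟩, 0, 0⟩ 0 0)) (.pos 52 .mp ⟨⟨452888188, 0, 0, 0, 0, 0, 0, 0, 0, ⟨0, 0⟩, 0⟩, 0, 0⟩ 0 0))) (.cut .d (-4096) (.cut .s 13131776 (.pos 49 .mp ⟨⟨355999958, 0, 0, 0, 0, 189719257, 0, 0, 0, ⟨0, 0⟩, 0⟩, 0, 0⟩ 0 0) (.pos 49 .mp ⟨⟨358021580, 0, 0, 0, 0, 190831914, 0, 0, 0, ⟨0, 0⟩, 0⟩, 0, 0⟩ 0 0)) (.cut .v 16793600 (.cut .l 70980 (.cut .d (-2048) (.pos 51 .mp ⟨⟨356046054, 0, 0, 0, 0, 192337229, 0, 0, 0, ⟨0, 0⟩, 0⟩, 0, 0⟩ 0 0) (.cut .v 16785408 (.cut .l 35490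 (.cut .d (-1024) (.pos 61 .mp ⟨⟨356069826, 0, 0, 0, 0, 191816053, 0, 0, 0, ⟨0, 0⟩, 0⟩, 0, 0⟩ 0 0) (.cut .v 16781312 (.cut .l 17745 (.cut .d (-512) (.pos 71 .mp ⟨⟨356081770, 0, 0, 0, 0, 191555343, 0, 0, 0, ⟨0, 0⟩, 0⟩, 0, 0⟩ 0 0) (.cut .l 8872 (.cut .v 16779264 (.cut .s 13131776 (.cut .s 13127680 (.pos 107 .mp ⟨⟨360859003, 0, 0, 0, 0, 174532411, 0, 0, 0, ⟨0, 0⟩, 0⟩, 0, 0⟩ 0 0) (.pos 107 .mp ⟨⟨361873159, 0, 0, 0, 0, 175050666, 0, 0, 0, ⟨0, 0⟩, 0⟩, 0, 0⟩ 0 0)) (.cut .s 13135872 (.pos 107 .mp ⟨⟨362897088, 0, 0, 0, 0, 175561683, 0, 0, 0, ⟨0, 0⟩, 0⟩, 0, 0⟩ 0 0) (.pos 107 .mp ⟨⟨363930882, 0, 0, 0, 0, 176065308, 0, 0, 0, ⟨0, 0⟩, 0⟩, 0, 0⟩ 0 0)))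 (.pos 108 .mp ⟨⟨472137892, 0, 0, 0, 0, 0, 0, 0, 0, ⟨0, 0⟩, 0⟩, 0, 0⟩ 0 0)) (.pos 71 .mp ⟨⟨360399591, 0, 0, 0, 0, 173417097, 0, 0, 0, ⟨0, 0⟩, 0⟩, 0, 0⟩ 0 0))) (.pos 71 .mp ⟨⟨360498022, 0, 0, 0, 0, 173323726, 0, 0, 0, ⟨0, 0⟩, 0⟩, 0, 0⟩ 0 0)) (.pos 72 .mp ⟨⟨457561928, 0, 0, 0, 0, 0, 0, 0, 0, ⟨0, 0⟩, 0⟩, 0, 0⟩ 0 0))) (.pos 61 .mp ⟨⟨360861522, 0, 0, 0, 0, 172876868, 0, 0, 0, ⟨0, 0⟩, 0⟩, 0, 0⟩ 0 0)) (.pos 62 .mp ⟨⟨457694563, 0, 0, 0, 0, 0, 0, 0, 0, ⟨0, 0⟩, 0⟩, 0, 0⟩ 0 0))) (.pos 51 .mp ⟨⟨361589072, 0, 0, 0, 0, 171982398, 0, 0, 0, ⟨0, 0⟩, 0⟩, 0, 0⟩ 0 0)) (.pos 52 .mp ⟨⟨457957808, 0, 0, 0, 0, 0, 0, 0, 0, ⟨0, 0⟩, 0⟩, 0, 0⟩ 0 0)))) (.pos 50 .mp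 ⟨⟨470222714, 0, 0, 0, 0, 0, 0, 0, 0, ⟨0, 0⟩, 0⟩, 0, 0⟩ 0 0)) (.cut .s 13123584 (.pos 39 .mp ⟨⟨360265485, 0, 0, 0, 0, 166197804, 0, 0, 0, ⟨0, 0⟩, 0⟩, 0, 0⟩ 0 0) (.pos 39 .mp ⟨⟨364386032, 0, 0, 0, 0, 168092813, 0, 0, 0, ⟨0, 0⟩, 0⟩, 0, 0⟩ 0 0)))) (.cut .d (-8192) (.cut .d (-12288) (.pos 39 .mp ⟨⟨364006639, 0, 0, 0, 0, 203016133, 0, 0, 0, ⟨0, 0⟩, 0⟩, 0, 0⟩ 0 0) (.cut .l 141961 (.void 39 ⟨⟨0, 0, 0, 0, 0, 100000, 0, 0, 0, ⟨0, 0⟩, 0⟩, 0, 0⟩ 0 0) (.cut .l 212942 (.pos 39 .mp ⟨⟨362183684, 0, 0, 0, 0, 205581163, 0, 0, 0, ⟨0, 0⟩, 0⟩, 0, 0⟩ 0 0) (.cut .s 13156352 (.pos 39 .mp ⟨⟨359984437, 0, 0, 0, 0, 193727654, 0, 0, 0, ⟨0, 0⟩, 0⟩, 0, 0⟩ 0 0) (.pos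 39 .mp ⟨⟨364108236, 0, 0, 0, 0, 195993532, 0, 0, 0, ⟨0, 0⟩, 0⟩, 0, 0⟩ 0 0))))) (.cut .l 141961 (.cut .v 16809984 (.cut .s 13156352 (.cut .d (-4096) (.cut .s 13148160 (.pos 49 .mp ⟨⟨360056145, 0, 0, 0, 0, 191968997, 0, 0, 0, ⟨0, 0⟩, 0⟩, 0, 0⟩ 0 0) (.pos 49 .mp ⟨⟨362103735, 0, 0, 0, 0, 193130684, 0, 0, 0, ⟨0, 0⟩, 0⟩, 0, 0⟩ 0 0)) (.cut .v 16793600 (.cut .l 70980 (.cut .d (-2048) (.pos 51 .mp ⟨⟨360094611, 0, 0, 0, 0, 194656459, 0, 0, 0, ⟨0, 0⟩, 0⟩, 0, 0⟩ 0 0) (.cut .v 16785408 (.cut .l 35490 (.cut .d (-1024) (.pos 61 .mp ⟨⟨360114579, 0, 0, 0, 0, 194136490, 0, 0, 0, ⟨0, 0⟩, 0⟩, 0, 0⟩ 0 0) (.cut .v 16781312 (.cut .l 17745 (.cut .d (-512) (.pos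 71 .mp ⟨⟨360124622, 0, 0, 0, 0, 193876383, 0, 0, 0, ⟨0, 0⟩, 0⟩, 0, 0⟩ 0 0) (.cut .l 8872 (.cut .v 16779264 (.cut .s 13148160 (.cut .s 13144064 (.pos 107 .mp ⟨⟨364974633, 0, 0, 0, 0, 176561386, 0, 0, 0, ⟨0, 0⟩, 0⟩, 0, 0⟩ 0 0) (.pos 107 .mp ⟨⟨366028435, 0, 0, 0, 0, 177049764, 0, 0, 0, ⟨0, 0⟩, 0⟩, 0, 0⟩ 0 0)) (.cut .s 13152256 (.pos 107 .mp ⟨⟨367092379, 0, 0, 0, 0, 177530284, 0, 0, 0, ⟨0, 0⟩, 0⟩, 0, 0⟩ 0 0) (.pos 107 .mp ⟨⟨368166562, 0, 0, 0, 0, 178002790, 0, 0, 0, ⟨0, 0⟩, 0⟩, 0, 0⟩ 0 0))) (.pos 108 .mp ⟨⟨477397533, 0, 0, 0, 0, 0, 0, 0, 0, ⟨0, 0⟩, 0⟩, 0, 0⟩ 0 0)) (.pos 71 .mp ⟨⟨364497522, 0, 0, 0, 0, 175444826, 0, 0, 0, ⟨0, 0⟩, 0⟩, 0, 0⟩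 0 0))) (.pos 71 .mp ⟨⟨364599183, 0, 0, 0, 0, 175347273, 0, 0, 0, ⟨0, 0⟩, 0⟩, 0, 0⟩ 0 0)) (.pos 72 .mp ⟨⟨462727951, 0, 0, 0, 0, 0, 0, 0, 0, ⟨0, 0⟩, 0⟩, 0, 0⟩ 0 0))) (.pos 61 .mp ⟨⟨364970957, 0, 0, 0, 0, 174888897, 0, 0, 0, ⟨0, 0⟩, 0⟩, 0, 0⟩ 0 0)) (.pos 62 .mp ⟨⟨462862100, 0, 0, 0, 0, 0, 0, 0, 0, ⟨0, 0⟩, 0⟩, 0, 0⟩ 0 0))) (.pos 51 .mp ⟨⟨365715065, 0, 0, 0, 0, 173971373, 0, 0, 0, ⟨0, 0⟩, 0⟩, 0, 0⟩ 0 0)) (.pos 52 .mp ⟨⟨463128339, 0, 0, 0, 0, 0, 0, 0, 0, ⟨0, 0⟩, 0⟩, 0, 0⟩ 0 0))) (.cut .d (-4096) (.cut .s 13164544 (.pos 49 .mp ⟨⟨364164438, 0, 0, 0, 0, 194317155, 0, 0, 0, ⟨0, 0⟩, 0⟩, 0, 0⟩ 0 0) (.pos 49 .mp ⟨⟨366238338, 0, 0, 0, 0, 195528592,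 0, 0, 0, ⟨0, 0⟩, 0⟩, 0, 0⟩ 0 0)) (.cut .v 16793600 (.cut .l 70980 (.cut .d (-2048) (.pos 51 .mp ⟨⟨364195191, 0, 0, 0, 0, 197074651, 0, 0, 0, ⟨0, 0⟩, 0⟩, 0, 0⟩ 0 0) (.cut .v 16785408 (.cut .l 35490 (.cut .d (-1024) (.pos 61 .mp ⟨⟨364211313, 0, 0, 0, 0, 196555871, 0, 0, 0, ⟨0, 0⟩, 0⟩, 0, 0⟩ 0 0) (.cut .v 16781312 (.cut .l 17745 (.cut .d (-512) (.pos 71 .mp ⟨⟨364219435, 0, 0, 0, 0, 196296356, 0, 0, 0, ⟨0, 0⟩, 0⟩, 0, 0⟩ 0 0) (.cut .s 13164544 (.cut .s 13160448 (.pos 71 .mp ⟨⟨368299908, 0, 0, 0, 0, 180398916, 0, 0, 0, ⟨0, 0⟩, 0⟩, 0, 0⟩ 0 0) (.pos 71 .mp ⟨⟨369380923, 0, 0, 0, 0, 180883664, 0, 0, 0, ⟨0, 0⟩, 0⟩, 0, 0⟩ 0 0)) (.pos 71 .mp ⟨⟨368929438,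 0, 0, 0, 0, 184700511, 0, 0, 0, ⟨0, 0⟩, 0⟩, 0, 0⟩ 0 0))) (.pos 71 .mp ⟨⟨368753104, 0, 0, 0, 0, 177393064, 0, 0, 0, ⟨0, 0⟩, 0⟩, 0, 0⟩ 0 0)) (.pos 72 .mp ⟨⟨467996072, 0, 0, 0, 0, 0, 0, 0, 0, ⟨0, 0⟩, 0⟩, 0, 0⟩ 0 0))) (.pos 61 .mp ⟨⟨369133289, 0, 0, 0, 0, 176922958, 0, 0, 0, ⟨0, 0⟩, 0⟩, 0, 0⟩ 0 0)) (.pos 62 .mp ⟨⟨468131765, 0, 0, 0, 0, 0, 0, 0, 0, ⟨0, 0⟩, 0⟩, 0, 0⟩ 0 0))) (.pos 51 .mp ⟨⟨369894232, 0, 0, 0, 0, 175981955, 0, 0, 0, ⟨0, 0⟩, 0⟩, 0, 0⟩ 0 0)) (.pos 52 .mp ⟨⟨468401057, 0, 0, 0, 0, 0, 0, 0, 0, ⟨0, 0⟩, 0⟩, 0, 0⟩ 0 0)))) (.pos 50 .mp ⟨⟨480738288, 0, 0, 0, 0, 0, 0, 0, 0, ⟨0, 0⟩, 0⟩, 0, 0⟩ 0 0)) (.cut .s 13156352 (.pos 39 .mp ⟨⟨368559792,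 0, 0, 0, 0, 170010094, 0, 0, 0, ⟨0, 0⟩, 0⟩, 0, 0⟩ 0 0) (.pos 39 .mp ⟨⟨372787464, 0, 0, 0, 0, 171947784, 0, 0, 0, ⟨0, 0⟩, 0⟩, 0, 0⟩ 0 0))))) (.pos 40 .mp ⟨⟨475229672, 0, 0, 0, 0, 0, 0, 0, 0, ⟨0, 0⟩, 0⟩, 0, 0⟩ 0 0)) (.cut .v 16842752 (.cut .s 13205504 (.cut .d (-8192) (.cut .d (-12288) (.void 39 ⟨⟨0, 0, 0, 0, 0, 100000, 0, 0, 0, ⟨0, 0⟩, 0⟩, 0, 0⟩ 0 0) (.cut .l 141961 (.void 39 ⟨⟨0, 0, 0, 0, 0, 100000, 0, 0, 0, ⟨0, 0⟩, 0⟩, 0, 0⟩ 0 0) (.cut .s 13189120 (.cut .s 13180928 (.pos 39 .mp ⟨⟨368992396, 0, 0, 0, 0, 195522163, 0, 0, 0, ⟨0, 0⟩, 0⟩, 0, 0⟩ 0 0) (.pos 39 .mp ⟨⟨371186385, 0, 0, 0, 0, 196527031, 0, 0, 0, ⟨0, 0⟩, 0⟩, 0, 0⟩ 0 0)) (.pos 39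 .mp ⟨⟨372515425, 0, 0, 0, 0, 202883625, 0, 0, 0, ⟨0, 0⟩, 0⟩, 0, 0⟩ 0 0)))) (.cut .l 141961 (.cut .v 16809984 (.cut .s 13189120 (.cut .d (-4096) (.pos 49 .mp ⟨⟨368325523, 0, 0, 0, 0, 200625477, 0, 0, 0, ⟨0, 0⟩, 0⟩, 0, 0⟩ 0 0) (.cut .v 16793600 (.cut .l 70980 (.cut .d (-2048) (.pos 51 .mp ⟨⟨368348478, 0, 0, 0, 0, 199593259, 0, 0, 0, ⟨0, 0⟩, 0⟩, 0, 0⟩ 0 0) (.cut .v 16785408 (.cut .l 35490 (.cut .d (-1024) (.pos 61 .mp ⟨⟨368360712, 0, 0, 0, 0, 199075648, 0, 0, 0, ⟨0, 0⟩, 0⟩, 0, 0⟩ 0 0) (.cut .v 16781312 (.cut .s 13180928 (.cut .s 13176832 (.pos 71 .mp ⟨⟨374216187, 0, 0, 0, 0, 179527654, 0, 0, 0, ⟨0, 0⟩, 0⟩, 0, 0⟩ 0 0) (.pos 71 .mp ⟨⟨375364920,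 0, 0, 0, 0, 179933240, 0, 0, 0, ⟨0, 0⟩, 0⟩, 0, 0⟩ 0 0)) (.pos 71 .mp ⟨⟨373529574, 0, 0, 0, 0, 186321916, 0, 0, 0, ⟨0, 0⟩, 0⟩, 0, 0⟩ 0 0)) (.pos 72 .mp ⟨⟨473367591, 0, 0, 0, 0, 0, 0, 0, 0, ⟨0, 0⟩, 0⟩, 0, 0⟩ 0 0))) (.pos 61 .mp ⟨⟨373349218, 0, 0, 0, 0, 178977191, 0, 0, 0, ⟨0, 0⟩, 0⟩, 0, 0⟩ 0 0)) (.pos 62 .mp ⟨⟨473504858, 0, 0, 0, 0, 0, 0, 0, 0, ⟨0, 0⟩, 0⟩, 0, 0⟩ 0 0))) (.pos 51 .mp ⟨⟨374127275, 0, 0, 0, 0, 178012278, 0, 0, 0, ⟨0, 0⟩, 0⟩, 0, 0⟩ 0 0)) (.pos 52 .mp ⟨⟨473777262, 0, 0, 0, 0, 0, 0, 0, 0, ⟨0, 0⟩, 0⟩, 0, 0⟩ 0 0))) (.cut .d (-4096) (.pos 49 .mp ⟨⟨372540098, 0, 0, 0, 0, 203243642, 0, 0, 0, ⟨0, 0⟩, 0⟩, 0, 0⟩ 0 0) (.cut .v 16793600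 (.cut .l 70980 (.cut .d (-2048) (.pos 51 .mp ⟨⟨372555167, 0, 0, 0, 0, 202213764, 0, 0, 0, ⟨0, 0⟩, 0⟩, 0, 0⟩ 0 0) (.cut .v 16785408 (.cut .l 35490 (.cut .d (-1024) (.pos 61 .mp ⟨⟨372563470, 0, 0, 0, 0, 201697301, 0, 0, 0, ⟨0, 0⟩, 0⟩, 0, 0⟩ 0 0) (.cut .s 13197312 (.pos 61 .mp ⟨⟨375829836, 0, 0, 0, 0, 187179917, 0, 0, 0, ⟨0, 0⟩, 0⟩, 0, 0⟩ 0 0) (.pos 61 .mp ⟨⟨377949552, 0, 0, 0, 0, 188402116, 0, 0, 0, ⟨0, 0⟩, 0⟩, 0, 0⟩ 0 0))) (.pos 61 .mp ⟨⟨377619455, 0, 0, 0, 0, 181049716, 0, 0, 0, ⟨0, 0⟩, 0⟩, 0, 0⟩ 0 0)) (.pos 62 .mp ⟨⟨478982703, 0, 0, 0, 0, 0, 0, 0, 0, ⟨0, 0⟩, 0⟩, 0, 0⟩ 0 0))) (.pos 51 .mp ⟨⟨378414911, 0, 0, 0, 0, 180060454, 0, 0, 0,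 ⟨0, 0⟩, 0⟩, 0, 0⟩ 0 0)) (.pos 52 .mp ⟨⟨479258279, 0, 0, 0, 0, 0, 0, 0, 0, ⟨0, 0⟩, 0⟩, 0, 0⟩ 0 0)))) (.pos 50 .mp ⟨⟨491509554, 0, 0, 0, 0, 0, 0, 0, 0, ⟨0, 0⟩, 0⟩, 0, 0⟩ 0 0)) (.cut .s 13189120 (.pos 39 .mp ⟨⟨377069760, 0, 0, 0, 0, 173903999, 0, 0, 0, ⟨0, 0⟩, 0⟩, 0, 0⟩ 0 0) (.pos 39 .mp ⟨⟨381407406, 0, 0, 0, 0, 175876830, 0, 0, 0, ⟨0, 0⟩, 0⟩, 0, 0⟩ 0 0)))) (.cut .d (-8192) (.cut .d (-12288) (.void 39 ⟨⟨0, 0, 0, 0, 0, 100000, 0, 0, 0, ⟨0, 0⟩, 0⟩, 0, 0⟩ 0 0) (.cut .l 141961 (.void 39 ⟨⟨0, 0, 0, 0, 0, 100000, 0, 0, 0, ⟨0, 0⟩, 0⟩, 0, 0⟩ 0 0) (.cut .s 13221888 (.pos 39 .mp ⟨⟨376800229, 0, 0, 0, 0, 205413204, 0, 0, 0, ⟨0, 0⟩, 0⟩, 0, 0⟩ 0 0)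 (.pos 39 .mp ⟨⟨381140137, 0, 0, 0, 0, 208010358, 0, 0, 0, ⟨0, 0⟩, 0⟩, 0, 0⟩ 0 0)))) (.cut .l 141961 (.cut .v 16809984 (.cut .s 13221888 (.cut .d (-4096) (.pos 49 .mp ⟨⟨376808873, 0, 0, 0, 0, 205965250, 0, 0, 0, ⟨0, 0⟩, 0⟩, 0, 0⟩ 0 0) (.cut .v 16793600 (.cut .l 70980 (.cut .d (-2048) (.pos 51 .mp ⟨⟨376815970, 0, 0, 0, 0, 204937671, 0, 0, 0, ⟨0, 0⟩, 0⟩, 0, 0⟩ 0 0) (.cut .s 13213696 (.cut .s 13209600 (.pos 51 .mp ⟨⟨381967493, 0, 0, 0, 0, 185683956, 0, 0, 0, ⟨0, 0⟩, 0⟩, 0, 0⟩ 0 0) (.pos 51 .mp ⟨⟨383159528, 0, 0, 0, 0, 186100334, 0, 0, 0, ⟨0, 0⟩, 0⟩, 0, 0⟩ 0 0)) (.pos 51 .mp ⟨⟨383461845, 0, 0, 0, 0, 188762351, 0, 0, 0, ⟨0, 0⟩, 0⟩, 0, 0⟩ 0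 0))) (.pos 51 .mp ⟨⟨382757867, 0, 0, 0, 0, 182124570, 0, 0, 0, ⟨0, 0⟩, 0⟩, 0, 0⟩ 0 0)) (.pos 52 .mp ⟨⟨484845458, 0, 0, 0, 0, 0, 0, 0, 0, ⟨0, 0⟩, 0⟩, 0, 0⟩ 0 0))) (.cut .d (-4096) (.pos 49 .mp ⟨⟨381132573, 0, 0, 0, 0, 208791835, 0, 0, 0, ⟨0, 0⟩, 0⟩, 0, 0⟩ 0 0) (.cut .v 16793600 (.cut .l 70980 (.cut .d (-2048) (.pos 51 .mp ⟨⟨381131608, 0, 0, 0, 0, 207766514, 0, 0, 0, ⟨0, 0⟩, 0⟩, 0, 0⟩ 0 0) (.cut .s 13230080 (.pos 51 .mp ⟨⟨385654090, 0, 0, 0, 0, 189973607, 0, 0, 0, ⟨0, 0⟩, 0⟩, 0, 0⟩ 0 0) (.pos 51 .mp ⟨⟨387801372, 0, 0, 0, 0, 191320701, 0, 0, 0, ⟨0, 0⟩, 0⟩, 0, 0⟩ 0 0))) (.pos 51 .mp ⟨⟨387156886, 0, 0, 0, 0, 184202685, 0, 0, 0, ⟨0, 0⟩, 0⟩,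 0, 0⟩ 0 0)) (.pos 52 .mp ⟨⟨490540171, 0, 0, 0, 0, 0, 0, 0, 0, ⟨0, 0⟩, 0⟩, 0, 0⟩ 0 0)))) (.pos 50 .mp ⟨⟨502532342, 0, 0, 0, 0, 0, 0, 0, 0, ⟨0, 0⟩, 0⟩, 0, 0⟩ 0 0)) (.cut .s 13221888 (.pos 39 .mp ⟨⟨385801141, 0, 0, 0, 0, 177864341, 0, 0, 0, ⟨0, 0⟩, 0⟩, 0, 0⟩ 0 0) (.pos 39 .mp ⟨⟨390251717, 0, 0, 0, 0, 179864574, 0, 0, 0, ⟨0, 0⟩, 0⟩, 0, 0⟩ 0 0))))) (.pos 40 .mp ⟨⟨496674547, 0, 0, 0, 0, 0, 0, 0, 0, ⟨0, 0⟩, 0⟩, 0, 0⟩ 0 0)))) (.pos 38 .mp ⟨⟨483100667, 0, 0, 0, 0, 0, 0, 0, 0, ⟨0, 0⟩, 0⟩, 0, 0⟩ 0 0)))))) (.pos 36 .mp ⟨⟨546581121, 0, 0, 0, 0, 0, 0, 0, 0, ⟨0, 0⟩, 0⟩, 0, 0⟩ 0 0))) (.void 34 ⟨⟨100000, 0, 0, 0, 0, 0, 0, 0, 0, ⟨0, 0⟩, 0⟩, 0, 0⟩ 0 0)))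 (.void 32 ⟨⟨100000, 0, 0, 0, 0, 0, 0, 0, 0, ⟨0, 0⟩, 0⟩, 0, 0⟩ 0 0))) (.void 30 ⟨⟨100000, 0, 0, 0, 0, 0, 0, 0, 0, ⟨0, 0⟩, 0⟩, 0, 0⟩ 0 0))) (.void 28 ⟨⟨100000, 0, 0, 0, 0, 0, 0, 0, 0, ⟨0, 0⟩, 0⟩, 0, 0⟩ 0 0))) (.void 26 ⟨⟨100000, 0, 0, 0, 0, 0, 0, 0, 0, ⟨0, 0⟩, 0⟩, 0, 0⟩ 0 0))) (.void 95 ⟨⟨100000, 0, 0, 0, 0, 0, 0, 0, 0, ⟨0, 0⟩, 0⟩, 0, 0⟩ 0 0)) (.void 106 ⟨⟨100000, 0, 0, 0, 0, 0, 0, 0, 0, ⟨0, 0⟩, 0⟩, 0, 0⟩ 0 0)) (.void 115 ⟨⟨95439, 0, 0, 5333, 0, 0, 0, 0, 0, ⟨0, 0⟩, 0⟩, 0, 0⟩ 0 0))) (.cut .v 16777216 (.cut .v 8388608 (.cut .v 4194304 (.cut .v 2097152 (.cut .v 1048576 (.pos 111 .pm ⟨⟨0, 0, 19657636, 0, 0, 0, 0, 0, 0, ⟨0, 0⟩, 0⟩, 0, 10406⟩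 0 0) (.pos 112 .pm ⟨⟨0, 0, 17355193, 0, 0, 0, 0, 0, 0, ⟨0, 0⟩, 0⟩, 0, 28907⟩ 0 0)) (.pos 7 .pm ⟨⟨0, 0, 17158677, 0, 0, 0, 0, 0, 0, ⟨0, 0⟩, 0⟩, 0, 37166⟩ 0 0)) (.pos 5 .pm ⟨⟨0, 0, 13562497, 0, 0, 0, 0, 0, 0, ⟨0, 0⟩, 0⟩, 0, 0⟩ 0 0)) (.pos 3 .pm ⟨⟨0, 0, 0, 0, 0, 0, 0, 0, 0, ⟨0, 0⟩, 0⟩, 0, 0⟩ 0 0)) (.cut .v 268435456 (.cut .v 67108864 (.cut .d 2457270 (.cut .v 33554432 (.cut .d 1228635 (.cut .v 25165824 (.cut .d 614317 (.cut .d 307158 (.cut .v 20971520 (.cut .d 153579 (.cut .v 18874368 (.cut .v 17825792 (.cut .s 13107200 (.pos 31 .pp ⟨⟨336080352, 0, 0, 0, 0, 0, 0, 0, 0, ⟨0, 0⟩, 0⟩, 9993075, 0⟩ 0 0) (.pos 31 .pp ⟨⟨369648640, 0, 0, 0, 0, 0,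 0, 0, 0, ⟨0, 0⟩, 0⟩, 10555658, 0⟩ 0 0)) (.pos 32 .pp ⟨⟨488946183, 0, 0, 0, 0, 0, 0, 0, 0, ⟨0, 0⟩, 0⟩, 0, 0⟩ 0 0)) (.pos 30 .pp ⟨⟨600103942, 0, 0, 0, 0, 0, 0, 0, 0, ⟨0, 0⟩, 0⟩, 0, 0⟩ 0 0)) (.pos 27 .pp ⟨⟨386020744, 0, 0, 0, 0, 0, 0, 0, 0, ⟨0, 0⟩, 0⟩, 0, 10848⟩ 0 0)) (.cut .d 153579 (.void 28 ⟨⟨0, 0, 0, 0, 0, 0, 0, 0, 0, ⟨0, 0⟩, 0⟩, 100000, 0⟩ 0 0) (.pos 28 .pp ⟨⟨0, 0, 0, 0, 0, 0, 0, 0, 0, ⟨0, 0⟩, 0⟩, 76734385, 0⟩ 0 0))) (.pos 25 .pp ⟨⟨0, 0, 0, 0, 0, 0, 0, 0, 0, ⟨0, 0⟩, 0⟩, 48769218, 49316⟩ 0 0)) (.pos 25 .pp ⟨⟨0, 0, 0, 0, 0, 0, 0, 0, 0, ⟨0, 0⟩, 0⟩, 0, 202951⟩ 0 0)) (.cut .d 614317 (.pos 26 .pp ⟨⟨0, 0, 0, 0, 0, 0, 0, 0, 0, ⟨0, 0⟩, 0⟩,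 114695013, 0⟩ 0 0) (.pos 26 .pp ⟨⟨0, 0, 0, 0, 0, 0, 104427, 0, 0, ⟨0, 0⟩, 0⟩, 54667738, 0⟩ 0 0))) (.pos 24 .pp ⟨⟨0, 0, 0, 0, 0, 0, 0, 0, 0, ⟨0, 0⟩, 0⟩, 0, 225501⟩ 0 0)) (.cut .d 1228635 (.cut .v 50331648 (.pos 96 .pp ⟨⟨0, 0, 0, 0, 0, 0, 0, 0, 0, ⟨0, 0⟩, 0⟩, 170431367, 0⟩ 0 0) (.void 97 ⟨⟨0, 0, 0, 0, 0, 0, 0, 0, 0, ⟨0, 0⟩, 0⟩, 100000, 0⟩ 0 0)) (.pos 95 .pp ⟨⟨0, 0, 0, 0, 0, 0, 3867, 0, 0, ⟨0, 0⟩, 0⟩, 68449640, 0⟩ 0 0))) (.pos 94 .pp ⟨⟨0, 0, 0, 0, 0, 0, 0, 0, 0, ⟨0, 0⟩, 0⟩, 0, 169126⟩ 0 0)) (.void 106 ⟨⟨0, 0, 0, 46797, 0, 0, 0, 0, 0, ⟨0, 0⟩, 0⟩, 53203, 0⟩ 0 0)) (.void 115 ⟨⟨0, 0, 0, 0, 0, 0, 0, 0, 0, ⟨0, 0⟩, 0⟩, 100000, 0⟩ 0 0)))),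
    by decide +kernel⟩

def covers23 : cell.Covers Vale.Agent.P237.Petty.Cor.Grid.N13.table row23.1 :=
  ⟨(.cut .d 0 (.cut .v 16777216 (.cut .v 8388608 (.pos 2 .mm ⟨⟨0, 0, 583146537, 0, 0, 1113701790, 0, 0, 0, ⟨0, 0⟩, 0⟩, 0, 0⟩ 0 0) (.cut .d (-8388608) (.void 3 ⟨⟨100000, 0, 0, 0, 0, 0, 0, 0, 0, ⟨0, 0⟩, 0⟩, 0, 0⟩ 0 0) (.cut .d (-4194304) (.void 3 ⟨⟨100000, 0, 0, 0, 0, 0, 0, 0, 0, ⟨0, 0⟩, 0⟩, 0, 0⟩ 0 0) (.cut .d (-2097152) (.void 3 ⟨⟨100000, 0, 0, 0, 0, 0, 0, 0, 0, ⟨0, 0⟩, 0⟩, 0, 0⟩ 0 0) (.cut .d (-1048576) (.void 3 ⟨⟨0, 0, 0, 0, 0, 100000, 0, 0, 0, ⟨0, 0⟩, 0⟩, 0, 0⟩ 0 0) (.cut .d (-524288) (.void 3 ⟨⟨0, 0, 0, 0, 0, 100000, 0, 0, 0, ⟨0,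 0⟩, 0⟩, 0, 0⟩ 0 0) (.cut .d (-262144) (.void 3 ⟨⟨0, 0, 0, 0, 0, 100000, 0, 0, 0, ⟨0, 0⟩, 0⟩, 0, 0⟩ 0 0) (.cut .s 13369344 (.pos 3 .mm ⟨⟨0, 0, 0, 0, 0, 922581132, 0, 0, 0, ⟨0, 0⟩, 0⟩, 0, 0⟩ 0 0) (.pos 3 .mm ⟨⟨0, 0, 0, 0, 0, 1022693790, 0, 0, 0, ⟨0, 0⟩, 0⟩, 0, 0⟩ 0 0))))))))) (.cut .v 268435456 (.cut .v 67108864 (.cut .v 33554432 (.cut .d (-8388608) (.void 24 ⟨⟨99982, 0, 0, 0, 0, 0, 0, 0, 0, ⟨0, 0⟩, 0⟩, 0, 0⟩ 0 0) (.cut .v 25165824 (.cut .d (-4194304) (.void 25 ⟨⟨100000, 0, 0, 0, 0, 0, 0, 0, 0, ⟨0, 0⟩, 0⟩, 0, 0⟩ 0 0) (.cut .v 20971520 (.cut .d (-2097152) (.void 27 ⟨⟨100000, 0, 0, 0, 0, 0, 0, 0, 0, ⟨0, 0⟩, 0⟩, 0, 0⟩ 0 0) (.cut .v 18874368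 (.cut .d (-1048576) (.void 29 ⟨⟨100000, 0, 0, 0, 0, 0, 0, 0, 0, ⟨0, 0⟩, 0⟩, 0, 0⟩ 0 0) (.cut .v 17825792 (.cut .d (-524288) (.void 31 ⟨⟨100000, 0, 0, 0, 0, 0, 0, 0, 0, ⟨0, 0⟩, 0⟩, 0, 0⟩ 0 0) (.cut .v 17301504 (.cut .d (-262144) (.void 33 ⟨⟨100000, 0, 0, 0, 0, 0, 0, 0, 0, ⟨0, 0⟩, 0⟩, 0, 0⟩ 0 0) (.cut .v 17039360 (.cut .d (-131072) (.void 35 ⟨⟨100000, 0, 0, 0, 0, 0, 0, 0, 0, ⟨0, 0⟩, 0⟩, 0, 0⟩ 0 0) (.cut .d (-65536) (.void 35 ⟨⟨100000, 0, 0, 0, 0, 0, 0, 0, 0, ⟨0, 0⟩, 0⟩, 0, 0⟩ 0 0) (.cut .d (-32768) (.void 35 ⟨⟨100000, 0, 0, 0, 0, 0, 0, 0, 0, ⟨0, 0⟩, 0⟩, 0, 0⟩ 0 0) (.cut .d (-16384) (.void 35 ⟨⟨0, 0, 0, 0, 0, 100000, 0, 0, 0, ⟨0, 0⟩, 0⟩,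 0, 0⟩ 0 0) (.cut .v 16908288 (.cut .s 13369344 (.cut .s 13303808 (.cut .v 16842752 (.cut .d (-8192) (.cut .d (-12288) (.void 39 ⟨⟨0, 0, 0, 0, 0, 100000, 0, 0, 0, ⟨0, 0⟩, 0⟩, 0, 0⟩ 0 0) (.cut .l 141961 (.void 39 ⟨⟨0, 0, 0, 0, 0, 100000, 0, 0, 0, ⟨0, 0⟩, 0⟩, 0, 0⟩ 0 0) (.cut .s 13271040 (.cut .s 13254656 (.pos 39 .mp ⟨⟨386535463, 0, 0, 0, 0, 209021194, 0, 0, 0, ⟨0, 0⟩, 0⟩, 0, 0⟩ 0 0) (.pos 39 .mp ⟨⟨390581661, 0, 0, 0, 0, 212121455, 0, 0, 0, ⟨0, 0⟩, 0⟩, 0, 0⟩ 0 0)) (.cut .s 13287424 (.pos 39 .mp ⟨⟨394742836, 0, 0, 0, 0, 215189925, 0, 0, 0, ⟨0, 0⟩, 0⟩, 0, 0⟩ 0 0) (.pos 39 .mp ⟨⟨399107449, 0, 0, 0, 0, 218026419, 0, 0, 0, ⟨0, 0⟩, 0⟩, 0, 0⟩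 0 0))))) (.cut .s 13271040 (.cut .s 13254656 (.cut .v 16809984 (.cut .l 141961 (.cut .d (-4096) (.pos 49 .mp ⟨⟨385514200, 0, 0, 0, 0, 211711216, 0, 0, 0, ⟨0, 0⟩, 0⟩, 0, 0⟩ 0 0) (.cut .v 16793600 (.cut .l 70980 (.cut .d (-2048) (.pos 51 .mp ⟨⟨385504996, 0, 0, 0, 0, 210688282, 0, 0, 0, ⟨0, 0⟩, 0⟩, 0, 0⟩ 0 0) (.cut .s 13246464 (.pos 51 .mp ⟨⟨389880422, 0, 0, 0, 0, 192855534, 0, 0, 0, ⟨0, 0⟩, 0⟩, 0, 0⟩ 0 0) (.pos 51 .mp ⟨⟨392300138, 0, 0, 0, 0, 193439166, 0, 0, 0, ⟨0, 0⟩, 0⟩, 0, 0⟩ 0 0))) (.pos 51 .mp ⟨⟨391618027, 0, 0, 0, 0, 187071349, 0, 0, 0, ⟨0, 0⟩, 0⟩, 0, 0⟩ 0 0)) (.pos 52 .mp ⟨⟨496338771, 0, 0, 0, 0, 0, 0, 0, 0, ⟨0, 0⟩, 0⟩, 0, 0⟩ 0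 0))) (.pos 49 .mp ⟨⟨393322907, 0, 0, 0, 0, 184932156, 0, 0, 0, ⟨0, 0⟩, 0⟩, 0, 0⟩ 0 0)) (.pos 50 .mp ⟨⟨496908481, 0, 0, 0, 0, 0, 0, 0, 0, ⟨0, 0⟩, 0⟩, 0, 0⟩ 0 0)) (.cut .v 16809984 (.cut .l 141961 (.cut .d (-4096) (.pos 49 .mp ⟨⟨389955350, 0, 0, 0, 0, 213743643, 0, 0, 0, ⟨0, 0⟩, 0⟩, 0, 0⟩ 0 0) (.cut .v 16793600 (.cut .l 70980 (.cut .d (-2048) (.pos 51 .mp ⟨⟨389935584, 0, 0, 0, 0, 212728222, 0, 0, 0, ⟨0, 0⟩, 0⟩, 0, 0⟩ 0 0) (.cut .s 13262848 (.pos 51 .mp ⟨⟨394569517, 0, 0, 0, 0, 194380102, 0, 0, 0, ⟨0, 0⟩, 0⟩, 0, 0⟩ 0 0) (.pos 51 .mp ⟨⟨396835497, 0, 0, 0, 0, 195381250, 0, 0, 0, ⟨0, 0⟩, 0⟩, 0, 0⟩ 0 0))) (.pos 51 .mp ⟨⟨396137512, 0, 0, 0,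 0, 189196975, 0, 0, 0, ⟨0, 0⟩, 0⟩, 0, 0⟩ 0 0)) (.pos 52 .mp ⟨⟨501725736, 0, 0, 0, 0, 0, 0, 0, 0, ⟨0, 0⟩, 0⟩, 0, 0⟩ 0 0))) (.pos 49 .mp ⟨⟨397882054, 0, 0, 0, 0, 187001492, 0, 0, 0, ⟨0, 0⟩, 0⟩, 0, 0⟩ 0 0)) (.pos 50 .mp ⟨⟨502301689, 0, 0, 0, 0, 0, 0, 0, 0, ⟨0, 0⟩, 0⟩, 0, 0⟩ 0 0))) (.cut .s 13287424 (.cut .v 16809984 (.cut .l 141961 (.cut .d (-4096) (.pos 49 .mp ⟨⟨394456629, 0, 0, 0, 0, 215894600, 0, 0, 0, ⟨0, 0⟩, 0⟩, 0, 0⟩ 0 0) (.cut .v 16793600 (.cut .l 70980 (.cut .d (-2048) (.pos 51 .mp ⟨⟨394426164, 0, 0, 0, 0, 214886728, 0, 0, 0, ⟨0, 0⟩, 0⟩, 0, 0⟩ 0 0) (.cut .v 16785408 (.cut .l 35490 (.cut .d (-1024) (.pos 61 .mp ⟨⟨394411759, 0, 0,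 0, 0, 214381154, 0, 0, 0, ⟨0, 0⟩, 0⟩, 0, 0⟩ 0 0) (.cut .s 13279232 (.pos 61 .mp ⟨⟨397800950, 0, 0, 0, 0, 198695370, 0, 0, 0, ⟨0, 0⟩, 0⟩, 0, 0⟩ 0 0) (.pos 61 .mp ⟨⟨400175443, 0, 0, 0, 0, 199581846, 0, 0, 0, ⟨0, 0⟩, 0⟩, 0, 0⟩ 0 0))) (.pos 61 .mp ⟨⟨399827813, 0, 0, 0, 0, 192495642, 0, 0, 0, ⟨0, 0⟩, 0⟩, 0, 0⟩ 0 0)) (.pos 62 .mp ⟨⟨437859950, 0, 0, 0, 0, 131000393, 0, 0, 0, ⟨0, 0⟩, 0⟩, 0, 0⟩ 0 0))) (.pos 51 .mp ⟨⟨392715582, 0, 0, 0, 0, 206546976, 0, 0, 0, ⟨0, 0⟩, 0⟩, 0, 0⟩ 0 0)) (.pos 52 .mp ⟨⟨436955272, 0, 0, 0, 0, 133258225, 0, 0, 0, ⟨0, 0⟩, 0⟩, 0, 0⟩ 0 0))) (.pos 49 .mp ⟨⟨391034265, 0, 0, 0, 0, 210865118, 0, 0, 0, ⟨0, 0⟩, 0⟩, 0, 0⟩ 0 0))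 (.pos 50 .mp ⟨⟨507815472, 0, 0, 0, 0, 0, 0, 0, 0, ⟨0, 0⟩, 0⟩, 0, 0⟩ 0 0)) (.cut .v 16809984 (.cut .l 141961 (.cut .d (-4096) (.pos 49 .mp ⟨⟨399018855, 0, 0, 0, 0, 218165893, 0, 0, 0, ⟨0, 0⟩, 0⟩, 0, 0⟩ 0 0) (.cut .v 16793600 (.cut .l 70980 (.cut .d (-2048) (.pos 51 .mp ⟨⟨398977552, 0, 0, 0, 0, 217165604, 0, 0, 0, ⟨0, 0⟩, 0⟩, 0, 0⟩ 0 0) (.cut .v 16785408 (.cut .l 35490 (.cut .d (-1024) (.pos 61 .mp ⟨⟨398957740, 0, 0, 0, 0, 216663797, 0, 0, 0, ⟨0, 0⟩, 0⟩, 0, 0⟩ 0 0) (.cut .s 13295616 (.pos 61 .mp ⟨⟨402478246, 0, 0, 0, 0, 200667431, 0, 0, 0, ⟨0, 0⟩, 0⟩, 0, 0⟩ 0 0) (.cut .s 13299712 (.pos 61 .mp ⟨⟨406115878, 0, 0, 0, 0, 198686939, 0, 0, 0,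 ⟨0, 0⟩, 0⟩, 0, 0⟩ 0 0) (.pos 61 .mp ⟨⟨407213374, 0, 0, 0, 0, 199358151, 0, 0, 0, ⟨0, 0⟩, 0⟩, 0, 0⟩ 0 0)))) (.pos 61 .mp ⟨⟨398087863, 0, 0, 0, 0, 206813860, 0, 0, 0, ⟨0, 0⟩, 0⟩, 0, 0⟩ 0 0)) (.pos 62 .mp ⟨⟨442109714, 0, 0, 0, 0, 133746844, 0, 0, 0, ⟨0, 0⟩, 0⟩, 0, 0⟩ 0 0))) (.pos 51 .mp ⟨⟨397237493, 0, 0, 0, 0, 209001124, 0, 0, 0, ⟨0, 0⟩, 0⟩, 0, 0⟩ 0 0)) (.pos 52 .mp ⟨⟨441189727, 0, 0, 0, 0, 136042029, 0, 0, 0, ⟨0, 0⟩, 0⟩, 0, 0⟩ 0 0))) (.pos 49 .mp ⟨⟨395537514, 0, 0, 0, 0, 213375077, 0, 0, 0, ⟨0, 0⟩, 0⟩, 0, 0⟩ 0 0)) (.pos 50 .mp ⟨⟨439337690, 0, 0, 0, 0, 140652136, 0, 0, 0, ⟨0, 0⟩, 0⟩, 0, 0⟩ 0 0))))) (.pos 40 .mp ⟨⟨521137844, 0, 0, 0, 0,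 0, 0, 0, 0, ⟨0, 0⟩, 0⟩, 0, 0⟩ 0 0)) (.cut .v 16842752 (.cut .d (-8192) (.cut .d (-12288) (.void 39 ⟨⟨0, 0, 0, 0, 0, 100000, 0, 0, 0, ⟨0, 0⟩, 0⟩, 0, 0⟩ 0 0) (.cut .l 141961 (.void 39 ⟨⟨0, 0, 0, 0, 0, 100000, 0, 0, 0, ⟨0, 0⟩, 0⟩, 0, 0⟩ 0 0) (.cut .s 13336576 (.cut .v 16809984 (.pos 49 .mp ⟨⟨0, 0, 0, 0, 0, 986609970, 0, 0, 0, ⟨0, 0⟩, 0⟩, 0, 0⟩ 0 0) (.cut .s 13320192 (.pos 50 .mp ⟨⟨418576891, 0, 0, 0, 0, 190819770, 0, 0, 0, ⟨0, 0⟩, 0⟩, 0, 0⟩ 0 0) (.pos 50 .mp ⟨⟨423486329, 0, 0, 0, 0, 192921393, 0, 0, 0, ⟨0, 0⟩, 0⟩, 0, 0⟩ 0 0))) (.cut .l 212942 (.pos 39 .mp ⟨⟨418058645, 0, 0, 0, 0, 232928354, 0, 0, 0, ⟨0, 0⟩, 0⟩, 0, 0⟩ 0 0) (.cut .s 13352960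 (.pos 39 .mp ⟨⟨413235216, 0, 0, 0, 0, 223757712, 0, 0, 0, ⟨0, 0⟩, 0⟩, 0, 0⟩ 0 0) (.pos 39 .mp ⟨⟨418072629, 0, 0, 0, 0, 226414140, 0, 0, 0, ⟨0, 0⟩, 0⟩, 0, 0⟩ 0 0)))))) (.cut .s 13336576 (.cut .s 13320192 (.cut .v 16809984 (.cut .l 141961 (.cut .d (-4096) (.pos 49 .mp ⟨⟨403642858, 0, 0, 0, 0, 220559359, 0, 0, 0, ⟨0, 0⟩, 0⟩, 0, 0⟩ 0 0) (.cut .v 16793600 (.cut .l 70980 (.cut .d (-2048) (.pos 51 .mp ⟨⟨403590577, 0, 0, 0, 0, 219566689, 0, 0, 0, ⟨0, 0⟩, 0⟩, 0, 0⟩ 0 0) (.cut .v 16785408 (.cut .l 35490 (.cut .d (-1024) (.pos 61 .mp ⟨⟨403565288, 0, 0, 0, 0, 219068667, 0, 0, 0, ⟨0, 0⟩, 0⟩, 0, 0⟩ 0 0) (.cut .v 16781312 (.cut .l 17745 (.cut .d (-512)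 (.pos 71 .mp ⟨⟨403552716, 0, 0, 0, 0, 218819509, 0, 0, 0, ⟨0, 0⟩, 0⟩, 0, 0⟩ 0 0) (.cut .s 13312000 (.pos 71 .mp ⟨⟨406497504, 0, 0, 0, 0, 203997054, 0, 0, 0, ⟨0, 0⟩, 0⟩, 0, 0⟩ 0 0) (.cut .s 13316096 (.pos 71 .mp ⟨⟨410526675, 0, 0, 0, 0, 201415274, 0, 0, 0, ⟨0, 0⟩, 0⟩, 0, 0⟩ 0 0) (.pos 71 .mp ⟨⟨411661509, 0, 0, 0, 0, 202072888, 0, 0, 0, ⟨0, 0⟩, 0⟩, 0, 0⟩ 0 0)))) (.pos 71 .mp ⟨⟨403110300, 0, 0, 0, 0, 208180501, 0, 0, 0, ⟨0, 0⟩, 0⟩, 0, 0⟩ 0 0)) (.pos 72 .mp ⟨⟨447115477, 0, 0, 0, 0, 135016988, 0, 0, 0, ⟨0, 0⟩, 0⟩, 0, 0⟩ 0 0))) (.pos 61 .mp ⟨⟨402680377, 0, 0, 0, 0, 209288225, 0, 0, 0, ⟨0, 0⟩, 0⟩, 0, 0⟩ 0 0)) (.pos 62 .mp ⟨⟨446654799, 0, 0,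 0, 0, 136172262, 0, 0, 0, ⟨0, 0⟩, 0⟩, 0, 0⟩ 0 0))) (.pos 51 .mp ⟨⟨401820443, 0, 0, 0, 0, 211503988, 0, 0, 0, ⟨0, 0⟩, 0⟩, 0, 0⟩ 0 0)) (.pos 52 .mp ⟨⟨445719369, 0, 0, 0, 0, 138505289, 0, 0, 0, ⟨0, 0⟩, 0⟩, 0, 0⟩ 0 0))) (.pos 49 .mp ⟨⟨400101346, 0, 0, 0, 0, 215934938, 0, 0, 0, ⟨0, 0⟩, 0⟩, 0, 0⟩ 0 0)) (.pos 50 .mp ⟨⟨443836253, 0, 0, 0, 0, 143191419, 0, 0, 0, ⟨0, 0⟩, 0⟩, 0, 0⟩ 0 0)) (.cut .v 16809984 (.cut .l 141961 (.cut .d (-4096) (.pos 49 .mp ⟨⟨408329487, 0, 0, 0, 0, 223076872, 0, 0, 0, ⟨0, 0⟩, 0⟩, 0, 0⟩ 0 0) (.cut .v 16793600 (.cut .l 70980 (.cut .d (-2048) (.pos 51 .mp ⟨⟨408266084, 0, 0, 0, 0, 222091856, 0, 0, 0, ⟨0, 0⟩, 0⟩, 0, 0⟩ 0 0)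 (.cut .v 16785408 (.cut .l 35490 (.cut .d (-1024) (.pos 61 .mp ⟨⟨408235247, 0, 0, 0, 0, 221597637, 0, 0, 0, ⟨0, 0⟩, 0⟩, 0, 0⟩ 0 0) (.cut .l 17745 (.cut .d (-512) (.pos 61 .mp ⟨⟨413769790, 0, 0, 0, 0, 208450085, 0, 0, 0, ⟨0, 0⟩, 0⟩, 0, 0⟩ 0 0) (.cut .v 16781312 (.cut .l 8872 (.cut .v 16779264 (.cut .s 13328384 (.cut .s 13324288 (.pos 107 .mp ⟨⟨413836863, 0, 0, 0, 0, 200611285, 0, 0, 0, ⟨0, 0⟩, 0⟩, 0, 0⟩ 0 0) (.pos 107 .mp ⟨⟨414981903, 0, 0, 0, 0, 201279181, 0, 0, 0, ⟨0, 0⟩, 0⟩, 0, 0⟩ 0 0)) (.cut .s 13332480 (.pos 107 .mp ⟨⟨416138563, 0, 0, 0, 0, 201939224, 0, 0, 0, ⟨0, 0⟩, 0⟩, 0, 0⟩ 0 0) (.pos 107 .mp ⟨⟨417306966, 0, 0, 0, 0, 202591207,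 0, 0, 0, ⟨0, 0⟩, 0⟩, 0, 0⟩ 0 0))) (.pos 108 .mp ⟨⟨540266888, 0, 0, 0, 0, 0, 0, 0, 0, ⟨0, 0⟩, 0⟩, 0, 0⟩ 0 0)) (.pos 71 .mp ⟨⟨413265136, 0, 0, 0, 0, 200141490, 0, 0, 0, ⟨0, 0⟩, 0⟩, 0, 0⟩ 0 0)) (.pos 72 .mp ⟨⟨524634191, 0, 0, 0, 0, 0, 0, 0, 0, ⟨0, 0⟩, 0⟩, 0, 0⟩ 0 0))) (.pos 61 .mp ⟨⟨413598090, 0, 0, 0, 0, 199687309, 0, 0, 0, ⟨0, 0⟩, 0⟩, 0, 0⟩ 0 0))) (.pos 61 .mp ⟨⟨407334999, 0, 0, 0, 0, 211808423, 0, 0, 0, ⟨0, 0⟩, 0⟩, 0, 0⟩ 0 0)) (.pos 62 .mp ⟨⟨451509377, 0, 0, 0, 0, 138251810, 0, 0, 0, ⟨0, 0⟩, 0⟩, 0, 0⟩ 0 0))) (.pos 51 .mp ⟨⟨406465271, 0, 0, 0, 0, 214053283, 0, 0, 0, ⟨0, 0⟩, 0⟩, 0, 0⟩ 0 0)) (.pos 52 .mp ⟨⟨450558382, 0, 0, 0, 0, 140623152,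 0, 0, 0, ⟨0, 0⟩, 0⟩, 0, 0⟩ 0 0))) (.pos 49 .mp ⟨⟨404726591, 0, 0, 0, 0, 218542425, 0, 0, 0, ⟨0, 0⟩, 0⟩, 0, 0⟩ 0 0)) (.pos 50 .mp ⟨⟨448643933, 0, 0, 0, 0, 145386263, 0, 0, 0, ⟨0, 0⟩, 0⟩, 0, 0⟩ 0 0))) (.cut .s 13352960 (.cut .v 16809984 (.cut .l 141961 (.cut .d (-4096) (.pos 49 .mp ⟨⟨413079604, 0, 0, 0, 0, 225720339, 0, 0, 0, ⟨0, 0⟩, 0⟩, 0, 0⟩ 0 0) (.cut .v 16793600 (.cut .l 70980 (.cut .d (-2048) (.pos 51 .mp ⟨⟨413004935, 0, 0, 0, 0, 224743015, 0, 0, 0, ⟨0, 0⟩, 0⟩, 0, 0⟩ 0 0) (.cut .v 16785408 (.cut .l 35490 (.cut .d (-1024) (.pos 61 .mp ⟨⟨412968478, 0, 0, 0, 0, 224252616, 0, 0, 0, ⟨0, 0⟩, 0⟩, 0, 0⟩ 0 0) (.cut .l 17745 (.cut .d (-512)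 (.pos 61 .mp ⟨⟨418573687, 0, 0, 0, 0, 210922742, 0, 0, 0, ⟨0, 0⟩, 0⟩, 0, 0⟩ 0 0) (.cut .v 16781312 (.cut .l 8872 (.cut .v 16779264 (.cut .s 13344768 (.cut .s 13340672 (.pos 107 .mp ⟨⟨418487235, 0, 0, 0, 0, 203234925, 0, 0, 0, ⟨0, 0⟩, 0⟩, 0, 0⟩ 0 0) (.pos 107 .mp ⟨⟨419679493, 0, 0, 0, 0, 203870170, 0, 0, 0, ⟨0, 0⟩, 0⟩, 0, 0⟩ 0 0)) (.cut .s 13348864 (.pos 107 .mp ⟨⟨420883866, 0, 0, 0, 0, 204496732, 0, 0, 0, ⟨0, 0⟩, 0⟩, 0, 0⟩ 0 0) (.pos 107 .mp ⟨⟨422100478, 0, 0, 0, 0, 205114402, 0, 0, 0, ⟨0, 0⟩, 0⟩, 0, 0⟩ 0 0))) (.pos 108 .mp ⟨⟨546426993, 0, 0, 0, 0, 0, 0, 0, 0, ⟨0, 0⟩, 0⟩, 0, 0⟩ 0 0)) (.pos 71 .mp ⟨⟨418063296, 0, 0, 0, 0, 202542971, 0,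 0, 0, ⟨0, 0⟩, 0⟩, 0, 0⟩ 0 0)) (.pos 72 .mp ⟨⟨530642369, 0, 0, 0, 0, 0, 0, 0, 0, ⟨0, 0⟩, 0⟩, 0, 0⟩ 0 0))) (.pos 61 .mp ⟨⟨418402718, 0, 0, 0, 0, 202079184, 0, 0, 0, ⟨0, 0⟩, 0⟩, 0, 0⟩ 0 0))) (.pos 61 .mp ⟨⟨412052587, 0, 0, 0, 0, 214372133, 0, 0, 0, ⟨0, 0⟩, 0⟩, 0, 0⟩ 0 0)) (.pos 62 .mp ⟨⟨456687842, 0, 0, 0, 0, 139960190, 0, 0, 0, ⟨0, 0⟩, 0⟩, 0, 0⟩ 0 0))) (.pos 51 .mp ⟨⟨411172830, 0, 0, 0, 0, 216646693, 0, 0, 0, ⟨0, 0⟩, 0⟩, 0, 0⟩ 0 0)) (.pos 52 .mp ⟨⟨455721170, 0, 0, 0, 0, 142370303, 0, 0, 0, ⟨0, 0⟩, 0⟩, 0, 0⟩ 0 0))) (.cut .s 13344768 (.pos 49 .mp ⟨⟨409414098, 0, 0, 0, 0, 219450946, 0, 0, 0, ⟨0, 0⟩, 0⟩, 0, 0⟩ 0 0) (.pos 49 .mp ⟨⟨411781469,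 0, 0, 0, 0, 220784632, 0, 0, 0, ⟨0, 0⟩, 0⟩, 0, 0⟩ 0 0))) (.pos 50 .mp ⟨⟨453775156, 0, 0, 0, 0, 147211324, 0, 0, 0, ⟨0, 0⟩, 0⟩, 0, 0⟩ 0 0)) (.cut .v 16809984 (.cut .l 141961 (.cut .d (-4096) (.pos 49 .mp ⟨⟨417894092, 0, 0, 0, 0, 228491705, 0, 0, 0, ⟨0, 0⟩, 0⟩, 0, 0⟩ 0 0) (.cut .v 16793600 (.cut .l 70980 (.cut .d (-2048) (.pos 51 .mp ⟨⟨417808009, 0, 0, 0, 0, 227522109, 0, 0, 0, ⟨0, 0⟩, 0⟩, 0, 0⟩ 0 0) (.cut .v 16785408 (.cut .l 35490 (.cut .d (-1024) (.pos 61 .mp ⟨⟨417765859, 0, 0, 0, 0, 227035548, 0, 0, 0, ⟨0, 0⟩, 0⟩, 0, 0⟩ 0 0) (.cut .l 17745 (.cut .d (-512) (.pos 61 .mp ⟨⟨423442767, 0, 0, 0, 0, 213520515, 0, 0, 0, ⟨0, 0⟩, 0⟩, 0, 0⟩ 0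 0) (.cut .v 16781312 (.cut .l 8872 (.cut .v 16779264 (.cut .s 13361152 (.cut .s 13357056 (.pos 107 .mp ⟨⟨423329456, 0, 0, 0, 0, 205722967, 0, 0, 0, ⟨0, 0⟩, 0⟩, 0, 0⟩ 0 0) (.pos 107 .mp ⟨⟨424570925, 0, 0, 0, 0, 206322215, 0, 0, 0, ⟨0, 0⟩, 0⟩, 0, 0⟩ 0 0)) (.cut .s 13365248 (.pos 107 .mp ⟨⟨425825013, 0, 0, 0, 0, 206911931, 0, 0, 0, ⟨0, 0⟩, 0⟩, 0, 0⟩ 0 0) (.pos 107 .mp ⟨⟨427091848, 0, 0, 0, 0, 207491902, 0, 0, 0, ⟨0, 0⟩, 0⟩, 0, 0⟩ 0 0))) (.pos 108 .mp ⟨⟨552673146, 0, 0, 0, 0, 0, 0, 0, 0, ⟨0, 0⟩, 0⟩, 0, 0⟩ 0 0)) (.pos 71 .mp ⟨⟨422926537, 0, 0, 0, 0, 204983081, 0, 0, 0, ⟨0, 0⟩, 0⟩, 0, 0⟩ 0 0)) (.pos 72 .mp ⟨⟨536779217, 0, 0, 0, 0, 0, 0, 0,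 0, ⟨0, 0⟩, 0⟩, 0, 0⟩ 0 0))) (.pos 61 .mp ⟨⟨423272538, 0, 0, 0, 0, 204509510, 0, 0, 0, ⟨0, 0⟩, 0⟩, 0, 0⟩ 0 0))) (.pos 61 .mp ⟨⟨416834014, 0, 0, 0, 0, 216977002, 0, 0, 0, ⟨0, 0⟩, 0⟩, 0, 0⟩ 0 0)) (.pos 62 .mp ⟨⟨462204817, 0, 0, 0, 0, 141271631, 0, 0, 0, ⟨0, 0⟩, 0⟩, 0, 0⟩ 0 0))) (.pos 51 .mp ⟨⟨415943989, 0, 0, 0, 0, 219281872, 0, 0, 0, ⟨0, 0⟩, 0⟩, 0, 0⟩ 0 0)) (.pos 52 .mp ⟨⟨461222367, 0, 0, 0, 0, 143720954, 0, 0, 0, ⟨0, 0⟩, 0⟩, 0, 0⟩ 0 0))) (.cut .s 13361152 (.pos 49 .mp ⟨⟨414164731, 0, 0, 0, 0, 222128881, 0, 0, 0, ⟨0, 0⟩, 0⟩, 0, 0⟩ 0 0) (.pos 49 .mp ⟨⟨416563993, 0, 0, 0, 0, 223483398, 0, 0, 0, ⟨0, 0⟩, 0⟩, 0, 0⟩ 0 0))) (.pos 50 .mp ⟨⟨459244580,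 0, 0, 0, 0, 148640778, 0, 0, 0, ⟨0, 0⟩, 0⟩, 0, 0⟩ 0 0))))) (.pos 40 .mp ⟨⟨545011812, 0, 0, 0, 0, 0, 0, 0, 0, ⟨0, 0⟩, 0⟩, 0, 0⟩ 0 0))) (.cut .s 13434880 (.cut .v 16842752 (.cut .d (-8192) (.cut .d (-12288) (.void 39 ⟨⟨0, 0, 0, 0, 0, 100000, 0, 0, 0, ⟨0, 0⟩, 0⟩, 0, 0⟩ 0 0) (.cut .l 141961 (.void 39 ⟨⟨0, 0, 0, 0, 0, 100000, 0, 0, 0, ⟨0, 0⟩, 0⟩, 0, 0⟩ 0 0) (.cut .l 212942 (.pos 39 .mp ⟨⟨429142464, 0, 0, 0, 0, 262690680, 0, 0, 0, ⟨0, 0⟩, 0⟩, 0, 0⟩ 0 0) (.cut .v 16809984 (.pos 49 .mp ⟨⟨0, 0, 0, 0, 0, 933003339, 0, 0, 0, ⟨0, 0⟩, 0⟩, 0, 0⟩ 0 0) (.cut .v 16826368 (.cut .s 13402112 (.cut .s 13385728 (.pos 87 .mp ⟨⟨423751246, 0, 0, 0, 0, 225770308,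 0, 0, 0, ⟨0, 0⟩, 0⟩, 0, 0⟩ 0 0) (.pos 87 .mp ⟨⟨428729422, 0, 0, 0, 0, 228534758, 0, 0, 0, ⟨0, 0⟩, 0⟩, 0, 0⟩ 0 0)) (.cut .s 13418496 (.pos 87 .mp ⟨⟨433775137, 0, 0, 0, 0, 231370966, 0, 0, 0, ⟨0, 0⟩, 0⟩, 0, 0⟩ 0 0) (.pos 87 .mp ⟨⟨438889348, 0, 0, 0, 0, 234277794, 0, 0, 0, ⟨0, 0⟩, 0⟩, 0, 0⟩ 0 0))) (.pos 88 .mp ⟨⟨566311479, 0, 0, 0, 0, 0, 0, 0, 0, ⟨0, 0⟩, 0⟩, 0, 0⟩ 0 0)))))) (.cut .s 13402112 (.cut .s 13385728 (.cut .v 16809984 (.cut .l 141961 (.cut .d (-4096) (.pos 49 .mp ⟨⟨422773846, 0, 0, 0, 0, 231392952, 0, 0, 0, ⟨0, 0⟩, 0⟩, 0, 0⟩ 0 0) (.cut .v 16793600 (.cut .l 70980 (.cut .d (-2048) (.pos 51 .mp ⟨⟨422676202, 0, 0, 0, 0, 230431121,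 0, 0, 0, ⟨0, 0⟩, 0⟩, 0, 0⟩ 0 0) (.cut .v 16785408 (.cut .l 35490 (.cut .d (-1024) (.pos 61 .mp ⟨⟨422628285, 0, 0, 0, 0, 229948417, 0, 0, 0, ⟨0, 0⟩, 0⟩, 0, 0⟩ 0 0) (.cut .l 17745 (.cut .d (-512) (.pos 61 .mp ⟨⟨428377946, 0, 0, 0, 0, 216245332, 0, 0, 0, ⟨0, 0⟩, 0⟩, 0, 0⟩ 0 0) (.cut .v 16781312 (.cut .l 8872 (.cut .v 16779264 (.cut .s 13377536 (.cut .s 13373440 (.pos 107 .mp ⟨⟨428371557, 0, 0, 0, 0, 208061909, 0, 0, 0, ⟨0, 0⟩, 0⟩, 0, 0⟩ 0 0) (.pos 107 .mp ⟨⟨429664271, 0, 0, 0, 0, 208621735, 0, 0, 0, ⟨0, 0⟩, 0⟩, 0, 0⟩ 0 0)) (.cut .s 13381632 (.pos 107 .mp ⟨⟨430970118, 0, 0, 0, 0, 209171162, 0, 0, 0, ⟨0, 0⟩, 0⟩, 0, 0⟩ 0 0) (.pos 107 .mp ⟨⟨432289228,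 0, 0, 0, 0, 209709967, 0, 0, 0, ⟨0, 0⟩, 0⟩, 0, 0⟩ 0 0))) (.pos 108 .mp ⟨⟨559004659, 0, 0, 0, 0, 0, 0, 0, 0, ⟨0, 0⟩, 0⟩, 0, 0⟩ 0 0)) (.pos 71 .mp ⟨⟨427855771, 0, 0, 0, 0, 207459394, 0, 0, 0, ⟨0, 0⟩, 0⟩, 0, 0⟩ 0 0)) (.pos 72 .mp ⟨⟨543046473, 0, 0, 0, 0, 0, 0, 0, 0, ⟨0, 0⟩, 0⟩, 0, 0⟩ 0 0))) (.pos 61 .mp ⟨⟨428208466, 0, 0, 0, 0, 206975859, 0, 0, 0, ⟨0, 0⟩, 0⟩, 0, 0⟩ 0 0))) (.pos 61 .mp ⟨⟨421680170, 0, 0, 0, 0, 219620648, 0, 0, 0, ⟨0, 0⟩, 0⟩, 0, 0⟩ 0 0)) (.pos 62 .mp ⟨⟨468075157, 0, 0, 0, 0, 142159876, 0, 0, 0, ⟨0, 0⟩, 0⟩, 0, 0⟩ 0 0))) (.pos 51 .mp ⟨⟨420779636, 0, 0, 0, 0, 221956443, 0, 0, 0, ⟨0, 0⟩, 0⟩, 0, 0⟩ 0 0)) (.pos 52 .mp ⟨⟨467076842,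 0, 0, 0, 0, 144648833, 0, 0, 0, ⟨0, 0⟩, 0⟩, 0, 0⟩ 0 0))) (.pos 49 .mp ⟨⟨418979369, 0, 0, 0, 0, 226627445, 0, 0, 0, ⟨0, 0⟩, 0⟩, 0, 0⟩ 0 0)) (.pos 50 .mp ⟨⟨465067094, 0, 0, 0, 0, 149648322, 0, 0, 0, ⟨0, 0⟩, 0⟩, 0, 0⟩ 0 0)) (.cut .v 16809984 (.cut .l 141961 (.cut .d (-4096) (.pos 49 .mp ⟨⟨427719782, 0, 0, 0, 0, 234426098, 0, 0, 0, ⟨0, 0⟩, 0⟩, 0, 0⟩ 0 0) (.cut .v 16793600 (.cut .l 70980 (.cut .d (-2048) (.pos 51 .mp ⟨⟨427610425, 0, 0, 0, 0, 233472070, 0, 0, 0, ⟨0, 0⟩, 0⟩, 0, 0⟩ 0 0) (.cut .v 16785408 (.cut .l 35490 (.cut .d (-1024) (.pos 61 .mp ⟨⟨427556666, 0, 0, 0, 0, 232993240, 0, 0, 0, ⟨0, 0⟩, 0⟩, 0, 0⟩ 0 0) (.cut .l 17745 (.cut .d (-512)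 (.pos 61 .mp ⟨⟨433380153, 0, 0, 0, 0, 219099159, 0, 0, 0, ⟨0, 0⟩, 0⟩, 0, 0⟩ 0 0) (.cut .v 16781312 (.cut .l 8872 (.cut .v 16779264 (.cut .s 13393920 (.cut .s 13389824 (.pos 107 .mp ⟨⟨433621734, 0, 0, 0, 0, 210237931, 0, 0, 0, ⟨0, 0⟩, 0⟩, 0, 0⟩ 0 0) (.pos 107 .mp ⟨⟨434967765, 0, 0, 0, 0, 210754830, 0, 0, 0, ⟨0, 0⟩, 0⟩, 0, 0⟩ 0 0)) (.pos 107 .mp ⟨⟨432665907, 0, 0, 0, 0, 218977783, 0, 0, 0, ⟨0, 0⟩, 0⟩, 0, 0⟩ 0 0)) (.pos 108 .mp ⟨⟨565420853, 0, 0, 0, 0, 0, 0, 0, 0, ⟨0, 0⟩, 0⟩, 0, 0⟩ 0 0)) (.pos 71 .mp ⟨⟨432851929, 0, 0, 0, 0, 209969452, 0, 0, 0, ⟨0, 0⟩, 0⟩, 0, 0⟩ 0 0)) (.pos 72 .mp ⟨⟨549445910, 0, 0, 0, 0, 0, 0, 0, 0, ⟨0, 0⟩, 0⟩, 0, 0⟩ 0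 0))) (.pos 61 .mp ⟨⟨433211431, 0, 0, 0, 0, 209475769, 0, 0, 0, ⟨0, 0⟩, 0⟩, 0, 0⟩ 0 0))) (.pos 61 .mp ⟨⟨426591962, 0, 0, 0, 0, 222300658, 0, 0, 0, ⟨0, 0⟩, 0⟩, 0, 0⟩ 0 0)) (.pos 62 .mp ⟨⟨474313961, 0, 0, 0, 0, 142598175, 0, 0, 0, ⟨0, 0⟩, 0⟩, 0, 0⟩ 0 0))) (.pos 51 .mp ⟨⟨425680675, 0, 0, 0, 0, 224667998, 0, 0, 0, ⟨0, 0⟩, 0⟩, 0, 0⟩ 0 0)) (.pos 52 .mp ⟨⟨473299704, 0, 0, 0, 0, 145127170, 0, 0, 0, ⟨0, 0⟩, 0⟩, 0, 0⟩ 0 0))) (.pos 49 .mp ⟨⟨423858910, 0, 0, 0, 0, 229402089, 0, 0, 0, ⟨0, 0⟩, 0⟩, 0, 0⟩ 0 0)) (.pos 50 .mp ⟨⟨471257832, 0, 0, 0, 0, 150207152, 0, 0, 0, ⟨0, 0⟩, 0⟩, 0, 0⟩ 0 0))) (.cut .s 13418496 (.cut .v 16809984 (.cut .l 141961 (.cut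 .d (-4096) (.pos 49 .mp ⟨⟨432732833, 0, 0, 0, 0, 237593200, 0, 0, 0, ⟨0, 0⟩, 0⟩, 0, 0⟩ 0 0) (.cut .v 16793600 (.cut .l 70980 (.cut .d (-2048) (.pos 51 .mp ⟨⟨432611610, 0, 0, 0, 0, 236647015, 0, 0, 0, ⟨0, 0⟩, 0⟩, 0, 0⟩ 0 0) (.cut .v 16785408 (.cut .l 35490 (.cut .d (-1024) (.pos 61 .mp ⟨⟨432551932, 0, 0, 0, 0, 236172078, 0, 0, 0, ⟨0, 0⟩, 0⟩, 0, 0⟩ 0 0) (.cut .s 13410304 (.cut .s 13406208 (.pos 61 .mp ⟨⟨437906003, 0, 0, 0, 0, 214683490, 0, 0, 0, ⟨0, 0⟩, 0⟩, 0, 0⟩ 0 0) (.pos 61 .mp ⟨⟨439276152, 0, 0, 0, 0, 215219013, 0, 0, 0, ⟨0, 0⟩, 0⟩, 0, 0⟩ 0 0)) (.pos 61 .mp ⟨⟨438949974, 0, 0, 0, 0, 219639895, 0, 0, 0, ⟨0, 0⟩, 0⟩, 0, 0⟩ 0 0))) (.pos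 61 .mp ⟨⟨431570316, 0, 0, 0, 0, 225014584, 0, 0, 0, ⟨0, 0⟩, 0⟩, 0, 0⟩ 0 0)) (.pos 62 .mp ⟨⟨480936571, 0, 0, 0, 0, 142559267, 0, 0, 0, ⟨0, 0⟩, 0⟩, 0, 0⟩ 0 0))) (.pos 51 .mp ⟨⟨430648028, 0, 0, 0, 0, 227414097, 0, 0, 0, ⟨0, 0⟩, 0⟩, 0, 0⟩ 0 0)) (.pos 52 .mp ⟨⟨479906306, 0, 0, 0, 0, 145128689, 0, 0, 0, ⟨0, 0⟩, 0⟩, 0, 0⟩ 0 0))) (.pos 49 .mp ⟨⟨428804270, 0, 0, 0, 0, 232212531, 0, 0, 0, ⟨0, 0⟩, 0⟩, 0, 0⟩ 0 0)) (.pos 50 .mp ⟨⟨477832170, 0, 0, 0, 0, 150289956, 0, 0, 0, ⟨0, 0⟩, 0⟩, 0, 0⟩ 0 0)) (.cut .v 16809984 (.cut .l 141961 (.cut .d (-4096) (.pos 49 .mp ⟨⟨437813949, 0, 0, 0, 0, 240896358, 0, 0, 0, ⟨0, 0⟩, 0⟩, 0, 0⟩ 0 0) (.cut .v 16793600 (.cut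 .l 70980 (.cut .d (-2048) (.pos 51 .mp ⟨⟨437680705, 0, 0, 0, 0, 239958053, 0, 0, 0, ⟨0, 0⟩, 0⟩, 0, 0⟩ 0 0) (.cut .v 16785408 (.cut .l 35490 (.cut .d (-1024) (.pos 61 .mp ⟨⟨437615031, 0, 0, 0, 0, 239487028, 0, 0, 0, ⟨0, 0⟩, 0⟩, 0, 0⟩ 0 0) (.cut .s 13426688 (.pos 61 .mp ⟨⟨441515235, 0, 0, 0, 0, 221082281, 0, 0, 0, ⟨0, 0⟩, 0⟩, 0, 0⟩ 0 0) (.pos 61 .mp ⟨⟨444013968, 0, 0, 0, 0, 222717424, 0, 0, 0, ⟨0, 0⟩, 0⟩, 0, 0⟩ 0 0))) (.pos 61 .mp ⟨⟨436616174, 0, 0, 0, 0, 227759947, 0, 0, 0, ⟨0, 0⟩, 0⟩, 0, 0⟩ 0 0)) (.pos 62 .mp ⟨⟨487958582, 0, 0, 0, 0, 142015371, 0, 0, 0, ⟨0, 0⟩, 0⟩, 0, 0⟩ 0 0))) (.pos 51 .mp ⟨⟨435682635, 0, 0, 0, 0, 230192267, 0, 0, 0,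 ⟨0, 0⟩, 0⟩, 0, 0⟩ 0 0)) (.pos 52 .mp ⟨⟨486912257, 0, 0, 0, 0, 144625589, 0, 0, 0, ⟨0, 0⟩, 0⟩, 0, 0⟩ 0 0))) (.pos 49 .mp ⟨⟨433816382, 0, 0, 0, 0, 235056311, 0, 0, 0, ⟨0, 0⟩, 0⟩, 0, 0⟩ 0 0)) (.pos 50 .mp ⟨⟨484805741, 0, 0, 0, 0, 149868900, 0, 0, 0, ⟨0, 0⟩, 0⟩, 0, 0⟩ 0 0))))) (.pos 40 .mp ⟨⟨570267710, 0, 0, 0, 0, 0, 0, 0, 0, ⟨0, 0⟩, 0⟩, 0, 0⟩ 0 0)) (.cut .v 16842752 (.cut .d (-8192) (.cut .d (-12288) (.void 39 ⟨⟨0, 0, 0, 0, 0, 100000, 0, 0, 0, ⟨0, 0⟩, 0⟩, 0, 0⟩ 0 0) (.cut .d (-10240) (.pos 39 .mp ⟨⟨445299676, 0, 0, 0, 0, 283034778, 0, 0, 0, ⟨0, 0⟩, 0⟩, 0, 0⟩ 0 0) (.cut .l 141961 (.void 39 ⟨⟨0, 0, 0, 0, 0, 100000, 0, 0, 0, ⟨0, 0⟩, 0⟩, 0,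 0⟩ 0 0) (.cut .s 13467648 (.cut .s 13451264 (.pos 39 .mp ⟨⟨443261846, 0, 0, 0, 0, 243327271, 0, 0, 0, ⟨0, 0⟩, 0⟩, 0, 0⟩ 0 0) (.pos 39 .mp ⟨⟨448506810, 0, 0, 0, 0, 246804524, 0, 0, 0, ⟨0, 0⟩, 0⟩, 0, 0⟩ 0 0)) (.pos 39 .mp ⟨⟨453823133, 0, 0, 0, 0, 258803644, 0, 0, 0, ⟨0, 0⟩, 0⟩, 0, 0⟩ 0 0))))) (.cut .s 13467648 (.cut .s 13451264 (.cut .v 16809984 (.cut .l 141961 (.cut .d (-4096) (.pos 49 .mp ⟨⟨442964100, 0, 0, 0, 0, 244337709, 0, 0, 0, ⟨0, 0⟩, 0⟩, 0, 0⟩ 0 0) (.cut .v 16793600 (.cut .l 70980 (.cut .d (-2048) (.pos 51 .mp ⟨⟨442818677, 0, 0, 0, 0, 243407323, 0, 0, 0, ⟨0, 0⟩, 0⟩, 0, 0⟩ 0 0) (.cut .s 13443072 (.pos 51 .mp ⟨⟨448132739, 0, 0,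 0, 0, 221547946, 0, 0, 0, ⟨0, 0⟩, 0⟩, 0, 0⟩ 0 0) (.pos 51 .mp ⟨⟨450761884, 0, 0, 0, 0, 223035599, 0, 0, 0, ⟨0, 0⟩, 0⟩, 0, 0⟩ 0 0))) (.pos 51 .mp ⟨⟨440785453, 0, 0, 0, 0, 232999999, 0, 0, 0, ⟨0, 0⟩, 0⟩, 0, 0⟩ 0 0)) (.pos 52 .mp ⟨⟨494333423, 0, 0, 0, 0, 143589537, 0, 0, 0, ⟨0, 0⟩, 0⟩, 0, 0⟩ 0 0))) (.pos 49 .mp ⟨⟨438896196, 0, 0, 0, 0, 237930934, 0, 0, 0, ⟨0, 0⟩, 0⟩, 0, 0⟩ 0 0)) (.pos 50 .mp ⟨⟨492194434, 0, 0, 0, 0, 148915614, 0, 0, 0, ⟨0, 0⟩, 0⟩, 0, 0⟩ 0 0)) (.cut .v 16809984 (.cut .l 141961 (.cut .d (-4096) (.pos 49 .mp ⟨⟨448184275, 0, 0, 0, 0, 247919432, 0, 0, 0, ⟨0, 0⟩, 0⟩, 0, 0⟩ 0 0) (.cut .v 16793600 (.cut .l 70980 (.cut .d (-2048)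 (.pos 51 .mp ⟨⟨448026514, 0, 0, 0, 0, 246997007, 0, 0, 0, ⟨0, 0⟩, 0⟩, 0, 0⟩ 0 0) (.cut .s 13459456 (.pos 51 .mp ⟨⟨453408907, 0, 0, 0, 0, 224544851, 0, 0, 0, ⟨0, 0⟩, 0⟩, 0, 0⟩ 0 0) (.pos 51 .mp ⟨⟨455845874, 0, 0, 0, 0, 226540225, 0, 0, 0, ⟨0, 0⟩, 0⟩, 0, 0⟩ 0 0))) (.pos 51 .mp ⟨⟨445957461, 0, 0, 0, 0, 235834751, 0, 0, 0, ⟨0, 0⟩, 0⟩, 0, 0⟩ 0 0)) (.pos 52 .mp ⟨⟨502185939, 0, 0, 0, 0, 141991651, 0, 0, 0, ⟨0, 0⟩, 0⟩, 0, 0⟩ 0 0))) (.pos 49 .mp ⟨⟨444044684, 0, 0, 0, 0, 240833869, 0, 0, 0, ⟨0, 0⟩, 0⟩, 0, 0⟩ 0 0)) (.pos 50 .mp ⟨⟨500014409, 0, 0, 0, 0, 147401180, 0, 0, 0, ⟨0, 0⟩, 0⟩, 0, 0⟩ 0 0))) (.cut .s 13484032 (.cut .v 16809984 (.cut .l 141961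 (.cut .d (-4096) (.pos 49 .mp ⟨⟨453475482, 0, 0, 0, 0, 251643751, 0, 0, 0, ⟨0, 0⟩, 0⟩, 0, 0⟩ 0 0) (.cut .s 13475840 (.cut .s 13471744 (.pos 49 .mp ⟨⟨461556594, 0, 0, 0, 0, 221822024, 0, 0, 0, ⟨0, 0⟩, 0⟩, 0, 0⟩ 0 0) (.pos 49 .mp ⟨⟨463132372, 0, 0, 0, 0, 222213478, 0, 0, 0, ⟨0, 0⟩, 0⟩, 0, 0⟩ 0 0)) (.pos 49 .mp ⟨⟨464447313, 0, 0, 0, 0, 224016323, 0, 0, 0, ⟨0, 0⟩, 0⟩, 0, 0⟩ 0 0))) (.pos 49 .mp ⟨⟨449262834, 0, 0, 0, 0, 243762552, 0, 0, 0, ⟨0, 0⟩, 0⟩, 0, 0⟩ 0 0)) (.pos 50 .mp ⟨⟨508282096, 0, 0, 0, 0, 145296116, 0, 0, 0, ⟨0, 0⟩, 0⟩, 0, 0⟩ 0 0)) (.cut .v 16809984 (.cut .l 141961 (.cut .d (-4096) (.pos 49 .mp ⟨⟨458838751, 0, 0, 0, 0, 255512931,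 0, 0, 0, ⟨0, 0⟩, 0⟩, 0, 0⟩ 0 0) (.cut .s 13492224 (.pos 49 .mp ⟨⟨467190825, 0, 0, 0, 0, 225568581, 0, 0, 0, ⟨0, 0⟩, 0⟩, 0, 0⟩ 0 0) (.pos 49 .mp ⟨⟨469953082, 0, 0, 0, 0, 227141741, 0, 0, 0, ⟨0, 0⟩, 0⟩, 0, 0⟩ 0 0))) (.pos 49 .mp ⟨⟨454551657, 0, 0, 0, 0, 246714379, 0, 0, 0, ⟨0, 0⟩, 0⟩, 0, 0⟩ 0 0)) (.pos 50 .mp ⟨⟨517014209, 0, 0, 0, 0, 142570366, 0, 0, 0, ⟨0, 0⟩, 0⟩, 0, 0⟩ 0 0))))) (.pos 40 .mp ⟨⟨596862258, 0, 0, 0, 0, 0, 0, 0, 0, ⟨0, 0⟩, 0⟩, 0, 0⟩ 0 0)))) (.pos 38 .mp ⟨⟨580884735, 0, 0, 0, 0, 0, 0, 0, 0, ⟨0, 0⟩, 0⟩, 0, 0⟩ 0 0)))))) (.pos 36 .mp ⟨⟨658443266, 0, 0, 0, 0, 0, 0, 0, 0, ⟨0, 0⟩, 0⟩, 0, 0⟩ 0 0))) (.void 34 ⟨⟨100000, 0, 0, 0, 0,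 0, 0, 0, 0, ⟨0, 0⟩, 0⟩, 0, 0⟩ 0 0))) (.void 32 ⟨⟨100000, 0, 0, 0, 0, 0, 0, 0, 0, ⟨0, 0⟩, 0⟩, 0, 0⟩ 0 0))) (.void 30 ⟨⟨100000, 0, 0, 0, 0, 0, 0, 0, 0, ⟨0, 0⟩, 0⟩, 0, 0⟩ 0 0))) (.void 28 ⟨⟨100000, 0, 0, 0, 0, 0, 0, 0, 0, ⟨0, 0⟩, 0⟩, 0, 0⟩ 0 0))) (.void 26 ⟨⟨100000, 0, 0, 0, 0, 0, 0, 0, 0, ⟨0, 0⟩, 0⟩, 0, 0⟩ 0 0))) (.void 95 ⟨⟨100000, 0, 0, 0, 0, 0, 0, 0, 0, ⟨0, 0⟩, 0⟩, 0, 0⟩ 0 0)) (.void 106 ⟨⟨100000, 0, 0, 0, 0, 0, 0, 0, 0, ⟨0, 0⟩, 0⟩, 0, 0⟩ 0 0)) (.void 115 ⟨⟨93338, 0, 0, 5394, 0, 0, 99, 0, 0, ⟨0, 0⟩, 0⟩, 0, 0⟩ 0 0))) (.cut .v 16777216 (.cut .v 8388608 (.cut .v 4194304 (.cut .v 2097152 (.cut .v 1048576 (.pos 111 .pm ⟨⟨0, 0, 19882780,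 0, 0, 0, 0, 0, 0, ⟨0, 0⟩, 0⟩, 0, 7764⟩ 0 0) (.pos 112 .pm ⟨⟨0, 0, 18659154, 0, 0, 0, 0, 0, 0, ⟨0, 0⟩, 0⟩, 0, 14931⟩ 0 0)) (.pos 7 .pm ⟨⟨0, 0, 18988591, 0, 0, 0, 0, 0, 0, ⟨0, 0⟩, 0⟩, 0, 21566⟩ 0 0)) (.pos 5 .pm ⟨⟨0, 0, 17016607, 0, 0, 0, 0, 0, 0, ⟨0, 0⟩, 0⟩, 0, 0⟩ 0 0)) (.pos 3 .pm ⟨⟨0, 0, 0, 0, 0, 0, 0, 0, 0, ⟨0, 0⟩, 0⟩, 0, 0⟩ 0 0)) (.cut .v 268435456 (.cut .v 67108864 (.cut .d 2242500 (.cut .v 33554432 (.cut .d 1121250 (.cut .v 25165824 (.cut .d 560625 (.cut .d 280312 (.cut .v 20971520 (.cut .d 140156 (.cut .v 18874368 (.cut .v 17825792 (.cut .s 13369344 (.pos 31 .pp ⟨⟨407069710, 0, 0, 0, 0, 0, 0, 0, 0, ⟨0, 0⟩, 0⟩, 11239442, 0⟩ 0 0)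 (.pos 31 .pp ⟨⟨450533782, 0, 0, 0, 0, 0, 0, 0, 0, ⟨0, 0⟩, 0⟩, 11648010, 0⟩ 0 0)) (.pos 32 .pp ⟨⟨584387745, 0, 0, 0, 0, 0, 0, 0, 0, ⟨0, 0⟩, 0⟩, 0, 0⟩ 0 0)) (.pos 30 .pp ⟨⟨717153757, 0, 0, 0, 0, 0, 0, 0, 0, ⟨0, 0⟩, 0⟩, 0, 0⟩ 0 0)) (.pos 27 .pp ⟨⟨459992556, 0, 0, 0, 0, 0, 0, 0, 0, ⟨0, 0⟩, 0⟩, 0, 8442⟩ 0 0)) (.cut .d 140156 (.void 28 ⟨⟨0, 0, 0, 0, 0, 0, 0, 0, 0, ⟨0, 0⟩, 0⟩, 100000, 0⟩ 0 0) (.pos 28 .pp ⟨⟨0, 0, 0, 0, 0, 0, 0, 0, 0, ⟨0, 0⟩, 0⟩, 91573050, 0⟩ 0 0))) (.pos 25 .pp ⟨⟨0, 0, 0, 0, 0, 0, 0, 0, 0, ⟨0, 0⟩, 0⟩, 58040483, 38104⟩ 0 0)) (.pos 25 .pp ⟨⟨0, 0, 0, 0, 0, 0, 0, 0, 0, ⟨0, 0⟩, 0⟩, 0, 156004⟩ 0 0)) (.cut .d 560625 (.cut .d 280312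 (.void 26 ⟨⟨0, 0, 0, 0, 0, 0, 0, 0, 0, ⟨0, 0⟩, 0⟩, 100000, 0⟩ 0 0) (.pos 26 .pp ⟨⟨0, 0, 0, 0, 0, 0, 0, 0, 0, ⟨0, 0⟩, 0⟩, 109352447, 0⟩ 0 0)) (.pos 26 .pp ⟨⟨0, 0, 0, 0, 0, 0, 81699, 0, 0, ⟨0, 0⟩, 0⟩, 64900799, 0⟩ 0 0))) (.pos 24 .pp ⟨⟨0, 0, 0, 0, 0, 0, 0, 0, 0, ⟨0, 0⟩, 0⟩, 0, 173338⟩ 0 0)) (.cut .d 1121250 (.cut .v 50331648 (.pos 96 .pp ⟨⟨0, 0, 0, 0, 0, 0, 0, 0, 0, ⟨0, 0⟩, 0⟩, 201831825, 0⟩ 0 0) (.void 97 ⟨⟨0, 0, 0, 0, 0, 0, 0, 0, 0, ⟨0, 0⟩, 0⟩, 100000, 0⟩ 0 0)) (.pos 95 .pp ⟨⟨0, 0, 0, 0, 0, 0, 4374, 0, 0, ⟨0, 0⟩, 0⟩, 81414470, 0⟩ 0 0))) (.pos 94 .pp ⟨⟨0, 0, 0, 0, 0, 0, 0, 0, 0, ⟨0, 0⟩, 0⟩, 0, 130003⟩ 0 0)) (.void 106 ⟨⟨0, 0, 0, 47186,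 0, 0, 0, 0, 0, ⟨0, 0⟩, 0⟩, 52814, 0⟩ 0 0)) (.void 115 ⟨⟨0, 0, 0, 0, 0, 0, 0, 0, 0, ⟨0, 0⟩, 0⟩, 100000, 0⟩ 0 0)))),
    by decide +kernel⟩

def covers24 : cell.Covers Vale.Agent.P237.Petty.Cor.Grid.N13.table row24.1 :=
  ⟨(.cut .d 0 (.cut .v 16777216 (.cut .v 8388608 (.pos 2 .mm ⟨⟨0, 0, 663840964, 0, 0, 1579051418, 0, 0, 0, ⟨0, 0⟩, 0⟩, 0, 0⟩ 0 0) (.cut .d (-8388608) (.void 3 ⟨⟨100000, 0, 0, 0, 0, 0, 0, 0, 0, ⟨0, 0⟩, 0⟩, 0, 0⟩ 0 0) (.cut .d (-4194304) (.void 3 ⟨⟨100000, 0, 0, 0, 0, 0, 0, 0, 0, ⟨0, 0⟩, 0⟩, 0, 0⟩ 0 0) (.cut .d (-2097152) (.void 3 ⟨⟨100000, 0, 0, 0, 0, 0, 0, 0, 0, ⟨0, 0⟩, 0⟩, 0, 0⟩ 0 0) (.cut .d (-1048576) (.void 3 ⟨⟨0, 0,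 0, 0, 0, 100000, 0, 0, 0, ⟨0, 0⟩, 0⟩, 0, 0⟩ 0 0) (.cut .d (-524288) (.void 3 ⟨⟨0, 0, 0, 0, 0, 100000, 0, 0, 0, ⟨0, 0⟩, 0⟩, 0, 0⟩ 0 0) (.cut .d (-262144) (.void 3 ⟨⟨0, 0, 0, 0, 0, 100000, 0, 0, 0, ⟨0, 0⟩, 0⟩, 0, 0⟩ 0 0) (.cut .s 13631488 (.pos 3 .mm ⟨⟨0, 0, 0, 0, 0, 1135829450, 0, 0, 0, ⟨0, 0⟩, 0⟩, 0, 0⟩ 0 0) (.cut .s 13697024 (.pos 3 .mm ⟨⟨0, 0, 0, 0, 0, 1200018563, 0, 0, 0, ⟨0, 0⟩, 0⟩, 0, 0⟩ 0 0) (.pos 3 .mm ⟨⟨0, 0, 0, 0, 0, 1265797002, 0, 0, 0, ⟨0, 0⟩, 0⟩, 0, 0⟩ 0 0)))))))))) (.cut .v 268435456 (.cut .v 67108864 (.cut .v 33554432 (.cut .d (-8388608) (.void 24 ⟨⟨100062, 0, 0, 0, 0, 0, 0, 0, 0, ⟨0, 0⟩, 0⟩, 0, 0⟩ 0 0) (.cut .v 25165824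 (.cut .d (-4194304) (.void 25 ⟨⟨100000, 0, 0, 0, 0, 0, 0, 0, 0, ⟨0, 0⟩, 0⟩, 0, 0⟩ 0 0) (.cut .v 20971520 (.cut .d (-2097152) (.void 27 ⟨⟨100000, 0, 0, 0, 0, 0, 0, 0, 0, ⟨0, 0⟩, 0⟩, 0, 0⟩ 0 0) (.cut .v 18874368 (.cut .d (-1048576) (.void 29 ⟨⟨100000, 0, 0, 0, 0, 0, 0, 0, 0, ⟨0, 0⟩, 0⟩, 0, 0⟩ 0 0) (.cut .v 17825792 (.cut .d (-524288) (.void 31 ⟨⟨100000, 0, 0, 0, 0, 0, 0, 0, 0, ⟨0, 0⟩, 0⟩, 0, 0⟩ 0 0) (.cut .v 17301504 (.cut .d (-262144) (.void 33 ⟨⟨100000, 0, 0, 0, 0, 0, 0, 0, 0, ⟨0, 0⟩, 0⟩, 0, 0⟩ 0 0) (.cut .v 17039360 (.cut .d (-131072) (.void 35 ⟨⟨100000, 0, 0, 0, 0, 0, 0, 0, 0, ⟨0, 0⟩, 0⟩, 0, 0⟩ 0 0) (.cut .d (-65536) (.void 35 ⟨⟨100000,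 0, 0, 0, 0, 0, 0, 0, 0, ⟨0, 0⟩, 0⟩, 0, 0⟩ 0 0) (.cut .d (-32768) (.void 35 ⟨⟨100000, 0, 0, 0, 0, 0, 0, 0, 0, ⟨0, 0⟩, 0⟩, 0, 0⟩ 0 0) (.cut .d (-16384) (.void 35 ⟨⟨100000, 0, 0, 0, 0, 0, 0, 0, 0, ⟨0, 0⟩, 0⟩, 0, 0⟩ 0 0) (.cut .v 16908288 (.cut .s 13631488 (.cut .s 13565952 (.cut .v 16842752 (.cut .d (-8192) (.cut .s 13533184 (.pos 39 .mp ⟨⟨464677610, 0, 0, 0, 0, 272806601, 0, 0, 0, ⟨0, 0⟩, 0⟩, 0, 0⟩ 0 0) (.cut .s 13549568 (.pos 39 .mp ⟨⟨475867295, 0, 0, 0, 0, 265853731, 0, 0, 0, ⟨0, 0⟩, 0⟩, 0, 0⟩ 0 0) (.pos 39 .mp ⟨⟨481583201, 0, 0, 0, 0, 268375115, 0, 0, 0, ⟨0, 0⟩, 0⟩, 0, 0⟩ 0 0))) (.cut .s 13533184 (.cut .v 16809984 (.cut .s 13516800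 (.cut .l 141961 (.cut .d (-4096) (.pos 49 .mp ⟨⟨464278452, 0, 0, 0, 0, 259507211, 0, 0, 0, ⟨0, 0⟩, 0⟩, 0, 0⟩ 0 0) (.cut .s 13508608 (.pos 49 .mp ⟨⟨472503508, 0, 0, 0, 0, 229214408, 0, 0, 0, ⟨0, 0⟩, 0⟩, 0, 0⟩ 0 0) (.pos 49 .mp ⟨⟨475538559, 0, 0, 0, 0, 229799623, 0, 0, 0, ⟨0, 0⟩, 0⟩, 0, 0⟩ 0 0))) (.pos 49 .mp ⟨⟨459915330, 0, 0, 0, 0, 251019421, 0, 0, 0, ⟨0, 0⟩, 0⟩, 0, 0⟩ 0 0)) (.cut .l 141961 (.cut .d (-4096) (.pos 49 .mp ⟨⟨469798567, 0, 0, 0, 0, 261747404, 0, 0, 0, ⟨0, 0⟩, 0⟩, 0, 0⟩ 0 0) (.cut .s 13524992 (.pos 49 .mp ⟨⟨478359933, 0, 0, 0, 0, 230891175, 0, 0, 0, ⟨0, 0⟩, 0⟩, 0, 0⟩ 0 0) (.pos 49 .mp ⟨⟨481201671, 0, 0, 0, 0, 232012044, 0,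 0, 0, ⟨0, 0⟩, 0⟩, 0, 0⟩ 0 0))) (.pos 49 .mp ⟨⟨465358126, 0, 0, 0, 0, 254044567, 0, 0, 0, ⟨0, 0⟩, 0⟩, 0, 0⟩ 0 0))) (.pos 50 .mp ⟨⟨558675630, 0, 0, 0, 0, 87036128, 0, 0, 0, ⟨0, 0⟩, 0⟩, 0, 0⟩ 0 0)) (.cut .s 13549568 (.cut .v 16809984 (.cut .l 141961 (.cut .d (-4096) (.pos 49 .mp ⟨⟨475398095, 0, 0, 0, 0, 264145683, 0, 0, 0, ⟨0, 0⟩, 0⟩, 0, 0⟩ 0 0) (.cut .v 16793600 (.cut .s 13541376 (.pos 51 .mp ⟨⟨478873645, 0, 0, 0, 0, 242997854, 0, 0, 0, ⟨0, 0⟩, 0⟩, 0, 0⟩ 0 0) (.cut .s 13545472 (.pos 51 .mp ⟨⟨488907463, 0, 0, 0, 0, 229569339, 0, 0, 0, ⟨0, 0⟩, 0⟩, 0, 0⟩ 0 0) (.pos 51 .mp ⟨⟨490038301, 0, 0, 0, 0, 230718900, 0, 0, 0, ⟨0, 0⟩, 0⟩, 0, 0⟩ 0 0)))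 (.pos 52 .mp ⟨⟨535934754, 0, 0, 0, 0, 144930342, 0, 0, 0, ⟨0, 0⟩, 0⟩, 0, 0⟩ 0 0))) (.pos 49 .mp ⟨⟨470878652, 0, 0, 0, 0, 257143222, 0, 0, 0, ⟨0, 0⟩, 0⟩, 0, 0⟩ 0 0)) (.pos 50 .mp ⟨⟨533583295, 0, 0, 0, 0, 150791479, 0, 0, 0, ⟨0, 0⟩, 0⟩, 0, 0⟩ 0 0)) (.cut .v 16809984 (.cut .l 141961 (.cut .d (-4096) (.pos 49 .mp ⟨⟨481078206, 0, 0, 0, 0, 266704634, 0, 0, 0, ⟨0, 0⟩, 0⟩, 0, 0⟩ 0 0) (.cut .v 16793600 (.cut .l 70980 (.cut .d (-2048) (.pos 51 .mp ⟨⟨480829572, 0, 0, 0, 0, 265862012, 0, 0, 0, ⟨0, 0⟩, 0⟩, 0, 0⟩ 0 0) (.cut .s 13557760 (.pos 51 .mp ⟨⟨486640376, 0, 0, 0, 0, 241135956, 0, 0, 0, ⟨0, 0⟩, 0⟩, 0, 0⟩ 0 0) (.cut .s 13561856 (.pos 51 .mp ⟨⟨490886072,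 0, 0, 0, 0, 238964426, 0, 0, 0, ⟨0, 0⟩, 0⟩, 0, 0⟩ 0 0) (.pos 51 .mp ⟨⟨492156861, 0, 0, 0, 0, 239929439, 0, 0, 0, ⟨0, 0⟩, 0⟩, 0, 0⟩ 0 0)))) (.pos 51 .mp ⟨⟨478530331, 0, 0, 0, 0, 254894625, 0, 0, 0, ⟨0, 0⟩, 0⟩, 0, 0⟩ 0 0)) (.pos 52 .mp ⟨⟨540309635, 0, 0, 0, 0, 149854497, 0, 0, 0, ⟨0, 0⟩, 0⟩, 0, 0⟩ 0 0))) (.pos 49 .mp ⟨⟨476478053, 0, 0, 0, 0, 260312284, 0, 0, 0, ⟨0, 0⟩, 0⟩, 0, 0⟩ 0 0)) (.pos 50 .mp ⟨⟨537916723, 0, 0, 0, 0, 155816071, 0, 0, 0, ⟨0, 0⟩, 0⟩, 0, 0⟩ 0 0))))) (.pos 40 .mp ⟨⟨628102257, 0, 0, 0, 0, 0, 0, 0, 0, ⟨0, 0⟩, 0⟩, 0, 0⟩ 0 0)) (.cut .v 16842752 (.cut .d (-8192) (.cut .d (-12288) (.void 39 ⟨⟨0, 0, 0, 0, 0, 100000, 0, 0, 0,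 ⟨0, 0⟩, 0⟩, 0, 0⟩ 0 0) (.cut .d (-10240) (.pos 39 .mp ⟨⟨496214540, 0, 0, 0, 0, 299464106, 0, 0, 0, ⟨0, 0⟩, 0⟩, 0, 0⟩ 0 0) (.cut .v 16809984 (.pos 49 .mp ⟨⟨0, 0, 0, 0, 0, 1242715654, 0, 0, 0, ⟨0, 0⟩, 0⟩, 0, 0⟩ 0 0) (.cut .l 141961 (.void 50 ⟨⟨100000, 0, 0, 0, 0, 0, 0, 0, 0, ⟨0, 0⟩, 0⟩, 0, 0⟩ 0 0) (.cut .v 16826368 (.cut .l 212942 (.void 87 ⟨⟨100000, 0, 0, 0, 0, 0, 0, 0, 0, ⟨0, 0⟩, 0⟩, 0, 0⟩ 0 0) (.cut .s 13598720 (.pos 87 .mp ⟨⟨505609300, 0, 0, 0, 0, 235611770, 0, 0, 0, ⟨0, 0⟩, 0⟩, 0, 0⟩ 0 0) (.pos 87 .mp ⟨⟨500138687, 0, 0, 0, 0, 276968552, 0, 0, 0, ⟨0, 0⟩, 0⟩, 0, 0⟩ 0 0))) (.pos 88 .mp ⟨⟨649663160, 0, 0, 0, 0, 0, 0, 0, 0, ⟨0, 0⟩, 0⟩,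 0, 0⟩ 0 0)))))) (.cut .s 13598720 (.cut .s 13582336 (.cut .v 16809984 (.cut .s 13574144 (.cut .d (-4096) (.pos 49 .mp ⟨⟨489027904, 0, 0, 0, 0, 254124649, 0, 0, 0, ⟨0, 0⟩, 0⟩, 0, 0⟩ 0 0) (.cut .s 13570048 (.pos 49 .mp ⟨⟨494118392, 0, 0, 0, 0, 239950898, 0, 0, 0, ⟨0, 0⟩, 0⟩, 0, 0⟩ 0 0) (.pos 49 .mp ⟨⟨495400024, 0, 0, 0, 0, 240922861, 0, 0, 0, ⟨0, 0⟩, 0⟩, 0, 0⟩ 0 0))) (.cut .d (-4096) (.pos 49 .mp ⟨⟨491412491, 0, 0, 0, 0, 256572932, 0, 0, 0, ⟨0, 0⟩, 0⟩, 0, 0⟩ 0 0) (.cut .s 13578240 (.pos 49 .mp ⟨⟨496767935, 0, 0, 0, 0, 241751692, 0, 0, 0, ⟨0, 0⟩, 0⟩, 0, 0⟩ 0 0) (.pos 49 .mp ⟨⟨498384629, 0, 0, 0, 0, 242131645, 0, 0, 0, ⟨0, 0⟩, 0⟩, 0, 0⟩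 0 0)))) (.pos 50 .mp ⟨⟨542642761, 0, 0, 0, 0, 160408751, 0, 0, 0, ⟨0, 0⟩, 0⟩, 0, 0⟩ 0 0)) (.cut .v 16809984 (.cut .s 13590528 (.cut .l 141961 (.cut .d (-4096) (.pos 49 .mp ⟨⟨492684980, 0, 0, 0, 0, 265983349, 0, 0, 0, ⟨0, 0⟩, 0⟩, 0, 0⟩ 0 0) (.cut .s 13586432 (.pos 49 .mp ⟨⟨500179823, 0, 0, 0, 0, 241968369, 0, 0, 0, ⟨0, 0⟩, 0⟩, 0, 0⟩ 0 0) (.pos 49 .mp ⟨⟨501676795, 0, 0, 0, 0, 242644712, 0, 0, 0, ⟨0, 0⟩, 0⟩, 0, 0⟩ 0 0))) (.pos 49 .mp ⟨⟨487918189, 0, 0, 0, 0, 264132951, 0, 0, 0, ⟨0, 0⟩, 0⟩, 0, 0⟩ 0 0)) (.cut .l 141961 (.cut .d (-4096) (.pos 49 .mp ⟨⟨495638934, 0, 0, 0, 0, 267422860, 0, 0, 0, ⟨0, 0⟩, 0⟩, 0, 0⟩ 0 0) (.cut .s 13594624 (.pos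 49 .mp ⟨⟨503179169, 0, 0, 0, 0, 243328295, 0, 0, 0, ⟨0, 0⟩, 0⟩, 0, 0⟩ 0 0) (.pos 49 .mp ⟨⟨504686964, 0, 0, 0, 0, 244019109, 0, 0, 0, ⟨0, 0⟩, 0⟩, 0, 0⟩ 0 0))) (.pos 49 .mp ⟨⟨490829378, 0, 0, 0, 0, 265790461, 0, 0, 0, ⟨0, 0⟩, 0⟩, 0, 0⟩ 0 0))) (.pos 50 .mp ⟨⟨547781583, 0, 0, 0, 0, 164533766, 0, 0, 0, ⟨0, 0⟩, 0⟩, 0, 0⟩ 0 0))) (.cut .s 13615104 (.cut .v 16809984 (.cut .s 13606912 (.cut .l 141961 (.cut .d (-4096) (.pos 49 .mp ⟨⟨498614107, 0, 0, 0, 0, 268904569, 0, 0, 0, ⟨0, 0⟩, 0⟩, 0, 0⟩ 0 0) (.cut .s 13602816 (.pos 49 .mp ⟨⟨506200201, 0, 0, 0, 0, 244717146, 0, 0, 0, ⟨0, 0⟩, 0⟩, 0, 0⟩ 0 0) (.pos 49 .mp ⟨⟨507718901, 0, 0, 0, 0, 245422398, 0,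 0, 0, ⟨0, 0⟩, 0⟩, 0, 0⟩ 0 0))) (.pos 49 .mp ⟨⟨493761336, 0, 0, 0, 0, 267462922, 0, 0, 0, ⟨0, 0⟩, 0⟩, 0, 0⟩ 0 0)) (.cut .l 141961 (.cut .d (-4096) (.pos 49 .mp ⟨⟨501610657, 0, 0, 0, 0, 270428826, 0, 0, 0, ⟨0, 0⟩, 0⟩, 0, 0⟩ 0 0) (.cut .s 13611008 (.pos 49 .mp ⟨⟨509243083, 0, 0, 0, 0, 246134856, 0, 0, 0, ⟨0, 0⟩, 0⟩, 0, 0⟩ 0 0) (.pos 49 .mp ⟨⟨510772769, 0, 0, 0, 0, 246854510, 0, 0, 0, ⟨0, 0⟩, 0⟩, 0, 0⟩ 0 0))) (.pos 49 .mp ⟨⟨496714219, 0, 0, 0, 0, 269149925, 0, 0, 0, ⟨0, 0⟩, 0⟩, 0, 0⟩ 0 0))) (.pos 50 .mp ⟨⟨553353712, 0, 0, 0, 0, 168154643, 0, 0, 0, ⟨0, 0⟩, 0⟩, 0, 0⟩ 0 0)) (.cut .s 13623296 (.cut .l 141961 (.cut .d (-4096) (.pos 39 .mp ⟨⟨507010533,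 0, 0, 0, 0, 271010020, 0, 0, 0, ⟨0, 0⟩, 0⟩, 0, 0⟩ 0 0) (.cut .v 16809984 (.cut .s 13619200 (.pos 49 .mp ⟨⟨512307980, 0, 0, 0, 0, 247581352, 0, 0, 0, ⟨0, 0⟩, 0⟩, 0, 0⟩ 0 0) (.pos 49 .mp ⟨⟨513848735, 0, 0, 0, 0, 248315373, 0, 0, 0, ⟨0, 0⟩, 0⟩, 0, 0⟩ 0 0)) (.pos 50 .mp ⟨⟨645127258, 0, 0, 0, 0, 0, 0, 0, 0, ⟨0, 0⟩, 0⟩, 0, 0⟩ 0 0))) (.pos 39 .mp ⟨⟨514519915, 0, 0, 0, 0, 243148636, 0, 0, 0, ⟨0, 0⟩, 0⟩, 0, 0⟩ 0 0)) (.cut .l 141961 (.cut .d (-4096) (.pos 39 .mp ⟨⟨510050391, 0, 0, 0, 0, 272655253, 0, 0, 0, ⟨0, 0⟩, 0⟩, 0, 0⟩ 0 0) (.cut .v 16809984 (.cut .s 13627392 (.pos 49 .mp ⟨⟨515395057, 0, 0, 0, 0, 249056563, 0, 0, 0, ⟨0, 0⟩, 0⟩, 0, 0⟩ 0 0)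 (.pos 49 .mp ⟨⟨516946967, 0, 0, 0, 0, 249804913, 0, 0, 0, ⟨0, 0⟩, 0⟩, 0, 0⟩ 0 0)) (.pos 50 .mp ⟨⟨648928266, 0, 0, 0, 0, 0, 0, 0, 0, ⟨0, 0⟩, 0⟩, 0, 0⟩ 0 0))) (.pos 39 .mp ⟨⟨517637483, 0, 0, 0, 0, 244629731, 0, 0, 0, ⟨0, 0⟩, 0⟩, 0, 0⟩ 0 0)))))) (.pos 40 .mp ⟨⟨657899143, 0, 0, 0, 0, 0, 0, 0, 0, ⟨0, 0⟩, 0⟩, 0, 0⟩ 0 0))) (.cut .d (-8192) (.cut .v 16842752 (.cut .l 141961 (.void 39 ⟨⟨100000, 0, 0, 0, 0, 0, 0, 0, 0, ⟨0, 0⟩, 0⟩, 0, 0⟩ 0 0) (.cut .d (-12288) (.void 39 ⟨⟨0, 0, 0, 0, 0, 100000, 0, 0, 0, ⟨0, 0⟩, 0⟩, 0, 0⟩ 0 0) (.cut .d (-10240) (.void 39 ⟨⟨0, 0, 0, 0, 0, 100000, 0, 0, 0, ⟨0, 0⟩, 0⟩, 0, 0⟩ 0 0) (.cut .l 212942 (.void 39 ⟨⟨0, 0, 0,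 0, 0, 100000, 0, 0, 0, ⟨0, 0⟩, 0⟩, 0, 0⟩ 0 0) (.cut .v 16809984 (.pos 49 .mp ⟨⟨0, 0, 0, 0, 0, 1266347775, 0, 0, 0, ⟨0, 0⟩, 0⟩, 0, 0⟩ 0 0) (.cut .s 13697024 (.cut .v 16826368 (.cut .s 13664256 (.pos 87 .mp ⟨⟨512352502, 0, 0, 0, 0, 283512693, 0, 0, 0, ⟨0, 0⟩, 0⟩, 0, 0⟩ 0 0) (.pos 87 .mp ⟨⟨524921759, 0, 0, 0, 0, 290505905, 0, 0, 0, ⟨0, 0⟩, 0⟩, 0, 0⟩ 0 0)) (.pos 88 .mp ⟨⟨680507222, 0, 0, 0, 0, 0, 0, 0, 0, ⟨0, 0⟩, 0⟩, 0, 0⟩ 0 0)) (.cut .s 13729792 (.pos 50 .mp ⟨⟨558333953, 0, 0, 0, 0, 256379565, 0, 0, 0, ⟨0, 0⟩, 0⟩, 0, 0⟩ 0 0) (.pos 50 .mp ⟨⟨572251804, 0, 0, 0, 0, 262985944, 0, 0, 0, ⟨0, 0⟩, 0⟩, 0, 0⟩ 0 0)))))))) (.pos 40 .mp ⟨⟨731483789,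 0, 0, 0, 0, 0, 0, 0, 0, ⟨0, 0⟩, 0⟩, 0, 0⟩ 0 0)) (.cut .s 13697024 (.cut .v 16842752 (.cut .s 13664256 (.cut .s 13647872 (.cut .s 13639680 (.cut .l 141961 (.cut .d (-4096) (.pos 39 .mp ⟨⟨513111869, 0, 0, 0, 0, 274345160, 0, 0, 0, ⟨0, 0⟩, 0⟩, 0, 0⟩ 0 0) (.cut .v 16809984 (.cut .s 13635584 (.pos 49 .mp ⟨⟨518504485, 0, 0, 0, 0, 250560412, 0, 0, 0, ⟨0, 0⟩, 0⟩, 0, 0⟩ 0 0) (.pos 49 .mp ⟨⟨520067633, 0, 0, 0, 0, 251323052, 0, 0, 0, ⟨0, 0⟩, 0⟩, 0, 0⟩ 0 0)) (.pos 50 .mp ⟨⟨652772888, 0, 0, 0, 0, 0, 0, 0, 0, ⟨0, 0⟩, 0⟩, 0, 0⟩ 0 0))) (.pos 39 .mp ⟨⟨520777627, 0, 0, 0, 0, 246121837, 0, 0, 0, ⟨0, 0⟩, 0⟩, 0, 0⟩ 0 0)) (.cut .l 141961 (.cut .d (-4096)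 (.pos 39 .mp ⟨⟨516195129, 0, 0, 0, 0, 276080122, 0, 0, 0, ⟨0, 0⟩, 0⟩, 0, 0⟩ 0 0) (.cut .v 16809984 (.cut .s 13643776 (.pos 49 .mp ⟨⟨521636432, 0, 0, 0, 0, 252092822, 0, 0, 0, ⟨0, 0⟩, 0⟩, 0, 0⟩ 0 0) (.pos 49 .mp ⟨⟨523210904, 0, 0, 0, 0, 252869712, 0, 0, 0, ⟨0, 0⟩, 0⟩, 0, 0⟩ 0 0)) (.pos 50 .mp ⟨⟨656661445, 0, 0, 0, 0, 0, 0, 0, 0, ⟨0, 0⟩, 0⟩, 0, 0⟩ 0 0))) (.pos 39 .mp ⟨⟨523940520, 0, 0, 0, 0, 247624512, 0, 0, 0, ⟨0, 0⟩, 0⟩, 0, 0⟩ 0 0))) (.cut .s 13656064 (.cut .l 141961 (.cut .d (-4096) (.pos 39 .mp ⟨⟨519300335, 0, 0, 0, 0, 277860523, 0, 0, 0, ⟨0, 0⟩, 0⟩, 0, 0⟩ 0 0) (.cut .v 16809984 (.cut .s 13651968 (.pos 49 .mp ⟨⟨524791071, 0, 0, 0,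 0, 253653711, 0, 0, 0, ⟨0, 0⟩, 0⟩, 0, 0⟩ 0 0) (.pos 49 .mp ⟨⟨526376955, 0, 0, 0, 0, 254444810, 0, 0, 0, ⟨0, 0⟩, 0⟩, 0, 0⟩ 0 0)) (.pos 50 .mp ⟨⟨660594264, 0, 0, 0, 0, 0, 0, 0, 0, ⟨0, 0⟩, 0⟩, 0, 0⟩ 0 0))) (.pos 39 .mp ⟨⟨527126335, 0, 0, 0, 0, 249137310, 0, 0, 0, ⟨0, 0⟩, 0⟩, 0, 0⟩ 0 0)) (.cut .l 141961 (.cut .d (-4096) (.pos 39 .mp ⟨⟨522427653, 0, 0, 0, 0, 279686750, 0, 0, 0, ⟨0, 0⟩, 0⟩, 0, 0⟩ 0 0) (.cut .v 16809984 (.cut .s 13660160 (.pos 49 .mp ⟨⟨527968577, 0, 0, 0, 0, 255242998, 0, 0, 0, ⟨0, 0⟩, 0⟩, 0, 0⟩ 0 0) (.pos 49 .mp ⟨⟨529565959, 0, 0, 0, 0, 256048263, 0, 0, 0, ⟨0, 0⟩, 0⟩, 0, 0⟩ 0 0)) (.pos 50 .mp ⟨⟨664571673, 0, 0, 0, 0, 0, 0,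 0, 0, ⟨0, 0⟩, 0⟩, 0, 0⟩ 0 0))) (.pos 39 .mp ⟨⟨530335249, 0, 0, 0, 0, 250659779, 0, 0, 0, ⟨0, 0⟩, 0⟩, 0, 0⟩ 0 0)))) (.cut .s 13680640 (.cut .s 13672448 (.cut .l 141961 (.cut .d (-4096) (.pos 39 .mp ⟨⟨525577252, 0, 0, 0, 0, 281559196, 0, 0, 0, ⟨0, 0⟩, 0⟩, 0, 0⟩ 0 0) (.cut .v 16809984 (.cut .s 13668352 (.pos 49 .mp ⟨⟨531169123, 0, 0, 0, 0, 256860595, 0, 0, 0, ⟨0, 0⟩, 0⟩, 0, 0⟩ 0 0) (.pos 49 .mp ⟨⟨532778093, 0, 0, 0, 0, 257679983, 0, 0, 0, ⟨0, 0⟩, 0⟩, 0, 0⟩ 0 0)) (.pos 50 .mp ⟨⟨668594006, 0, 0, 0, 0, 0, 0, 0, 0, ⟨0, 0⟩, 0⟩, 0, 0⟩ 0 0))) (.pos 39 .mp ⟨⟨533567439, 0, 0, 0, 0, 252191468, 0, 0, 0, ⟨0, 0⟩, 0⟩, 0, 0⟩ 0 0)) (.cut .l 141961 (.cut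 .d (-4096) (.pos 39 .mp ⟨⟨528749299, 0, 0, 0, 0, 283478256, 0, 0, 0, ⟨0, 0⟩, 0⟩, 0, 0⟩ 0 0) (.cut .v 16809984 (.cut .s 13676544 (.pos 49 .mp ⟨⟨534392889, 0, 0, 0, 0, 258506416, 0, 0, 0, ⟨0, 0⟩, 0⟩, 0, 0⟩ 0 0) (.pos 49 .mp ⟨⟨536013535, 0, 0, 0, 0, 259339881, 0, 0, 0, ⟨0, 0⟩, 0⟩, 0, 0⟩ 0 0)) (.pos 50 .mp ⟨⟨672661597, 0, 0, 0, 0, 0, 0, 0, 0, ⟨0, 0⟩, 0⟩, 0, 0⟩ 0 0))) (.pos 39 .mp ⟨⟨536823085, 0, 0, 0, 0, 253731919, 0, 0, 0, ⟨0, 0⟩, 0⟩, 0, 0⟩ 0 0))) (.cut .s 13688832 (.cut .l 141961 (.cut .d (-4096) (.pos 39 .mp ⟨⟨531943968, 0, 0, 0, 0, 285444331, 0, 0, 0, ⟨0, 0⟩, 0⟩, 0, 0⟩ 0 0) (.cut .v 16809984 (.cut .s 13684736 (.pos 49 .mp ⟨⟨537640053,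 0, 0, 0, 0, 260180368, 0, 0, 0, ⟨0, 0⟩, 0⟩, 0, 0⟩ 0 0) (.pos 49 .mp ⟨⟨539272466, 0, 0, 0, 0, 261027865, 0, 0, 0, ⟨0, 0⟩, 0⟩, 0, 0⟩ 0 0)) (.pos 50 .mp ⟨⟨676774787, 0, 0, 0, 0, 0, 0, 0, 0, ⟨0, 0⟩, 0⟩, 0, 0⟩ 0 0))) (.pos 39 .mp ⟨⟨540102368, 0, 0, 0, 0, 255280672, 0, 0, 0, ⟨0, 0⟩, 0⟩, 0, 0⟩ 0 0)) (.cut .l 141961 (.cut .d (-4096) (.pos 39 .mp ⟨⟨535161429, 0, 0, 0, 0, 287457826, 0, 0, 0, ⟨0, 0⟩, 0⟩, 0, 0⟩ 0 0) (.cut .s 13692928 (.pos 39 .mp ⟨⟨542866784, 0, 0, 0, 0, 258353185, 0, 0, 0, ⟨0, 0⟩, 0⟩, 0, 0⟩ 0 0) (.pos 39 .mp ⟨⟨544516775, 0, 0, 0, 0, 259203657, 0, 0, 0, ⟨0, 0⟩, 0⟩, 0, 0⟩ 0 0))) (.pos 39 .mp ⟨⟨543405472, 0, 0, 0, 0, 256837263, 0,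 0, 0, ⟨0, 0⟩, 0⟩, 0, 0⟩ 0 0))))) (.pos 40 .mp ⟨⟨677486055, 0, 0, 0, 0, 0, 0, 0, 0, ⟨0, 0⟩, 0⟩, 0, 0⟩ 0 0)) (.cut .v 16842752 (.cut .s 13729792 (.cut .s 13713408 (.cut .v 16809984 (.cut .s 13705216 (.cut .l 141961 (.cut .d (-4096) (.pos 49 .mp ⟨⟨536030993, 0, 0, 0, 0, 290107713, 0, 0, 0, ⟨0, 0⟩, 0⟩, 0, 0⟩ 0 0) (.cut .s 13701120 (.pos 49 .mp ⟨⟨544205304, 0, 0, 0, 0, 263612291, 0, 0, 0, ⟨0, 0⟩, 0⟩, 0, 0⟩ 0 0) (.pos 49 .mp ⟨⟨545861527, 0, 0, 0, 0, 264487704, 0, 0, 0, ⟨0, 0⟩, 0⟩, 0, 0⟩ 0 0))) (.pos 49 .mp ⟨⟨530623398, 0, 0, 0, 0, 288545620, 0, 0, 0, ⟨0, 0⟩, 0⟩, 0, 0⟩ 0 0)) (.cut .l 141961 (.cut .d (-4096) (.pos 49 .mp ⟨⟨539297152, 0, 0, 0,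 0, 292171223, 0, 0, 0, ⟨0, 0⟩, 0⟩, 0, 0⟩ 0 0) (.cut .s 13709312 (.pos 49 .mp ⟨⟨547523760, 0, 0, 0, 0, 265370066, 0, 0, 0, ⟨0, 0⟩, 0⟩, 0, 0⟩ 0 0) (.pos 49 .mp ⟨⟨549192027, 0, 0, 0, 0, 266259362, 0, 0, 0, ⟨0, 0⟩, 0⟩, 0, 0⟩ 0 0))) (.pos 49 .mp ⟨⟨533840194, 0, 0, 0, 0, 290373813, 0, 0, 0, ⟨0, 0⟩, 0⟩, 0, 0⟩ 0 0))) (.pos 50 .mp ⟨⟨597081796, 0, 0, 0, 0, 177154916, 0, 0, 0, ⟨0, 0⟩, 0⟩, 0, 0⟩ 0 0)) (.cut .v 16809984 (.cut .s 13721600 (.cut .d (-4096) (.pos 49 .mp ⟨⟨543947583, 0, 0, 0, 0, 286140366, 0, 0, 0, ⟨0, 0⟩, 0⟩, 0, 0⟩ 0 0) (.cut .s 13717504 (.pos 49 .mp ⟨⟨550798243, 0, 0, 0, 0, 267511787, 0, 0, 0, ⟨0, 0⟩, 0⟩, 0, 0⟩ 0 0) (.pos 49 .mp ⟨⟨552335332,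 0, 0, 0, 0, 268727600, 0, 0, 0, ⟨0, 0⟩, 0⟩, 0, 0⟩ 0 0))) (.cut .d (-4096) (.pos 49 .mp ⟨⟨547837258, 0, 0, 0, 0, 286998754, 0, 0, 0, ⟨0, 0⟩, 0⟩, 0, 0⟩ 0 0) (.cut .s 13725696 (.pos 49 .mp ⟨⟨553867943, 0, 0, 0, 0, 269973364, 0, 0, 0, ⟨0, 0⟩, 0⟩, 0, 0⟩ 0 0) (.pos 49 .mp ⟨⟨555558624, 0, 0, 0, 0, 270940971, 0, 0, 0, ⟨0, 0⟩, 0⟩, 0, 0⟩ 0 0)))) (.pos 50 .mp ⟨⟨606293191, 0, 0, 0, 0, 176160970, 0, 0, 0, ⟨0, 0⟩, 0⟩, 0, 0⟩ 0 0))) (.cut .s 13746176 (.cut .v 16809984 (.cut .l 141961 (.cut .d (-4096) (.pos 49 .mp ⟨⟨549238042, 0, 0, 0, 0, 306252845, 0, 0, 0, ⟨0, 0⟩, 0⟩, 0, 0⟩ 0 0) (.cut .v 16793600 (.cut .l 70980 (.cut .d (-2048) (.pos 51 .mp ⟨⟨548775049,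 0, 0, 0, 0, 305630116, 0, 0, 0, ⟨0, 0⟩, 0⟩, 0, 0⟩ 0 0) (.cut .v 16785408 (.cut .s 13737984 (.cut .s 13733888 (.pos 61 .mp ⟨⟨559476610, 0, 0, 0, 0, 267416941, 0, 0, 0, ⟨0, 0⟩, 0⟩, 0, 0⟩ 0 0) (.pos 61 .mp ⟨⟨561512208, 0, 0, 0, 0, 267761282, 0, 0, 0, ⟨0, 0⟩, 0⟩, 0, 0⟩ 0 0)) (.pos 61 .mp ⟨⟨556191308, 0, 0, 0, 0, 283162860, 0, 0, 0, ⟨0, 0⟩, 0⟩, 0, 0⟩ 0 0)) (.pos 62 .mp ⟨⟨620405621, 0, 0, 0, 0, 163642420, 0, 0, 0, ⟨0, 0⟩, 0⟩, 0, 0⟩ 0 0))) (.pos 51 .mp ⟨⟨545972067, 0, 0, 0, 0, 292592062, 0, 0, 0, ⟨0, 0⟩, 0⟩, 0, 0⟩ 0 0)) (.pos 52 .mp ⟨⟨618982201, 0, 0, 0, 0, 167198279, 0, 0, 0, ⟨0, 0⟩, 0⟩, 0, 0⟩ 0 0))) (.pos 49 .mp ⟨⟨543629989, 0, 0, 0, 0, 298885978,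 0, 0, 0, ⟨0, 0⟩, 0⟩, 0, 0⟩ 0 0)) (.pos 50 .mp ⟨⟨616115883, 0, 0, 0, 0, 174342770, 0, 0, 0, ⟨0, 0⟩, 0⟩, 0, 0⟩ 0 0)) (.cut .v 16809984 (.cut .l 141961 (.cut .d (-4096) (.pos 49 .mp ⟨⟨555985854, 0, 0, 0, 0, 310962190, 0, 0, 0, ⟨0, 0⟩, 0⟩, 0, 0⟩ 0 0) (.cut .v 16793600 (.cut .l 70980 (.cut .d (-2048) (.pos 51 .mp ⟨⟨555501610, 0, 0, 0, 0, 310360862, 0, 0, 0, ⟨0, 0⟩, 0⟩, 0, 0⟩ 0 0) (.cut .s 13754368 (.pos 51 .mp ⟨⟨562307080, 0, 0, 0, 0, 279966905, 0, 0, 0, ⟨0, 0⟩, 0⟩, 0, 0⟩ 0 0) (.pos 51 .mp ⟨⟨565753324, 0, 0, 0, 0, 281939044, 0, 0, 0, ⟨0, 0⟩, 0⟩, 0, 0⟩ 0 0))) (.pos 51 .mp ⟨⟨552647013, 0, 0, 0, 0, 296257094, 0, 0, 0, ⟨0, 0⟩, 0⟩, 0, 0⟩ 0 0))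 (.pos 52 .mp ⟨⟨629484086, 0, 0, 0, 0, 164398600, 0, 0, 0, ⟨0, 0⟩, 0⟩, 0, 0⟩ 0 0))) (.pos 49 .mp ⟨⟨550274529, 0, 0, 0, 0, 302640976, 0, 0, 0, ⟨0, 0⟩, 0⟩, 0, 0⟩ 0 0)) (.pos 50 .mp ⟨⟨626574012, 0, 0, 0, 0, 171656429, 0, 0, 0, ⟨0, 0⟩, 0⟩, 0, 0⟩ 0 0)))) (.pos 40 .mp ⟨⟨711234895, 0, 0, 0, 0, 0, 0, 0, 0, ⟨0, 0⟩, 0⟩, 0, 0⟩ 0 0))))) (.pos 38 .mp ⟨⟨704154297, 0, 0, 0, 0, 0, 0, 0, 0, ⟨0, 0⟩, 0⟩, 0, 0⟩ 0 0)))))) (.pos 36 .mp ⟨⟨798805940, 0, 0, 0, 0, 0, 0, 0, 0, ⟨0, 0⟩, 0⟩, 0, 0⟩ 0 0))) (.void 34 ⟨⟨100000, 0, 0, 0, 0, 0, 0, 0, 0, ⟨0, 0⟩, 0⟩, 0, 0⟩ 0 0))) (.void 32 ⟨⟨100000, 0, 0, 0, 0, 0, 0, 0, 0, ⟨0, 0⟩, 0⟩, 0, 0⟩ 0 0))) (.void 30 ⟨⟨100000, 0, 0,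 0, 0, 0, 0, 0, 0, ⟨0, 0⟩, 0⟩, 0, 0⟩ 0 0))) (.void 28 ⟨⟨100000, 0, 0, 0, 0, 0, 0, 0, 0, ⟨0, 0⟩, 0⟩, 0, 0⟩ 0 0))) (.void 26 ⟨⟨100000, 0, 0, 0, 0, 0, 0, 0, 0, ⟨0, 0⟩, 0⟩, 0, 0⟩ 0 0))) (.void 95 ⟨⟨100000, 0, 0, 0, 0, 0, 0, 0, 0, ⟨0, 0⟩, 0⟩, 0, 0⟩ 0 0)) (.void 106 ⟨⟨100000, 0, 0, 0, 0, 0, 0, 0, 0, ⟨0, 0⟩, 0⟩, 0, 0⟩ 0 0)) (.void 115 ⟨⟨94465, 0, 0, 5535, 0, 0, 0, 0, 0, ⟨0, 0⟩, 0⟩, 0, 0⟩ 0 0))) (.cut .v 16777216 (.cut .v 8388608 (.cut .v 4194304 (.cut .v 2097152 (.cut .v 1048576 (.pos 111 .pm ⟨⟨0, 0, 20783643, 0, 0, 0, 0, 0, 0, ⟨0, 0⟩, 0⟩, 0, 5553⟩ 0 0) (.pos 112 .pm ⟨⟨0, 0, 20815962, 0, 0, 0, 0, 0, 0, ⟨0, 0⟩, 0⟩, 0, 10679⟩ 0 0)) (.pos 7 .pm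 ⟨⟨0, 0, 22369659, 0, 0, 0, 0, 0, 0, ⟨0, 0⟩, 0⟩, 0, 15425⟩ 0 0)) (.pos 5 .pm ⟨⟨0, 0, 21406779, 0, 0, 0, 0, 0, 0, ⟨0, 0⟩, 0⟩, 0, 0⟩ 0 0)) (.pos 3 .pm ⟨⟨0, 0, 0, 0, 0, 0, 0, 0, 0, ⟨0, 0⟩, 0⟩, 0, 0⟩ 0 0)) (.cut .v 268435456 (.cut .v 67108864 (.cut .d 2036071 (.cut .v 33554432 (.cut .d 1018035 (.cut .v 25165824 (.cut .d 509017 (.cut .d 254508 (.cut .v 20971520 (.cut .d 127254 (.cut .v 18874368 (.cut .v 17825792 (.cut .s 13631488 (.pos 31 .pp ⟨⟨499567603, 0, 0, 0, 0, 0, 0, 0, 0, ⟨0, 0⟩, 0⟩, 12138877, 0⟩ 0 0) (.pos 31 .pp ⟨⟨553110174, 0, 0, 0, 0, 0, 0, 0, 0, ⟨0, 0⟩, 0⟩, 12737873, 0⟩ 0 0)) (.pos 32 .pp ⟨⟨702833433, 0, 0, 0, 0, 0, 0, 0, 0, ⟨0,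 0⟩, 0⟩, 0, 0⟩ 0 0)) (.pos 30 .pp ⟨⟨862661952, 0, 0, 0, 0, 0, 0, 0, 0, ⟨0, 0⟩, 0⟩, 0, 0⟩ 0 0)) (.pos 27 .pp ⟨⟨551500586, 0, 0, 0, 0, 0, 0, 0, 0, ⟨0, 0⟩, 0⟩, 0, 6637⟩ 0 0)) (.cut .d 127254 (.void 28 ⟨⟨0, 0, 0, 0, 0, 0, 0, 0, 0, ⟨0, 0⟩, 0⟩, 100000, 0⟩ 0 0) (.pos 28 .pp ⟨⟨0, 0, 0, 0, 0, 0, 0, 0, 0, ⟨0, 0⟩, 0⟩, 110021722, 0⟩ 0 0))) (.pos 25 .pp ⟨⟨0, 0, 0, 0, 0, 0, 0, 0, 0, ⟨0, 0⟩, 0⟩, 69567107, 28697⟩ 0 0)) (.pos 25 .pp ⟨⟨0, 0, 0, 0, 0, 0, 0, 0, 0, ⟨0, 0⟩, 0⟩, 0, 116362⟩ 0 0)) (.cut .d 509017 (.cut .d 254508 (.void 26 ⟨⟨0, 0, 0, 0, 0, 0, 0, 0, 0, ⟨0, 0⟩, 0⟩, 100000, 0⟩ 0 0) (.pos 26 .pp ⟨⟨0, 0, 0, 0, 0, 0, 0, 0, 0, ⟨0, 0⟩, 0⟩, 131077964,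 0⟩ 0 0)) (.pos 26 .pp ⟨⟨0, 0, 0, 0, 0, 0, 61856, 0, 0, ⟨0, 0⟩, 0⟩, 77795115, 0⟩ 0 0))) (.pos 24 .pp ⟨⟨0, 0, 0, 0, 0, 0, 0, 0, 0, ⟨0, 0⟩, 0⟩, 0, 129291⟩ 0 0)) (.cut .d 1018035 (.cut .v 50331648 (.pos 96 .pp ⟨⟨0, 0, 0, 0, 0, 0, 0, 0, 0, ⟨0, 0⟩, 0⟩, 240653949, 0⟩ 0 0) (.void 97 ⟨⟨0, 0, 0, 0, 0, 0, 0, 0, 0, ⟨0, 0⟩, 0⟩, 100000, 0⟩ 0 0)) (.pos 95 .pp ⟨⟨0, 0, 0, 0, 0, 0, 1510, 0, 0, ⟨0, 0⟩, 0⟩, 98424433, 0⟩ 0 0))) (.pos 94 .pp ⟨⟨0, 0, 0, 0, 0, 0, 0, 0, 0, ⟨0, 0⟩, 0⟩, 0, 96969⟩ 0 0)) (.void 106 ⟨⟨0, 0, 0, 47572, 0, 0, 0, 0, 0, ⟨0, 0⟩, 0⟩, 52428, 0⟩ 0 0)) (.void 115 ⟨⟨0, 0, 0, 0, 0, 0, 0, 0, 0, ⟨0, 0⟩, 0⟩, 100000, 0⟩ 0 0)))),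
    by decide +kernel⟩

def covers25 : cell.Covers Vale.Agent.P237.Petty.Cor.Grid.N13.table row25.1 :=
  ⟨(.cut .d 0 (.cut .v 16777216 (.cut .v 8388608 (.pos 2 .mm ⟨⟨0, 0, 2073683182, 0, 0, 698537884, 0, 0, 0, ⟨0, 0⟩, 0⟩, 0, 0⟩ 0 0) (.cut .d (-8388608) (.void 3 ⟨⟨100311, 0, 0, 0, 0, 0, 0, 0, 0, ⟨0, 0⟩, 0⟩, 0, 0⟩ 0 0) (.cut .d (-4194304) (.void 3 ⟨⟨100000, 0, 0, 0, 0, 0, 0, 0, 0, ⟨0, 0⟩, 0⟩, 0, 0⟩ 0 0) (.cut .d (-2097152) (.void 3 ⟨⟨100000, 0, 0, 0, 0, 0, 0, 0, 0, ⟨0, 0⟩, 0⟩, 0, 0⟩ 0 0) (.cut .d (-1048576) (.void 3 ⟨⟨0, 0, 0, 0, 0, 100000, 0, 0, 0, ⟨0, 0⟩, 0⟩, 0, 0⟩ 0 0) (.cut .d (-524288) (.void 3 ⟨⟨0, 0, 0, 0, 0, 100000, 0, 0, 0, ⟨0,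 0⟩, 0⟩, 0, 0⟩ 0 0) (.cut .d (-262144) (.void 3 ⟨⟨0, 0, 0, 0, 0, 100000, 0, 0, 0, ⟨0, 0⟩, 0⟩, 0, 0⟩ 0 0) (.cut .s 13860864 (.pos 3 .mm ⟨⟨0, 0, 0, 0, 0, 1371593933, 0, 0, 0, ⟨0, 0⟩, 0⟩, 0, 0⟩ 0 0) (.pos 3 .mm ⟨⟨0, 0, 0, 0, 0, 1489377686, 0, 0, 0, ⟨0, 0⟩, 0⟩, 0, 0⟩ 0 0))))))))) (.cut .v 268435456 (.cut .v 67108864 (.cut .v 33554432 (.cut .d (-8388608) (.void 24 ⟨⟨99982, 0, 0, 0, 0, 0, 0, 0, 0, ⟨0, 0⟩, 0⟩, 0, 0⟩ 0 0) (.cut .v 25165824 (.cut .d (-4194304) (.void 25 ⟨⟨100000, 0, 0, 0, 0, 0, 0, 0, 0, ⟨0, 0⟩, 0⟩, 0, 0⟩ 0 0) (.cut .v 20971520 (.cut .d (-2097152) (.void 27 ⟨⟨100000, 0, 0, 0, 0, 0, 0, 0, 0, ⟨0, 0⟩, 0⟩, 0, 0⟩ 0 0) (.cut .d (-1048576)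 (.void 27 ⟨⟨100000, 0, 0, 0, 0, 0, 0, 0, 0, ⟨0, 0⟩, 0⟩, 0, 0⟩ 0 0) (.cut .v 18874368 (.cut .d (-524288) (.void 29 ⟨⟨100000, 0, 0, 0, 0, 0, 0, 0, 0, ⟨0, 0⟩, 0⟩, 0, 0⟩ 0 0) (.cut .v 17825792 (.cut .v 17301504 (.cut .d (-262144) (.void 33 ⟨⟨100000, 0, 0, 0, 0, 0, 0, 0, 0, ⟨0, 0⟩, 0⟩, 0, 0⟩ 0 0) (.cut .v 17039360 (.cut .d (-131072) (.void 35 ⟨⟨100000, 0, 0, 0, 0, 0, 0, 0, 0, ⟨0, 0⟩, 0⟩, 0, 0⟩ 0 0) (.cut .d (-65536) (.void 35 ⟨⟨100000, 0, 0, 0, 0, 0, 0, 0, 0, ⟨0, 0⟩, 0⟩, 0, 0⟩ 0 0) (.cut .d (-32768) (.void 35 ⟨⟨100000, 0, 0, 0, 0, 0, 0, 0, 0, ⟨0, 0⟩, 0⟩, 0, 0⟩ 0 0) (.cut .d (-16384) (.void 35 ⟨⟨100000, 0, 0, 0, 0, 0, 0, 0, 0, ⟨0, 0⟩, 0⟩,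 0, 0⟩ 0 0) (.cut .v 16908288 (.cut .d (-8192) (.cut .v 16842752 (.cut .l 141961 (.void 39 ⟨⟨100000, 0, 0, 0, 0, 0, 0, 0, 0, ⟨0, 0⟩, 0⟩, 0, 0⟩ 0 0) (.cut .d (-12288) (.void 39 ⟨⟨0, 0, 0, 0, 0, 100000, 0, 0, 0, ⟨0, 0⟩, 0⟩, 0, 0⟩ 0 0) (.cut .d (-10240) (.void 39 ⟨⟨0, 0, 0, 0, 0, 100000, 0, 0, 0, ⟨0, 0⟩, 0⟩, 0, 0⟩ 0 0) (.cut .v 16809984 (.pos 49 .mp ⟨⟨0, 0, 0, 0, 0, 1546324219, 0, 0, 0, ⟨0, 0⟩, 0⟩, 0, 0⟩ 0 0) (.cut .l 212942 (.void 50 ⟨⟨100000, 0, 0, 0, 0, 0, 0, 0, 0, ⟨0, 0⟩, 0⟩, 0, 0⟩ 0 0) (.cut .s 13860864 (.cut .s 13811712 (.pos 50 .mp ⟨⟨593969011, 0, 0, 0, 0, 275045578, 0, 0, 0, ⟨0, 0⟩, 0⟩, 0, 0⟩ 0 0) (.cut .s 13836288 (.pos 50 .mp ⟨⟨589008294,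 0, 0, 0, 0, 323444172, 0, 0, 0, ⟨0, 0⟩, 0⟩, 0, 0⟩ 0 0) (.pos 50 .mp ⟨⟨599276153, 0, 0, 0, 0, 331139972, 0, 0, 0, ⟨0, 0⟩, 0⟩, 0, 0⟩ 0 0))) (.cut .s 13910016 (.cut .s 13885440 (.pos 50 .mp ⟨⟨610083883, 0, 0, 0, 0, 338523279, 0, 0, 0, ⟨0, 0⟩, 0⟩, 0, 0⟩ 0 0) (.pos 50 .mp ⟨⟨621461402, 0, 0, 0, 0, 345536368, 0, 0, 0, ⟨0, 0⟩, 0⟩, 0, 0⟩ 0 0)) (.pos 50 .mp ⟨⟨633257112, 0, 0, 0, 0, 377590768, 0, 0, 0, ⟨0, 0⟩, 0⟩, 0, 0⟩ 0 0)))))))) (.pos 40 .mp ⟨⟨852476351, 0, 0, 0, 0, 0, 0, 0, 0, ⟨0, 0⟩, 0⟩, 0, 0⟩ 0 0)) (.cut .s 13860864 (.cut .v 16842752 (.cut .s 13811712 (.cut .s 13787136 (.cut .v 16809984 (.cut .s 13774848 (.cut .d (-4096) (.pos 49 .mp ⟨⟨555985861,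 0, 0, 0, 0, 319452374, 0, 0, 0, ⟨0, 0⟩, 0⟩, 0, 0⟩ 0 0) (.cut .s 13768704 (.pos 49 .mp ⟨⟨571883618, 0, 0, 0, 0, 278871723, 0, 0, 0, ⟨0, 0⟩, 0⟩, 0, 0⟩ 0 0) (.pos 49 .mp ⟨⟨574939818, 0, 0, 0, 0, 279041342, 0, 0, 0, ⟨0, 0⟩, 0⟩, 0, 0⟩ 0 0))) (.cut .l 141961 (.cut .d (-4096) (.pos 49 .mp ⟨⟨568035173, 0, 0, 0, 0, 314247677, 0, 0, 0, ⟨0, 0⟩, 0⟩, 0, 0⟩ 0 0) (.cut .s 13780992 (.pos 49 .mp ⟨⟨577610539, 0, 0, 0, 0, 279877639, 0, 0, 0, ⟨0, 0⟩, 0⟩, 0, 0⟩ 0 0) (.pos 49 .mp ⟨⟨580283061, 0, 0, 0, 0, 280989070, 0, 0, 0, ⟨0, 0⟩, 0⟩, 0, 0⟩ 0 0))) (.pos 49 .mp ⟨⟨562138219, 0, 0, 0, 0, 308692576, 0, 0, 0, ⟨0, 0⟩, 0⟩, 0, 0⟩ 0 0))) (.pos 50 .mp ⟨⟨661275946,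 0, 0, 0, 0, 129304563, 0, 0, 0, ⟨0, 0⟩, 0⟩, 0, 0⟩ 0 0)) (.cut .s 13799424 (.cut .v 16809984 (.cut .l 141961 (.cut .d (-4096) (.pos 49 .mp ⟨⟨573304579, 0, 0, 0, 0, 316606562, 0, 0, 0, ⟨0, 0⟩, 0⟩, 0, 0⟩ 0 0) (.cut .s 13793280 (.pos 49 .mp ⟨⟨582970964, 0, 0, 0, 0, 282121798, 0, 0, 0, ⟨0, 0⟩, 0⟩, 0, 0⟩ 0 0) (.pos 49 .mp ⟨⟨585674340, 0, 0, 0, 0, 283275781, 0, 0, 0, ⟨0, 0⟩, 0⟩, 0, 0⟩ 0 0))) (.pos 49 .mp ⟨⟨567325695, 0, 0, 0, 0, 311642507, 0, 0, 0, ⟨0, 0⟩, 0⟩, 0, 0⟩ 0 0)) (.pos 50 .mp ⟨⟨634478712, 0, 0, 0, 0, 195716469, 0, 0, 0, ⟨0, 0⟩, 0⟩, 0, 0⟩ 0 0)) (.cut .v 16809984 (.cut .l 141961 (.cut .d (-4096) (.pos 49 .mp ⟨⟨578634400, 0, 0, 0, 0,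 319088088, 0, 0, 0, ⟨0, 0⟩, 0⟩, 0, 0⟩ 0 0) (.cut .v 16793600 (.cut .s 13805568 (.pos 51 .mp ⟨⟨582344389, 0, 0, 0, 0, 296026335, 0, 0, 0, ⟨0, 0⟩, 0⟩, 0, 0⟩ 0 0) (.pos 51 .mp ⟨⟨584071702, 0, 0, 0, 0, 299174081, 0, 0, 0, ⟨0, 0⟩, 0⟩, 0, 0⟩ 0 0)) (.pos 52 .mp ⟨⟨641864753, 0, 0, 0, 0, 192434656, 0, 0, 0, ⟨0, 0⟩, 0⟩, 0, 0⟩ 0 0))) (.pos 49 .mp ⟨⟨572572198, 0, 0, 0, 0, 314641425, 0, 0, 0, ⟨0, 0⟩, 0⟩, 0, 0⟩ 0 0)) (.pos 50 .mp ⟨⟨638760709, 0, 0, 0, 0, 200146565, 0, 0, 0, ⟨0, 0⟩, 0⟩, 0, 0⟩ 0 0)))) (.cut .s 13836288 (.cut .s 13824000 (.cut .v 16809984 (.cut .l 141961 (.cut .d (-4096) (.pos 49 .mp ⟨⟨584025367, 0, 0, 0, 0, 321693880, 0, 0, 0, ⟨0, 0⟩,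 0⟩, 0, 0⟩ 0 0) (.cut .v 16793600 (.cut .l 70980 (.cut .d (-2048) (.pos 51 .mp ⟨⟨583439113, 0, 0, 0, 0, 321220004, 0, 0, 0, ⟨0, 0⟩, 0⟩, 0, 0⟩ 0 0) (.cut .s 13817856 (.pos 51 .mp ⟨⟨589688000, 0, 0, 0, 0, 294237951, 0, 0, 0, ⟨0, 0⟩, 0⟩, 0, 0⟩ 0 0) (.pos 51 .mp ⟨⟨592452036, 0, 0, 0, 0, 295474820, 0, 0, 0, ⟨0, 0⟩, 0⟩, 0, 0⟩ 0 0))) (.pos 51 .mp ⟨⟨580366808, 0, 0, 0, 0, 310950671, 0, 0, 0, ⟨0, 0⟩, 0⟩, 0, 0⟩ 0 0)) (.pos 52 .mp ⟨⟨646499778, 0, 0, 0, 0, 196399776, 0, 0, 0, ⟨0, 0⟩, 0⟩, 0, 0⟩ 0 0))) (.pos 49 .mp ⟨⟨577878442, 0, 0, 0, 0, 317687465, 0, 0, 0, ⟨0, 0⟩, 0⟩, 0, 0⟩ 0 0)) (.pos 50 .mp ⟨⟨643355061, 0, 0, 0, 0, 204211467, 0, 0, 0, ⟨0, 0⟩,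 0⟩, 0, 0⟩ 0 0)) (.cut .v 16809984 (.cut .s 13830144 (.cut .d (-4096) (.pos 49 .mp ⟨⟨582332128, 0, 0, 0, 0, 328743838, 0, 0, 0, ⟨0, 0⟩, 0⟩, 0, 0⟩ 0 0) (.cut .s 13827072 (.pos 49 .mp ⟨⟨597877835, 0, 0, 0, 0, 291223664, 0, 0, 0, ⟨0, 0⟩, 0⟩, 0, 0⟩ 0 0) (.pos 49 .mp ⟨⟨599139295, 0, 0, 0, 0, 292087409, 0, 0, 0, ⟨0, 0⟩, 0⟩, 0, 0⟩ 0 0))) (.cut .d (-4096) (.pos 49 .mp ⟨⟨585049806, 0, 0, 0, 0, 330143486, 0, 0, 0, ⟨0, 0⟩, 0⟩, 0, 0⟩ 0 0) (.cut .s 13833216 (.pos 49 .mp ⟨⟨600411861, 0, 0, 0, 0, 292944465, 0, 0, 0, ⟨0, 0⟩, 0⟩, 0, 0⟩ 0 0) (.pos 49 .mp ⟨⟨601842108, 0, 0, 0, 0, 293515400, 0, 0, 0, ⟨0, 0⟩, 0⟩, 0, 0⟩ 0 0)))) (.pos 50 .mp ⟨⟨648273923, 0,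 0, 0, 0, 207889346, 0, 0, 0, ⟨0, 0⟩, 0⟩, 0, 0⟩ 0 0))) (.cut .s 13848576 (.cut .v 16809984 (.cut .s 13842432 (.cut .d (-4096) (.pos 49 .mp ⟨⟨587782953, 0, 0, 0, 0, 331575522, 0, 0, 0, ⟨0, 0⟩, 0⟩, 0, 0⟩ 0 0) (.cut .s 13839360 (.pos 49 .mp ⟨⟨603333699, 0, 0, 0, 0, 293983818, 0, 0, 0, ⟨0, 0⟩, 0⟩, 0, 0⟩ 0 0) (.pos 49 .mp ⟨⟨604823756, 0, 0, 0, 0, 294469623, 0, 0, 0, ⟨0, 0⟩, 0⟩, 0, 0⟩ 0 0))) (.cut .d (-4096) (.pos 49 .mp ⟨⟨590531663, 0, 0, 0, 0, 333040165, 0, 0, 0, ⟨0, 0⟩, 0⟩, 0, 0⟩ 0 0) (.cut .s 13845504 (.pos 49 .mp ⟨⟨606312209, 0, 0, 0, 0, 294972987, 0, 0, 0, ⟨0, 0⟩, 0⟩, 0, 0⟩ 0 0) (.pos 49 .mp ⟨⟨607798988, 0, 0, 0, 0, 295494085, 0, 0, 0,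 ⟨0, 0⟩, 0⟩, 0, 0⟩ 0 0)))) (.pos 50 .mp ⟨⟨653529622, 0, 0, 0, 0, 211158019, 0, 0, 0, ⟨0, 0⟩, 0⟩, 0, 0⟩ 0 0)) (.cut .v 16809984 (.cut .s 13854720 (.cut .d (-4096) (.pos 49 .mp ⟨⟨593296032, 0, 0, 0, 0, 334537633, 0, 0, 0, ⟨0, 0⟩, 0⟩, 0, 0⟩ 0 0) (.cut .s 13851648 (.pos 49 .mp ⟨⟨609284024, 0, 0, 0, 0, 296033094, 0, 0, 0, ⟨0, 0⟩, 0⟩, 0, 0⟩ 0 0) (.pos 49 .mp ⟨⟨610716668, 0, 0, 0, 0, 296692656, 0, 0, 0, ⟨0, 0⟩, 0⟩, 0, 0⟩ 0 0))) (.cut .d (-4096) (.pos 49 .mp ⟨⟨596076157, 0, 0, 0, 0, 336068145, 0, 0, 0, ⟨0, 0⟩, 0⟩, 0, 0⟩ 0 0) (.cut .s 13857792 (.pos 49 .mp ⟨⟨612146291, 0, 0, 0, 0, 297372806, 0, 0, 0, ⟨0, 0⟩, 0⟩, 0, 0⟩ 0 0) (.pos 49 .mp ⟨⟨613580037,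 0, 0, 0, 0, 298059102, 0, 0, 0, ⟨0, 0⟩, 0⟩, 0, 0⟩ 0 0)))) (.pos 50 .mp ⟨⟨659134665, 0, 0, 0, 0, 213994938, 0, 0, 0, ⟨0, 0⟩, 0⟩, 0, 0⟩ 0 0))))) (.pos 40 .mp ⟨⟨758011441, 0, 0, 0, 0, 0, 0, 0, 0, ⟨0, 0⟩, 0⟩, 0, 0⟩ 0 0)) (.cut .v 16842752 (.cut .s 13910016 (.cut .s 13885440 (.cut .s 13873152 (.cut .v 16809984 (.cut .s 13867008 (.cut .d (-4096) (.pos 49 .mp ⟨⟨598872134, 0, 0, 0, 0, 337631923, 0, 0, 0, ⟨0, 0⟩, 0⟩, 0, 0⟩ 0 0) (.cut .s 13863936 (.pos 49 .mp ⟨⟨615017920, 0, 0, 0, 0, 298751548, 0, 0, 0, ⟨0, 0⟩, 0⟩, 0, 0⟩ 0 0) (.pos 49 .mp ⟨⟨616459951, 0, 0, 0, 0, 299450146, 0, 0, 0, ⟨0, 0⟩, 0⟩, 0, 0⟩ 0 0))) (.cut .d (-4096) (.pos 49 .mp ⟨⟨601684062,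 0, 0, 0, 0, 339229192, 0, 0, 0, ⟨0, 0⟩, 0⟩, 0, 0⟩ 0 0) (.cut .s 13870080 (.pos 49 .mp ⟨⟨617906143, 0, 0, 0, 0, 300154901, 0, 0, 0, ⟨0, 0⟩, 0⟩, 0, 0⟩ 0 0) (.pos 49 .mp ⟨⟨619356510, 0, 0, 0, 0, 300865815, 0, 0, 0, ⟨0, 0⟩, 0⟩, 0, 0⟩ 0 0)))) (.pos 50 .mp ⟨⟨665101740, 0, 0, 0, 0, 216377183, 0, 0, 0, ⟨0, 0⟩, 0⟩, 0, 0⟩ 0 0)) (.cut .v 16809984 (.cut .s 13879296 (.cut .d (-4096) (.pos 49 .mp ⟨⟨604512038, 0, 0, 0, 0, 340860177, 0, 0, 0, ⟨0, 0⟩, 0⟩, 0, 0⟩ 0 0) (.cut .s 13876224 (.pos 49 .mp ⟨⟨620811064, 0, 0, 0, 0, 301582893, 0, 0, 0, ⟨0, 0⟩, 0⟩, 0, 0⟩ 0 0) (.pos 49 .mp ⟨⟨622269818, 0, 0, 0, 0, 302306138, 0, 0, 0, ⟨0, 0⟩, 0⟩, 0, 0⟩ 0 0))) (.cut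 .d (-4096) (.pos 49 .mp ⟨⟨607356163, 0, 0, 0, 0, 342525106, 0, 0, 0, ⟨0, 0⟩, 0⟩, 0, 0⟩ 0 0) (.cut .s 13882368 (.pos 49 .mp ⟨⟨623732786, 0, 0, 0, 0, 303035553, 0, 0, 0, ⟨0, 0⟩, 0⟩, 0, 0⟩ 0 0) (.pos 49 .mp ⟨⟨625199980, 0, 0, 0, 0, 303771141, 0, 0, 0, ⟨0, 0⟩, 0⟩, 0, 0⟩ 0 0)))) (.pos 50 .mp ⟨⟨671443719, 0, 0, 0, 0, 218281453, 0, 0, 0, ⟨0, 0⟩, 0⟩, 0, 0⟩ 0 0))) (.cut .s 13897728 (.cut .v 16809984 (.cut .s 13891584 (.cut .d (-4096) (.pos 49 .mp ⟨⟨610216537, 0, 0, 0, 0, 344224207, 0, 0, 0, ⟨0, 0⟩, 0⟩, 0, 0⟩ 0 0) (.cut .s 13888512 (.pos 49 .mp ⟨⟨626671413, 0, 0, 0, 0, 304512906, 0, 0, 0, ⟨0, 0⟩, 0⟩, 0, 0⟩ 0 0) (.pos 49 .mp ⟨⟨628147099, 0, 0,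 0, 0, 305260850, 0, 0, 0, ⟨0, 0⟩, 0⟩, 0, 0⟩ 0 0))) (.cut .d (-4096) (.pos 49 .mp ⟨⟨613093261, 0, 0, 0, 0, 345957714, 0, 0, 0, ⟨0, 0⟩, 0⟩, 0, 0⟩ 0 0) (.cut .s 13894656 (.pos 49 .mp ⟨⟨629627051, 0, 0, 0, 0, 306014978, 0, 0, 0, ⟨0, 0⟩, 0⟩, 0, 0⟩ 0 0) (.pos 49 .mp ⟨⟨631111283, 0, 0, 0, 0, 306775291, 0, 0, 0, ⟨0, 0⟩, 0⟩, 0, 0⟩ 0 0)))) (.pos 50 .mp ⟨⟨678173666, 0, 0, 0, 0, 219684059, 0, 0, 0, ⟨0, 0⟩, 0⟩, 0, 0⟩ 0 0)) (.cut .v 16809984 (.cut .s 13903872 (.cut .d (-4096) (.pos 49 .mp ⟨⟨615986437, 0, 0, 0, 0, 347725858, 0, 0, 0, ⟨0, 0⟩, 0⟩, 0, 0⟩ 0 0) (.cut .s 13900800 (.pos 49 .mp ⟨⟨632599807, 0, 0, 0, 0, 307541794, 0, 0, 0, ⟨0, 0⟩, 0⟩, 0, 0⟩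 0 0) (.pos 49 .mp ⟨⟨634092637, 0, 0, 0, 0, 308314489, 0, 0, 0, ⟨0, 0⟩, 0⟩, 0, 0⟩ 0 0))) (.cut .d (-4096) (.pos 49 .mp ⟨⟨618896170, 0, 0, 0, 0, 349528876, 0, 0, 0, ⟨0, 0⟩, 0⟩, 0, 0⟩ 0 0) (.cut .s 13906944 (.pos 49 .mp ⟨⟨635589787, 0, 0, 0, 0, 309093380, 0, 0, 0, ⟨0, 0⟩, 0⟩, 0, 0⟩ 0 0) (.pos 49 .mp ⟨⟨637070406, 0, 0, 0, 0, 309920827, 0, 0, 0, ⟨0, 0⟩, 0⟩, 0, 0⟩ 0 0)))) (.pos 50 .mp ⟨⟨685304839, 0, 0, 0, 0, 220560917, 0, 0, 0, ⟨0, 0⟩, 0⟩, 0, 0⟩ 0 0)))) (.cut .s 13934592 (.cut .s 13922304 (.cut .v 16809984 (.cut .s 13916160 (.cut .d (-4096) (.pos 49 .mp ⟨⟨621822561, 0, 0, 0, 0, 351367005, 0, 0, 0, ⟨0, 0⟩, 0⟩, 0, 0⟩ 0 0) (.cut .s 13913088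 (.pos 49 .mp ⟨⟨638504863, 0, 0, 0, 0, 310857041, 0, 0, 0, ⟨0, 0⟩, 0⟩, 0, 0⟩ 0 0) (.pos 49 .mp ⟨⟨639935957, 0, 0, 0, 0, 311815173, 0, 0, 0, ⟨0, 0⟩, 0⟩, 0, 0⟩ 0 0))) (.cut .d (-4096) (.pos 49 .mp ⟨⟨624765717, 0, 0, 0, 0, 353240484, 0, 0, 0, ⟨0, 0⟩, 0⟩, 0, 0⟩ 0 0) (.cut .s 13919232 (.pos 49 .mp ⟨⟨641363606, 0, 0, 0, 0, 312795430, 0, 0, 0, ⟨0, 0⟩, 0⟩, 0, 0⟩ 0 0) (.pos 49 .mp ⟨⟨642787725, 0, 0, 0, 0, 313798021, 0, 0, 0, ⟨0, 0⟩, 0⟩, 0, 0⟩ 0 0)))) (.pos 50 .mp ⟨⟨692850694, 0, 0, 0, 0, 220887536, 0, 0, 0, ⟨0, 0⟩, 0⟩, 0, 0⟩ 0 0)) (.cut .v 16809984 (.cut .s 13928448 (.cut .d (-4096) (.pos 49 .mp ⟨⟨627725742, 0, 0, 0, 0, 355149555, 0, 0, 0, ⟨0,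 0⟩, 0⟩, 0, 0⟩ 0 0) (.cut .s 13925376 (.pos 49 .mp ⟨⟨644273422, 0, 0, 0, 0, 314698290, 0, 0, 0, ⟨0, 0⟩, 0⟩, 0, 0⟩ 0 0) (.pos 49 .mp ⟨⟨645943057, 0, 0, 0, 0, 315261828, 0, 0, 0, ⟨0, 0⟩, 0⟩, 0, 0⟩ 0 0))) (.cut .d (-4096) (.pos 49 .mp ⟨⟨630702744, 0, 0, 0, 0, 357094461, 0, 0, 0, ⟨0, 0⟩, 0⟩, 0, 0⟩ 0 0) (.cut .s 13931520 (.pos 49 .mp ⟨⟨647627302, 0, 0, 0, 0, 315812933, 0, 0, 0, ⟨0, 0⟩, 0⟩, 0, 0⟩ 0 0) (.pos 49 .mp ⟨⟨649326275, 0, 0, 0, 0, 316351408, 0, 0, 0, ⟨0, 0⟩, 0⟩, 0, 0⟩ 0 0)))) (.pos 50 .mp ⟨⟨700824891, 0, 0, 0, 0, 220639011, 0, 0, 0, ⟨0, 0⟩, 0⟩, 0, 0⟩ 0 0))) (.cut .s 13946880 (.cut .v 16809984 (.cut .l 141961 (.cut .d (-4096) (.pos 49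 .mp ⟨⟨641467854, 0, 0, 0, 0, 354964031, 0, 0, 0, ⟨0, 0⟩, 0⟩, 0, 0⟩ 0 0) (.cut .v 16793600 (.cut .l 70980 (.cut .d (-2048) (.pos 51 .mp ⟨⟨640661806, 0, 0, 0, 0, 354760041, 0, 0, 0, ⟨0, 0⟩, 0⟩, 0, 0⟩ 0 0) (.cut .s 13940736 (.pos 51 .mp ⟨⟨647611781, 0, 0, 0, 0, 323933203, 0, 0, 0, ⟨0, 0⟩, 0⟩, 0, 0⟩ 0 0) (.pos 51 .mp ⟨⟨650685564, 0, 0, 0, 0, 325638017, 0, 0, 0, ⟨0, 0⟩, 0⟩, 0, 0⟩ 0 0))) (.pos 51 .mp ⟨⟨637125557, 0, 0, 0, 0, 342826195, 0, 0, 0, ⟨0, 0⟩, 0⟩, 0, 0⟩ 0 0)) (.pos 52 .mp ⟨⟨712801605, 0, 0, 0, 0, 210935129, 0, 0, 0, ⟨0, 0⟩, 0⟩, 0, 0⟩ 0 0))) (.pos 49 .mp ⟨⟨634392648, 0, 0, 0, 0, 350312894, 0, 0, 0, ⟨0, 0⟩, 0⟩, 0, 0⟩ 0 0)) (.pos 50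 .mp ⟨⟨709241295, 0, 0, 0, 0, 219790015, 0, 0, 0, ⟨0, 0⟩, 0⟩, 0, 0⟩ 0 0)) (.cut .v 16809984 (.cut .l 141961 (.cut .d (-4096) (.pos 49 .mp ⟨⟨647583322, 0, 0, 0, 0, 359052142, 0, 0, 0, ⟨0, 0⟩, 0⟩, 0, 0⟩ 0 0) (.cut .v 16793600 (.cut .s 13953024 (.pos 51 .mp ⟨⟨650445932, 0, 0, 0, 0, 334553588, 0, 0, 0, ⟨0, 0⟩, 0⟩, 0, 0⟩ 0 0) (.pos 51 .mp ⟨⟨654808534, 0, 0, 0, 0, 333867968, 0, 0, 0, ⟨0, 0⟩, 0⟩, 0, 0⟩ 0 0)) (.pos 52 .mp ⟨⟨721716306, 0, 0, 0, 0, 209351708, 0, 0, 0, ⟨0, 0⟩, 0⟩, 0, 0⟩ 0 0))) (.pos 49 .mp ⟨⟨640406780, 0, 0, 0, 0, 353747499, 0, 0, 0, ⟨0, 0⟩, 0⟩, 0, 0⟩ 0 0)) (.pos 50 .mp ⟨⟨718113986, 0, 0, 0, 0, 218314786, 0, 0, 0, ⟨0, 0⟩, 0⟩, 0,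 0⟩ 0 0))))) (.pos 40 .mp ⟨⟨815769645, 0, 0, 0, 0, 0, 0, 0, 0, ⟨0, 0⟩, 0⟩, 0, 0⟩ 0 0)))) (.pos 38 .mp ⟨⟨825821948, 0, 0, 0, 0, 0, 0, 0, 0, ⟨0, 0⟩, 0⟩, 0, 0⟩ 0 0)))))) (.pos 36 .mp ⟨⟨928505762, 0, 0, 0, 0, 0, 0, 0, 0, ⟨0, 0⟩, 0⟩, 0, 0⟩ 0 0))) (.void 34 ⟨⟨100000, 0, 0, 0, 0, 0, 0, 0, 0, ⟨0, 0⟩, 0⟩, 0, 0⟩ 0 0)) (.void 32 ⟨⟨100000, 0, 0, 0, 0, 0, 0, 0, 0, ⟨0, 0⟩, 0⟩, 0, 0⟩ 0 0))) (.void 30 ⟨⟨100000, 0, 0, 0, 0, 0, 0, 0, 0, ⟨0, 0⟩, 0⟩, 0, 0⟩ 0 0)))) (.void 28 ⟨⟨100000, 0, 0, 0, 0, 0, 0, 0, 0, ⟨0, 0⟩, 0⟩, 0, 0⟩ 0 0))) (.void 26 ⟨⟨100000, 0, 0, 0, 0, 0, 0, 0, 0, ⟨0, 0⟩, 0⟩, 0, 0⟩ 0 0))) (.void 95 ⟨⟨100000, 0, 0, 0, 0, 0, 0, 0, 0, ⟨0, 0⟩, 0⟩,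 0, 0⟩ 0 0)) (.void 106 ⟨⟨100000, 0, 0, 0, 0, 0, 0, 0, 0, ⟨0, 0⟩, 0⟩, 0, 0⟩ 0 0)) (.void 115 ⟨⟨94390, 0, 0, 5610, 0, 0, 0, 0, 0, ⟨0, 0⟩, 0⟩, 0, 0⟩ 0 0))) (.cut .v 16777216 (.cut .v 8388608 (.cut .v 4194304 (.cut .v 2097152 (.cut .v 1048576 (.pos 111 .pm ⟨⟨0, 0, 23127961, 0, 0, 0, 0, 0, 0, ⟨0, 0⟩, 0⟩, 0, 4197⟩ 0 0) (.pos 112 .pm ⟨⟨0, 0, 25080914, 0, 0, 0, 0, 0, 0, ⟨0, 0⟩, 0⟩, 0, 6172⟩ 0 0)) (.pos 7 .pm ⟨⟨0, 0, 30363375, 0, 0, 0, 0, 0, 0, ⟨0, 0⟩, 0⟩, 0, 11658⟩ 0 0)) (.pos 5 .pm ⟨⟨0, 0, 26935702, 0, 0, 0, 0, 0, 0, ⟨0, 0⟩, 0⟩, 0, 0⟩ 0 0)) (.pos 3 .pm ⟨⟨0, 0, 0, 0, 0, 0, 0, 0, 0, ⟨0, 0⟩, 0⟩, 0, 0⟩ 0 0)) (.cut .v 268435456 (.cut .v 67108864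 (.cut .d 1837506 (.cut .v 33554432 (.cut .d 918753 (.cut .v 25165824 (.cut .d 459376 (.cut .d 229688 (.cut .v 20971520 (.cut .d 114844 (.cut .v 18874368 (.cut .v 17825792 (.cut .s 13860864 (.pos 31 .pp ⟨⟨548577011, 0, 0, 0, 0, 0, 0, 0, 0, ⟨0, 0⟩, 0⟩, 21732085, 0⟩ 0 0) (.pos 31 .pp ⟨⟨593344112, 0, 0, 0, 0, 0, 0, 0, 0, ⟨0, 0⟩, 0⟩, 22969619, 0⟩ 0 0)) (.pos 32 .pp ⟨⟨832038371, 0, 0, 0, 0, 0, 0, 0, 0, ⟨0, 0⟩, 0⟩, 0, 0⟩ 0 0)) (.pos 30 .pp ⟨⟨1007861956, 0, 0, 0, 0, 0, 0, 0, 0, ⟨0, 0⟩, 0⟩, 0, 0⟩ 0 0)) (.pos 27 .pp ⟨⟨665764293, 0, 0, 0, 0, 0, 0, 0, 0, ⟨0, 0⟩, 0⟩, 0, 4766⟩ 0 0)) (.cut .d 114844 (.void 28 ⟨⟨0, 0, 0, 0, 0, 0, 0, 0, 0, ⟨0, 0⟩, 0⟩,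 100000, 0⟩ 0 0) (.pos 28 .pp ⟨⟨0, 0, 0, 0, 0, 0, 0, 0, 0, ⟨0, 0⟩, 0⟩, 129760620, 0⟩ 0 0))) (.pos 25 .pp ⟨⟨0, 0, 0, 0, 0, 0, 0, 0, 0, ⟨0, 0⟩, 0⟩, 84102481, 20486⟩ 0 0)) (.pos 25 .pp ⟨⟨0, 0, 0, 0, 0, 0, 0, 0, 0, ⟨0, 0⟩, 0⟩, 0, 83312⟩ 0 0)) (.cut .d 459376 (.pos 26 .pp ⟨⟨0, 0, 0, 0, 0, 0, 0, 0, 0, ⟨0, 0⟩, 0⟩, 190053379, 0⟩ 0 0) (.pos 26 .pp ⟨⟨0, 0, 0, 0, 0, 0, 43698, 0, 0, ⟨0, 0⟩, 0⟩, 94272940, 0⟩ 0 0))) (.pos 24 .pp ⟨⟨0, 0, 0, 0, 0, 0, 0, 0, 0, ⟨0, 0⟩, 0⟩, 0, 92569⟩ 0 0)) (.cut .d 918753 (.cut .v 50331648 (.pos 96 .pp ⟨⟨0, 0, 0, 0, 0, 0, 0, 0, 0, ⟨0, 0⟩, 0⟩, 277916564, 0⟩ 0 0) (.void 97 ⟨⟨0, 0, 0, 0, 0, 0, 0, 0, 0, ⟨0, 0⟩, 0⟩, 100000,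 0⟩ 0 0)) (.pos 95 .pp ⟨⟨0, 0, 0, 0, 0, 0, 0, 0, 0, ⟨0, 0⟩, 0⟩, 121053939, 0⟩ 0 0))) (.pos 94 .pp ⟨⟨0, 0, 0, 0, 0, 0, 0, 0, 0, ⟨0, 0⟩, 0⟩, 0, 69427⟩ 0 0)) (.void 106 ⟨⟨0, 0, 0, 47859, 0, 0, 0, 0, 0, ⟨0, 0⟩, 0⟩, 52141, 0⟩ 0 0)) (.void 115 ⟨⟨0, 0, 0, 0, 0, 0, 0, 0, 0, ⟨0, 0⟩, 0⟩, 100000, 0⟩ 0 0)))),
    by decide +kernel⟩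

def covers26 : cell.Covers Vale.Agent.P237.Petty.Cor.Grid.N13.table row26.1 :=
  ⟨(.cut .d 0 (.cut .v 16777216 (.cut .v 8388608 (.void 2 ⟨⟨0, 0, 100000, 0, 0, 0, 0, 0, 0, ⟨0, 0⟩, 0⟩, 0, 0⟩ 0 0) (.cut .d (-8388608) (.void 3 ⟨⟨100000, 0, 0, 0, 0, 0, 0, 0, 0, ⟨0, 0⟩, 0⟩, 0, 0⟩ 0 0) (.cut .d (-4194304) (.void 3 ⟨⟨100000, 0, 0, 0, 0, 0, 0, 0, 0, ⟨0, 0⟩, 0⟩, 0, 0⟩ 0 0) (.cut .d (-2097152) (.void 3 ⟨⟨100000, 0, 0, 0, 0, 0, 0, 0, 0, ⟨0, 0⟩, 0⟩, 0, 0⟩ 0 0) (.cut .d (-1048576) (.void 3 ⟨⟨0, 0, 0, 0, 0, 100000, 0, 0, 0, ⟨0, 0⟩, 0⟩, 0, 0⟩ 0 0) (.cut .d (-524288) (.void 3 ⟨⟨0, 0, 0, 0, 0, 100000, 0, 0, 0, ⟨0, 0⟩, 0⟩, 0, 0⟩ 0 0) (.cut .d (-262144)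 (.void 3 ⟨⟨0, 0, 0, 0, 0, 100000, 0, 0, 0, ⟨0, 0⟩, 0⟩, 0, 0⟩ 0 0) (.cut .s 14057472 (.pos 3 .mm ⟨⟨0, 0, 0, 0, 0, 1619765723, 0, 0, 0, ⟨0, 0⟩, 0⟩, 0, 0⟩ 0 0) (.pos 3 .mm ⟨⟨0, 0, 0, 0, 0, 1763998318, 0, 0, 0, ⟨0, 0⟩, 0⟩, 0, 0⟩ 0 0))))))))) (.cut .v 268435456 (.cut .v 67108864 (.cut .v 33554432 (.cut .d (-8388608) (.void 24 ⟨⟨99984, 0, 0, 0, 0, 0, 0, 0, 0, ⟨0, 0⟩, 0⟩, 0, 0⟩ 0 0) (.cut .v 25165824 (.cut .d (-4194304) (.void 25 ⟨⟨100000, 0, 0, 0, 0, 0, 0, 0, 0, ⟨0, 0⟩, 0⟩, 0, 0⟩ 0 0) (.cut .v 20971520 (.cut .d (-2097152) (.void 27 ⟨⟨100000, 0, 0, 0, 0, 0, 0, 0, 0, ⟨0, 0⟩, 0⟩, 0, 0⟩ 0 0) (.cut .d (-1048576) (.void 27 ⟨⟨100000, 0, 0, 0, 0,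 0, 0, 0, 0, ⟨0, 0⟩, 0⟩, 0, 0⟩ 0 0) (.cut .v 18874368 (.cut .d (-524288) (.void 29 ⟨⟨100000, 0, 0, 0, 0, 0, 0, 0, 0, ⟨0, 0⟩, 0⟩, 0, 0⟩ 0 0) (.cut .v 17825792 (.cut .v 17301504 (.cut .d (-262144) (.void 33 ⟨⟨100000, 0, 0, 0, 0, 0, 0, 0, 0, ⟨0, 0⟩, 0⟩, 0, 0⟩ 0 0) (.cut .d (-131072) (.void 33 ⟨⟨100000, 0, 0, 0, 0, 0, 0, 0, 0, ⟨0, 0⟩, 0⟩, 0, 0⟩ 0 0) (.cut .d (-65536) (.void 33 ⟨⟨100000, 0, 0, 0, 0, 0, 0, 0, 0, ⟨0, 0⟩, 0⟩, 0, 0⟩ 0 0) (.cut .d (-32768) (.void 33 ⟨⟨100000, 0, 0, 0, 0, 0, 0, 0, 0, ⟨0, 0⟩, 0⟩, 0, 0⟩ 0 0) (.cut .d (-16384) (.void 33 ⟨⟨100000, 0, 0, 0, 0, 0, 0, 0, 0, ⟨0, 0⟩, 0⟩, 0, 0⟩ 0 0) (.cut .v 17039360 (.cut .v 16908288 (.cut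 .d (-8192) (.cut .v 16842752 (.cut .s 14057472 (.cut .s 14008320 (.pos 39 .mp ⟨⟨657729954, 0, 0, 0, 0, 405801513, 0, 0, 0, ⟨0, 0⟩, 0⟩, 0, 0⟩ 0 0) (.pos 39 .mp ⟨⟨682299703, 0, 0, 0, 0, 424576476, 0, 0, 0, ⟨0, 0⟩, 0⟩, 0, 0⟩ 0 0)) (.pos 39 .mp ⟨⟨708263916, 0, 0, 0, 0, 522022992, 0, 0, 0, ⟨0, 0⟩, 0⟩, 0, 0⟩ 0 0)) (.void 40 ⟨⟨100000, 0, 0, 0, 0, 0, 0, 0, 0, ⟨0, 0⟩, 0⟩, 0, 0⟩ 0 0)) (.cut .s 14057472 (.cut .v 16842752 (.cut .s 14008320 (.cut .s 13983744 (.cut .s 13971456 (.cut .v 16809984 (.cut .l 141961 (.cut .d (-4096) (.pos 49 .mp ⟨⟨654698972, 0, 0, 0, 0, 361020733, 0, 0, 0, ⟨0, 0⟩, 0⟩, 0, 0⟩ 0 0) (.cut .v 16793600 (.cut .s 13965312 (.pos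 51 .mp ⟨⟨659283749, 0, 0, 0, 0, 333025985, 0, 0, 0, ⟨0, 0⟩, 0⟩, 0, 0⟩ 0 0) (.pos 51 .mp ⟨⟨660759274, 0, 0, 0, 0, 337683015, 0, 0, 0, ⟨0, 0⟩, 0⟩, 0, 0⟩ 0 0)) (.pos 52 .mp ⟨⟨730963192, 0, 0, 0, 0, 207381756, 0, 0, 0, ⟨0, 0⟩, 0⟩, 0, 0⟩ 0 0))) (.pos 49 .mp ⟨⟨646492453, 0, 0, 0, 0, 358051590, 0, 0, 0, ⟨0, 0⟩, 0⟩, 0, 0⟩ 0 0)) (.pos 50 .mp ⟨⟨727318630, 0, 0, 0, 0, 216454041, 0, 0, 0, ⟨0, 0⟩, 0⟩, 0, 0⟩ 0 0)) (.cut .v 16809984 (.cut .s 13977600 (.cut .s 13974528 (.pos 49 .mp ⟨⟨663767378, 0, 0, 0, 0, 339177954, 0, 0, 0, ⟨0, 0⟩, 0⟩, 0, 0⟩ 0 0) (.pos 49 .mp ⟨⟨664643918, 0, 0, 0, 0, 341291795, 0, 0, 0, ⟨0, 0⟩, 0⟩, 0, 0⟩ 0 0)) (.cut .s 13980672 (.pos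 49 .mp ⟨⟨665939000, 0, 0, 0, 0, 342607631, 0, 0, 0, ⟨0, 0⟩, 0⟩, 0, 0⟩ 0 0) (.pos 49 .mp ⟨⟨667249904, 0, 0, 0, 0, 343909165, 0, 0, 0, ⟨0, 0⟩, 0⟩, 0, 0⟩ 0 0))) (.pos 50 .mp ⟨⟨732498957, 0, 0, 0, 0, 221396587, 0, 0, 0, ⟨0, 0⟩, 0⟩, 0, 0⟩ 0 0))) (.cut .s 13996032 (.cut .v 16809984 (.cut .s 13989888 (.cut .s 13986816 (.pos 49 .mp ⟨⟨668576779, 0, 0, 0, 0, 345196122, 0, 0, 0, ⟨0, 0⟩, 0⟩, 0, 0⟩ 0 0) (.cut .s 13988352 (.pos 49 .mp ⟨⟨676445175, 0, 0, 0, 0, 332820113, 0, 0, 0, ⟨0, 0⟩, 0⟩, 0, 0⟩ 0 0) (.pos 49 .mp ⟨⟨676965497, 0, 0, 0, 0, 333754146, 0, 0, 0, ⟨0, 0⟩, 0⟩, 0, 0⟩ 0 0))) (.cut .d (-4096) (.pos 49 .mp ⟨⟨661473412, 0, 0, 0, 0, 374781033,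 0, 0, 0, ⟨0, 0⟩, 0⟩, 0, 0⟩ 0 0) (.cut .s 13992960 (.pos 49 .mp ⟨⟨679082504, 0, 0, 0, 0, 331469294, 0, 0, 0, ⟨0, 0⟩, 0⟩, 0, 0⟩ 0 0) (.pos 49 .mp ⟨⟨680574557, 0, 0, 0, 0, 332438233, 0, 0, 0, ⟨0, 0⟩, 0⟩, 0, 0⟩ 0 0)))) (.pos 50 .mp ⟨⟨738060471, 0, 0, 0, 0, 225897322, 0, 0, 0, ⟨0, 0⟩, 0⟩, 0, 0⟩ 0 0)) (.cut .v 16809984 (.cut .s 14002176 (.cut .d (-4096) (.pos 49 .mp ⟨⟨664655053, 0, 0, 0, 0, 376390213, 0, 0, 0, ⟨0, 0⟩, 0⟩, 0, 0⟩ 0 0) (.cut .s 13999104 (.pos 49 .mp ⟨⟨682345325, 0, 0, 0, 0, 332889606, 0, 0, 0, ⟨0, 0⟩, 0⟩, 0, 0⟩ 0 0) (.pos 49 .mp ⟨⟨684114208, 0, 0, 0, 0, 333362744, 0, 0, 0, ⟨0, 0⟩, 0⟩, 0, 0⟩ 0 0))) (.cut .d (-4096) (.pos 49 .mp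 ⟨⟨667855876, 0, 0, 0, 0, 378040623, 0, 0, 0, ⟨0, 0⟩, 0⟩, 0, 0⟩ 0 0) (.cut .s 14005248 (.pos 49 .mp ⟨⟨685881109, 0, 0, 0, 0, 333857888, 0, 0, 0, ⟨0, 0⟩, 0⟩, 0, 0⟩ 0 0) (.pos 49 .mp ⟨⟨687537638, 0, 0, 0, 0, 334595931, 0, 0, 0, ⟨0, 0⟩, 0⟩, 0, 0⟩ 0 0)))) (.pos 50 .mp ⟨⟨744019363, 0, 0, 0, 0, 229927015, 0, 0, 0, ⟨0, 0⟩, 0⟩, 0, 0⟩ 0 0)))) (.cut .s 14032896 (.cut .s 14020608 (.cut .v 16809984 (.cut .s 14014464 (.cut .d (-4096) (.pos 49 .mp ⟨⟨671076004, 0, 0, 0, 0, 379732554, 0, 0, 0, ⟨0, 0⟩, 0⟩, 0, 0⟩ 0 0) (.cut .s 14011392 (.pos 49 .mp ⟨⟨689193531, 0, 0, 0, 0, 335353372, 0, 0, 0, ⟨0, 0⟩, 0⟩, 0, 0⟩ 0 0) (.pos 49 .mp ⟨⟨690854481, 0, 0, 0, 0,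 336118649, 0, 0, 0, ⟨0, 0⟩, 0⟩, 0, 0⟩ 0 0))) (.cut .d (-4096) (.pos 49 .mp ⟨⟨674315563, 0, 0, 0, 0, 381466301, 0, 0, 0, ⟨0, 0⟩, 0⟩, 0, 0⟩ 0 0) (.cut .s 14017536 (.pos 49 .mp ⟨⟨692520504, 0, 0, 0, 0, 336891768, 0, 0, 0, ⟨0, 0⟩, 0⟩, 0, 0⟩ 0 0) (.pos 49 .mp ⟨⟨694191617, 0, 0, 0, 0, 337672731, 0, 0, 0, ⟨0, 0⟩, 0⟩, 0, 0⟩ 0 0)))) (.pos 50 .mp ⟨⟨750392071, 0, 0, 0, 0, 233455928, 0, 0, 0, ⟨0, 0⟩, 0⟩, 0, 0⟩ 0 0)) (.cut .v 16809984 (.cut .s 14026752 (.cut .d (-4096) (.pos 49 .mp ⟨⟨677574681, 0, 0, 0, 0, 383242160, 0, 0, 0, ⟨0, 0⟩, 0⟩, 0, 0⟩ 0 0) (.cut .s 14023680 (.pos 49 .mp ⟨⟨695867836, 0, 0, 0, 0, 338461545, 0, 0, 0, ⟨0, 0⟩, 0⟩, 0, 0⟩ 0 0)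 (.pos 49 .mp ⟨⟨697549178, 0, 0, 0, 0, 339258212, 0, 0, 0, ⟨0, 0⟩, 0⟩, 0, 0⟩ 0 0))) (.cut .d (-4096) (.pos 49 .mp ⟨⟨680853485, 0, 0, 0, 0, 385060430, 0, 0, 0, ⟨0, 0⟩, 0⟩, 0, 0⟩ 0 0) (.cut .s 14029824 (.pos 49 .mp ⟨⟨699235660, 0, 0, 0, 0, 340062737, 0, 0, 0, ⟨0, 0⟩, 0⟩, 0, 0⟩ 0 0) (.pos 49 .mp ⟨⟨700927298, 0, 0, 0, 0, 340875125, 0, 0, 0, ⟨0, 0⟩, 0⟩, 0, 0⟩ 0 0)))) (.pos 50 .mp ⟨⟨757195287, 0, 0, 0, 0, 236453804, 0, 0, 0, ⟨0, 0⟩, 0⟩, 0, 0⟩ 0 0))) (.cut .s 14045184 (.cut .v 16809984 (.cut .s 14039040 (.cut .d (-4096) (.pos 49 .mp ⟨⟨684152104, 0, 0, 0, 0, 386921412, 0, 0, 0, ⟨0, 0⟩, 0⟩, 0, 0⟩ 0 0) (.cut .s 14035968 (.pos 49 .mp ⟨⟨702624110,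 0, 0, 0, 0, 341695378, 0, 0, 0, ⟨0, 0⟩, 0⟩, 0, 0⟩ 0 0) (.pos 49 .mp ⟨⟨704326112, 0, 0, 0, 0, 342523502, 0, 0, 0, ⟨0, 0⟩, 0⟩, 0, 0⟩ 0 0))) (.cut .d (-4096) (.pos 49 .mp ⟨⟨687470670, 0, 0, 0, 0, 388825410, 0, 0, 0, ⟨0, 0⟩, 0⟩, 0, 0⟩ 0 0) (.cut .s 14042112 (.pos 49 .mp ⟨⟨706033322, 0, 0, 0, 0, 343359500, 0, 0, 0, ⟨0, 0⟩, 0⟩, 0, 0⟩ 0 0) (.pos 49 .mp ⟨⟨707745757, 0, 0, 0, 0, 344203377, 0, 0, 0, ⟨0, 0⟩, 0⟩, 0, 0⟩ 0 0)))) (.pos 50 .mp ⟨⟨764445966, 0, 0, 0, 0, 238889856, 0, 0, 0, ⟨0, 0⟩, 0⟩, 0, 0⟩ 0 0)) (.cut .v 16809984 (.cut .s 14051328 (.cut .d (-4096) (.pos 49 .mp ⟨⟨690809312, 0, 0, 0, 0, 390772732, 0, 0, 0, ⟨0, 0⟩, 0⟩, 0, 0⟩ 0 0) (.cut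 .s 14048256 (.pos 49 .mp ⟨⟨709463434, 0, 0, 0, 0, 345055135, 0, 0, 0, ⟨0, 0⟩, 0⟩, 0, 0⟩ 0 0) (.pos 49 .mp ⟨⟨711186370, 0, 0, 0, 0, 345914779, 0, 0, 0, ⟨0, 0⟩, 0⟩, 0, 0⟩ 0 0))) (.cut .d (-4096) (.pos 49 .mp ⟨⟨694168164, 0, 0, 0, 0, 392763687, 0, 0, 0, ⟨0, 0⟩, 0⟩, 0, 0⟩ 0 0) (.cut .s 14054400 (.pos 49 .mp ⟨⟨712914583, 0, 0, 0, 0, 346782312, 0, 0, 0, ⟨0, 0⟩, 0⟩, 0, 0⟩ 0 0) (.pos 49 .mp ⟨⟨714648090, 0, 0, 0, 0, 347657739, 0, 0, 0, ⟨0, 0⟩, 0⟩, 0, 0⟩ 0 0)))) (.pos 50 .mp ⟨⟨772161325, 0, 0, 0, 0, 240732754, 0, 0, 0, ⟨0, 0⟩, 0⟩, 0, 0⟩ 0 0))))) (.pos 40 .mp ⟨⟨881129498, 0, 0, 0, 0, 0, 0, 0, 0, ⟨0, 0⟩, 0⟩, 0, 0⟩ 0 0)) (.cut .s 14106624 (.cut .v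 16842752 (.cut .s 14082048 (.cut .s 14069760 (.cut .v 16809984 (.cut .s 14063616 (.cut .d (-4096) (.pos 49 .mp ⟨⟨697547361, 0, 0, 0, 0, 394798588, 0, 0, 0, ⟨0, 0⟩, 0⟩, 0, 0⟩ 0 0) (.cut .s 14060544 (.pos 49 .mp ⟨⟨716386909, 0, 0, 0, 0, 348541063, 0, 0, 0, ⟨0, 0⟩, 0⟩, 0, 0⟩ 0 0) (.pos 49 .mp ⟨⟨718131057, 0, 0, 0, 0, 349432286, 0, 0, 0, ⟨0, 0⟩, 0⟩, 0, 0⟩ 0 0))) (.cut .d (-4096) (.pos 49 .mp ⟨⟨700947036, 0, 0, 0, 0, 396877750, 0, 0, 0, ⟨0, 0⟩, 0⟩, 0, 0⟩ 0 0) (.cut .s 14066688 (.pos 49 .mp ⟨⟨719880552, 0, 0, 0, 0, 350331414, 0, 0, 0, ⟨0, 0⟩, 0⟩, 0, 0⟩ 0 0) (.pos 49 .mp ⟨⟨721635412, 0, 0, 0, 0, 351238449, 0, 0, 0, ⟨0, 0⟩, 0⟩, 0, 0⟩ 0 0))))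 (.pos 50 .mp ⟨⟨780358854, 0, 0, 0, 0, 241950612, 0, 0, 0, ⟨0, 0⟩, 0⟩, 0, 0⟩ 0 0)) (.cut .v 16809984 (.cut .s 14075904 (.cut .d (-4096) (.pos 49 .mp ⟨⟨704367326, 0, 0, 0, 0, 399001491, 0, 0, 0, ⟨0, 0⟩, 0⟩, 0, 0⟩ 0 0) (.cut .s 14072832 (.pos 49 .mp ⟨⟨723395655, 0, 0, 0, 0, 352153395, 0, 0, 0, ⟨0, 0⟩, 0⟩, 0, 0⟩ 0 0) (.pos 49 .mp ⟨⟨725161298, 0, 0, 0, 0, 353076255, 0, 0, 0, ⟨0, 0⟩, 0⟩, 0, 0⟩ 0 0))) (.cut .d (-4096) (.pos 49 .mp ⟨⟨707808369, 0, 0, 0, 0, 401170133, 0, 0, 0, ⟨0, 0⟩, 0⟩, 0, 0⟩ 0 0) (.cut .s 14078976 (.pos 49 .mp ⟨⟨726932360, 0, 0, 0, 0, 354007032, 0, 0, 0, ⟨0, 0⟩, 0⟩, 0, 0⟩ 0 0) (.pos 49 .mp ⟨⟨728708858, 0, 0, 0, 0, 354945729,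 0, 0, 0, ⟨0, 0⟩, 0⟩, 0, 0⟩ 0 0)))) (.pos 50 .mp ⟨⟨789056325, 0, 0, 0, 0, 242510976, 0, 0, 0, ⟨0, 0⟩, 0⟩, 0, 0⟩ 0 0))) (.cut .s 14094336 (.cut .v 16809984 (.cut .s 14088192 (.cut .d (-4096) (.pos 49 .mp ⟨⟨711270303, 0, 0, 0, 0, 403383999, 0, 0, 0, ⟨0, 0⟩, 0⟩, 0, 0⟩ 0 0) (.cut .s 14085120 (.pos 49 .mp ⟨⟨730490812, 0, 0, 0, 0, 355892350, 0, 0, 0, ⟨0, 0⟩, 0⟩, 0, 0⟩ 0 0) (.pos 49 .mp ⟨⟨732278239, 0, 0, 0, 0, 356846898, 0, 0, 0, ⟨0, 0⟩, 0⟩, 0, 0⟩ 0 0))) (.cut .d (-4096) (.pos 49 .mp ⟨⟨714753270, 0, 0, 0, 0, 405643416, 0, 0, 0, ⟨0, 0⟩, 0⟩, 0, 0⟩ 0 0) (.cut .s 14091264 (.pos 49 .mp ⟨⟨734071158, 0, 0, 0, 0, 357809376, 0, 0, 0, ⟨0, 0⟩, 0⟩, 0,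 0⟩ 0 0) (.pos 49 .mp ⟨⟨735794663, 0, 0, 0, 0, 358932917, 0, 0, 0, ⟨0, 0⟩, 0⟩, 0, 0⟩ 0 0)))) (.pos 50 .mp ⟨⟨798271792, 0, 0, 0, 0, 242380813, 0, 0, 0, ⟨0, 0⟩, 0⟩, 0, 0⟩ 0 0)) (.cut .v 16809984 (.cut .s 14100480 (.cut .d (-4096) (.pos 49 .mp ⟨⟨718257409, 0, 0, 0, 0, 407948715, 0, 0, 0, ⟨0, 0⟩, 0⟩, 0, 0⟩ 0 0) (.cut .s 14097408 (.pos 49 .mp ⟨⟨737452921, 0, 0, 0, 0, 360209094, 0, 0, 0, ⟨0, 0⟩, 0⟩, 0, 0⟩ 0 0) (.pos 49 .mp ⟨⟨739145106, 0, 0, 0, 0, 361439668, 0, 0, 0, ⟨0, 0⟩, 0⟩, 0, 0⟩ 0 0))) (.cut .d (-4096) (.pos 49 .mp ⟨⟨721782864, 0, 0, 0, 0, 410300227, 0, 0, 0, ⟨0, 0⟩, 0⟩, 0, 0⟩ 0 0) (.cut .s 14103552 (.pos 49 .mp ⟨⟨741166406, 0, 0, 0,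 0, 362054216, 0, 0, 0, ⟨0, 0⟩, 0⟩, 0, 0⟩ 0 0) (.pos 49 .mp ⟨⟨743206585, 0, 0, 0, 0, 362652125, 0, 0, 0, ⟨0, 0⟩, 0⟩, 0, 0⟩ 0 0)))) (.pos 50 .mp ⟨⟨808023602, 0, 0, 0, 0, 241526493, 0, 0, 0, ⟨0, 0⟩, 0⟩, 0, 0⟩ 0 0)))) (.pos 40 .mp ⟨⟨930267802, 0, 0, 0, 0, 0, 0, 0, 0, ⟨0, 0⟩, 0⟩, 0, 0⟩ 0 0)) (.cut .v 16842752 (.cut .s 14131200 (.cut .s 14118912 (.cut .v 16809984 (.cut .s 14112768 (.cut .s 14109696 (.pos 49 .mp ⟨⟨736535967, 0, 0, 0, 0, 381415753, 0, 0, 0, ⟨0, 0⟩, 0⟩, 0, 0⟩ 0 0) (.pos 49 .mp ⟨⟨738653592, 0, 0, 0, 0, 381853361, 0, 0, 0, ⟨0, 0⟩, 0⟩, 0, 0⟩ 0 0)) (.cut .s 14115840 (.pos 49 .mp ⟨⟨740813533, 0, 0, 0, 0, 382225557, 0, 0, 0, ⟨0, 0⟩,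 0⟩, 0, 0⟩ 0 0) (.pos 49 .mp ⟨⟨743432285, 0, 0, 0, 0, 381718072, 0, 0, 0, ⟨0, 0⟩, 0⟩, 0, 0⟩ 0 0))) (.pos 50 .mp ⟨⟨818330400, 0, 0, 0, 0, 239913780, 0, 0, 0, ⟨0, 0⟩, 0⟩, 0, 0⟩ 0 0)) (.cut .v 16809984 (.cut .l 141961 (.cut .d (-4096) (.pos 49 .mp ⟨⟨741460455, 0, 0, 0, 0, 414332125, 0, 0, 0, ⟨0, 0⟩, 0⟩, 0, 0⟩ 0 0) (.cut .v 16793600 (.cut .s 14125056 (.pos 51 .mp ⟨⟨744312064, 0, 0, 0, 0, 384964346, 0, 0, 0, ⟨0, 0⟩, 0⟩, 0, 0⟩ 0 0) (.pos 51 .mp ⟨⟨749622046, 0, 0, 0, 0, 383896851, 0, 0, 0, ⟨0, 0⟩, 0⟩, 0, 0⟩ 0 0)) (.pos 52 .mp ⟨⟨833499557, 0, 0, 0, 0, 226808172, 0, 0, 0, ⟨0, 0⟩, 0⟩, 0, 0⟩ 0 0))) (.pos 49 .mp ⟨⟨732666224, 0, 0, 0, 0, 408125719,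 0, 0, 0, ⟨0, 0⟩, 0⟩, 0, 0⟩ 0 0)) (.pos 50 .mp ⟨⟨829211139, 0, 0, 0, 0, 237507813, 0, 0, 0, ⟨0, 0⟩, 0⟩, 0, 0⟩ 0 0))) (.cut .s 14143488 (.cut .v 16809984 (.cut .d (-4096) (.pos 49 .mp ⟨⟨739734960, 0, 0, 0, 0, 427723081, 0, 0, 0, ⟨0, 0⟩, 0⟩, 0, 0⟩ 0 0) (.cut .s 14137344 (.cut .s 14134272 (.pos 49 .mp ⟨⟨762445154, 0, 0, 0, 0, 367238508, 0, 0, 0, ⟨0, 0⟩, 0⟩, 0, 0⟩ 0 0) (.pos 49 .mp ⟨⟨764683302, 0, 0, 0, 0, 367654584, 0, 0, 0, ⟨0, 0⟩, 0⟩, 0, 0⟩ 0 0)) (.pos 49 .mp ⟨⟨765409194, 0, 0, 0, 0, 372082232, 0, 0, 0, ⟨0, 0⟩, 0⟩, 0, 0⟩ 0 0))) (.pos 50 .mp ⟨⟨840685086, 0, 0, 0, 0, 234273097, 0, 0, 0, ⟨0, 0⟩, 0⟩, 0, 0⟩ 0 0)) (.cut .v 16809984 (.cut .d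 (-4096) (.pos 49 .mp ⟨⟨747070153, 0, 0, 0, 0, 433126406, 0, 0, 0, ⟨0, 0⟩, 0⟩, 0, 0⟩ 0 0) (.cut .s 14149632 (.pos 49 .mp ⟨⟨769205062, 0, 0, 0, 0, 374272990, 0, 0, 0, ⟨0, 0⟩, 0⟩, 0, 0⟩ 0 0) (.pos 49 .mp ⟨⟨773024439, 0, 0, 0, 0, 376495502, 0, 0, 0, ⟨0, 0⟩, 0⟩, 0, 0⟩ 0 0))) (.pos 50 .mp ⟨⟨852771826, 0, 0, 0, 0, 230173480, 0, 0, 0, ⟨0, 0⟩, 0⟩, 0, 0⟩ 0 0)))) (.pos 40 .mp ⟨⟨967798274, 0, 0, 0, 0, 0, 0, 0, 0, ⟨0, 0⟩, 0⟩, 0, 0⟩ 0 0))))) (.pos 38 .mp ⟨⟨963468059, 0, 0, 0, 0, 0, 0, 0, 0, ⟨0, 0⟩, 0⟩, 0, 0⟩ 0 0)) (.pos 36 .mp ⟨⟨1001473065, 0, 0, 0, 0, 0, 0, 0, 0, ⟨0, 0⟩, 0⟩, 0, 0⟩ 0 0))))))) (.void 34 ⟨⟨100000, 0, 0, 0, 0, 0, 0, 0, 0, ⟨0, 0⟩, 0⟩,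 0, 0⟩ 0 0)) (.void 32 ⟨⟨100000, 0, 0, 0, 0, 0, 0, 0, 0, ⟨0, 0⟩, 0⟩, 0, 0⟩ 0 0))) (.void 30 ⟨⟨100000, 0, 0, 0, 0, 0, 0, 0, 0, ⟨0, 0⟩, 0⟩, 0, 0⟩ 0 0)))) (.void 28 ⟨⟨100000, 0, 0, 0, 0, 0, 0, 0, 0, ⟨0, 0⟩, 0⟩, 0, 0⟩ 0 0))) (.void 26 ⟨⟨100000, 0, 0, 0, 0, 0, 0, 0, 0, ⟨0, 0⟩, 0⟩, 0, 0⟩ 0 0))) (.void 95 ⟨⟨100000, 0, 0, 0, 0, 0, 0, 0, 0, ⟨0, 0⟩, 0⟩, 0, 0⟩ 0 0)) (.void 106 ⟨⟨100000, 0, 0, 0, 0, 0, 0, 0, 0, ⟨0, 0⟩, 0⟩, 0, 0⟩ 0 0)) (.void 115 ⟨⟨94316, 0, 0, 5684, 0, 0, 0, 0, 0, ⟨0, 0⟩, 0⟩, 0, 0⟩ 0 0))) (.cut .v 16777216 (.cut .v 8388608 (.cut .v 4194304 (.cut .v 2097152 (.cut .v 1048576 (.pos 111 .pm ⟨⟨0, 0, 25535488, 0, 0, 0, 0, 0, 0, ⟨0, 0⟩,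 0⟩, 0, 1575⟩ 0 0) (.pos 112 .pm ⟨⟨0, 0, 28949843, 0, 0, 0, 0, 0, 0, ⟨0, 0⟩, 0⟩, 0, 4541⟩ 0 0)) (.pos 7 .pm ⟨⟨0, 0, 38894597, 0, 0, 0, 0, 0, 0, ⟨0, 0⟩, 0⟩, 0, 8577⟩ 0 0)) (.pos 5 .pm ⟨⟨0, 0, 106059536, 0, 0, 0, 0, 0, 0, ⟨0, 0⟩, 0⟩, 0, 15439⟩ 0 0)) (.pos 3 .pm ⟨⟨0, 0, 0, 0, 0, 0, 0, 0, 0, ⟨0, 0⟩, 0⟩, 0, 0⟩ 0 0)) (.cut .v 268435456 (.cut .v 67108864 (.cut .d 1693476 (.cut .v 33554432 (.cut .d 846738 (.cut .d 423369 (.cut .v 25165824 (.cut .d 211684 (.cut .v 20971520 (.cut .d 105842 (.cut .v 18874368 (.cut .v 17825792 (.cut .s 14057472 (.pos 31 .pp ⟨⟨642800866, 0, 0, 0, 0, 0, 0, 0, 0, ⟨0, 0⟩, 0⟩, 24397723, 0⟩ 0 0) (.pos 31 .pp ⟨⟨699394766,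 0, 0, 0, 0, 0, 0, 0, 0, ⟨0, 0⟩, 0⟩, 25538847, 0⟩ 0 0)) (.pos 32 .pp ⟨⟨965923666, 0, 0, 0, 0, 0, 0, 0, 0, ⟨0, 0⟩, 0⟩, 0, 0⟩ 0 0)) (.pos 30 .pp ⟨⟨1170433417, 0, 0, 0, 0, 0, 0, 0, 0, ⟨0, 0⟩, 0⟩, 0, 0⟩ 0 0)) (.pos 27 .pp ⟨⟨771839345, 0, 0, 0, 0, 0, 0, 0, 0, ⟨0, 0⟩, 0⟩, 0, 3546⟩ 0 0)) (.cut .d 105842 (.void 28 ⟨⟨0, 0, 0, 0, 0, 0, 0, 0, 0, ⟨0, 0⟩, 0⟩, 100000, 0⟩ 0 0) (.pos 28 .pp ⟨⟨0, 0, 0, 0, 0, 0, 0, 0, 0, ⟨0, 0⟩, 0⟩, 150670219, 0⟩ 0 0))) (.pos 25 .pp ⟨⟨0, 0, 0, 0, 0, 0, 0, 0, 0, ⟨0, 0⟩, 0⟩, 97540917, 15417⟩ 0 0)) (.pos 26 .pp ⟨⟨0, 0, 0, 0, 0, 0, 0, 0, 0, ⟨0, 0⟩, 0⟩, 220119864, 0⟩ 0 0)) (.pos 24 .pp ⟨⟨0, 0, 0, 0, 0, 0, 0, 0, 0, ⟨0, 0⟩, 0⟩,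 93161629, 17079⟩ 0 0)) (.pos 24 .pp ⟨⟨0, 0, 0, 0, 0, 0, 0, 0, 0, ⟨0, 0⟩, 0⟩, 0, 69914⟩ 0 0)) (.cut .d 846738 (.cut .v 50331648 (.pos 96 .pp ⟨⟨0, 0, 0, 0, 0, 0, 0, 0, 0, ⟨0, 0⟩, 0⟩, 320742806, 0⟩ 0 0) (.void 97 ⟨⟨0, 0, 0, 0, 0, 0, 0, 0, 0, ⟨0, 0⟩, 0⟩, 100000, 0⟩ 0 0)) (.pos 95 .pp ⟨⟨0, 0, 0, 0, 0, 0, 0, 0, 0, ⟨0, 0⟩, 0⟩, 143107943, 0⟩ 0 0))) (.pos 94 .pp ⟨⟨0, 0, 0, 0, 0, 0, 0, 0, 0, ⟨0, 0⟩, 0⟩, 0, 52436⟩ 0 0)) (.void 106 ⟨⟨0, 0, 0, 48144, 0, 0, 0, 0, 0, ⟨0, 0⟩, 0⟩, 51856, 0⟩ 0 0)) (.void 115 ⟨⟨0, 0, 0, 0, 0, 0, 0, 0, 0, ⟨0, 0⟩, 0⟩, 100000, 0⟩ 0 0)))),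
    by decide +kernel⟩

def covers27 : cell.Covers Vale.Agent.P237.Petty.Cor.Grid.N13.table row27.1 :=
  ⟨(.cut .d 0 (.cut .v 16777216 (.cut .v 8388608 (.void 2 ⟨⟨0, 0, 100000, 0, 0, 0, 0, 0, 0, ⟨0, 0⟩, 0⟩, 0, 0⟩ 0 0) (.cut .d (-8388608) (.void 3 ⟨⟨100000, 0, 0, 0, 0, 0, 0, 0, 0, ⟨0, 0⟩, 0⟩, 0, 0⟩ 0 0) (.cut .d (-4194304) (.void 3 ⟨⟨100000, 0, 0, 0, 0, 0, 0, 0, 0, ⟨0, 0⟩, 0⟩, 0, 0⟩ 0 0) (.cut .d (-2097152) (.void 3 ⟨⟨100000, 0, 0, 0, 0, 0, 0, 0, 0, ⟨0, 0⟩, 0⟩, 0, 0⟩ 0 0) (.cut .d (-1048576) (.void 3 ⟨⟨0, 0, 0, 0, 0, 100000, 0, 0, 0, ⟨0, 0⟩, 0⟩, 0, 0⟩ 0 0) (.cut .d (-524288) (.void 3 ⟨⟨0, 0, 0, 0, 0, 100000, 0, 0, 0, ⟨0, 0⟩, 0⟩, 0, 0⟩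 0 0) (.cut .d (-262144) (.void 3 ⟨⟨0, 0, 0, 0, 0, 100000, 0, 0, 0, ⟨0, 0⟩, 0⟩, 0, 0⟩ 0 0) (.cut .s 14237696 (.pos 3 .mm ⟨⟨0, 0, 0, 0, 0, 1897343674, 0, 0, 0, ⟨0, 0⟩, 0⟩, 0, 0⟩ 0 0) (.pos 3 .mm ⟨⟨0, 0, 0, 0, 0, 2042099676, 0, 0, 0, ⟨0, 0⟩, 0⟩, 0, 0⟩ 0 0))))))))) (.cut .v 268435456 (.cut .v 67108864 (.cut .v 33554432 (.cut .d (-8388608) (.void 24 ⟨⟨100000, 0, 0, 0, 0, 0, 0, 0, 0, ⟨0, 0⟩, 0⟩, 0, 0⟩ 0 0) (.cut .v 25165824 (.cut .d (-4194304) (.void 25 ⟨⟨100000, 0, 0, 0, 0, 0, 0, 0, 0, ⟨0, 0⟩, 0⟩, 0, 0⟩ 0 0) (.cut .d (-2097152) (.void 25 ⟨⟨100000, 0, 0, 0, 0, 0, 0, 0, 0, ⟨0, 0⟩, 0⟩, 0, 0⟩ 0 0) (.cut .v 20971520 (.cut .d (-1048576) (.void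 27 ⟨⟨100000, 0, 0, 0, 0, 0, 0, 0, 0, ⟨0, 0⟩, 0⟩, 0, 0⟩ 0 0) (.cut .v 18874368 (.cut .d (-524288) (.void 29 ⟨⟨100000, 0, 0, 0, 0, 0, 0, 0, 0, ⟨0, 0⟩, 0⟩, 0, 0⟩ 0 0) (.cut .v 17825792 (.cut .d (-262144) (.void 31 ⟨⟨100000, 0, 0, 0, 0, 0, 0, 0, 0, ⟨0, 0⟩, 0⟩, 0, 0⟩ 0 0) (.cut .v 17301504 (.cut .d (-131072) (.void 33 ⟨⟨100000, 0, 0, 0, 0, 0, 0, 0, 0, ⟨0, 0⟩, 0⟩, 0, 0⟩ 0 0) (.cut .v 17039360 (.cut .d (-65536) (.void 35 ⟨⟨100000, 0, 0, 0, 0, 0, 0, 0, 0, ⟨0, 0⟩, 0⟩, 0, 0⟩ 0 0) (.cut .d (-32768) (.void 35 ⟨⟨100000, 0, 0, 0, 0, 0, 0, 0, 0, ⟨0, 0⟩, 0⟩, 0, 0⟩ 0 0) (.cut .d (-16384) (.void 35 ⟨⟨100000, 0, 0, 0, 0, 0, 0, 0, 0, ⟨0, 0⟩, 0⟩, 0, 0⟩ 0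 0) (.cut .d (-8192) (.void 35 ⟨⟨0, 0, 0, 0, 0, 100000, 0, 0, 0, ⟨0, 0⟩, 0⟩, 0, 0⟩ 0 0) (.cut .v 16908288 (.cut .s 14237696 (.cut .v 16842752 (.cut .s 14196736 (.cut .s 14176256 (.cut .v 16809984 (.cut .s 14166016 (.cut .s 14160896 (.pos 49 .mp ⟨⟨769742807, 0, 0, 0, 0, 393381795, 0, 0, 0, ⟨0, 0⟩, 0⟩, 0, 0⟩ 0 0) (.pos 49 .mp ⟨⟨770895038, 0, 0, 0, 0, 398734004, 0, 0, 0, ⟨0, 0⟩, 0⟩, 0, 0⟩ 0 0)) (.cut .d (-4096) (.pos 49 .mp ⟨⟨760769774, 0, 0, 0, 0, 439706327, 0, 0, 0, ⟨0, 0⟩, 0⟩, 0, 0⟩ 0 0) (.cut .s 14171136 (.pos 49 .mp ⟨⟨782607388, 0, 0, 0, 0, 382142724, 0, 0, 0, ⟨0, 0⟩, 0⟩, 0, 0⟩ 0 0) (.pos 49 .mp ⟨⟨785932156, 0, 0, 0, 0, 383205565, 0,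 0, 0, ⟨0, 0⟩, 0⟩, 0, 0⟩ 0 0)))) (.pos 50 .mp ⟨⟨897833174, 0, 0, 0, 0, 171873390, 0, 0, 0, ⟨0, 0⟩, 0⟩, 0, 0⟩ 0 0)) (.cut .s 14186496 (.cut .v 16809984 (.cut .d (-4096) (.pos 49 .mp ⟨⟨767114437, 0, 0, 0, 0, 442496106, 0, 0, 0, ⟨0, 0⟩, 0⟩, 0, 0⟩ 0 0) (.cut .s 14181376 (.pos 49 .mp ⟨⟨789203566, 0, 0, 0, 0, 384491049, 0, 0, 0, ⟨0, 0⟩, 0⟩, 0, 0⟩ 0 0) (.pos 49 .mp ⟨⟨792492670, 0, 0, 0, 0, 385803587, 0, 0, 0, ⟨0, 0⟩, 0⟩, 0, 0⟩ 0 0))) (.pos 50 .mp ⟨⟨860625388, 0, 0, 0, 0, 261922114, 0, 0, 0, ⟨0, 0⟩, 0⟩, 0, 0⟩ 0 0)) (.cut .v 16809984 (.cut .d (-4096) (.pos 49 .mp ⟨⟨773526943, 0, 0, 0, 0, 445430042, 0, 0, 0, ⟨0, 0⟩, 0⟩, 0, 0⟩ 0 0) (.cut .s 14191616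 (.pos 49 .mp ⟨⟨795799569, 0, 0, 0, 0, 387143195, 0, 0, 0, ⟨0, 0⟩, 0⟩, 0, 0⟩ 0 0) (.pos 49 .mp ⟨⟨799124369, 0, 0, 0, 0, 388509894, 0, 0, 0, ⟨0, 0⟩, 0⟩, 0, 0⟩ 0 0))) (.pos 50 .mp ⟨⟨865681827, 0, 0, 0, 0, 267608212, 0, 0, 0, ⟨0, 0⟩, 0⟩, 0, 0⟩ 0 0)))) (.cut .s 14217216 (.cut .s 14206976 (.cut .v 16809984 (.cut .d (-4096) (.pos 49 .mp ⟨⟨780008082, 0, 0, 0, 0, 448509950, 0, 0, 0, ⟨0, 0⟩, 0⟩, 0, 0⟩ 0 0) (.cut .s 14201856 (.pos 49 .mp ⟨⟨802467172, 0, 0, 0, 0, 389903701, 0, 0, 0, ⟨0, 0⟩, 0⟩, 0, 0⟩ 0 0) (.cut .s 14204416 (.pos 49 .mp ⟨⟨805797235, 0, 0, 0, 0, 390271746, 0, 0, 0, ⟨0, 0⟩, 0⟩, 0, 0⟩ 0 0) (.pos 49 .mp ⟨⟨807247977, 0, 0, 0, 0, 391424856,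 0, 0, 0, ⟨0, 0⟩, 0⟩, 0, 0⟩ 0 0)))) (.pos 50 .mp ⟨⟨871116675, 0, 0, 0, 0, 272824490, 0, 0, 0, ⟨0, 0⟩, 0⟩, 0, 0⟩ 0 0)) (.cut .v 16809984 (.cut .d (-4096) (.pos 49 .mp ⟨⟨786558657, 0, 0, 0, 0, 451737675, 0, 0, 0, ⟨0, 0⟩, 0⟩, 0, 0⟩ 0 0) (.cut .l 141961 (.cut .d (-2048) (.pos 49 .mp ⟨⟨801155395, 0, 0, 0, 0, 419418741, 0, 0, 0, ⟨0, 0⟩, 0⟩, 0, 0⟩ 0 0) (.cut .s 14212096 (.pos 49 .mp ⟨⟨803980400, 0, 0, 0, 0, 402522068, 0, 0, 0, ⟨0, 0⟩, 0⟩, 0, 0⟩ 0 0) (.pos 49 .mp ⟨⟨807500887, 0, 0, 0, 0, 403716848, 0, 0, 0, ⟨0, 0⟩, 0⟩, 0, 0⟩ 0 0))) (.pos 49 .mp ⟨⟨800818228, 0, 0, 0, 0, 399965508, 0, 0, 0, ⟨0, 0⟩, 0⟩, 0, 0⟩ 0 0))) (.pos 50 .mp ⟨⟨876943166, 0,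 0, 0, 0, 277546751, 0, 0, 0, ⟨0, 0⟩, 0⟩, 0, 0⟩ 0 0))) (.cut .s 14227456 (.cut .v 16809984 (.cut .d (-4096) (.pos 49 .mp ⟨⟨793179483, 0, 0, 0, 0, 455115088, 0, 0, 0, ⟨0, 0⟩, 0⟩, 0, 0⟩ 0 0) (.cut .l 141961 (.cut .v 16793600 (.cut .s 14222336 (.pos 51 .mp ⟨⟨804998507, 0, 0, 0, 0, 417397454, 0, 0, 0, ⟨0, 0⟩, 0⟩, 0, 0⟩ 0 0) (.cut .s 14224896 (.pos 51 .mp ⟨⟨819932062, 0, 0, 0, 0, 394708331, 0, 0, 0, ⟨0, 0⟩, 0⟩, 0, 0⟩ 0 0) (.pos 51 .mp ⟨⟨821417800, 0, 0, 0, 0, 395936952, 0, 0, 0, ⟨0, 0⟩, 0⟩, 0, 0⟩ 0 0))) (.pos 52 .mp ⟨⟨888063438, 0, 0, 0, 0, 269635631, 0, 0, 0, ⟨0, 0⟩, 0⟩, 0, 0⟩ 0 0)) (.pos 49 .mp ⟨⟨807498947, 0, 0, 0, 0, 403472895, 0, 0, 0,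 ⟨0, 0⟩, 0⟩, 0, 0⟩ 0 0))) (.pos 50 .mp ⟨⟨883174723, 0, 0, 0, 0, 281750414, 0, 0, 0, ⟨0, 0⟩, 0⟩, 0, 0⟩ 0 0)) (.cut .v 16809984 (.cut .d (-4096) (.pos 49 .mp ⟨⟨799871389, 0, 0, 0, 0, 458644093, 0, 0, 0, ⟨0, 0⟩, 0⟩, 0, 0⟩ 0 0) (.cut .l 141961 (.cut .v 16793600 (.cut .d (-2048) (.pos 51 .mp ⟨⟨803181723, 0, 0, 0, 0, 449713807, 0, 0, 0, ⟨0, 0⟩, 0⟩, 0, 0⟩ 0 0) (.cut .s 14232576 (.pos 51 .mp ⟨⟨816388412, 0, 0, 0, 0, 410956478, 0, 0, 0, ⟨0, 0⟩, 0⟩, 0, 0⟩ 0 0) (.pos 51 .mp ⟨⟨819822083, 0, 0, 0, 0, 412613791, 0, 0, 0, ⟨0, 0⟩, 0⟩, 0, 0⟩ 0 0))) (.pos 52 .mp ⟨⟨894767868, 0, 0, 0, 0, 273160836, 0, 0, 0, ⟨0, 0⟩, 0⟩, 0, 0⟩ 0 0)) (.pos 49 .mp ⟨⟨814250049,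 0, 0, 0, 0, 407026627, 0, 0, 0, ⟨0, 0⟩, 0⟩, 0, 0⟩ 0 0))) (.pos 50 .mp ⟨⟨889824959, 0, 0, 0, 0, 285410512, 0, 0, 0, ⟨0, 0⟩, 0⟩, 0, 0⟩ 0 0))))) (.pos 40 .mp ⟨⟨1023746902, 0, 0, 0, 0, 0, 0, 0, 0, ⟨0, 0⟩, 0⟩, 0, 0⟩ 0 0)) (.cut .v 16842752 (.cut .s 14278656 (.cut .s 14258176 (.cut .s 14247936 (.cut .v 16809984 (.cut .d (-4096) (.pos 49 .mp ⟨⟨806635217, 0, 0, 0, 0, 462326623, 0, 0, 0, ⟨0, 0⟩, 0⟩, 0, 0⟩ 0 0) (.cut .l 141961 (.cut .v 16793600 (.cut .d (-2048) (.pos 51 .mp ⟨⟨809950084, 0, 0, 0, 0, 453362955, 0, 0, 0, ⟨0, 0⟩, 0⟩, 0, 0⟩ 0 0) (.cut .s 14242816 (.pos 51 .mp ⟨⟨823274346, 0, 0, 0, 0, 414298872, 0, 0, 0, ⟨0, 0⟩, 0⟩, 0, 0⟩ 0 0) (.pos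 51 .mp ⟨⟨826745311, 0, 0, 0, 0, 416011737, 0, 0, 0, ⟨0, 0⟩, 0⟩, 0, 0⟩ 0 0))) (.pos 52 .mp ⟨⟨901904934, 0, 0, 0, 0, 276116227, 0, 0, 0, ⟨0, 0⟩, 0⟩, 0, 0⟩ 0 0)) (.pos 49 .mp ⟨⟨821072377, 0, 0, 0, 0, 410624627, 0, 0, 0, ⟨0, 0⟩, 0⟩, 0, 0⟩ 0 0))) (.pos 50 .mp ⟨⟨896907685, 0, 0, 0, 0, 288501676, 0, 0, 0, ⟨0, 0⟩, 0⟩, 0, 0⟩ 0 0)) (.cut .v 16809984 (.cut .d (-4096) (.cut .s 14253056 (.pos 49 .mp ⟨⟨813471823, 0, 0, 0, 0, 461229744, 0, 0, 0, ⟨0, 0⟩, 0⟩, 0, 0⟩ 0 0) (.pos 49 .mp ⟨⟨816917688, 0, 0, 0, 0, 463169786, 0, 0, 0, ⟨0, 0⟩, 0⟩, 0, 0⟩ 0 0)) (.cut .l 141961 (.cut .v 16793600 (.cut .d (-2048) (.pos 51 .mp ⟨⟨816791463, 0, 0, 0, 0, 457166762, 0,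 0, 0, ⟨0, 0⟩, 0⟩, 0, 0⟩ 0 0) (.cut .s 14253056 (.pos 51 .mp ⟨⟨830235090, 0, 0, 0, 0, 417752400, 0, 0, 0, ⟨0, 0⟩, 0⟩, 0, 0⟩ 0 0) (.pos 51 .mp ⟨⟨833743795, 0, 0, 0, 0, 419520875, 0, 0, 0, ⟨0, 0⟩, 0⟩, 0, 0⟩ 0 0))) (.pos 52 .mp ⟨⟨909488625, 0, 0, 0, 0, 278476062, 0, 0, 0, ⟨0, 0⟩, 0⟩, 0, 0⟩ 0 0)) (.pos 49 .mp ⟨⟨827966783, 0, 0, 0, 0, 414264794, 0, 0, 0, ⟨0, 0⟩, 0⟩, 0, 0⟩ 0 0))) (.pos 50 .mp ⟨⟨904436908, 0, 0, 0, 0, 290998133, 0, 0, 0, ⟨0, 0⟩, 0⟩, 0, 0⟩ 0 0))) (.cut .s 14268416 (.cut .v 16809984 (.cut .d (-4096) (.cut .s 14263296 (.pos 49 .mp ⟨⟨820382075, 0, 0, 0, 0, 465149303, 0, 0, 0, ⟨0, 0⟩, 0⟩, 0, 0⟩ 0 0) (.pos 49 .mp ⟨⟨823865095, 0, 0,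 0, 0, 467168548, 0, 0, 0, ⟨0, 0⟩, 0⟩, 0, 0⟩ 0 0)) (.cut .l 141961 (.cut .v 16793600 (.cut .d (-2048) (.pos 51 .mp ⟨⟨823706732, 0, 0, 0, 0, 461127213, 0, 0, 0, ⟨0, 0⟩, 0⟩, 0, 0⟩ 0 0) (.cut .s 14263296 (.pos 51 .mp ⟨⟨837271540, 0, 0, 0, 0, 421317174, 0, 0, 0, ⟨0, 0⟩, 0⟩, 0, 0⟩ 0 0) (.pos 51 .mp ⟨⟨840818438, 0, 0, 0, 0, 423141309, 0, 0, 0, ⟨0, 0⟩, 0⟩, 0, 0⟩ 0 0))) (.pos 52 .mp ⟨⟨917533131, 0, 0, 0, 0, 280214188, 0, 0, 0, ⟨0, 0⟩, 0⟩, 0, 0⟩ 0 0)) (.pos 49 .mp ⟨⟨834934136, 0, 0, 0, 0, 417944997, 0, 0, 0, ⟨0, 0⟩, 0⟩, 0, 0⟩ 0 0))) (.pos 50 .mp ⟨⟨912426842, 0, 0, 0, 0, 292873699, 0, 0, 0, ⟨0, 0⟩, 0⟩, 0, 0⟩ 0 0)) (.cut .v 16809984 (.cut .d (-4096)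 (.pos 49 .mp ⟨⟨827366859, 0, 0, 0, 0, 474315176, 0, 0, 0, ⟨0, 0⟩, 0⟩, 0, 0⟩ 0 0) (.cut .l 141961 (.cut .v 16793600 (.cut .d (-2048) (.pos 51 .mp ⟨⟨830696777, 0, 0, 0, 0, 465246327, 0, 0, 0, ⟨0, 0⟩, 0⟩, 0, 0⟩ 0 0) (.cut .s 14273536 (.pos 51 .mp ⟨⟨844384606, 0, 0, 0, 0, 424993291, 0, 0, 0, ⟨0, 0⟩, 0⟩, 0, 0⟩ 0 0) (.pos 51 .mp ⟨⟨847970158, 0, 0, 0, 0, 426873131, 0, 0, 0, ⟨0, 0⟩, 0⟩, 0, 0⟩ 0 0))) (.pos 52 .mp ⟨⟨926052852, 0, 0, 0, 0, 281304030, 0, 0, 0, ⟨0, 0⟩, 0⟩, 0, 0⟩ 0 0)) (.pos 49 .mp ⟨⟨841975317, 0, 0, 0, 0, 421663081, 0, 0, 0, ⟨0, 0⟩, 0⟩, 0, 0⟩ 0 0))) (.pos 50 .mp ⟨⟨920891907, 0, 0, 0, 0, 294101763, 0, 0, 0, ⟨0, 0⟩, 0⟩, 0, 0⟩ 0 0))))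 (.cut .s 14299136 (.cut .s 14288896 (.cut .v 16809984 (.cut .d (-4096) (.pos 49 .mp ⟨⟨834427072, 0, 0, 0, 0, 478631779, 0, 0, 0, ⟨0, 0⟩, 0⟩, 0, 0⟩ 0 0) (.cut .l 141961 (.cut .v 16793600 (.cut .d (-2048) (.pos 51 .mp ⟨⟨837762499, 0, 0, 0, 0, 469526155, 0, 0, 0, ⟨0, 0⟩, 0⟩, 0, 0⟩ 0 0) (.cut .s 14283776 (.pos 51 .mp ⟨⟨851575213, 0, 0, 0, 0, 428780839, 0, 0, 0, ⟨0, 0⟩, 0⟩, 0, 0⟩ 0 0) (.pos 51 .mp ⟨⟨855199887, 0, 0, 0, 0, 430716422, 0, 0, 0, ⟨0, 0⟩, 0⟩, 0, 0⟩ 0 0))) (.pos 52 .mp ⟨⟨935062401, 0, 0, 0, 0, 281718582, 0, 0, 0, ⟨0, 0⟩, 0⟩, 0, 0⟩ 0 0)) (.pos 49 .mp ⟨⟨849091224, 0, 0, 0, 0, 425416861, 0, 0, 0, ⟨0, 0⟩, 0⟩, 0, 0⟩ 0 0))) (.pos 50 .mp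 ⟨⟨929846737, 0, 0, 0, 0, 294655286, 0, 0, 0, ⟨0, 0⟩, 0⟩, 0, 0⟩ 0 0)) (.cut .v 16809984 (.cut .d (-4096) (.pos 49 .mp ⟨⟨841563628, 0, 0, 0, 0, 483112057, 0, 0, 0, ⟨0, 0⟩, 0⟩, 0, 0⟩ 0 0) (.cut .l 141961 (.cut .v 16793600 (.cut .d (-2048) (.pos 51 .mp ⟨⟨844904815, 0, 0, 0, 0, 473968783, 0, 0, 0, ⟨0, 0⟩, 0⟩, 0, 0⟩ 0 0) (.cut .s 14294016 (.pos 51 .mp ⟨⟨858844301, 0, 0, 0, 0, 432679889, 0, 0, 0, ⟨0, 0⟩, 0⟩, 0, 0⟩ 0 0) (.pos 51 .mp ⟨⟨862508574, 0, 0, 0, 0, 434671248, 0, 0, 0, ⟨0, 0⟩, 0⟩, 0, 0⟩ 0 0))) (.pos 52 .mp ⟨⟨944576604, 0, 0, 0, 0, 281430400, 0, 0, 0, ⟨0, 0⟩, 0⟩, 0, 0⟩ 0 0)) (.pos 49 .mp ⟨⟨856282766, 0, 0, 0, 0, 429204123, 0, 0, 0, ⟨0,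 0⟩, 0⟩, 0, 0⟩ 0 0))) (.pos 50 .mp ⟨⟨939306181, 0, 0, 0, 0, 294506789, 0, 0, 0, ⟨0, 0⟩, 0⟩, 0, 0⟩ 0 0))) (.cut .s 14309376 (.cut .v 16809984 (.cut .d (-4096) (.pos 49 .mp ⟨⟨848777455, 0, 0, 0, 0, 487758141, 0, 0, 0, ⟨0, 0⟩, 0⟩, 0, 0⟩ 0 0) (.cut .l 141961 (.cut .v 16793600 (.cut .s 14304256 (.cut .s 14301696 (.pos 51 .mp ⟨⟨873384483, 0, 0, 0, 0, 421449646, 0, 0, 0, ⟨0, 0⟩, 0⟩, 0, 0⟩ 0 0) (.pos 51 .mp ⟨⟨875508091, 0, 0, 0, 0, 421934377, 0, 0, 0, ⟨0, 0⟩, 0⟩, 0, 0⟩ 0 0)) (.pos 51 .mp ⟨⟨864532845, 0, 0, 0, 0, 450092691, 0, 0, 0, ⟨0, 0⟩, 0⟩, 0, 0⟩ 0 0)) (.pos 52 .mp ⟨⟨954610511, 0, 0, 0, 0, 280411589, 0, 0, 0, ⟨0, 0⟩, 0⟩, 0, 0⟩ 0 0)) (.pos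 49 .mp ⟨⟨863550872, 0, 0, 0, 0, 433022628, 0, 0, 0, ⟨0, 0⟩, 0⟩, 0, 0⟩ 0 0))) (.pos 50 .mp ⟨⟨949285312, 0, 0, 0, 0, 293628344, 0, 0, 0, ⟨0, 0⟩, 0⟩, 0, 0⟩ 0 0)) (.cut .v 16809984 (.cut .d (-4096) (.pos 49 .mp ⟨⟨856069497, 0, 0, 0, 0, 492572195, 0, 0, 0, ⟨0, 0⟩, 0⟩, 0, 0⟩ 0 0) (.cut .l 141961 (.cut .d (-2048) (.pos 49 .mp ⟨⟨871733393, 0, 0, 0, 0, 457662780, 0, 0, 0, ⟨0, 0⟩, 0⟩, 0, 0⟩ 0 0) (.cut .s 14314496 (.pos 49 .mp ⟨⟨875159446, 0, 0, 0, 0, 437884286, 0, 0, 0, ⟨0, 0⟩, 0⟩, 0, 0⟩ 0 0) (.pos 49 .mp ⟨⟨878742753, 0, 0, 0, 0, 440345579, 0, 0, 0, ⟨0, 0⟩, 0⟩, 0, 0⟩ 0 0))) (.pos 49 .mp ⟨⟨870896480, 0, 0, 0, 0, 436870104, 0, 0, 0, ⟨0, 0⟩, 0⟩,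 0, 0⟩ 0 0))) (.pos 50 .mp ⟨⟨959799425, 0, 0, 0, 0, 291991562, 0, 0, 0, ⟨0, 0⟩, 0⟩, 0, 0⟩ 0 0))))) (.pos 40 .mp ⟨⟨1093553929, 0, 0, 0, 0, 0, 0, 0, 0, ⟨0, 0⟩, 0⟩, 0, 0⟩ 0 0))) (.pos 38 .mp ⟨⟨1086283596, 0, 0, 0, 0, 0, 0, 0, 0, ⟨0, 0⟩, 0⟩, 0, 0⟩ 0 0)))))) (.pos 36 .mp ⟨⟨1198055458, 0, 0, 0, 0, 0, 0, 0, 0, ⟨0, 0⟩, 0⟩, 0, 0⟩ 0 0))) (.void 34 ⟨⟨100000, 0, 0, 0, 0, 0, 0, 0, 0, ⟨0, 0⟩, 0⟩, 0, 0⟩ 0 0))) (.void 32 ⟨⟨100000, 0, 0, 0, 0, 0, 0, 0, 0, ⟨0, 0⟩, 0⟩, 0, 0⟩ 0 0))) (.void 30 ⟨⟨100000, 0, 0, 0, 0, 0, 0, 0, 0, ⟨0, 0⟩, 0⟩, 0, 0⟩ 0 0))) (.void 28 ⟨⟨100000, 0, 0, 0, 0, 0, 0, 0, 0, ⟨0, 0⟩, 0⟩, 0, 0⟩ 0 0)))) (.void 26 ⟨⟨100000, 0, 0, 0, 0, 0,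 0, 0, 0, ⟨0, 0⟩, 0⟩, 0, 0⟩ 0 0))) (.void 95 ⟨⟨100000, 0, 0, 0, 0, 0, 0, 0, 0, ⟨0, 0⟩, 0⟩, 0, 0⟩ 0 0)) (.void 106 ⟨⟨100000, 0, 0, 0, 0, 0, 0, 0, 0, ⟨0, 0⟩, 0⟩, 0, 0⟩ 0 0)) (.void 115 ⟨⟨94190, 0, 0, 5745, 0, 0, 0, 0, 0, ⟨0, 0⟩, 0⟩, 0, 0⟩ 0 0))) (.cut .v 16777216 (.cut .v 8388608 (.cut .v 4194304 (.cut .v 2097152 (.cut .v 1048576 (.pos 111 .pm ⟨⟨0, 0, 27343836, 0, 0, 0, 0, 0, 0, ⟨0, 0⟩, 0⟩, 0, 1186⟩ 0 0) (.pos 112 .pm ⟨⟨0, 0, 34953052, 0, 0, 0, 0, 0, 0, ⟨0, 0⟩, 0⟩, 0, 3420⟩ 0 0)) (.pos 7 .pm ⟨⟨0, 0, 51477627, 0, 0, 0, 0, 0, 0, ⟨0, 0⟩, 0⟩, 0, 6460⟩ 0 0)) (.pos 5 .pm ⟨⟨0, 0, 147367343, 0, 0, 0, 0, 0, 0, ⟨0, 0⟩, 0⟩, 0, 15439⟩ 0 0)) (.pos 3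 .pm ⟨⟨0, 0, 0, 0, 0, 0, 0, 0, 0, ⟨0, 0⟩, 0⟩, 0, 0⟩ 0 0)) (.cut .v 268435456 (.cut .v 67108864 (.cut .d 1553447 (.cut .v 33554432 (.cut .d 776723 (.cut .d 388361 (.cut .v 25165824 (.cut .d 194180 (.cut .v 20971520 (.cut .d 97090 (.cut .v 18874368 (.cut .v 17825792 (.cut .s 14237696 (.pos 31 .pp ⟨⟨714141235, 0, 0, 0, 0, 0, 0, 0, 0, ⟨0, 0⟩, 0⟩, 33002207, 0⟩ 0 0) (.pos 31 .pp ⟨⟨765419773, 0, 0, 0, 0, 0, 0, 0, 0, ⟨0, 0⟩, 0⟩, 34912753, 0⟩ 0 0)) (.pos 32 .pp ⟨⟨1114714818, 0, 0, 0, 0, 0, 0, 0, 0, ⟨0, 0⟩, 0⟩, 0, 0⟩ 0 0)) (.pos 30 .pp ⟨⟨1341441771, 0, 0, 0, 0, 0, 0, 0, 0, ⟨0, 0⟩, 0⟩, 0, 0⟩ 0 0)) (.pos 27 .pp ⟨⟨900264587, 0, 0, 0, 0, 0, 0, 0, 0,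 ⟨0, 0⟩, 0⟩, 0, 2645⟩ 0 0)) (.cut .d 97090 (.void 28 ⟨⟨0, 0, 0, 0, 0, 0, 0, 0, 0, ⟨0, 0⟩, 0⟩, 100000, 0⟩ 0 0) (.pos 28 .pp ⟨⟨0, 0, 0, 0, 0, 0, 0, 0, 0, ⟨0, 0⟩, 0⟩, 173595665, 0⟩ 0 0))) (.pos 25 .pp ⟨⟨0, 0, 0, 0, 0, 0, 0, 0, 0, ⟨0, 0⟩, 0⟩, 113725719, 11386⟩ 0 0)) (.pos 26 .pp ⟨⟨0, 0, 0, 0, 0, 0, 0, 0, 0, ⟨0, 0⟩, 0⟩, 251314709, 0⟩ 0 0)) (.pos 24 .pp ⟨⟨0, 0, 0, 0, 0, 0, 0, 0, 0, ⟨0, 0⟩, 0⟩, 108808715, 12562⟩ 0 0)) (.pos 24 .pp ⟨⟨0, 0, 0, 0, 0, 0, 0, 0, 0, ⟨0, 0⟩, 0⟩, 0, 51462⟩ 0 0)) (.cut .d 776723 (.cut .v 50331648 (.pos 96 .pp ⟨⟨0, 0, 0, 0, 0, 0, 0, 0, 0, ⟨0, 0⟩, 0⟩, 364628926, 0⟩ 0 0) (.void 97 ⟨⟨0, 0, 0, 0, 0, 0, 0, 0, 0, ⟨0, 0⟩, 0⟩,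 100000, 0⟩ 0 0)) (.pos 95 .pp ⟨⟨0, 0, 0, 0, 0, 0, 0, 0, 0, ⟨0, 0⟩, 0⟩, 171014342, 0⟩ 0 0))) (.pos 94 .pp ⟨⟨0, 0, 0, 0, 0, 0, 0, 0, 0, ⟨0, 0⟩, 0⟩, 0, 38597⟩ 0 0)) (.void 106 ⟨⟨0, 0, 0, 48379, 0, 0, 0, 0, 0, ⟨0, 0⟩, 0⟩, 51621, 0⟩ 0 0)) (.void 115 ⟨⟨0, 0, 0, 0, 0, 0, 0, 0, 0, ⟨0, 0⟩, 0⟩, 100000, 0⟩ 0 0)))),
    by decide +kernel⟩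

def covers28 : cell.Covers Vale.Agent.P237.Petty.Cor.Grid.N13.table row28.1 :=
  ⟨(.cut .d 0 (.cut .v 16777216 (.cut .v 8388608 (.void 2 ⟨⟨0, 0, 100000, 0, 0, 0, 0, 0, 0, ⟨0, 0⟩, 0⟩, 0, 0⟩ 0 0) (.cut .d (-8388608) (.void 3 ⟨⟨100000, 0, 0, 0, 0, 0, 0, 0, 0, ⟨0, 0⟩, 0⟩, 0, 0⟩ 0 0) (.cut .d (-4194304) (.void 3 ⟨⟨100000, 0, 0, 0, 0, 0, 0, 0, 0, ⟨0, 0⟩, 0⟩, 0, 0⟩ 0 0) (.cut .d (-2097152) (.void 3 ⟨⟨100000, 0, 0, 0, 0, 0, 0, 0, 0, ⟨0, 0⟩, 0⟩, 0, 0⟩ 0 0) (.cut .d (-1048576) (.void 3 ⟨⟨81256, 0, 18744, 0, 0, 0, 0, 0, 0, ⟨0, 0⟩, 0⟩, 0, 0⟩ 0 0) (.cut .d (-524288) (.void 3 ⟨⟨0, 0, 0, 0, 0, 100000, 0, 0, 0, ⟨0, 0⟩, 0⟩, 0, 0⟩ 0 0) (.cut .d (-262144)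 (.void 3 ⟨⟨0, 0, 0, 0, 0, 100000, 0, 0, 0, ⟨0, 0⟩, 0⟩, 0, 0⟩ 0 0) (.cut .s 14401536 (.pos 3 .mm ⟨⟨0, 0, 0, 0, 0, 2201122512, 0, 0, 0, ⟨0, 0⟩, 0⟩, 0, 0⟩ 0 0) (.pos 3 .mm ⟨⟨0, 0, 0, 0, 0, 2375825171, 0, 0, 0, ⟨0, 0⟩, 0⟩, 0, 0⟩ 0 0))))))))) (.cut .v 268435456 (.cut .v 67108864 (.cut .v 33554432 (.cut .d (-8388608) (.void 24 ⟨⟨100000, 0, 0, 0, 0, 0, 0, 0, 0, ⟨0, 0⟩, 0⟩, 0, 0⟩ 0 0) (.cut .v 25165824 (.cut .d (-4194304) (.void 25 ⟨⟨100000, 0, 0, 0, 0, 0, 0, 0, 0, ⟨0, 0⟩, 0⟩, 0, 0⟩ 0 0) (.cut .d (-2097152) (.void 25 ⟨⟨100000, 0, 0, 0, 0, 0, 0, 0, 0, ⟨0, 0⟩, 0⟩, 0, 0⟩ 0 0) (.cut .v 20971520 (.cut .d (-1048576) (.void 27 ⟨⟨100000, 0, 0, 0, 0,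 0, 0, 0, 0, ⟨0, 0⟩, 0⟩, 0, 0⟩ 0 0) (.cut .v 18874368 (.cut .d (-524288) (.void 29 ⟨⟨100000, 0, 0, 0, 0, 0, 0, 0, 0, ⟨0, 0⟩, 0⟩, 0, 0⟩ 0 0) (.cut .v 17825792 (.cut .d (-262144) (.void 31 ⟨⟨100000, 0, 0, 0, 0, 0, 0, 0, 0, ⟨0, 0⟩, 0⟩, 0, 0⟩ 0 0) (.cut .v 17301504 (.cut .d (-131072) (.void 33 ⟨⟨100000, 0, 0, 0, 0, 0, 0, 0, 0, ⟨0, 0⟩, 0⟩, 0, 0⟩ 0 0) (.cut .v 17039360 (.cut .d (-65536) (.void 35 ⟨⟨100000, 0, 0, 0, 0, 0, 0, 0, 0, ⟨0, 0⟩, 0⟩, 0, 0⟩ 0 0) (.cut .d (-32768) (.void 35 ⟨⟨100000, 0, 0, 0, 0, 0, 0, 0, 0, ⟨0, 0⟩, 0⟩, 0, 0⟩ 0 0) (.cut .d (-16384) (.void 35 ⟨⟨100000, 0, 0, 0, 0, 0, 0, 0, 0, ⟨0, 0⟩, 0⟩, 0, 0⟩ 0 0) (.cut .d (-8192) (.void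 35 ⟨⟨0, 0, 0, 0, 0, 100000, 0, 0, 0, ⟨0, 0⟩, 0⟩, 0, 0⟩ 0 0) (.cut .v 16908288 (.cut .s 14401536 (.cut .v 16842752 (.cut .s 14360576 (.cut .s 14340096 (.cut .s 14329856 (.cut .v 16809984 (.cut .d (-4096) (.pos 49 .mp ⟨⟨863443155, 0, 0, 0, 0, 497541218, 0, 0, 0, ⟨0, 0⟩, 0⟩, 0, 0⟩ 0 0) (.cut .l 141961 (.cut .d (-2048) (.pos 49 .mp ⟨⟨880072022, 0, 0, 0, 0, 460241221, 0, 0, 0, ⟨0, 0⟩, 0⟩, 0, 0⟩ 0 0) (.cut .s 14324736 (.pos 49 .mp ⟨⟨882356955, 0, 0, 0, 0, 442814275, 0, 0, 0, ⟨0, 0⟩, 0⟩, 0, 0⟩ 0 0) (.pos 49 .mp ⟨⟨886364541, 0, 0, 0, 0, 443996211, 0, 0, 0, ⟨0, 0⟩, 0⟩, 0, 0⟩ 0 0))) (.pos 49 .mp ⟨⟨881546670, 0, 0, 0, 0, 435304305, 0, 0, 0, ⟨0,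 0⟩, 0⟩, 0, 0⟩ 0 0))) (.pos 50 .mp ⟨⟨961396497, 0, 0, 0, 0, 307157158, 0, 0, 0, ⟨0, 0⟩, 0⟩, 0, 0⟩ 0 0)) (.cut .v 16809984 (.cut .d (-4096) (.pos 49 .mp ⟨⟨870908239, 0, 0, 0, 0, 501173919, 0, 0, 0, ⟨0, 0⟩, 0⟩, 0, 0⟩ 0 0) (.cut .l 141961 (.cut .d (-2048) (.pos 49 .mp ⟨⟨886748522, 0, 0, 0, 0, 465837684, 0, 0, 0, ⟨0, 0⟩, 0⟩, 0, 0⟩ 0 0) (.cut .s 14334976 (.pos 49 .mp ⟨⟨890315547, 0, 0, 0, 0, 445385877, 0, 0, 0, ⟨0, 0⟩, 0⟩, 0, 0⟩ 0 0) (.pos 49 .mp ⟨⟨894152508, 0, 0, 0, 0, 447110649, 0, 0, 0, ⟨0, 0⟩, 0⟩, 0, 0⟩ 0 0))) (.pos 49 .mp ⟨⟨889184854, 0, 0, 0, 0, 438959817, 0, 0, 0, ⟨0, 0⟩, 0⟩, 0, 0⟩ 0 0))) (.pos 50 .mp ⟨⟨968096555, 0, 0, 0, 0, 312389838,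 0, 0, 0, ⟨0, 0⟩, 0⟩, 0, 0⟩ 0 0))) (.cut .s 14350336 (.cut .v 16809984 (.cut .d (-4096) (.pos 49 .mp ⟨⟨878458049, 0, 0, 0, 0, 504992627, 0, 0, 0, ⟨0, 0⟩, 0⟩, 0, 0⟩ 0 0) (.cut .l 141961 (.cut .v 16793600 (.cut .d (-2048) (.pos 51 .mp ⟨⟨881818894, 0, 0, 0, 0, 495676748, 0, 0, 0, ⟨0, 0⟩, 0⟩, 0, 0⟩ 0 0) (.cut .s 14345216 (.pos 51 .mp ⟨⟨896412336, 0, 0, 0, 0, 451926637, 0, 0, 0, ⟨0, 0⟩, 0⟩, 0, 0⟩ 0 0) (.pos 51 .mp ⟨⟨900286594, 0, 0, 0, 0, 453734881, 0, 0, 0, ⟨0, 0⟩, 0⟩, 0, 0⟩ 0 0))) (.pos 52 .mp ⟨⟨980831598, 0, 0, 0, 0, 303218138, 0, 0, 0, ⟨0, 0⟩, 0⟩, 0, 0⟩ 0 0)) (.pos 49 .mp ⟨⟨896884054, 0, 0, 0, 0, 442735876, 0, 0, 0, ⟨0, 0⟩, 0⟩, 0, 0⟩ 0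 0))) (.pos 50 .mp ⟨⟨975260217, 0, 0, 0, 0, 317046914, 0, 0, 0, ⟨0, 0⟩, 0⟩, 0, 0⟩ 0 0)) (.cut .v 16809984 (.cut .d (-4096) (.pos 49 .mp ⟨⟨886093637, 0, 0, 0, 0, 508999820, 0, 0, 0, ⟨0, 0⟩, 0⟩, 0, 0⟩ 0 0) (.cut .l 141961 (.cut .v 16793600 (.cut .d (-2048) (.pos 51 .mp ⟨⟨889455309, 0, 0, 0, 0, 499655376, 0, 0, 0, ⟨0, 0⟩, 0⟩, 0, 0⟩ 0 0) (.cut .s 14355456 (.pos 51 .mp ⟨⟨904183027, 0, 0, 0, 0, 455578213, 0, 0, 0, ⟨0, 0⟩, 0⟩, 0, 0⟩ 0 0) (.pos 51 .mp ⟨⟨908101772, 0, 0, 0, 0, 457456651, 0, 0, 0, ⟨0, 0⟩, 0⟩, 0, 0⟩ 0 0))) (.pos 52 .mp ⟨⟨988538592, 0, 0, 0, 0, 307111773, 0, 0, 0, ⟨0, 0⟩, 0⟩, 0, 0⟩ 0 0)) (.pos 49 .mp ⟨⟨904644617, 0, 0, 0, 0, 446631328,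 0, 0, 0, ⟨0, 0⟩, 0⟩, 0, 0⟩ 0 0))) (.pos 50 .mp ⟨⟨982904959, 0, 0, 0, 0, 321096288, 0, 0, 0, ⟨0, 0⟩, 0⟩, 0, 0⟩ 0 0)))) (.cut .s 14381056 (.cut .s 14370816 (.cut .v 16809984 (.cut .d (-4096) (.pos 49 .mp ⟨⟨893816070, 0, 0, 0, 0, 513198020, 0, 0, 0, ⟨0, 0⟩, 0⟩, 0, 0⟩ 0 0) (.cut .l 141961 (.cut .v 16793600 (.cut .d (-2048) (.pos 51 .mp ⟨⟨897178790, 0, 0, 0, 0, 503824151, 0, 0, 0, ⟨0, 0⟩, 0⟩, 0, 0⟩ 0 0) (.cut .s 14365696 (.pos 51 .mp ⟨⟨912042969, 0, 0, 0, 0, 459370215, 0, 0, 0, ⟨0, 0⟩, 0⟩, 0, 0⟩ 0 0) (.pos 51 .mp ⟨⟨916006758, 0, 0, 0, 0, 461318924, 0, 0, 0, ⟨0, 0⟩, 0⟩, 0, 0⟩ 0 0))) (.pos 52 .mp ⟨⟨996744656, 0, 0, 0, 0, 310363865, 0, 0, 0,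 ⟨0, 0⟩, 0⟩, 0, 0⟩ 0 0)) (.pos 49 .mp ⟨⟨912491401, 0, 0, 0, 0, 450592907, 0, 0, 0, ⟨0, 0⟩, 0⟩, 0, 0⟩ 0 0))) (.cut .s 14365696 (.pos 50 .mp ⟨⟨961640827, 0, 0, 0, 0, 374068302, 0, 0, 0, ⟨0, 0⟩, 0⟩, 0, 0⟩ 0 0) (.pos 50 .mp ⟨⟨965588254, 0, 0, 0, 0, 376086616, 0, 0, 0, ⟨0, 0⟩, 0⟩, 0, 0⟩ 0 0))) (.cut .v 16809984 (.cut .d (-4096) (.pos 49 .mp ⟨⟨901626437, 0, 0, 0, 0, 517589786, 0, 0, 0, ⟨0, 0⟩, 0⟩, 0, 0⟩ 0 0) (.cut .l 141961 (.cut .v 16793600 (.cut .d (-2048) (.pos 51 .mp ⟨⟨904990429, 0, 0, 0, 0, 508185622, 0, 0, 0, ⟨0, 0⟩, 0⟩, 0, 0⟩ 0 0) (.cut .s 14375936 (.pos 51 .mp ⟨⟨919993281, 0, 0, 0, 0, 463302795, 0, 0, 0, ⟨0, 0⟩, 0⟩, 0, 0⟩ 0 0) (.cut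 .s 14378496 (.pos 51 .mp ⟨⟨927175313, 0, 0, 0, 0, 457902670, 0, 0, 0, ⟨0, 0⟩, 0⟩, 0, 0⟩ 0 0) (.pos 51 .mp ⟨⟨929164124, 0, 0, 0, 0, 458963970, 0, 0, 0, ⟨0, 0⟩, 0⟩, 0, 0⟩ 0 0)))) (.pos 52 .mp ⟨⟨1005467778, 0, 0, 0, 0, 312941267, 0, 0, 0, ⟨0, 0⟩, 0⟩, 0, 0⟩ 0 0)) (.pos 49 .mp ⟨⟨920425495, 0, 0, 0, 0, 454617935, 0, 0, 0, ⟨0, 0⟩, 0⟩, 0, 0⟩ 0 0))) (.cut .s 14375936 (.pos 50 .mp ⟨⟨969664788, 0, 0, 0, 0, 377936985, 0, 0, 0, ⟨0, 0⟩, 0⟩, 0, 0⟩ 0 0) (.pos 50 .mp ⟨⟨973872708, 0, 0, 0, 0, 379615204, 0, 0, 0, ⟨0, 0⟩, 0⟩, 0, 0⟩ 0 0)))) (.cut .s 14391296 (.cut .v 16809984 (.cut .d (-4096) (.pos 49 .mp ⟨⟨909525841, 0, 0, 0, 0, 522177727, 0, 0, 0, ⟨0,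 0⟩, 0⟩, 0, 0⟩ 0 0) (.cut .l 141961 (.cut .v 16793600 (.cut .d (-2048) (.pos 51 .mp ⟨⟨912891332, 0, 0, 0, 0, 512742386, 0, 0, 0, ⟨0, 0⟩, 0⟩, 0, 0⟩ 0 0) (.cut .l 70980 (.cut .d (-1024) (.pos 51 .mp ⟨⟨926092745, 0, 0, 0, 0, 482850662, 0, 0, 0, ⟨0, 0⟩, 0⟩, 0, 0⟩ 0 0) (.cut .s 14386176 (.pos 51 .mp ⟨⟨924647517, 0, 0, 0, 0, 473782762, 0, 0, 0, ⟨0, 0⟩, 0⟩, 0, 0⟩ 0 0) (.pos 51 .mp ⟨⟨928685702, 0, 0, 0, 0, 475904695, 0, 0, 0, ⟨0, 0⟩, 0⟩, 0, 0⟩ 0 0))) (.pos 51 .mp ⟨⟨926213799, 0, 0, 0, 0, 461571927, 0, 0, 0, ⟨0, 0⟩, 0⟩, 0, 0⟩ 0 0))) (.pos 52 .mp ⟨⟨1014726222, 0, 0, 0, 0, 314810276, 0, 0, 0, ⟨0, 0⟩, 0⟩, 0, 0⟩ 0 0)) (.pos 49 .mp ⟨⟨928448004, 0,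 0, 0, 0, 458703700, 0, 0, 0, ⟨0, 0⟩, 0⟩, 0, 0⟩ 0 0))) (.cut .s 14386176 (.pos 50 .mp ⟨⟨978214311, 0, 0, 0, 0, 381117035, 0, 0, 0, ⟨0, 0⟩, 0⟩, 0, 0⟩ 0 0) (.pos 50 .mp ⟨⟨982691911, 0, 0, 0, 0, 382438200, 0, 0, 0, ⟨0, 0⟩, 0⟩, 0, 0⟩ 0 0))) (.cut .v 16809984 (.cut .d (-4096) (.pos 49 .mp ⟨⟨917515408, 0, 0, 0, 0, 526964493, 0, 0, 0, ⟨0, 0⟩, 0⟩, 0, 0⟩ 0 0) (.cut .l 141961 (.cut .v 16793600 (.cut .d (-2048) (.pos 51 .mp ⟨⟨920882627, 0, 0, 0, 0, 517497080, 0, 0, 0, ⟨0, 0⟩, 0⟩, 0, 0⟩ 0 0) (.cut .l 70980 (.cut .d (-1024) (.pos 51 .mp ⟨⟨934303839, 0, 0, 0, 0, 487064046, 0, 0, 0, ⟨0, 0⟩, 0⟩, 0, 0⟩ 0 0) (.cut .s 14396416 (.pos 51 .mp ⟨⟨932727290,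 0, 0, 0, 0, 478105855, 0, 0, 0, ⟨0, 0⟩, 0⟩, 0, 0⟩ 0 0) (.pos 51 .mp ⟨⟨936771924, 0, 0, 0, 0, 480387385, 0, 0, 0, ⟨0, 0⟩, 0⟩, 0, 0⟩ 0 0))) (.pos 51 .mp ⟨⟨934278555, 0, 0, 0, 0, 465788155, 0, 0, 0, ⟨0, 0⟩, 0⟩, 0, 0⟩ 0 0))) (.pos 52 .mp ⟨⟨1024538531, 0, 0, 0, 0, 315936610, 0, 0, 0, ⟨0, 0⟩, 0⟩, 0, 0⟩ 0 0)) (.pos 49 .mp ⟨⟨936560054, 0, 0, 0, 0, 462847454, 0, 0, 0, ⟨0, 0⟩, 0⟩, 0, 0⟩ 0 0))) (.cut .s 14396416 (.pos 50 .mp ⟨⟨987307841, 0, 0, 0, 0, 383574388, 0, 0, 0, ⟨0, 0⟩, 0⟩, 0, 0⟩ 0 0) (.pos 50 .mp ⟨⟨992064452, 0, 0, 0, 0, 384521249, 0, 0, 0, ⟨0, 0⟩, 0⟩, 0, 0⟩ 0 0)))))) (.pos 40 .mp ⟨⟨1171850337, 0, 0, 0, 0, 0, 0, 0, 0, ⟨0, 0⟩, 0⟩, 0, 0⟩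 0 0)) (.cut .v 16842752 (.cut .s 14442496 (.cut .s 14422016 (.cut .s 14411776 (.cut .v 16809984 (.cut .d (-4096) (.pos 49 .mp ⟨⟨925596281, 0, 0, 0, 0, 531952780, 0, 0, 0, ⟨0, 0⟩, 0⟩, 0, 0⟩ 0 0) (.cut .l 141961 (.cut .v 16793600 (.cut .d (-2048) (.pos 51 .mp ⟨⟨928965461, 0, 0, 0, 0, 522452389, 0, 0, 0, ⟨0, 0⟩, 0⟩, 0, 0⟩ 0 0) (.cut .s 14406656 (.pos 51 .mp ⟨⟨944397910, 0, 0, 0, 0, 475945242, 0, 0, 0, ⟨0, 0⟩, 0⟩, 0, 0⟩ 0 0) (.pos 51 .mp ⟨⟨948547638, 0, 0, 0, 0, 478175637, 0, 0, 0, ⟨0, 0⟩, 0⟩, 0, 0⟩ 0 0))) (.pos 52 .mp ⟨⟨1034923542, 0, 0, 0, 0, 316285405, 0, 0, 0, ⟨0, 0⟩, 0⟩, 0, 0⟩ 0 0)) (.pos 49 .mp ⟨⟨944762789, 0, 0, 0, 0, 467046411, 0,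 0, 0, ⟨0, 0⟩, 0⟩, 0, 0⟩ 0 0))) (.cut .s 14406656 (.pos 50 .mp ⟨⟨996964112, 0, 0, 0, 0, 385274398, 0, 0, 0, ⟨0, 0⟩, 0⟩, 0, 0⟩ 0 0) (.pos 50 .mp ⟨⟨1002009209, 0, 0, 0, 0, 385829413, 0, 0, 0, ⟨0, 0⟩, 0⟩, 0, 0⟩ 0 0))) (.cut .v 16809984 (.cut .d (-4096) (.pos 49 .mp ⟨⟨933769624, 0, 0, 0, 0, 537145330, 0, 0, 0, ⟨0, 0⟩, 0⟩, 0, 0⟩ 0 0) (.cut .l 141961 (.cut .v 16793600 (.cut .d (-2048) (.pos 51 .mp ⟨⟨937140999, 0, 0, 0, 0, 527611043, 0, 0, 0, ⟨0, 0⟩, 0⟩, 0, 0⟩ 0 0) (.cut .s 14416896 (.pos 51 .mp ⟨⟨952721277, 0, 0, 0, 0, 480441292, 0, 0, 0, ⟨0, 0⟩, 0⟩, 0, 0⟩ 0 0) (.pos 51 .mp ⟨⟨956918981, 0, 0, 0, 0, 482742216, 0, 0, 0, ⟨0, 0⟩, 0⟩, 0, 0⟩ 0 0)))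 (.pos 52 .mp ⟨⟨1045900384, 0, 0, 0, 0, 315821199, 0, 0, 0, ⟨0, 0⟩, 0⟩, 0, 0⟩ 0 0)) (.pos 49 .mp ⟨⟨953057375, 0, 0, 0, 0, 471297746, 0, 0, 0, ⟨0, 0⟩, 0⟩, 0, 0⟩ 0 0))) (.pos 50 .mp ⟨⟨1039888946, 0, 0, 0, 0, 330763952, 0, 0, 0, ⟨0, 0⟩, 0⟩, 0, 0⟩ 0 0))) (.cut .s 14432256 (.cut .v 16809984 (.cut .d (-4096) (.pos 49 .mp ⟨⟨942036621, 0, 0, 0, 0, 542544935, 0, 0, 0, ⟨0, 0⟩, 0⟩, 0, 0⟩ 0 0) (.cut .l 141961 (.cut .d (-2048) (.pos 49 .mp ⟨⟨958299205, 0, 0, 0, 0, 506216123, 0, 0, 0, ⟨0, 0⟩, 0⟩, 0, 0⟩ 0 0) (.cut .s 14427136 (.pos 49 .mp ⟨⟨962852150, 0, 0, 0, 0, 481796295, 0, 0, 0, ⟨0, 0⟩, 0⟩, 0, 0⟩ 0 0) (.pos 49 .mp ⟨⟨967105802, 0, 0, 0, 0, 484152951,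 0, 0, 0, ⟨0, 0⟩, 0⟩, 0, 0⟩ 0 0))) (.pos 49 .mp ⟨⟨961444995, 0, 0, 0, 0, 475598596, 0, 0, 0, ⟨0, 0⟩, 0⟩, 0, 0⟩ 0 0))) (.pos 50 .mp ⟨⟨1051413623, 0, 0, 0, 0, 329613939, 0, 0, 0, ⟨0, 0⟩, 0⟩, 0, 0⟩ 0 0)) (.cut .v 16809984 (.cut .d (-4096) (.pos 49 .mp ⟨⟨950398476, 0, 0, 0, 0, 548154433, 0, 0, 0, ⟨0, 0⟩, 0⟩, 0, 0⟩ 0 0) (.cut .l 141961 (.cut .d (-2048) (.pos 49 .mp ⟨⟨967667650, 0, 0, 0, 0, 509317239, 0, 0, 0, ⟨0, 0⟩, 0⟩, 0, 0⟩ 0 0) (.cut .s 14437376 (.pos 49 .mp ⟨⟨971384028, 0, 0, 0, 0, 486544804, 0, 0, 0, ⟨0, 0⟩, 0⟩, 0, 0⟩ 0 0) (.pos 49 .mp ⟨⟨975686987, 0, 0, 0, 0, 488971855, 0, 0, 0, ⟨0, 0⟩, 0⟩, 0, 0⟩ 0 0))) (.pos 49 .mp ⟨⟨969926856, 0,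 0, 0, 0, 479946058, 0, 0, 0, ⟨0, 0⟩, 0⟩, 0, 0⟩ 0 0))) (.pos 50 .mp ⟨⟨1063569249, 0, 0, 0, 0, 327579047, 0, 0, 0, ⟨0, 0⟩, 0⟩, 0, 0⟩ 0 0)))) (.cut .s 14462976 (.cut .s 14452736 (.cut .v 16809984 (.cut .d (-4096) (.pos 49 .mp ⟨⟨958856415, 0, 0, 0, 0, 553976711, 0, 0, 0, ⟨0, 0⟩, 0⟩, 0, 0⟩ 0 0) (.cut .l 141961 (.cut .d (-2048) (.pos 49 .mp ⟨⟨977350035, 0, 0, 0, 0, 512083539, 0, 0, 0, ⟨0, 0⟩, 0⟩, 0, 0⟩ 0 0) (.cut .s 14447616 (.pos 49 .mp ⟨⟨979979006, 0, 0, 0, 0, 491513463, 0, 0, 0, ⟨0, 0⟩, 0⟩, 0, 0⟩ 0 0) (.pos 49 .mp ⟨⟨984076676, 0, 0, 0, 0, 494576232, 0, 0, 0, ⟨0, 0⟩, 0⟩, 0, 0⟩ 0 0))) (.pos 49 .mp ⟨⟨978504183, 0, 0, 0, 0, 484337189, 0, 0,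 0, ⟨0, 0⟩, 0⟩, 0, 0⟩ 0 0))) (.pos 50 .mp ⟨⟨1076375908, 0, 0, 0, 0, 324621892, 0, 0, 0, ⟨0, 0⟩, 0⟩, 0, 0⟩ 0 0)) (.cut .v 16809984 (.cut .d (-4096) (.pos 49 .mp ⟨⟨967411685, 0, 0, 0, 0, 560014710, 0, 0, 0, ⟨0, 0⟩, 0⟩, 0, 0⟩ 0 0) (.cut .s 14457856 (.cut .s 14455296 (.pos 49 .mp ⟨⟨995898691, 0, 0, 0, 0, 481440761, 0, 0, 0, ⟨0, 0⟩, 0⟩, 0, 0⟩ 0 0) (.pos 49 .mp ⟨⟨998520969, 0, 0, 0, 0, 481919192, 0, 0, 0, ⟨0, 0⟩, 0⟩, 0, 0⟩ 0 0)) (.pos 49 .mp ⟨⟨999936517, 0, 0, 0, 0, 486387074, 0, 0, 0, ⟨0, 0⟩, 0⟩, 0, 0⟩ 0 0))) (.pos 50 .mp ⟨⟨1089854009, 0, 0, 0, 0, 320704433, 0, 0, 0, ⟨0, 0⟩, 0⟩, 0, 0⟩ 0 0))) (.cut .s 14473216 (.cut .v 16809984 (.cut .d (-4096)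 (.pos 49 .mp ⟨⟨976065557, 0, 0, 0, 0, 566271420, 0, 0, 0, ⟨0, 0⟩, 0⟩, 0, 0⟩ 0 0) (.cut .s 14468096 (.pos 49 .mp ⟨⟨1004411445, 0, 0, 0, 0, 488902159, 0, 0, 0, ⟨0, 0⟩, 0⟩, 0, 0⟩ 0 0) (.pos 49 .mp ⟨⟨1008912452, 0, 0, 0, 0, 491451718, 0, 0, 0, ⟨0, 0⟩, 0⟩, 0, 0⟩ 0 0))) (.pos 50 .mp ⟨⟨1104024292, 0, 0, 0, 0, 315787964, 0, 0, 0, ⟨0, 0⟩, 0⟩, 0, 0⟩ 0 0)) (.cut .d (-4096) (.pos 39 .mp ⟨⟨1003499058, 0, 0, 0, 0, 535351852, 0, 0, 0, ⟨0, 0⟩, 0⟩, 0, 0⟩ 0 0) (.cut .s 14478336 (.pos 39 .mp ⟨⟨1017029105, 0, 0, 0, 0, 487136673, 0, 0, 0, ⟨0, 0⟩, 0⟩, 0, 0⟩ 0 0) (.pos 39 .mp ⟨⟨1021598447, 0, 0, 0, 0, 489723548, 0, 0, 0, ⟨0, 0⟩, 0⟩, 0, 0⟩ 0 0)))))) (.pos 40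 .mp ⟨⟨1256529669, 0, 0, 0, 0, 0, 0, 0, 0, ⟨0, 0⟩, 0⟩, 0, 0⟩ 0 0))) (.pos 38 .mp ⟨⟨1247173234, 0, 0, 0, 0, 0, 0, 0, 0, ⟨0, 0⟩, 0⟩, 0, 0⟩ 0 0)))))) (.pos 36 .mp ⟨⟨1377560400, 0, 0, 0, 0, 0, 0, 0, 0, ⟨0, 0⟩, 0⟩, 0, 0⟩ 0 0))) (.void 34 ⟨⟨100000, 0, 0, 0, 0, 0, 0, 0, 0, ⟨0, 0⟩, 0⟩, 0, 0⟩ 0 0))) (.void 32 ⟨⟨100000, 0, 0, 0, 0, 0, 0, 0, 0, ⟨0, 0⟩, 0⟩, 0, 0⟩ 0 0))) (.void 30 ⟨⟨100000, 0, 0, 0, 0, 0, 0, 0, 0, ⟨0, 0⟩, 0⟩, 0, 0⟩ 0 0))) (.void 28 ⟨⟨100000, 0, 0, 0, 0, 0, 0, 0, 0, ⟨0, 0⟩, 0⟩, 0, 0⟩ 0 0)))) (.void 26 ⟨⟨100000, 0, 0, 0, 0, 0, 0, 0, 0, ⟨0, 0⟩, 0⟩, 0, 0⟩ 0 0))) (.void 95 ⟨⟨100000, 0, 0, 0, 0, 0, 0, 0, 0, ⟨0, 0⟩, 0⟩, 0, 0⟩ 0 0)) (.void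 106 ⟨⟨100000, 0, 0, 0, 0, 0, 0, 0, 0, ⟨0, 0⟩, 0⟩, 0, 0⟩ 0 0)) (.void 115 ⟨⟨94544, 0, 0, 5828, 0, 0, 6, 0, 0, ⟨0, 0⟩, 0⟩, 0, 0⟩ 0 0))) (.cut .v 16777216 (.cut .v 8388608 (.cut .v 4194304 (.cut .v 2097152 (.cut .v 1048576 (.pos 111 .pm ⟨⟨0, 0, 29545311, 0, 0, 0, 0, 0, 0, ⟨0, 0⟩, 0⟩, 0, 874⟩ 0 0) (.pos 112 .pm ⟨⟨0, 0, 42150376, 0, 0, 0, 0, 0, 0, ⟨0, 0⟩, 0⟩, 0, 2519⟩ 0 0)) (.pos 7 .pm ⟨⟨0, 0, 64678397, 0, 0, 0, 0, 0, 0, ⟨0, 0⟩, 0⟩, 0, 4757⟩ 0 0)) (.pos 5 .pm ⟨⟨0, 0, 192929886, 0, 0, 0, 0, 0, 0, ⟨0, 0⟩, 0⟩, 0, 11622⟩ 0 0)) (.pos 3 .pm ⟨⟨0, 0, 0, 0, 0, 0, 0, 0, 0, ⟨0, 0⟩, 0⟩, 0, 0⟩ 0 0)) (.cut .v 268435456 (.cut .v 67108864 (.cut .d 1439693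 (.cut .v 33554432 (.cut .d 719846 (.cut .d 359923 (.cut .v 25165824 (.cut .d 179961 (.cut .v 20971520 (.cut .d 89980 (.cut .v 18874368 (.cut .v 17825792 (.cut .s 14401536 (.pos 31 .pp ⟨⟨822045469, 0, 0, 0, 0, 0, 0, 0, 0, ⟨0, 0⟩, 0⟩, 37033790, 0⟩ 0 0) (.pos 31 .pp ⟨⟨887841606, 0, 0, 0, 0, 0, 0, 0, 0, ⟨0, 0⟩, 0⟩, 38681397, 0⟩ 0 0)) (.pos 32 .pp ⟨⟨1275374406, 0, 0, 0, 0, 0, 0, 0, 0, ⟨0, 0⟩, 0⟩, 0, 0⟩ 0 0)) (.pos 30 .pp ⟨⟨1535581091, 0, 0, 0, 0, 0, 0, 0, 0, ⟨0, 0⟩, 0⟩, 0, 0⟩ 0 0)) (.pos 27 .pp ⟨⟨1029525006, 0, 0, 0, 0, 0, 0, 0, 0, ⟨0, 0⟩, 0⟩, 0, 1907⟩ 0 0)) (.cut .d 89980 (.void 28 ⟨⟨0, 0, 0, 0, 0, 0, 0, 0, 0, ⟨0, 0⟩, 0⟩, 100000, 0⟩ 0 0)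 (.pos 28 .pp ⟨⟨0, 0, 0, 0, 0, 0, 0, 0, 0, ⟨0, 0⟩, 0⟩, 198779190, 0⟩ 0 0))) (.pos 25 .pp ⟨⟨0, 0, 0, 0, 0, 0, 0, 0, 0, ⟨0, 0⟩, 0⟩, 130044184, 8509⟩ 0 0)) (.pos 26 .pp ⟨⟨0, 0, 0, 0, 0, 0, 0, 0, 0, ⟨0, 0⟩, 0⟩, 287105851, 0⟩ 0 0)) (.pos 24 .pp ⟨⟨0, 0, 0, 0, 0, 0, 0, 0, 0, ⟨0, 0⟩, 0⟩, 124745342, 9346⟩ 0 0)) (.pos 24 .pp ⟨⟨0, 0, 0, 0, 0, 0, 0, 0, 0, ⟨0, 0⟩, 0⟩, 0, 38741⟩ 0 0)) (.cut .d 719846 (.cut .v 50331648 (.pos 96 .pp ⟨⟨0, 0, 0, 0, 0, 0, 0, 0, 0, ⟨0, 0⟩, 0⟩, 415392938, 0⟩ 0 0) (.void 97 ⟨⟨0, 0, 0, 0, 0, 0, 0, 0, 0, ⟨0, 0⟩, 0⟩, 100000, 0⟩ 0 0)) (.pos 95 .pp ⟨⟨0, 0, 0, 0, 0, 0, 0, 0, 0, ⟨0, 0⟩, 0⟩, 201007319, 0⟩ 0 0))) (.pos 94 .pp ⟨⟨0,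 0, 0, 0, 0, 0, 0, 0, 0, ⟨0, 0⟩, 0⟩, 0, 29056⟩ 0 0)) (.void 106 ⟨⟨0, 0, 0, 48613, 0, 0, 0, 0, 0, ⟨0, 0⟩, 0⟩, 51387, 0⟩ 0 0)) (.void 115 ⟨⟨0, 0, 0, 0, 0, 0, 0, 0, 0, ⟨0, 0⟩, 0⟩, 100000, 0⟩ 0 0)))),
    by decide +kernel⟩

def covers29 : cell.Covers Vale.Agent.P237.Petty.Cor.Grid.N13.table row29.1 :=
  ⟨(.cut .d 0 (.cut .v 16777216 (.cut .v 8388608 (.void 2 ⟨⟨0, 0, 100000, 0, 0, 0, 0, 0, 0, ⟨0, 0⟩, 0⟩, 0, 0⟩ 0 0) (.cut .d (-8388608) (.void 3 ⟨⟨100000, 0, 0, 0, 0, 0, 0, 0, 0, ⟨0, 0⟩, 0⟩, 0, 0⟩ 0 0) (.cut .d (-4194304) (.void 3 ⟨⟨100000, 0, 0, 0, 0, 0, 0, 0, 0, ⟨0, 0⟩, 0⟩, 0, 0⟩ 0 0) (.cut .d (-2097152) (.void 3 ⟨⟨100000, 0, 0, 0, 0, 0, 0,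 0, 0, ⟨0, 0⟩, 0⟩, 0, 0⟩ 0 0) (.cut .d (-1048576) (.void 3 ⟨⟨100000, 0, 0, 0, 0, 0, 0, 0, 0, ⟨0, 0⟩, 0⟩, 0, 0⟩ 0 0) (.cut .d (-524288) (.void 3 ⟨⟨0, 0, 0, 0, 0, 100000, 0, 0, 0, ⟨0, 0⟩, 0⟩, 0, 0⟩ 0 0) (.cut .d (-262144) (.void 3 ⟨⟨0, 0, 0, 0, 0, 100000, 0, 0, 0, ⟨0, 0⟩, 0⟩, 0, 0⟩ 0 0) (.cut .s 14565376 (.pos 3 .mm ⟨⟨0, 0, 0, 0, 0, 2568771013, 0, 0, 0, ⟨0, 0⟩, 0⟩, 0, 0⟩ 0 0) (.pos 3 .mm ⟨⟨0, 0, 0, 0, 0, 2781714704, 0, 0, 0, ⟨0, 0⟩, 0⟩, 0, 0⟩ 0 0))))))))) (.cut .v 268435456 (.cut .v 67108864 (.cut .v 33554432 (.cut .d (-8388608) (.void 24 ⟨⟨100016, 0, 0, 0, 0, 0, 0, 0, 0, ⟨0, 0⟩, 0⟩, 0, 0⟩ 0 0) (.cut .v 25165824 (.cut .d (-4194304) (.void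 25 ⟨⟨100000, 0, 0, 0, 0, 0, 0, 0, 0, ⟨0, 0⟩, 0⟩, 0, 0⟩ 0 0) (.cut .d (-2097152) (.void 25 ⟨⟨100000, 0, 0, 0, 0, 0, 0, 0, 0, ⟨0, 0⟩, 0⟩, 0, 0⟩ 0 0) (.cut .v 20971520 (.cut .d (-1048576) (.void 27 ⟨⟨100000, 0, 0, 0, 0, 0, 0, 0, 0, ⟨0, 0⟩, 0⟩, 0, 0⟩ 0 0) (.cut .v 18874368 (.cut .d (-524288) (.void 29 ⟨⟨100000, 0, 0, 0, 0, 0, 0, 0, 0, ⟨0, 0⟩, 0⟩, 0, 0⟩ 0 0) (.cut .v 17825792 (.cut .d (-262144) (.void 31 ⟨⟨100000, 0, 0, 0, 0, 0, 0, 0, 0, ⟨0, 0⟩, 0⟩, 0, 0⟩ 0 0) (.cut .v 17301504 (.cut .d (-131072) (.void 33 ⟨⟨100000, 0, 0, 0, 0, 0, 0, 0, 0, ⟨0, 0⟩, 0⟩, 0, 0⟩ 0 0) (.cut .v 17039360 (.cut .d (-65536) (.void 35 ⟨⟨100000, 0, 0, 0, 0, 0, 0, 0,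 0, ⟨0, 0⟩, 0⟩, 0, 0⟩ 0 0) (.cut .d (-32768) (.void 35 ⟨⟨100000, 0, 0, 0, 0, 0, 0, 0, 0, ⟨0, 0⟩, 0⟩, 0, 0⟩ 0 0) (.cut .d (-16384) (.void 35 ⟨⟨100000, 0, 0, 0, 0, 0, 0, 0, 0, ⟨0, 0⟩, 0⟩, 0, 0⟩ 0 0) (.cut .d (-8192) (.void 35 ⟨⟨0, 0, 0, 0, 0, 100000, 0, 0, 0, ⟨0, 0⟩, 0⟩, 0, 0⟩ 0 0) (.cut .v 16908288 (.cut .s 14565376 (.cut .v 16842752 (.cut .s 14524416 (.cut .s 14503936 (.cut .d (-4096) (.cut .s 14493696 (.pos 39 .mp ⟨⟨1014389713, 0, 0, 0, 0, 537004261, 0, 0, 0, ⟨0, 0⟩, 0⟩, 0, 0⟩ 0 0) (.pos 39 .mp ⟨⟨1006264850, 0, 0, 0, 0, 583717102, 0, 0, 0, ⟨0, 0⟩, 0⟩, 0, 0⟩ 0 0)) (.cut .v 16809984 (.cut .l 141961 (.cut .s 14493696 (.cut .s 14488576 (.pos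 49 .mp ⟨⟨1022576894, 0, 0, 0, 0, 498744656, 0, 0, 0, ⟨0, 0⟩, 0⟩, 0, 0⟩ 0 0) (.pos 49 .mp ⟨⟨1027185198, 0, 0, 0, 0, 500572382, 0, 0, 0, ⟨0, 0⟩, 0⟩, 0, 0⟩ 0 0)) (.cut .s 14498816 (.pos 49 .mp ⟨⟨1031821747, 0, 0, 0, 0, 502437567, 0, 0, 0, ⟨0, 0⟩, 0⟩, 0, 0⟩ 0 0) (.pos 49 .mp ⟨⟨1036486730, 0, 0, 0, 0, 504340073, 0, 0, 0, ⟨0, 0⟩, 0⟩, 0, 0⟩ 0 0))) (.pos 49 .mp ⟨⟨1024104568, 0, 0, 0, 0, 489060387, 0, 0, 0, ⟨0, 0⟩, 0⟩, 0, 0⟩ 0 0)) (.pos 50 .mp ⟨⟨1284980517, 0, 0, 0, 0, 0, 0, 0, 0, ⟨0, 0⟩, 0⟩, 0, 0⟩ 0 0))) (.cut .d (-4096) (.cut .d (-6144) (.pos 39 .mp ⟨⟨1024438314, 0, 0, 0, 0, 598256108, 0, 0, 0, ⟨0, 0⟩, 0⟩, 0, 0⟩ 0 0) (.cut .v 16809984 (.cut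 .s 14514176 (.pos 49 .mp ⟨⟨1011757193, 0, 0, 0, 0, 587099891, 0, 0, 0, ⟨0, 0⟩, 0⟩, 0, 0⟩ 0 0) (.pos 49 .mp ⟨⟨1020961769, 0, 0, 0, 0, 591291149, 0, 0, 0, ⟨0, 0⟩, 0⟩, 0, 0⟩ 0 0)) (.pos 50 .mp ⟨⟨1200898065, 0, 0, 0, 0, 228632373, 0, 0, 0, ⟨0, 0⟩, 0⟩, 0, 0⟩ 0 0))) (.cut .v 16809984 (.cut .l 141961 (.cut .s 14514176 (.cut .s 14509056 (.pos 49 .mp ⟨⟨1041180334, 0, 0, 0, 0, 506279758, 0, 0, 0, ⟨0, 0⟩, 0⟩, 0, 0⟩ 0 0) (.cut .s 14511616 (.pos 49 .mp ⟨⟨1044521128, 0, 0, 0, 0, 508026735, 0, 0, 0, ⟨0, 0⟩, 0⟩, 0, 0⟩ 0 0) (.pos 49 .mp ⟨⟨1046459306, 0, 0, 0, 0, 509798151, 0, 0, 0, ⟨0, 0⟩, 0⟩, 0, 0⟩ 0 0))) (.cut .d (-2048) (.pos 49 .mp ⟨⟨1026161594,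 0, 0, 0, 0, 582841979, 0, 0, 0, ⟨0, 0⟩, 0⟩, 0, 0⟩ 0 0) (.cut .s 14519296 (.pos 49 .mp ⟨⟨1043012992, 0, 0, 0, 0, 524472940, 0, 0, 0, ⟨0, 0⟩, 0⟩, 0, 0⟩ 0 0) (.pos 49 .mp ⟨⟨1048071175, 0, 0, 0, 0, 525791661, 0, 0, 0, ⟨0, 0⟩, 0⟩, 0, 0⟩ 0 0)))) (.pos 49 .mp ⟨⟨1042838806, 0, 0, 0, 0, 497446491, 0, 0, 0, ⟨0, 0⟩, 0⟩, 0, 0⟩ 0 0)) (.pos 50 .mp ⟨⟨1306737655, 0, 0, 0, 0, 0, 0, 0, 0, ⟨0, 0⟩, 0⟩, 0, 0⟩ 0 0)))) (.cut .s 14544896 (.cut .d (-4096) (.cut .d (-6144) (.pos 39 .mp ⟨⟨1042714676, 0, 0, 0, 0, 608854624, 0, 0, 0, ⟨0, 0⟩, 0⟩, 0, 0⟩ 0 0) (.cut .l 141961 (.void 39 ⟨⟨0, 0, 0, 0, 0, 100000, 0, 0, 0, ⟨0, 0⟩, 0⟩, 0, 0⟩ 0 0) (.cut .s 14534656 (.pos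 39 .mp ⟨⟨1036933356, 0, 0, 0, 0, 581420363, 0, 0, 0, ⟨0, 0⟩, 0⟩, 0, 0⟩ 0 0) (.pos 39 .mp ⟨⟨1045622210, 0, 0, 0, 0, 588226835, 0, 0, 0, ⟨0, 0⟩, 0⟩, 0, 0⟩ 0 0)))) (.cut .l 141961 (.cut .v 16809984 (.cut .s 14534656 (.cut .d (-2048) (.pos 49 .mp ⟨⟨1035485576, 0, 0, 0, 0, 587280734, 0, 0, 0, ⟨0, 0⟩, 0⟩, 0, 0⟩ 0 0) (.cut .s 14529536 (.pos 49 .mp ⟨⟨1052830405, 0, 0, 0, 0, 527881554, 0, 0, 0, ⟨0, 0⟩, 0⟩, 0, 0⟩ 0 0) (.pos 49 .mp ⟨⟨1057618782, 0, 0, 0, 0, 530015510, 0, 0, 0, ⟨0, 0⟩, 0⟩, 0, 0⟩ 0 0))) (.cut .d (-2048) (.pos 49 .mp ⟨⟨1044923269, 0, 0, 0, 0, 591964076, 0, 0, 0, ⟨0, 0⟩, 0⟩, 0, 0⟩ 0 0) (.cut .s 14539776 (.pos 49 .mp ⟨⟨1062436505, 0,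 0, 0, 0, 532193535, 0, 0, 0, ⟨0, 0⟩, 0⟩, 0, 0⟩ 0 0) (.cut .s 14542336 (.pos 49 .mp ⟨⟨1065367509, 0, 0, 0, 0, 536629399, 0, 0, 0, ⟨0, 0⟩, 0⟩, 0, 0⟩ 0 0) (.pos 49 .mp ⟨⟨1067611957, 0, 0, 0, 0, 538098840, 0, 0, 0, ⟨0, 0⟩, 0⟩, 0, 0⟩ 0 0))))) (.pos 50 .mp ⟨⟨1361925920, 0, 0, 0, 0, 0, 0, 0, 0, ⟨0, 0⟩, 0⟩, 0, 0⟩ 0 0)) (.pos 39 .mp ⟨⟨1065817310, 0, 0, 0, 0, 499574533, 0, 0, 0, ⟨0, 0⟩, 0⟩, 0, 0⟩ 0 0))) (.cut .d (-4096) (.cut .l 141961 (.void 39 ⟨⟨0, 0, 0, 0, 0, 100000, 0, 0, 0, ⟨0, 0⟩, 0⟩, 0, 0⟩ 0 0) (.cut .s 14555136 (.pos 39 .mp ⟨⟨1053616464, 0, 0, 0, 0, 597695194, 0, 0, 0, ⟨0, 0⟩, 0⟩, 0, 0⟩ 0 0) (.pos 39 .mp ⟨⟨1062802459, 0, 0, 0, 0, 604211484,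 0, 0, 0, ⟨0, 0⟩, 0⟩, 0, 0⟩ 0 0))) (.cut .l 141961 (.cut .v 16809984 (.cut .s 14555136 (.cut .d (-2048) (.pos 49 .mp ⟨⟨1054476210, 0, 0, 0, 0, 596895531, 0, 0, 0, ⟨0, 0⟩, 0⟩, 0, 0⟩ 0 0) (.cut .v 16793600 (.cut .s 14550016 (.pos 51 .mp ⟨⟨1070260655, 0, 0, 0, 0, 540344877, 0, 0, 0, ⟨0, 0⟩, 0⟩, 0, 0⟩ 0 0) (.cut .s 14552576 (.pos 51 .mp ⟨⟨1079389518, 0, 0, 0, 0, 532714976, 0, 0, 0, ⟨0, 0⟩, 0⟩, 0, 0⟩ 0 0) (.pos 51 .mp ⟨⟨1081650170, 0, 0, 0, 0, 534261179, 0, 0, 0, ⟨0, 0⟩, 0⟩, 0, 0⟩ 0 0))) (.pos 52 .mp ⟨⟨1343536787, 0, 0, 0, 0, 0, 0, 0, 0, ⟨0, 0⟩, 0⟩, 0, 0⟩ 0 0))) (.cut .d (-2048) (.pos 49 .mp ⟨⟨1064145965, 0, 0, 0, 0, 602078692, 0, 0, 0, ⟨0,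 0⟩, 0⟩, 0, 0⟩ 0 0) (.cut .v 16793600 (.cut .l 70980 (.cut .d (-1024) (.pos 51 .mp ⟨⟨1064868492, 0, 0, 0, 0, 597530902, 0, 0, 0, ⟨0, 0⟩, 0⟩, 0, 0⟩ 0 0) (.cut .s 14560256 (.pos 51 .mp ⟨⟨1075990465, 0, 0, 0, 0, 552788302, 0, 0, 0, ⟨0, 0⟩, 0⟩, 0, 0⟩ 0 0) (.pos 51 .mp ⟨⟨1081055740, 0, 0, 0, 0, 554959892, 0, 0, 0, ⟨0, 0⟩, 0⟩, 0, 0⟩ 0 0))) (.pos 51 .mp ⟨⟨1078527591, 0, 0, 0, 0, 539122922, 0, 0, 0, ⟨0, 0⟩, 0⟩, 0, 0⟩ 0 0)) (.pos 52 .mp ⟨⟨1355537518, 0, 0, 0, 0, 0, 0, 0, 0, ⟨0, 0⟩, 0⟩, 0, 0⟩ 0 0)))) (.pos 50 .mp ⟨⟨1386459533, 0, 0, 0, 0, 0, 0, 0, 0, ⟨0, 0⟩, 0⟩, 0, 0⟩ 0 0)) (.pos 39 .mp ⟨⟨1085556038, 0, 0, 0, 0, 508405080, 0, 0, 0, ⟨0, 0⟩, 0⟩,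 0, 0⟩ 0 0))))) (.pos 40 .mp ⟨⟨1351974258, 0, 0, 0, 0, 0, 0, 0, 0, ⟨0, 0⟩, 0⟩, 0, 0⟩ 0 0)) (.cut .s 14606336 (.cut .v 16842752 (.cut .s 14585856 (.cut .d (-4096) (.cut .l 141961 (.void 39 ⟨⟨0, 0, 0, 0, 0, 100000, 0, 0, 0, ⟨0, 0⟩, 0⟩, 0, 0⟩ 0 0) (.cut .d (-6144) (.pos 39 .mp ⟨⟨1080508421, 0, 0, 0, 0, 633446213, 0, 0, 0, ⟨0, 0⟩, 0⟩, 0, 0⟩ 0 0) (.cut .s 14575616 (.pos 39 .mp ⟨⟨1073220520, 0, 0, 0, 0, 607658092, 0, 0, 0, ⟨0, 0⟩, 0⟩, 0, 0⟩ 0 0) (.pos 39 .mp ⟨⟨1082955074, 0, 0, 0, 0, 613757922, 0, 0, 0, ⟨0, 0⟩, 0⟩, 0, 0⟩ 0 0)))) (.cut .v 16809984 (.cut .l 141961 (.cut .s 14575616 (.cut .d (-2048) (.pos 49 .mp ⟨⟨1073934126, 0, 0, 0, 0, 607517217,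 0, 0, 0, ⟨0, 0⟩, 0⟩, 0, 0⟩ 0 0) (.cut .v 16793600 (.cut .l 70980 (.cut .d (-1024) (.pos 51 .mp ⟨⟨1074644141, 0, 0, 0, 0, 602964531, 0, 0, 0, ⟨0, 0⟩, 0⟩, 0, 0⟩ 0 0) (.cut .s 14570496 (.pos 51 .mp ⟨⟨1086122619, 0, 0, 0, 0, 557239693, 0, 0, 0, ⟨0, 0⟩, 0⟩, 0, 0⟩ 0 0) (.pos 51 .mp ⟨⟨1091115322, 0, 0, 0, 0, 559796380, 0, 0, 0, ⟨0, 0⟩, 0⟩, 0, 0⟩ 0 0))) (.pos 51 .mp ⟨⟨1088477783, 0, 0, 0, 0, 544094985, 0, 0, 0, ⟨0, 0⟩, 0⟩, 0, 0⟩ 0 0)) (.pos 52 .mp ⟨⟨1367778022, 0, 0, 0, 0, 0, 0, 0, 0, ⟨0, 0⟩, 0⟩, 0, 0⟩ 0 0))) (.cut .d (-2048) (.pos 49 .mp ⟨⟨1083842319, 0, 0, 0, 0, 613214831, 0, 0, 0, ⟨0, 0⟩, 0⟩, 0, 0⟩ 0 0) (.cut .v 16793600 (.cut .l 70980 (.cut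 .d (-1024) (.pos 51 .mp ⟨⟨1084539793, 0, 0, 0, 0, 608656776, 0, 0, 0, ⟨0, 0⟩, 0⟩, 0, 0⟩ 0 0) (.cut .s 14580736 (.pos 51 .mp ⟨⟨1096138720, 0, 0, 0, 0, 562397676, 0, 0, 0, ⟨0, 0⟩, 0⟩, 0, 0⟩ 0 0) (.pos 51 .mp ⟨⟨1101193024, 0, 0, 0, 0, 565043573, 0, 0, 0, ⟨0, 0⟩, 0⟩, 0, 0⟩ 0 0))) (.pos 51 .mp ⟨⟨1098550572, 0, 0, 0, 0, 549125413, 0, 0, 0, ⟨0, 0⟩, 0⟩, 0, 0⟩ 0 0)) (.pos 52 .mp ⟨⟨1380261517, 0, 0, 0, 0, 0, 0, 0, 0, ⟨0, 0⟩, 0⟩, 0, 0⟩ 0 0)))) (.pos 49 .mp ⟨⟨1101863894, 0, 0, 0, 0, 524289391, 0, 0, 0, ⟨0, 0⟩, 0⟩, 0, 0⟩ 0 0)) (.pos 50 .mp ⟨⟨1377525964, 0, 0, 0, 0, 0, 0, 0, 0, ⟨0, 0⟩, 0⟩, 0, 0⟩ 0 0))) (.cut .d (-4096) (.cut .l 141961 (.void 39 ⟨⟨0,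 0, 0, 0, 0, 100000, 0, 0, 0, ⟨0, 0⟩, 0⟩, 0, 0⟩ 0 0) (.cut .s 14596096 (.pos 39 .mp ⟨⟨1092513606, 0, 0, 0, 0, 621378644, 0, 0, 0, ⟨0, 0⟩, 0⟩, 0, 0⟩ 0 0) (.pos 39 .mp ⟨⟨1102692173, 0, 0, 0, 0, 627331174, 0, 0, 0, ⟨0, 0⟩, 0⟩, 0, 0⟩ 0 0))) (.cut .v 16809984 (.cut .l 141961 (.cut .s 14596096 (.cut .d (-2048) (.pos 49 .mp ⟨⟨1093872197, 0, 0, 0, 0, 619175332, 0, 0, 0, ⟨0, 0⟩, 0⟩, 0, 0⟩ 0 0) (.cut .v 16793600 (.cut .l 70980 (.cut .d (-1024) (.pos 51 .mp ⟨⟨1094557103, 0, 0, 0, 0, 614611427, 0, 0, 0, ⟨0, 0⟩, 0⟩, 0, 0⟩ 0 0) (.cut .s 14590976 (.pos 51 .mp ⟨⟨1106278448, 0, 0, 0, 0, 567734061, 0, 0, 0, ⟨0, 0⟩, 0⟩, 0, 0⟩ 0 0) (.pos 51 .mp ⟨⟨1111395207,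 0, 0, 0, 0, 570469129, 0, 0, 0, ⟨0, 0⟩, 0⟩, 0, 0⟩ 0 0))) (.pos 51 .mp ⟨⟨1108747657, 0, 0, 0, 0, 554210182, 0, 0, 0, ⟨0, 0⟩, 0⟩, 0, 0⟩ 0 0)) (.pos 52 .mp ⟨⟨1392991282, 0, 0, 0, 0, 0, 0, 0, 0, ⟨0, 0⟩, 0⟩, 0, 0⟩ 0 0))) (.cut .d (-2048) (.pos 49 .mp ⟨⟨1104025445, 0, 0, 0, 0, 625402584, 0, 0, 0, ⟨0, 0⟩, 0⟩, 0, 0⟩ 0 0) (.cut .v 16793600 (.cut .l 70980 (.cut .d (-1024) (.pos 51 .mp ⟨⟨1104697754, 0, 0, 0, 0, 620832343, 0, 0, 0, ⟨0, 0⟩, 0⟩, 0, 0⟩ 0 0) (.cut .s 14601216 (.pos 51 .mp ⟨⟨1116543519, 0, 0, 0, 0, 573248763, 0, 0, 0, ⟨0, 0⟩, 0⟩, 0, 0⟩ 0 0) (.pos 51 .mp ⟨⟨1121637375, 0, 0, 0, 0, 576264427, 0, 0, 0, ⟨0, 0⟩, 0⟩, 0, 0⟩ 0 0))) (.pos 51 .mp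 ⟨⟨1119070767, 0, 0, 0, 0, 559345208, 0, 0, 0, ⟨0, 0⟩, 0⟩, 0, 0⟩ 0 0)) (.pos 52 .mp ⟨⟨1405970658, 0, 0, 0, 0, 0, 0, 0, 0, ⟨0, 0⟩, 0⟩, 0, 0⟩ 0 0)))) (.pos 49 .mp ⟨⟨1122523299, 0, 0, 0, 0, 533694631, 0, 0, 0, ⟨0, 0⟩, 0⟩, 0, 0⟩ 0 0)) (.pos 50 .mp ⟨⟨1403043512, 0, 0, 0, 0, 0, 0, 0, 0, ⟨0, 0⟩, 0⟩, 0, 0⟩ 0 0)))) (.pos 40 .mp ⟨⟨1423552510, 0, 0, 0, 0, 0, 0, 0, 0, ⟨0, 0⟩, 0⟩, 0, 0⟩ 0 0)) (.cut .v 16842752 (.cut .s 14626816 (.cut .d (-4096) (.cut .d (-6144) (.pos 39 .mp ⟨⟨1121222242, 0, 0, 0, 0, 659787355, 0, 0, 0, ⟨0, 0⟩, 0⟩, 0, 0⟩ 0 0) (.cut .l 141961 (.void 39 ⟨⟨0, 0, 0, 0, 0, 100000, 0, 0, 0, ⟨0, 0⟩, 0⟩, 0, 0⟩ 0 0) (.cut .s 14616576 (.pos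 39 .mp ⟨⟨1113870520, 0, 0, 0, 0, 630717743, 0, 0, 0, ⟨0, 0⟩, 0⟩, 0, 0⟩ 0 0) (.pos 39 .mp ⟨⟨1124772445, 0, 0, 0, 0, 635873258, 0, 0, 0, ⟨0, 0⟩, 0⟩, 0, 0⟩ 0 0)))) (.cut .l 141961 (.cut .v 16809984 (.cut .s 14616576 (.cut .d (-2048) (.pos 49 .mp ⟨⟨1114303782, 0, 0, 0, 0, 631900528, 0, 0, 0, ⟨0, 0⟩, 0⟩, 0, 0⟩ 0 0) (.cut .v 16793600 (.cut .l 70980 (.cut .d (-1024) (.pos 51 .mp ⟨⟨1114963464, 0, 0, 0, 0, 627323456, 0, 0, 0, ⟨0, 0⟩, 0⟩, 0, 0⟩ 0 0) (.cut .s 14611456 (.pos 51 .mp ⟨⟨1126708882, 0, 0, 0, 0, 579445339, 0, 0, 0, ⟨0, 0⟩, 0⟩, 0, 0⟩ 0 0) (.pos 51 .mp ⟨⟨1131778115, 0, 0, 0, 0, 582747415, 0, 0, 0, ⟨0, 0⟩, 0⟩, 0, 0⟩ 0 0))) (.pos 51 .mp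 ⟨⟨1129521665, 0, 0, 0, 0, 564526341, 0, 0, 0, ⟨0, 0⟩, 0⟩, 0, 0⟩ 0 0)) (.pos 52 .mp ⟨⟨1419203047, 0, 0, 0, 0, 0, 0, 0, 0, ⟨0, 0⟩, 0⟩, 0, 0⟩ 0 0))) (.cut .d (-2048) (.pos 49 .mp ⟨⟨1124708955, 0, 0, 0, 0, 638673178, 0, 0, 0, ⟨0, 0⟩, 0⟩, 0, 0⟩ 0 0) (.cut .v 16793600 (.cut .s 14621696 (.pos 51 .mp ⟨⟨1141654924, 0, 0, 0, 0, 576944402, 0, 0, 0, ⟨0, 0⟩, 0⟩, 0, 0⟩ 0 0) (.pos 51 .mp ⟨⟨1146994169, 0, 0, 0, 0, 579889174, 0, 0, 0, ⟨0, 0⟩, 0⟩, 0, 0⟩ 0 0)) (.pos 52 .mp ⟨⟨1432691917, 0, 0, 0, 0, 0, 0, 0, 0, ⟨0, 0⟩, 0⟩, 0, 0⟩ 0 0)))) (.pos 50 .mp ⟨⟨1463723461, 0, 0, 0, 0, 0, 0, 0, 0, ⟨0, 0⟩, 0⟩, 0, 0⟩ 0 0)) (.pos 39 .mp ⟨⟨1147762719, 0, 0, 0, 0, 536185413,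 0, 0, 0, ⟨0, 0⟩, 0⟩, 0, 0⟩ 0 0))) (.cut .d (-4096) (.cut .s 14637056 (.cut .s 14631936 (.pos 39 .mp ⟨⟨1133985796, 0, 0, 0, 0, 644469861, 0, 0, 0, ⟨0, 0⟩, 0⟩, 0, 0⟩ 0 0) (.pos 39 .mp ⟨⟨1139314266, 0, 0, 0, 0, 648025131, 0, 0, 0, ⟨0, 0⟩, 0⟩, 0, 0⟩ 0 0)) (.pos 39 .mp ⟨⟨1144675592, 0, 0, 0, 0, 662233588, 0, 0, 0, ⟨0, 0⟩, 0⟩, 0, 0⟩ 0 0)) (.cut .l 141961 (.cut .v 16809984 (.cut .s 14637056 (.cut .d (-2048) (.pos 49 .mp ⟨⟨1135242748, 0, 0, 0, 0, 645724623, 0, 0, 0, ⟨0, 0⟩, 0⟩, 0, 0⟩ 0 0) (.cut .s 14631936 (.pos 49 .mp ⟨⟨1154408638, 0, 0, 0, 0, 578928085, 0, 0, 0, ⟨0, 0⟩, 0⟩, 0, 0⟩ 0 0) (.pos 49 .mp ⟨⟨1159823765, 0, 0, 0, 0, 581941839, 0, 0,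 0, ⟨0, 0⟩, 0⟩, 0, 0⟩ 0 0))) (.cut .d (-2048) (.pos 49 .mp ⟨⟨1145906979, 0, 0, 0, 0, 653059032, 0, 0, 0, ⟨0, 0⟩, 0⟩, 0, 0⟩ 0 0) (.cut .s 14642176 (.pos 49 .mp ⟨⟨1165272575, 0, 0, 0, 0, 584999356, 0, 0, 0, ⟨0, 0⟩, 0⟩, 0, 0⟩ 0 0) (.pos 49 .mp ⟨⟨1170755306, 0, 0, 0, 0, 588100598, 0, 0, 0, ⟨0, 0⟩, 0⟩, 0, 0⟩ 0 0)))) (.pos 50 .mp ⟨⟨1490681173, 0, 0, 0, 0, 0, 0, 0, 0, ⟨0, 0⟩, 0⟩, 0, 0⟩ 0 0)) (.pos 39 .mp ⟨⟨1169542231, 0, 0, 0, 0, 545764272, 0, 0, 0, ⟨0, 0⟩, 0⟩, 0, 0⟩ 0 0)))) (.pos 40 .mp ⟨⟨1475878617, 0, 0, 0, 0, 0, 0, 0, 0, ⟨0, 0⟩, 0⟩, 0, 0⟩ 0 0)))) (.pos 38 .mp ⟨⟨1443809548, 0, 0, 0, 0, 0, 0, 0, 0, ⟨0, 0⟩, 0⟩, 0, 0⟩ 0 0)))))) (.pos 36 .mp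 ⟨⟨1594818169, 0, 0, 0, 0, 0, 0, 0, 0, ⟨0, 0⟩, 0⟩, 0, 0⟩ 0 0))) (.void 34 ⟨⟨100000, 0, 0, 0, 0, 0, 0, 0, 0, ⟨0, 0⟩, 0⟩, 0, 0⟩ 0 0))) (.void 32 ⟨⟨100000, 0, 0, 0, 0, 0, 0, 0, 0, ⟨0, 0⟩, 0⟩, 0, 0⟩ 0 0))) (.void 30 ⟨⟨100000, 0, 0, 0, 0, 0, 0, 0, 0, ⟨0, 0⟩, 0⟩, 0, 0⟩ 0 0))) (.void 28 ⟨⟨100000, 0, 0, 0, 0, 0, 0, 0, 0, ⟨0, 0⟩, 0⟩, 0, 0⟩ 0 0)))) (.void 26 ⟨⟨100000, 0, 0, 0, 0, 0, 0, 0, 0, ⟨0, 0⟩, 0⟩, 0, 0⟩ 0 0))) (.void 95 ⟨⟨100000, 0, 0, 0, 0, 0, 0, 0, 0, ⟨0, 0⟩, 0⟩, 0, 0⟩ 0 0)) (.void 106 ⟨⟨100000, 0, 0, 0, 0, 0, 0, 0, 0, ⟨0, 0⟩, 0⟩, 0, 0⟩ 0 0)) (.void 115 ⟨⟨94201, 0, 0, 5872, 0, 0, 0, 0, 0, ⟨0, 0⟩, 0⟩, 0, 0⟩ 0 0))) (.cut .v 16777216 (.cut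 .v 8388608 (.cut .v 4194304 (.cut .v 2097152 (.cut .v 1048576 (.pos 111 .pm ⟨⟨0, 0, 32701957, 0, 0, 0, 0, 0, 0, ⟨0, 0⟩, 0⟩, 0, 623⟩ 0 0) (.pos 112 .pm ⟨⟨0, 0, 51537119, 0, 0, 0, 0, 0, 0, ⟨0, 0⟩, 0⟩, 0, 2096⟩ 0 0)) (.pos 7 .pm ⟨⟨0, 0, 82921155, 0, 0, 0, 0, 0, 0, ⟨0, 0⟩, 0⟩, 0, 3865⟩ 0 0)) (.pos 5 .pm ⟨⟨0, 0, 255372738, 0, 0, 0, 0, 0, 0, ⟨0, 0⟩, 0⟩, 0, 8558⟩ 0 0)) (.pos 3 .pm ⟨⟨0, 0, 0, 0, 0, 0, 0, 0, 0, ⟨0, 0⟩, 0⟩, 0, 0⟩ 0 0)) (.cut .v 268435456 (.cut .v 67108864 (.cut .d 1328514 (.cut .v 33554432 (.cut .d 664257 (.cut .d 332128 (.cut .v 25165824 (.cut .d 166064 (.cut .v 20971520 (.cut .d 83032 (.cut .v 18874368 (.cut .v 17825792 (.cut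 .s 14565376 (.pos 31 .pp ⟨⟨961545175, 0, 0, 0, 0, 0, 0, 0, 0, ⟨0, 0⟩, 0⟩, 40431801, 0⟩ 0 0) (.pos 31 .pp ⟨⟨1039049881, 0, 0, 0, 0, 0, 0, 0, 0, ⟨0, 0⟩, 0⟩, 42671390, 0⟩ 0 0)) (.pos 32 .pp ⟨⟨1468397490, 0, 0, 0, 0, 0, 0, 0, 0, ⟨0, 0⟩, 0⟩, 0, 0⟩ 0 0)) (.pos 30 .pp ⟨⟨1769300476, 0, 0, 0, 0, 0, 0, 0, 0, ⟨0, 0⟩, 0⟩, 0, 0⟩ 0 0)) (.pos 27 .pp ⟨⟨1184373010, 0, 0, 0, 0, 0, 0, 0, 0, ⟨0, 0⟩, 0⟩, 0, 1410⟩ 0 0)) (.cut .d 83032 (.void 28 ⟨⟨0, 0, 0, 0, 0, 0, 0, 0, 0, ⟨0, 0⟩, 0⟩, 100000, 0⟩ 0 0) (.pos 28 .pp ⟨⟨0, 0, 0, 0, 0, 0, 0, 0, 0, ⟨0, 0⟩, 0⟩, 229105536, 0⟩ 0 0))) (.pos 25 .pp ⟨⟨0, 0, 0, 0, 0, 0, 0, 0, 0, ⟨0, 0⟩, 0⟩, 149666097, 6264⟩ 0 0)) (.pos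 26 .pp ⟨⟨0, 0, 0, 0, 0, 0, 0, 0, 0, ⟨0, 0⟩, 0⟩, 330152839, 0⟩ 0 0)) (.pos 24 .pp ⟨⟨0, 0, 0, 0, 0, 0, 0, 0, 0, ⟨0, 0⟩, 0⟩, 144089098, 6828⟩ 0 0)) (.pos 24 .pp ⟨⟨0, 0, 0, 0, 0, 0, 0, 0, 0, ⟨0, 0⟩, 0⟩, 0, 28527⟩ 0 0)) (.cut .d 664257 (.cut .v 50331648 (.pos 96 .pp ⟨⟨0, 0, 0, 0, 0, 0, 0, 0, 0, ⟨0, 0⟩, 0⟩, 476373838, 0⟩ 0 0) (.void 97 ⟨⟨0, 0, 0, 0, 0, 0, 0, 0, 0, ⟨0, 0⟩, 0⟩, 100000, 0⟩ 0 0)) (.pos 95 .pp ⟨⟨0, 0, 0, 0, 0, 0, 0, 0, 0, ⟨0, 0⟩, 0⟩, 238436212, 0⟩ 0 0))) (.pos 94 .pp ⟨⟨0, 0, 0, 0, 0, 0, 0, 0, 0, ⟨0, 0⟩, 0⟩, 0, 21396⟩ 0 0)) (.void 106 ⟨⟨0, 0, 0, 48845, 0, 0, 0, 0, 0, ⟨0, 0⟩, 0⟩, 51155, 0⟩ 0 0)) (.void 115 ⟨⟨0, 0, 0, 0, 0, 0, 0,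 0, 0, ⟨0, 0⟩, 0⟩, 100000, 0⟩ 0 0)))),
    by decide +kernel⟩

def covers30 : cell.Covers Vale.Agent.P237.Petty.Cor.Grid.N13.table row30.1 :=
  ⟨(.cut .d 0 (.cut .v 16777216 (.cut .v 8388608 (.void 2 ⟨⟨0, 0, 100000, 0, 0, 0, 0, 0, 0, ⟨0, 0⟩, 0⟩, 0, 0⟩ 0 0) (.cut .d (-8388608) (.void 3 ⟨⟨100000, 0, 0, 0, 0, 0, 0, 0, 0, ⟨0, 0⟩, 0⟩, 0, 0⟩ 0 0) (.cut .d (-4194304) (.void 3 ⟨⟨100000, 0, 0, 0, 0, 0, 0, 0, 0, ⟨0, 0⟩, 0⟩, 0, 0⟩ 0 0) (.cut .d (-2097152) (.void 3 ⟨⟨100000, 0, 0, 0, 0, 0, 0, 0, 0, ⟨0, 0⟩, 0⟩, 0, 0⟩ 0 0) (.cut .d (-1048576) (.void 3 ⟨⟨100000, 0, 0, 0, 0, 0, 0, 0, 0, ⟨0, 0⟩, 0⟩, 0, 0⟩ 0 0) (.cut .d (-524288) (.void 3 ⟨⟨0, 0, 0, 0,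 0, 100000, 0, 0, 0, ⟨0, 0⟩, 0⟩, 0, 0⟩ 0 0) (.cut .d (-262144) (.void 3 ⟨⟨0, 0, 0, 0, 0, 100000, 0, 0, 0, ⟨0, 0⟩, 0⟩, 0, 0⟩ 0 0) (.cut .d (-131072) (.void 3 ⟨⟨0, 0, 0, 0, 0, 100000, 0, 0, 0, ⟨0, 0⟩, 0⟩, 0, 0⟩ 0 0) (.cut .s 14729216 (.pos 3 .mm ⟨⟨0, 0, 0, 0, 0, 2938292643, 0, 0, 0, ⟨0, 0⟩, 0⟩, 0, 0⟩ 0 0) (.pos 3 .mm ⟨⟨0, 0, 0, 0, 0, 3192587380, 0, 0, 0, ⟨0, 0⟩, 0⟩, 0, 0⟩ 0 0)))))))))) (.cut .v 268435456 (.cut .v 67108864 (.cut .v 33554432 (.cut .d (-8388608) (.void 24 ⟨⟨100000, 0, 0, 0, 0, 0, 0, 0, 0, ⟨0, 0⟩, 0⟩, 0, 0⟩ 0 0) (.cut .d (-4194304) (.void 24 ⟨⟨100000, 0, 0, 0, 0, 0, 0, 0, 0, ⟨0, 0⟩, 0⟩, 0, 0⟩ 0 0) (.cut .v 25165824 (.cut .d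 (-2097152) (.void 25 ⟨⟨100000, 0, 0, 0, 0, 0, 0, 0, 0, ⟨0, 0⟩, 0⟩, 0, 0⟩ 0 0) (.cut .v 20971520 (.cut .d (-1048576) (.void 27 ⟨⟨100000, 0, 0, 0, 0, 0, 0, 0, 0, ⟨0, 0⟩, 0⟩, 0, 0⟩ 0 0) (.cut .v 18874368 (.cut .d (-524288) (.void 29 ⟨⟨100000, 0, 0, 0, 0, 0, 0, 0, 0, ⟨0, 0⟩, 0⟩, 0, 0⟩ 0 0) (.cut .v 17825792 (.cut .d (-262144) (.void 31 ⟨⟨100000, 0, 0, 0, 0, 0, 0, 0, 0, ⟨0, 0⟩, 0⟩, 0, 0⟩ 0 0) (.cut .v 17301504 (.cut .d (-131072) (.void 33 ⟨⟨100000, 0, 0, 0, 0, 0, 0, 0, 0, ⟨0, 0⟩, 0⟩, 0, 0⟩ 0 0) (.cut .v 17039360 (.cut .d (-65536) (.void 35 ⟨⟨100000, 0, 0, 0, 0, 0, 0, 0, 0, ⟨0, 0⟩, 0⟩, 0, 0⟩ 0 0) (.cut .d (-32768) (.void 35 ⟨⟨100000, 0, 0,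 0, 0, 0, 0, 0, 0, ⟨0, 0⟩, 0⟩, 0, 0⟩ 0 0) (.cut .d (-16384) (.void 35 ⟨⟨100000, 0, 0, 0, 0, 0, 0, 0, 0, ⟨0, 0⟩, 0⟩, 0, 0⟩ 0 0) (.cut .d (-8192) (.void 35 ⟨⟨0, 0, 0, 0, 0, 100000, 0, 0, 0, ⟨0, 0⟩, 0⟩, 0, 0⟩ 0 0) (.cut .v 16908288 (.cut .s 14729216 (.cut .s 14688256 (.cut .v 16842752 (.cut .d (-4096) (.cut .d (-6144) (.pos 39 .mp ⟨⟨1181799872, 0, 0, 0, 0, 706978084, 0, 0, 0, ⟨0, 0⟩, 0⟩, 0, 0⟩ 0 0) (.cut .l 141961 (.void 39 ⟨⟨0, 0, 0, 0, 0, 100000, 0, 0, 0, ⟨0, 0⟩, 0⟩, 0, 0⟩ 0 0) (.cut .s 14667776 (.cut .s 14657536 (.pos 39 .mp ⟨⟨1161584341, 0, 0, 0, 0, 645873240, 0, 0, 0, ⟨0, 0⟩, 0⟩, 0, 0⟩ 0 0) (.pos 39 .mp ⟨⟨1171484893, 0, 0, 0, 0, 653967422,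 0, 0, 0, ⟨0, 0⟩, 0⟩, 0, 0⟩ 0 0)) (.cut .s 14678016 (.pos 39 .mp ⟨⟨1181680090, 0, 0, 0, 0, 661921097, 0, 0, 0, ⟨0, 0⟩, 0⟩, 0, 0⟩ 0 0) (.pos 39 .mp ⟨⟨1192179520, 0, 0, 0, 0, 669715567, 0, 0, 0, ⟨0, 0⟩, 0⟩, 0, 0⟩ 0 0))))) (.cut .s 14667776 (.cut .l 141961 (.cut .v 16809984 (.cut .s 14657536 (.cut .d (-2048) (.pos 49 .mp ⟨⟨1156708363, 0, 0, 0, 0, 660643785, 0, 0, 0, ⟨0, 0⟩, 0⟩, 0, 0⟩ 0 0) (.cut .s 14652416 (.pos 49 .mp ⟨⟨1176025538, 0, 0, 0, 0, 591801479, 0, 0, 0, ⟨0, 0⟩, 0⟩, 0, 0⟩ 0 0) (.pos 49 .mp ⟨⟨1181829751, 0, 0, 0, 0, 593563752, 0, 0, 0, ⟨0, 0⟩, 0⟩, 0, 0⟩ 0 0))) (.cut .d (-2048) (.pos 49 .mp ⟨⟨1167652449, 0, 0, 0, 0, 665714328, 0,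 0, 0, ⟨0, 0⟩, 0⟩, 0, 0⟩ 0 0) (.cut .s 14662656 (.pos 49 .mp ⟨⟨1187419104, 0, 0, 0, 0, 595941827, 0, 0, 0, ⟨0, 0⟩, 0⟩, 0, 0⟩ 0 0) (.pos 49 .mp ⟨⟨1193045127, 0, 0, 0, 0, 598377415, 0, 0, 0, ⟨0, 0⟩, 0⟩, 0, 0⟩ 0 0)))) (.pos 50 .mp ⟨⟨1520826458, 0, 0, 0, 0, 0, 0, 0, 0, ⟨0, 0⟩, 0⟩, 0, 0⟩ 0 0)) (.pos 39 .mp ⟨⟨1191907838, 0, 0, 0, 0, 559894000, 0, 0, 0, ⟨0, 0⟩, 0⟩, 0, 0⟩ 0 0)) (.cut .v 16809984 (.cut .l 141961 (.cut .s 14678016 (.cut .d (-2048) (.pos 49 .mp ⟨⟨1178739513, 0, 0, 0, 0, 671099529, 0, 0, 0, ⟨0, 0⟩, 0⟩, 0, 0⟩ 0 0) (.cut .s 14672896 (.pos 49 .mp ⟨⟨1198708083, 0, 0, 0, 0, 600870514, 0, 0, 0, ⟨0, 0⟩, 0⟩, 0, 0⟩ 0 0) (.cut .s 14675456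 (.pos 49 .mp ⟨⟨1202124977, 0, 0, 0, 0, 605938943, 0, 0, 0, ⟨0, 0⟩, 0⟩, 0, 0⟩ 0 0) (.pos 49 .mp ⟨⟨1204739142, 0, 0, 0, 0, 607687093, 0, 0, 0, ⟨0, 0⟩, 0⟩, 0, 0⟩ 0 0)))) (.cut .d (-2048) (.pos 49 .mp ⟨⟨1189971611, 0, 0, 0, 0, 676804201, 0, 0, 0, ⟨0, 0⟩, 0⟩, 0, 0⟩ 0 0) (.cut .v 16793600 (.cut .l 70980 (.cut .d (-1024) (.pos 51 .mp ⟨⟨1190523777, 0, 0, 0, 0, 672210584, 0, 0, 0, ⟨0, 0⟩, 0⟩, 0, 0⟩ 0 0) (.cut .s 14683136 (.pos 51 .mp ⟨⟨1203007355, 0, 0, 0, 0, 619713015, 0, 0, 0, ⟨0, 0⟩, 0⟩, 0, 0⟩ 0 0) (.pos 51 .mp ⟨⟨1208996720, 0, 0, 0, 0, 621891108, 0, 0, 0, ⟨0, 0⟩, 0⟩, 0, 0⟩ 0 0))) (.pos 51 .mp ⟨⟨1206487968, 0, 0, 0, 0, 604401573, 0, 0, 0,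 ⟨0, 0⟩, 0⟩, 0, 0⟩ 0 0)) (.pos 52 .mp ⟨⟨1515156228, 0, 0, 0, 0, 0, 0, 0, 0, ⟨0, 0⟩, 0⟩, 0, 0⟩ 0 0)))) (.cut .s 14678016 (.pos 49 .mp ⟨⟨1199052967, 0, 0, 0, 0, 593155918, 0, 0, 0, ⟨0, 0⟩, 0⟩, 0, 0⟩ 0 0) (.pos 49 .mp ⟨⟨1210564484, 0, 0, 0, 0, 598633179, 0, 0, 0, ⟨0, 0⟩, 0⟩, 0, 0⟩ 0 0))) (.pos 50 .mp ⟨⟨1512818371, 0, 0, 0, 0, 0, 0, 0, 0, ⟨0, 0⟩, 0⟩, 0, 0⟩ 0 0)))) (.pos 40 .mp ⟨⟨1535829583, 0, 0, 0, 0, 0, 0, 0, 0, ⟨0, 0⟩, 0⟩, 0, 0⟩ 0 0)) (.cut .v 16842752 (.cut .d (-4096) (.cut .l 141961 (.void 39 ⟨⟨0, 0, 0, 0, 0, 100000, 0, 0, 0, ⟨0, 0⟩, 0⟩, 0, 0⟩ 0 0) (.cut .d (-6144) (.void 39 ⟨⟨0, 0, 0, 0, 0, 100000, 0, 0, 0, ⟨0, 0⟩, 0⟩, 0, 0⟩ 0 0) (.cut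 .s 14708736 (.cut .s 14698496 (.pos 39 .mp ⟨⟨1202992937, 0, 0, 0, 0, 677331801, 0, 0, 0, ⟨0, 0⟩, 0⟩, 0, 0⟩ 0 0) (.pos 39 .mp ⟨⟨1214130260, 0, 0, 0, 0, 684750433, 0, 0, 0, ⟨0, 0⟩, 0⟩, 0, 0⟩ 0 0)) (.cut .s 14718976 (.pos 39 .mp ⟨⟨1225601582, 0, 0, 0, 0, 691951745, 0, 0, 0, ⟨0, 0⟩, 0⟩, 0, 0⟩ 0 0) (.pos 39 .mp ⟨⟨1237417170, 0, 0, 0, 0, 698915665, 0, 0, 0, ⟨0, 0⟩, 0⟩, 0, 0⟩ 0 0))))) (.cut .s 14708736 (.cut .v 16809984 (.cut .l 141961 (.cut .s 14698496 (.cut .d (-2048) (.pos 49 .mp ⟨⟨1201350840, 0, 0, 0, 0, 682833252, 0, 0, 0, ⟨0, 0⟩, 0⟩, 0, 0⟩ 0 0) (.cut .l 70980 (.cut .d (-1024) (.pos 49 .mp ⟨⟨1218909276, 0, 0, 0, 0, 637944229, 0, 0, 0,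 ⟨0, 0⟩, 0⟩, 0, 0⟩ 0 0) (.cut .s 14693376 (.pos 49 .mp ⟨⟨1217090281, 0, 0, 0, 0, 620145436, 0, 0, 0, ⟨0, 0⟩, 0⟩, 0, 0⟩ 0 0) (.pos 49 .mp ⟨⟨1222908064, 0, 0, 0, 0, 622991296, 0, 0, 0, ⟨0, 0⟩, 0⟩, 0, 0⟩ 0 0))) (.pos 49 .mp ⟨⟨1220227661, 0, 0, 0, 0, 606328329, 0, 0, 0, ⟨0, 0⟩, 0⟩, 0, 0⟩ 0 0))) (.cut .d (-2048) (.pos 49 .mp ⟨⟨1212879336, 0, 0, 0, 0, 689191685, 0, 0, 0, ⟨0, 0⟩, 0⟩, 0, 0⟩ 0 0) (.cut .l 70980 (.cut .d (-1024) (.pos 49 .mp ⟨⟨1230289175, 0, 0, 0, 0, 644796451, 0, 0, 0, ⟨0, 0⟩, 0⟩, 0, 0⟩ 0 0) (.cut .v 16793600 (.cut .s 14703616 (.pos 51 .mp ⟨⟨1226589228, 0, 0, 0, 0, 630113881, 0, 0, 0, ⟨0, 0⟩, 0⟩, 0, 0⟩ 0 0) (.pos 51 .mp ⟨⟨1232473596,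 0, 0, 0, 0, 633096484, 0, 0, 0, ⟨0, 0⟩, 0⟩, 0, 0⟩ 0 0)) (.pos 52 .mp ⟨⟨1545115897, 0, 0, 0, 0, 0, 0, 0, 0, ⟨0, 0⟩, 0⟩, 0, 0⟩ 0 0))) (.pos 49 .mp ⟨⟨1231977237, 0, 0, 0, 0, 612104458, 0, 0, 0, ⟨0, 0⟩, 0⟩, 0, 0⟩ 0 0)))) (.cut .s 14698496 (.pos 49 .mp ⟨⟨1222227768, 0, 0, 0, 0, 604210486, 0, 0, 0, ⟨0, 0⟩, 0⟩, 0, 0⟩ 0 0) (.pos 49 .mp ⟨⟨1234045033, 0, 0, 0, 0, 609882579, 0, 0, 0, ⟨0, 0⟩, 0⟩, 0, 0⟩ 0 0))) (.pos 50 .mp ⟨⟨1541070763, 0, 0, 0, 0, 0, 0, 0, 0, ⟨0, 0⟩, 0⟩, 0, 0⟩ 0 0)) (.cut .v 16809984 (.cut .l 141961 (.cut .d (-2048) (.cut .s 14718976 (.pos 49 .mp ⟨⟨1224559282, 0, 0, 0, 0, 695884604, 0, 0, 0, ⟨0, 0⟩, 0⟩, 0, 0⟩ 0 0) (.pos 49 .mp ⟨⟨1236392900,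 0, 0, 0, 0, 702917212, 0, 0, 0, ⟨0, 0⟩, 0⟩, 0, 0⟩ 0 0)) (.cut .v 16793600 (.cut .s 14718976 (.cut .l 70980 (.cut .d (-1024) (.pos 51 .mp ⟨⟨1225053888, 0, 0, 0, 0, 691302761, 0, 0, 0, ⟨0, 0⟩, 0⟩, 0, 0⟩ 0 0) (.cut .s 14713856 (.pos 51 .mp ⟨⟨1238396707, 0, 0, 0, 0, 636137257, 0, 0, 0, ⟨0, 0⟩, 0⟩, 0, 0⟩ 0 0) (.pos 51 .mp ⟨⟨1244358849, 0, 0, 0, 0, 639236181, 0, 0, 0, ⟨0, 0⟩, 0⟩, 0, 0⟩ 0 0))) (.pos 51 .mp ⟨⟨1241677971, 0, 0, 0, 0, 621839508, 0, 0, 0, ⟨0, 0⟩, 0⟩, 0, 0⟩ 0 0)) (.cut .l 70980 (.cut .d (-1024) (.pos 51 .mp ⟨⟨1236868081, 0, 0, 0, 0, 698338444, 0, 0, 0, ⟨0, 0⟩, 0⟩, 0, 0⟩ 0 0) (.cut .s 14724096 (.pos 51 .mp ⟨⟨1250360306, 0, 0, 0,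 0, 642393232, 0, 0, 0, ⟨0, 0⟩, 0⟩, 0, 0⟩ 0 0) (.pos 51 .mp ⟨⟨1256401371, 0, 0, 0, 0, 645608385, 0, 0, 0, ⟨0, 0⟩, 0⟩, 0, 0⟩ 0 0))) (.pos 51 .mp ⟨⟨1253719184, 0, 0, 0, 0, 627832279, 0, 0, 0, ⟨0, 0⟩, 0⟩, 0, 0⟩ 0 0))) (.pos 52 .mp ⟨⟨1568749607, 0, 0, 0, 0, 0, 0, 0, 0, ⟨0, 0⟩, 0⟩, 0, 0⟩ 0 0))) (.cut .s 14718976 (.pos 49 .mp ⟨⟨1246018542, 0, 0, 0, 0, 615644109, 0, 0, 0, ⟨0, 0⟩, 0⟩, 0, 0⟩ 0 0) (.pos 49 .mp ⟨⟨1258150600, 0, 0, 0, 0, 621489641, 0, 0, 0, ⟨0, 0⟩, 0⟩, 0, 0⟩ 0 0))) (.pos 50 .mp ⟨⟨1570551148, 0, 0, 0, 0, 0, 0, 0, 0, ⟨0, 0⟩, 0⟩, 0, 0⟩ 0 0)))) (.pos 40 .mp ⟨⟨1593784700, 0, 0, 0, 0, 0, 0, 0, 0, ⟨0, 0⟩, 0⟩, 0, 0⟩ 0 0))) (.cut .s 14770176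 (.cut .v 16842752 (.cut .d (-4096) (.cut .l 141961 (.void 39 ⟨⟨0, 0, 0, 0, 0, 100000, 0, 0, 0, ⟨0, 0⟩, 0⟩, 0, 0⟩ 0 0) (.cut .d (-6144) (.void 39 ⟨⟨0, 0, 0, 0, 0, 100000, 0, 0, 0, ⟨0, 0⟩, 0⟩, 0, 0⟩ 0 0) (.cut .s 14749696 (.cut .s 14739456 (.pos 39 .mp ⟨⟨1249587476, 0, 0, 0, 0, 705621755, 0, 0, 0, ⟨0, 0⟩, 0⟩, 0, 0⟩ 0 0) (.pos 39 .mp ⟨⟨1262123132, 0, 0, 0, 0, 712049202, 0, 0, 0, ⟨0, 0⟩, 0⟩, 0, 0⟩ 0 0)) (.cut .s 14759936 (.pos 39 .mp ⟨⟨1275034964, 0, 0, 0, 0, 718176810, 0, 0, 0, ⟨0, 0⟩, 0⟩, 0, 0⟩ 0 0) (.pos 39 .mp ⟨⟨1288333992, 0, 0, 0, 0, 723982988, 0, 0, 0, ⟨0, 0⟩, 0⟩, 0, 0⟩ 0 0))))) (.cut .s 14749696 (.cut .v 16809984 (.cut .l 141961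 (.cut .d (-2048) (.cut .s 14739456 (.pos 49 .mp ⟨⟨1248382460, 0, 0, 0, 0, 710294817, 0, 0, 0, ⟨0, 0⟩, 0⟩, 0, 0⟩ 0 0) (.pos 49 .mp ⟨⟨1260530275, 0, 0, 0, 0, 718022835, 0, 0, 0, ⟨0, 0⟩, 0⟩, 0, 0⟩ 0 0)) (.cut .v 16793600 (.cut .s 14739456 (.cut .l 70980 (.cut .d (-1024) (.pos 51 .mp ⟨⟨1248838093, 0, 0, 0, 0, 705718688, 0, 0, 0, ⟨0, 0⟩, 0⟩, 0, 0⟩ 0 0) (.cut .s 14734336 (.pos 51 .mp ⟨⟨1262482335, 0, 0, 0, 0, 648881611, 0, 0, 0, ⟨0, 0⟩, 0⟩, 0, 0⟩ 0 0) (.pos 51 .mp ⟨⟨1268603495, 0, 0, 0, 0, 652212878, 0, 0, 0, ⟨0, 0⟩, 0⟩, 0, 0⟩ 0 0))) (.pos 51 .mp ⟨⟨1265919848, 0, 0, 0, 0, 633906047, 0, 0, 0, ⟨0, 0⟩, 0⟩, 0, 0⟩ 0 0)) (.cut .l 70980 (.cut .d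 (-1024) (.pos 51 .mp ⟨⟨1260966235, 0, 0, 0, 0, 713448901, 0, 0, 0, ⟨0, 0⟩, 0⟩, 0, 0⟩ 0 0) (.cut .s 14744576 (.pos 51 .mp ⟨⟨1274765151, 0, 0, 0, 0, 655602152, 0, 0, 0, ⟨0, 0⟩, 0⟩, 0, 0⟩ 0 0) (.pos 51 .mp ⟨⟨1280967603, 0, 0, 0, 0, 659049395, 0, 0, 0, ⟨0, 0⟩, 0⟩, 0, 0⟩ 0 0))) (.pos 51 .mp ⟨⟨1278282344, 0, 0, 0, 0, 640055236, 0, 0, 0, ⟨0, 0⟩, 0⟩, 0, 0⟩ 0 0))) (.pos 52 .mp ⟨⟨1599457979, 0, 0, 0, 0, 0, 0, 0, 0, ⟨0, 0⟩, 0⟩, 0, 0⟩ 0 0))) (.cut .s 14739456 (.pos 49 .mp ⟨⟨1270443558, 0, 0, 0, 0, 627413649, 0, 0, 0, ⟨0, 0⟩, 0⟩, 0, 0⟩ 0 0) (.pos 49 .mp ⟨⟨1282899818, 0, 0, 0, 0, 633410513, 0, 0, 0, ⟨0, 0⟩, 0⟩, 0, 0⟩ 0 0))) (.pos 50 .mp ⟨⟨1601295027,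 0, 0, 0, 0, 0, 0, 0, 0, ⟨0, 0⟩, 0⟩, 0, 0⟩ 0 0)) (.cut .v 16809984 (.cut .l 141961 (.cut .d (-2048) (.cut .s 14759936 (.pos 49 .mp ⟨⟨1272838706, 0, 0, 0, 0, 726106788, 0, 0, 0, ⟨0, 0⟩, 0⟩, 0, 0⟩ 0 0) (.pos 49 .mp ⟨⟨1285310162, 0, 0, 0, 0, 734552312, 0, 0, 0, ⟨0, 0⟩, 0⟩, 0, 0⟩ 0 0)) (.cut .l 70980 (.cut .v 16793600 (.cut .s 14759936 (.cut .d (-1024) (.pos 51 .mp ⟨⟨1273254867, 0, 0, 0, 0, 721534599, 0, 0, 0, ⟨0, 0⟩, 0⟩, 0, 0⟩ 0 0) (.cut .s 14754816 (.pos 51 .mp ⟨⟨1287041270, 0, 0, 0, 0, 662932520, 0, 0, 0, ⟨0, 0⟩, 0⟩, 0, 0⟩ 0 0) (.pos 51 .mp ⟨⟨1293029531, 0, 0, 0, 0, 667155716, 0, 0, 0, ⟨0, 0⟩, 0⟩, 0, 0⟩ 0 0))) (.cut .s 14765056 (.pos 51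 .mp ⟨⟨1304967271, 0, 0, 0, 0, 660018865, 0, 0, 0, ⟨0, 0⟩, 0⟩, 0, 0⟩ 0 0) (.pos 51 .mp ⟨⟨1311374498, 0, 0, 0, 0, 663521586, 0, 0, 0, ⟨0, 0⟩, 0⟩, 0, 0⟩ 0 0))) (.pos 52 .mp ⟨⟨1667837203, 0, 0, 0, 0, 0, 0, 0, 0, ⟨0, 0⟩, 0⟩, 0, 0⟩ 0 0)) (.pos 49 .mp ⟨⟨1305813603, 0, 0, 0, 0, 624424806, 0, 0, 0, ⟨0, 0⟩, 0⟩, 0, 0⟩ 0 0))) (.cut .s 14759936 (.pos 49 .mp ⟨⟨1295521826, 0, 0, 0, 0, 639474519, 0, 0, 0, ⟨0, 0⟩, 0⟩, 0, 0⟩ 0 0) (.pos 49 .mp ⟨⟨1308312083, 0, 0, 0, 0, 645599854, 0, 0, 0, ⟨0, 0⟩, 0⟩, 0, 0⟩ 0 0))) (.pos 50 .mp ⟨⟨1633339339, 0, 0, 0, 0, 0, 0, 0, 0, ⟨0, 0⟩, 0⟩, 0, 0⟩ 0 0)))) (.pos 40 .mp ⟨⟨1654970610, 0, 0, 0, 0, 0, 0, 0, 0, ⟨0, 0⟩, 0⟩, 0,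 0⟩ 0 0)) (.cut .v 16842752 (.cut .d (-4096) (.cut .d (-6144) (.void 39 ⟨⟨0, 0, 0, 0, 0, 100000, 0, 0, 0, ⟨0, 0⟩, 0⟩, 0, 0⟩ 0 0) (.cut .l 141961 (.void 39 ⟨⟨0, 0, 0, 0, 0, 100000, 0, 0, 0, ⟨0, 0⟩, 0⟩, 0, 0⟩ 0 0) (.cut .s 14790656 (.cut .s 14780416 (.pos 39 .mp ⟨⟨1302031435, 0, 0, 0, 0, 729445741, 0, 0, 0, ⟨0, 0⟩, 0⟩, 0, 0⟩ 0 0) (.pos 39 .mp ⟨⟨1316138721, 0, 0, 0, 0, 734542659, 0, 0, 0, ⟨0, 0⟩, 0⟩, 0, 0⟩ 0 0)) (.pos 39 .mp ⟨⟨1323070286, 0, 0, 0, 0, 781963647, 0, 0, 0, ⟨0, 0⟩, 0⟩, 0, 0⟩ 0 0)))) (.cut .s 14790656 (.cut .v 16809984 (.cut .l 141961 (.cut .d (-2048) (.cut .s 14780416 (.pos 49 .mp ⟨⟨1297947101, 0, 0, 0, 0, 743365158, 0, 0, 0,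 ⟨0, 0⟩, 0⟩, 0, 0⟩ 0 0) (.pos 49 .mp ⟨⟨1310752031, 0, 0, 0, 0, 752551193, 0, 0, 0, ⟨0, 0⟩, 0⟩, 0, 0⟩ 0 0)) (.cut .l 70980 (.cut .v 16793600 (.cut .s 14780416 (.cut .s 14775296 (.pos 51 .mp ⟨⟨1317824430, 0, 0, 0, 0, 667068538, 0, 0, 0, ⟨0, 0⟩, 0⟩, 0, 0⟩ 0 0) (.pos 51 .mp ⟨⟨1324317391, 0, 0, 0, 0, 670659410, 0, 0, 0, ⟨0, 0⟩, 0⟩, 0, 0⟩ 0 0)) (.cut .s 14785536 (.pos 51 .mp ⟨⟨1330853707, 0, 0, 0, 0, 674293882, 0, 0, 0, ⟨0, 0⟩, 0⟩, 0, 0⟩ 0 0) (.pos 51 .mp ⟨⟨1338348120, 0, 0, 0, 0, 676241063, 0, 0, 0, ⟨0, 0⟩, 0⟩, 0, 0⟩ 0 0))) (.pos 52 .mp ⟨⟨1700162935, 0, 0, 0, 0, 0, 0, 0, 0, ⟨0, 0⟩, 0⟩, 0, 0⟩ 0 0)) (.pos 49 .mp ⟨⟨1331755777, 0, 0, 0, 0, 636351366,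 0, 0, 0, ⟨0, 0⟩, 0⟩, 0, 0⟩ 0 0))) (.pos 49 .mp ⟨⟨1334407590, 0, 0, 0, 0, 633218238, 0, 0, 0, ⟨0, 0⟩, 0⟩, 0, 0⟩ 0 0)) (.pos 50 .mp ⟨⟨1666722531, 0, 0, 0, 0, 0, 0, 0, 0, ⟨0, 0⟩, 0⟩, 0, 0⟩ 0 0)) (.cut .l 141961 (.cut .v 16809984 (.cut .d (-2048) (.pos 49 .mp ⟨⟨1323727512, 0, 0, 0, 0, 790088832, 0, 0, 0, ⟨0, 0⟩, 0⟩, 0, 0⟩ 0 0) (.cut .v 16793600 (.cut .l 70980 (.cut .d (-1024) (.pos 51 .mp ⟨⟨1324063172, 0, 0, 0, 0, 785486402, 0, 0, 0, ⟨0, 0⟩, 0⟩, 0, 0⟩ 0 0) (.cut .l 35490 (.cut .v 16785408 (.cut .d (-512) (.pos 61 .mp ⟨⟨1324233063, 0, 0, 0, 0, 783180456, 0, 0, 0, ⟨0, 0⟩, 0⟩, 0, 0⟩ 0 0) (.cut .v 16781312 (.cut .l 17745 (.cut .s 14800896 (.cut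 .s 14795776 (.pos 71 .mp ⟨⟨1346163203, 0, 0, 0, 0, 677776900, 0, 0, 0, ⟨0, 0⟩, 0⟩, 0, 0⟩ 0 0) (.pos 71 .mp ⟨⟨1354334868, 0, 0, 0, 0, 678789465, 0, 0, 0, ⟨0, 0⟩, 0⟩, 0, 0⟩ 0 0)) (.cut .s 14806016 (.pos 71 .mp ⟨⟨1362673814, 0, 0, 0, 0, 679618736, 0, 0, 0, ⟨0, 0⟩, 0⟩, 0, 0⟩ 0 0) (.pos 71 .mp ⟨⟨1371182902, 0, 0, 0, 0, 680259587, 0, 0, 0, ⟨0, 0⟩, 0⟩, 0, 0⟩ 0 0))) (.pos 71 .mp ⟨⟨1352093762, 0, 0, 0, 0, 658402035, 0, 0, 0, ⟨0, 0⟩, 0⟩, 0, 0⟩ 0 0)) (.pos 72 .mp ⟨⟨1698050196, 0, 0, 0, 0, 0, 0, 0, 0, ⟨0, 0⟩, 0⟩, 0, 0⟩ 0 0))) (.pos 62 .mp ⟨⟨1731774651, 0, 0, 0, 0, 0, 0, 0, 0, ⟨0, 0⟩, 0⟩, 0, 0⟩ 0 0)) (.pos 51 .mp ⟨⟨1354592895, 0, 0, 0, 0, 654383498,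 0, 0, 0, ⟨0, 0⟩, 0⟩, 0, 0⟩ 0 0))) (.pos 51 .mp ⟨⟨1355995204, 0, 0, 0, 0, 652697942, 0, 0, 0, ⟨0, 0⟩, 0⟩, 0, 0⟩ 0 0)) (.pos 52 .mp ⟨⟨1699531946, 0, 0, 0, 0, 0, 0, 0, 0, ⟨0, 0⟩, 0⟩, 0, 0⟩ 0 0))) (.pos 50 .mp ⟨⟨1736253282, 0, 0, 0, 0, 0, 0, 0, 0, ⟨0, 0⟩, 0⟩, 0, 0⟩ 0 0)) (.pos 39 .mp ⟨⟨1366022891, 0, 0, 0, 0, 636570437, 0, 0, 0, ⟨0, 0⟩, 0⟩, 0, 0⟩ 0 0)))) (.pos 40 .mp ⟨⟨1719331477, 0, 0, 0, 0, 0, 0, 0, 0, ⟨0, 0⟩, 0⟩, 0, 0⟩ 0 0)))) (.pos 38 .mp ⟨⟨1682024982, 0, 0, 0, 0, 0, 0, 0, 0, ⟨0, 0⟩, 0⟩, 0, 0⟩ 0 0)))))) (.pos 36 .mp ⟨⟨1859989885, 0, 0, 0, 0, 0, 0, 0, 0, ⟨0, 0⟩, 0⟩, 0, 0⟩ 0 0))) (.void 34 ⟨⟨100000, 0, 0, 0, 0, 0, 0, 0, 0, ⟨0, 0⟩, 0⟩,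 0, 0⟩ 0 0))) (.void 32 ⟨⟨100000, 0, 0, 0, 0, 0, 0, 0, 0, ⟨0, 0⟩, 0⟩, 0, 0⟩ 0 0))) (.void 30 ⟨⟨100000, 0, 0, 0, 0, 0, 0, 0, 0, ⟨0, 0⟩, 0⟩, 0, 0⟩ 0 0))) (.void 28 ⟨⟨100000, 0, 0, 0, 0, 0, 0, 0, 0, ⟨0, 0⟩, 0⟩, 0, 0⟩ 0 0))) (.void 26 ⟨⟨100000, 0, 0, 0, 0, 0, 0, 0, 0, ⟨0, 0⟩, 0⟩, 0, 0⟩ 0 0)))) (.void 95 ⟨⟨100000, 0, 0, 0, 0, 0, 0, 0, 0, ⟨0, 0⟩, 0⟩, 0, 0⟩ 0 0)) (.void 106 ⟨⟨100000, 0, 0, 0, 0, 0, 0, 0, 0, ⟨0, 0⟩, 0⟩, 0, 0⟩ 0 0)) (.void 115 ⟨⟨94057, 0, 0, 5932, 0, 0, 0, 0, 0, ⟨0, 0⟩, 0⟩, 0, 0⟩ 0 0))) (.cut .v 16777216 (.cut .v 8388608 (.cut .v 4194304 (.cut .v 2097152 (.cut .v 1048576 (.cut .v 524288 (.pos 116 .pm ⟨⟨0, 0, 30315795, 0, 0, 0,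 0, 0, 0, ⟨0, 0⟩, 0⟩, 0, 217⟩ 0 0) (.pos 117 .pm ⟨⟨0, 0, 43847275, 0, 0, 0, 0, 0, 0, ⟨0, 0⟩, 0⟩, 0, 791⟩ 0 0)) (.pos 112 .pm ⟨⟨0, 0, 63967241, 0, 0, 0, 0, 0, 0, ⟨0, 0⟩, 0⟩, 0, 1241⟩ 0 0)) (.pos 7 .pm ⟨⟨0, 0, 108411304, 0, 0, 0, 0, 0, 0, ⟨0, 0⟩, 0⟩, 0, 3013⟩ 0 0)) (.pos 5 .pm ⟨⟨0, 0, 340809858, 0, 0, 0, 0, 0, 0, ⟨0, 0⟩, 0⟩, 0, 6099⟩ 0 0)) (.pos 3 .pm ⟨⟨0, 0, 0, 0, 0, 0, 0, 0, 0, ⟨0, 0⟩, 0⟩, 0, 0⟩ 0 0)) (.cut .v 268435456 (.cut .v 67108864 (.cut .d 1219821 (.cut .v 33554432 (.cut .d 609910 (.cut .d 304955 (.cut .v 25165824 (.cut .d 152477 (.cut .v 20971520 (.cut .d 76238 (.cut .v 18874368 (.cut .v 17825792 (.cut .s 14729216 (.pos 31 .pp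 ⟨⟨1127696357, 0, 0, 0, 0, 0, 0, 0, 0, ⟨0, 0⟩, 0⟩, 44901933, 0⟩ 0 0) (.pos 31 .pp ⟨⟨1229250502, 0, 0, 0, 0, 0, 0, 0, 0, ⟨0, 0⟩, 0⟩, 46706895, 0⟩ 0 0)) (.pos 32 .pp ⟨⟨1702426721, 0, 0, 0, 0, 0, 0, 0, 0, ⟨0, 0⟩, 0⟩, 0, 0⟩ 0 0)) (.pos 30 .pp ⟨⟨2053651567, 0, 0, 0, 0, 0, 0, 0, 0, ⟨0, 0⟩, 0⟩, 0, 0⟩ 0 0)) (.pos 27 .pp ⟨⟨1372075916, 0, 0, 0, 0, 0, 0, 0, 0, ⟨0, 0⟩, 0⟩, 0, 956⟩ 0 0)) (.cut .d 76238 (.void 28 ⟨⟨0, 0, 0, 0, 0, 0, 0, 0, 0, ⟨0, 0⟩, 0⟩, 100000, 0⟩ 0 0) (.pos 28 .pp ⟨⟨0, 0, 0, 0, 0, 0, 0, 0, 0, ⟨0, 0⟩, 0⟩, 266023160, 0⟩ 0 0))) (.pos 25 .pp ⟨⟨0, 0, 0, 0, 0, 0, 0, 0, 0, ⟨0, 0⟩, 0⟩, 173539812, 4417⟩ 0 0)) (.cut .d 152477 (.void 26 ⟨⟨0,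 0, 0, 0, 0, 0, 0, 0, 0, ⟨0, 0⟩, 0⟩, 100000, 0⟩ 0 0) (.pos 26 .pp ⟨⟨0, 0, 0, 0, 0, 0, 0, 0, 0, ⟨0, 0⟩, 0⟩, 316889667, 0⟩ 0 0))) (.pos 24 .pp ⟨⟨0, 0, 0, 0, 0, 0, 0, 0, 0, ⟨0, 0⟩, 0⟩, 167842555, 4772⟩ 0 0)) (.pos 24 .pp ⟨⟨0, 0, 0, 0, 0, 0, 0, 0, 0, ⟨0, 0⟩, 0⟩, 0, 20328⟩ 0 0)) (.cut .d 609910 (.cut .v 50331648 (.pos 96 .pp ⟨⟨0, 0, 0, 0, 0, 0, 0, 0, 0, ⟨0, 0⟩, 0⟩, 550578529, 0⟩ 0 0) (.void 97 ⟨⟨0, 0, 0, 0, 0, 0, 0, 0, 0, ⟨0, 0⟩, 0⟩, 100000, 0⟩ 0 0)) (.pos 95 .pp ⟨⟨0, 0, 0, 0, 0, 0, 0, 0, 0, ⟨0, 0⟩, 0⟩, 285561333, 0⟩ 0 0))) (.pos 94 .pp ⟨⟨0, 0, 0, 0, 0, 0, 0, 0, 0, ⟨0, 0⟩, 0⟩, 0, 15246⟩ 0 0)) (.void 106 ⟨⟨0, 0, 0, 49076, 0, 0, 0, 0, 0, ⟨0,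 0⟩, 0⟩, 50924, 0⟩ 0 0)) (.void 115 ⟨⟨0, 0, 0, 0, 0, 0, 0, 0, 0, ⟨0, 0⟩, 0⟩, 100000, 0⟩ 0 0)))),
    by decide +kernel⟩

def covers31 : cell.Covers Vale.Agent.P237.Petty.Cor.Grid.N13.table row31.1 :=
  ⟨(.cut .d 0 (.cut .v 16777216 (.cut .v 8388608 (.void 2 ⟨⟨0, 0, 100000, 0, 0, 0, 0, 0, 0, ⟨0, 0⟩, 0⟩, 0, 0⟩ 0 0) (.cut .d (-8388608) (.void 3 ⟨⟨100000, 0, 0, 0, 0, 0, 0, 0, 0, ⟨0, 0⟩, 0⟩, 0, 0⟩ 0 0) (.cut .d (-4194304) (.void 3 ⟨⟨100000, 0, 0, 0, 0, 0, 0, 0, 0, ⟨0, 0⟩, 0⟩, 0, 0⟩ 0 0) (.cut .d (-2097152) (.void 3 ⟨⟨100000, 0, 0, 0, 0, 0, 0, 0, 0, ⟨0, 0⟩, 0⟩, 0, 0⟩ 0 0) (.cut .d (-1048576) (.void 3 ⟨⟨100000, 0, 0, 0, 0, 0, 0, 0, 0, ⟨0, 0⟩,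 0⟩, 0, 0⟩ 0 0) (.cut .d (-524288) (.void 3 ⟨⟨0, 0, 0, 0, 0, 100000, 0, 0, 0, ⟨0, 0⟩, 0⟩, 0, 0⟩ 0 0) (.cut .d (-262144) (.void 3 ⟨⟨0, 0, 0, 0, 0, 100000, 0, 0, 0, ⟨0, 0⟩, 0⟩, 0, 0⟩ 0 0) (.cut .s 14876672 (.pos 3 .mm ⟨⟨0, 0, 0, 0, 0, 3515994211, 0, 0, 0, ⟨0, 0⟩, 0⟩, 0, 0⟩ 0 0) (.pos 3 .mm ⟨⟨0, 0, 0, 0, 0, 3771145448, 0, 0, 0, ⟨0, 0⟩, 0⟩, 0, 0⟩ 0 0))))))))) (.cut .v 268435456 (.cut .v 67108864 (.cut .v 33554432 (.cut .d (-8388608) (.void 24 ⟨⟨99997, 0, 0, 0, 0, 0, 0, 0, 0, ⟨0, 0⟩, 0⟩, 0, 0⟩ 0 0) (.cut .d (-4194304) (.void 24 ⟨⟨100000, 0, 0, 0, 0, 0, 0, 0, 0, ⟨0, 0⟩, 0⟩, 0, 0⟩ 0 0) (.cut .v 25165824 (.cut .d (-2097152) (.void 25 ⟨⟨100000,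 0, 0, 0, 0, 0, 0, 0, 0, ⟨0, 0⟩, 0⟩, 0, 0⟩ 0 0) (.cut .v 20971520 (.cut .d (-1048576) (.void 27 ⟨⟨100000, 0, 0, 0, 0, 0, 0, 0, 0, ⟨0, 0⟩, 0⟩, 0, 0⟩ 0 0) (.cut .v 18874368 (.cut .d (-524288) (.void 29 ⟨⟨100000, 0, 0, 0, 0, 0, 0, 0, 0, ⟨0, 0⟩, 0⟩, 0, 0⟩ 0 0) (.cut .v 17825792 (.cut .d (-262144) (.void 31 ⟨⟨100000, 0, 0, 0, 0, 0, 0, 0, 0, ⟨0, 0⟩, 0⟩, 0, 0⟩ 0 0) (.cut .v 17301504 (.cut .d (-131072) (.void 33 ⟨⟨100000, 0, 0, 0, 0, 0, 0, 0, 0, ⟨0, 0⟩, 0⟩, 0, 0⟩ 0 0) (.cut .v 17039360 (.cut .d (-65536) (.void 35 ⟨⟨100000, 0, 0, 0, 0, 0, 0, 0, 0, ⟨0, 0⟩, 0⟩, 0, 0⟩ 0 0) (.cut .d (-32768) (.void 35 ⟨⟨100000, 0, 0, 0, 0, 0, 0, 0, 0, ⟨0, 0⟩, 0⟩,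 0, 0⟩ 0 0) (.cut .d (-16384) (.void 35 ⟨⟨100000, 0, 0, 0, 0, 0, 0, 0, 0, ⟨0, 0⟩, 0⟩, 0, 0⟩ 0 0) (.cut .d (-8192) (.void 35 ⟨⟨100000, 0, 0, 0, 0, 0, 0, 0, 0, ⟨0, 0⟩, 0⟩, 0, 0⟩ 0 0) (.cut .v 16908288 (.cut .s 14876672 (.cut .v 16842752 (.cut .d (-4096) (.cut .d (-6144) (.void 39 ⟨⟨0, 0, 0, 0, 0, 100000, 0, 0, 0, ⟨0, 0⟩, 0⟩, 0, 0⟩ 0 0) (.cut .l 141961 (.void 39 ⟨⟨100000, 0, 0, 0, 0, 0, 0, 0, 0, ⟨0, 0⟩, 0⟩, 0, 0⟩ 0 0) (.cut .l 212942 (.pos 39 .mp ⟨⟨1403445943, 0, 0, 0, 0, 877363361, 0, 0, 0, ⟨0, 0⟩, 0⟩, 0, 0⟩ 0 0) (.cut .v 16809984 (.pos 49 .mp ⟨⟨776887505, 0, 0, 0, 0, 1952436125, 0, 0, 0, ⟨0, 0⟩, 0⟩, 0, 0⟩ 0 0) (.cut .s 14843904 (.pos 50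 .mp ⟨⟨1418790264, 0, 0, 0, 0, 672394259, 0, 0, 0, ⟨0, 0⟩, 0⟩, 0, 0⟩ 0 0) (.cut .s 14860288 (.pos 50 .mp ⟨⟨1442132053, 0, 0, 0, 0, 701354895, 0, 0, 0, ⟨0, 0⟩, 0⟩, 0, 0⟩ 0 0) (.pos 50 .mp ⟨⟨1466008221, 0, 0, 0, 0, 711091146, 0, 0, 0, ⟨0, 0⟩, 0⟩, 0, 0⟩ 0 0))))))) (.cut .s 14843904 (.cut .v 16809984 (.cut .s 14827520 (.cut .l 141961 (.cut .d (-2048) (.pos 49 .mp ⟨⟨1350193096, 0, 0, 0, 0, 799977516, 0, 0, 0, ⟨0, 0⟩, 0⟩, 0, 0⟩ 0 0) (.cut .v 16793600 (.cut .l 70980 (.cut .d (-1024) (.pos 51 .mp ⟨⟨1350487935, 0, 0, 0, 0, 795384950, 0, 0, 0, ⟨0, 0⟩, 0⟩, 0, 0⟩ 0 0) (.cut .s 14819328 (.pos 51 .mp ⟨⟨1369330652, 0, 0, 0, 0, 705525057, 0, 0, 0, ⟨0,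 0⟩, 0⟩, 0, 0⟩ 0 0) (.cut .s 14823424 (.pos 51 .mp ⟨⟨1386202223, 0, 0, 0, 0, 694465390, 0, 0, 0, ⟨0, 0⟩, 0⟩, 0, 0⟩ 0 0) (.pos 51 .mp ⟨⟨1390686942, 0, 0, 0, 0, 698633143, 0, 0, 0, ⟨0, 0⟩, 0⟩, 0, 0⟩ 0 0)))) (.pos 51 .mp ⟨⟨1377813695, 0, 0, 0, 0, 678775519, 0, 0, 0, ⟨0, 0⟩, 0⟩, 0, 0⟩ 0 0)) (.pos 52 .mp ⟨⟨1730782364, 0, 0, 0, 0, 0, 0, 0, 0, ⟨0, 0⟩, 0⟩, 0, 0⟩ 0 0))) (.pos 49 .mp ⟨⟨1383211572, 0, 0, 0, 0, 670849023, 0, 0, 0, ⟨0, 0⟩, 0⟩, 0, 0⟩ 0 0)) (.cut .l 141961 (.cut .d (-2048) (.pos 49 .mp ⟨⟨1371934520, 0, 0, 0, 0, 809573698, 0, 0, 0, ⟨0, 0⟩, 0⟩, 0, 0⟩ 0 0) (.cut .v 16793600 (.cut .l 70980 (.cut .d (-1024) (.pos 51 .mp ⟨⟨1372178662, 0,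 0, 0, 0, 805021823, 0, 0, 0, ⟨0, 0⟩, 0⟩, 0, 0⟩ 0 0) (.cut .v 16785408 (.cut .l 35490 (.cut .d (-512) (.pos 61 .mp ⟨⟨1372302884, 0, 0, 0, 0, 802741003, 0, 0, 0, ⟨0, 0⟩, 0⟩, 0, 0⟩ 0 0) (.cut .v 16781312 (.cut .l 17745 (.cut .s 14835712 (.cut .s 14831616 (.pos 71 .mp ⟨⟨1400209069, 0, 0, 0, 0, 691559756, 0, 0, 0, ⟨0, 0⟩, 0⟩, 0, 0⟩ 0 0) (.pos 71 .mp ⟨⟨1404551448, 0, 0, 0, 0, 696311472, 0, 0, 0, ⟨0, 0⟩, 0⟩, 0, 0⟩ 0 0)) (.cut .s 14839808 (.pos 71 .mp ⟨⟨1408984772, 0, 0, 0, 0, 700994786, 0, 0, 0, ⟨0, 0⟩, 0⟩, 0, 0⟩ 0 0) (.pos 71 .mp ⟨⟨1413510637, 0, 0, 0, 0, 705606890, 0, 0, 0, ⟨0, 0⟩, 0⟩, 0, 0⟩ 0 0))) (.pos 71 .mp ⟨⟨1395951099, 0, 0, 0, 0, 695397115,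 0, 0, 0, ⟨0, 0⟩, 0⟩, 0, 0⟩ 0 0)) (.pos 72 .mp ⟨⟨1755166900, 0, 0, 0, 0, 0, 0, 0, 0, ⟨0, 0⟩, 0⟩, 0, 0⟩ 0 0))) (.pos 61 .mp ⟨⟨1397345208, 0, 0, 0, 0, 693341731, 0, 0, 0, ⟨0, 0⟩, 0⟩, 0, 0⟩ 0 0)) (.pos 62 .mp ⟨⟨1755680810, 0, 0, 0, 0, 0, 0, 0, 0, ⟨0, 0⟩, 0⟩, 0, 0⟩ 0 0))) (.pos 51 .mp ⟨⟨1400134897, 0, 0, 0, 0, 689228583, 0, 0, 0, ⟨0, 0⟩, 0⟩, 0, 0⟩ 0 0)) (.pos 52 .mp ⟨⟨1756692696, 0, 0, 0, 0, 0, 0, 0, 0, ⟨0, 0⟩, 0⟩, 0, 0⟩ 0 0))) (.pos 49 .mp ⟨⟨1405724039, 0, 0, 0, 0, 680985640, 0, 0, 0, ⟨0, 0⟩, 0⟩, 0, 0⟩ 0 0))) (.pos 50 .mp ⟨⟨1753127150, 0, 0, 0, 0, 0, 0, 0, 0, ⟨0, 0⟩, 0⟩, 0, 0⟩ 0 0)) (.cut .s 14860288 (.cut .v 16809984 (.cut .s 14852096 (.cut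 .s 14848000 (.pos 49 .mp ⟨⟨1428416010, 0, 0, 0, 0, 691496825, 0, 0, 0, ⟨0, 0⟩, 0⟩, 0, 0⟩ 0 0) (.cut .s 14850048 (.pos 49 .mp ⟨⟨1434921080, 0, 0, 0, 0, 689708882, 0, 0, 0, ⟨0, 0⟩, 0⟩, 0, 0⟩ 0 0) (.pos 49 .mp ⟨⟨1437171093, 0, 0, 0, 0, 692183513, 0, 0, 0, ⟨0, 0⟩, 0⟩, 0, 0⟩ 0 0))) (.cut .l 141961 (.cut .d (-2048) (.pos 49 .mp ⟨⟨1405472344, 0, 0, 0, 0, 800829365, 0, 0, 0, ⟨0, 0⟩, 0⟩, 0, 0⟩ 0 0) (.cut .s 14856192 (.pos 49 .mp ⟨⟨1427443360, 0, 0, 0, 0, 720353122, 0, 0, 0, ⟨0, 0⟩, 0⟩, 0, 0⟩ 0 0) (.pos 49 .mp ⟨⟨1433657806, 0, 0, 0, 0, 722000747, 0, 0, 0, ⟨0, 0⟩, 0⟩, 0, 0⟩ 0 0))) (.pos 49 .mp ⟨⟨1428749635, 0, 0, 0, 0, 710639018, 0, 0, 0, ⟨0, 0⟩,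 0⟩, 0, 0⟩ 0 0))) (.pos 50 .mp ⟨⟨1785641022, 0, 0, 0, 0, 0, 0, 0, 0, ⟨0, 0⟩, 0⟩, 0, 0⟩ 0 0)) (.cut .v 16809984 (.cut .s 14868480 (.cut .l 141961 (.cut .d (-2048) (.pos 49 .mp ⟨⟨1416904702, 0, 0, 0, 0, 806444049, 0, 0, 0, ⟨0, 0⟩, 0⟩, 0, 0⟩ 0 0) (.cut .s 14864384 (.pos 49 .mp ⟨⟨1439874202, 0, 0, 0, 0, 723763459, 0, 0, 0, ⟨0, 0⟩, 0⟩, 0, 0⟩ 0 0) (.pos 49 .mp ⟨⟨1445767066, 0, 0, 0, 0, 726366491, 0, 0, 0, ⟨0, 0⟩, 0⟩, 0, 0⟩ 0 0))) (.pos 49 .mp ⟨⟨1440458923, 0, 0, 0, 0, 716248742, 0, 0, 0, ⟨0, 0⟩, 0⟩, 0, 0⟩ 0 0)) (.cut .l 141961 (.cut .d (-2048) (.pos 49 .mp ⟨⟨1428466277, 0, 0, 0, 0, 812335395, 0, 0, 0, ⟨0, 0⟩, 0⟩, 0, 0⟩ 0 0) (.cut .s 14872576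 (.pos 49 .mp ⟨⟨1451665212, 0, 0, 0, 0, 729078097, 0, 0, 0, ⟨0, 0⟩, 0⟩, 0, 0⟩ 0 0) (.pos 49 .mp ⟨⟨1457596884, 0, 0, 0, 0, 731835806, 0, 0, 0, ⟨0, 0⟩, 0⟩, 0, 0⟩ 0 0))) (.pos 49 .mp ⟨⟨1452301429, 0, 0, 0, 0, 721926678, 0, 0, 0, ⟨0, 0⟩, 0⟩, 0, 0⟩ 0 0))) (.pos 50 .mp ⟨⟨1813591829, 0, 0, 0, 0, 0, 0, 0, 0, ⟨0, 0⟩, 0⟩, 0, 0⟩ 0 0))))) (.pos 40 .mp ⟨⟨1818238890, 0, 0, 0, 0, 0, 0, 0, 0, ⟨0, 0⟩, 0⟩, 0, 0⟩ 0 0)) (.cut .s 14909440 (.cut .v 16842752 (.cut .d (-4096) (.cut .d (-6144) (.void 39 ⟨⟨0, 0, 0, 0, 0, 100000, 0, 0, 0, ⟨0, 0⟩, 0⟩, 0, 0⟩ 0 0) (.cut .d (-5120) (.pos 39 .mp ⟨⟨1446820541, 0, 0, 0, 0, 913608588, 0, 0, 0, ⟨0, 0⟩, 0⟩, 0, 0⟩ 0 0) (.cut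 .l 141961 (.void 39 ⟨⟨100000, 0, 0, 0, 0, 0, 0, 0, 0, ⟨0, 0⟩, 0⟩, 0, 0⟩ 0 0) (.cut .s 14893056 (.pos 39 .mp ⟨⟨1444203861, 0, 0, 0, 0, 831517317, 0, 0, 0, ⟨0, 0⟩, 0⟩, 0, 0⟩ 0 0) (.pos 39 .mp ⟨⟨1463891920, 0, 0, 0, 0, 857524940, 0, 0, 0, ⟨0, 0⟩, 0⟩, 0, 0⟩ 0 0))))) (.cut .s 14893056 (.cut .v 16809984 (.cut .s 14884864 (.cut .l 141961 (.cut .d (-2048) (.pos 49 .mp ⟨⟨1440158715, 0, 0, 0, 0, 818507121, 0, 0, 0, ⟨0, 0⟩, 0⟩, 0, 0⟩ 0 0) (.cut .s 14880768 (.pos 49 .mp ⟨⟨1463562297, 0, 0, 0, 0, 734639571, 0, 0, 0, ⟨0, 0⟩, 0⟩, 0, 0⟩ 0 0) (.pos 49 .mp ⟨⟨1469561667, 0, 0, 0, 0, 737489342, 0, 0, 0, ⟨0, 0⟩, 0⟩, 0, 0⟩ 0 0))) (.pos 49 .mp ⟨⟨1464278859,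 0, 0, 0, 0, 727668871, 0, 0, 0, ⟨0, 0⟩, 0⟩, 0, 0⟩ 0 0)) (.cut .l 141961 (.cut .d (-2048) (.pos 49 .mp ⟨⟨1451983692, 0, 0, 0, 0, 824963007, 0, 0, 0, ⟨0, 0⟩, 0⟩, 0, 0⟩ 0 0) (.cut .s 14888960 (.pos 49 .mp ⟨⟨1475595211, 0, 0, 0, 0, 740385069, 0, 0, 0, ⟨0, 0⟩, 0⟩, 0, 0⟩ 0 0) (.pos 49 .mp ⟨⟨1481663149, 0, 0, 0, 0, 743326698, 0, 0, 0, ⟨0, 0⟩, 0⟩, 0, 0⟩ 0 0))) (.pos 49 .mp ⟨⟨1476392946, 0, 0, 0, 0, 733471309, 0, 0, 0, ⟨0, 0⟩, 0⟩, 0, 0⟩ 0 0))) (.pos 50 .mp ⟨⟨1842585621, 0, 0, 0, 0, 0, 0, 0, 0, ⟨0, 0⟩, 0⟩, 0, 0⟩ 0 0)) (.cut .v 16809984 (.cut .s 14901248 (.cut .l 141961 (.cut .d (-2048) (.pos 49 .mp ⟨⟨1463942912, 0, 0, 0, 0, 831706901, 0, 0, 0,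 ⟨0, 0⟩, 0⟩, 0, 0⟩ 0 0) (.cut .s 14897152 (.pos 49 .mp ⟨⟨1487765704, 0, 0, 0, 0, 746314172, 0, 0, 0, ⟨0, 0⟩, 0⟩, 0, 0⟩ 0 0) (.pos 49 .mp ⟨⟨1493903098, 0, 0, 0, 0, 749347436, 0, 0, 0, ⟨0, 0⟩, 0⟩, 0, 0⟩ 0 0))) (.pos 49 .mp ⟨⟨1488645457, 0, 0, 0, 0, 739329920, 0, 0, 0, ⟨0, 0⟩, 0⟩, 0, 0⟩ 0 0)) (.cut .l 141961 (.cut .d (-2048) (.pos 49 .mp ⟨⟨1476038109, 0, 0, 0, 0, 838742717, 0, 0, 0, ⟨0, 0⟩, 0⟩, 0, 0⟩ 0 0) (.cut .s 14905344 (.pos 49 .mp ⟨⟨1500075557, 0, 0, 0, 0, 752426427, 0, 0, 0, ⟨0, 0⟩, 0⟩, 0, 0⟩ 0 0) (.pos 49 .mp ⟨⟨1506283308, 0, 0, 0, 0, 755551084, 0, 0, 0, ⟨0, 0⟩, 0⟩, 0, 0⟩ 0 0))) (.pos 49 .mp ⟨⟨1501038186, 0, 0, 0, 0, 745240570, 0,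 0, 0, ⟨0, 0⟩, 0⟩, 0, 0⟩ 0 0))) (.pos 50 .mp ⟨⟨1872648712, 0, 0, 0, 0, 0, 0, 0, 0, ⟨0, 0⟩, 0⟩, 0, 0⟩ 0 0)))) (.pos 40 .mp ⟨⟨1906156289, 0, 0, 0, 0, 0, 0, 0, 0, ⟨0, 0⟩, 0⟩, 0, 0⟩ 0 0)) (.cut .v 16842752 (.cut .d (-4096) (.cut .d (-6144) (.void 39 ⟨⟨0, 0, 0, 0, 0, 100000, 0, 0, 0, ⟨0, 0⟩, 0⟩, 0, 0⟩ 0 0) (.cut .l 141961 (.void 39 ⟨⟨100000, 0, 0, 0, 0, 0, 0, 0, 0, ⟨0, 0⟩, 0⟩, 0, 0⟩ 0 0) (.cut .s 14925824 (.pos 39 .mp ⟨⟨1488329894, 0, 0, 0, 0, 871941249, 0, 0, 0, ⟨0, 0⟩, 0⟩, 0, 0⟩ 0 0) (.pos 39 .mp ⟨⟨1513327817, 0, 0, 0, 0, 887538798, 0, 0, 0, ⟨0, 0⟩, 0⟩, 0, 0⟩ 0 0)))) (.cut .s 14925824 (.cut .v 16809984 (.cut .s 14917632 (.cut .l 141961 (.cut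 .d (-2048) (.pos 49 .mp ⟨⟨1488271048, 0, 0, 0, 0, 846074437, 0, 0, 0, ⟨0, 0⟩, 0⟩, 0, 0⟩ 0 0) (.cut .s 14913536 (.pos 49 .mp ⟨⟨1512526581, 0, 0, 0, 0, 758721341, 0, 0, 0, ⟨0, 0⟩, 0⟩, 0, 0⟩ 0 0) (.pos 49 .mp ⟨⟨1518805608, 0, 0, 0, 0, 761937133, 0, 0, 0, ⟨0, 0⟩, 0⟩, 0, 0⟩ 0 0))) (.pos 49 .mp ⟨⟨1513572962, 0, 0, 0, 0, 751199066, 0, 0, 0, ⟨0, 0⟩, 0⟩, 0, 0⟩ 0 0)) (.cut .l 141961 (.cut .d (-2048) (.pos 49 .mp ⟨⟨1500643524, 0, 0, 0, 0, 853706113, 0, 0, 0, ⟨0, 0⟩, 0⟩, 0, 0⟩ 0 0) (.cut .s 14921728 (.pos 49 .mp ⟨⟨1525120622, 0, 0, 0, 0, 765198388, 0, 0, 0, ⟨0, 0⟩, 0⟩, 0, 0⟩ 0 0) (.pos 49 .mp ⟨⟨1531471858, 0, 0, 0, 0, 768505035, 0, 0, 0, ⟨0, 0⟩,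 0⟩, 0, 0⟩ 0 0))) (.pos 49 .mp ⟨⟨1487724388, 0, 0, 0, 0, 837763792, 0, 0, 0, ⟨0, 0⟩, 0⟩, 0, 0⟩ 0 0))) (.pos 50 .mp ⟨⟨1903808343, 0, 0, 0, 0, 0, 0, 0, 0, ⟨0, 0⟩, 0⟩, 0, 0⟩ 0 0)) (.cut .v 16809984 (.cut .s 14934016 (.cut .l 141961 (.cut .d (-2048) (.pos 49 .mp ⟨⟨1513157366, 0, 0, 0, 0, 861641868, 0, 0, 0, ⟨0, 0⟩, 0⟩, 0, 0⟩ 0 0) (.cut .s 14929920 (.pos 49 .mp ⟨⟨1537859555, 0, 0, 0, 0, 771857000, 0, 0, 0, ⟨0, 0⟩, 0⟩, 0, 0⟩ 0 0) (.pos 49 .mp ⟨⟨1544283953, 0, 0, 0, 0, 775254205, 0, 0, 0, ⟨0, 0⟩, 0⟩, 0, 0⟩ 0 0))) (.pos 49 .mp ⟨⟨1500073544, 0, 0, 0, 0, 844779982, 0, 0, 0, ⟨0, 0⟩, 0⟩, 0, 0⟩ 0 0)) (.cut .l 141961 (.cut .d (-2048) (.pos 49 .mp ⟨⟨1525814432,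 0, 0, 0, 0, 869885900, 0, 0, 0, ⟨0, 0⟩, 0⟩, 0, 0⟩ 0 0) (.cut .s 14938112 (.pos 49 .mp ⟨⟨1550745292, 0, 0, 0, 0, 778696571, 0, 0, 0, ⟨0, 0⟩, 0⟩, 0, 0⟩ 0 0) (.pos 49 .mp ⟨⟨1557243818, 0, 0, 0, 0, 782184016, 0, 0, 0, ⟨0, 0⟩, 0⟩, 0, 0⟩ 0 0))) (.pos 49 .mp ⟨⟨1512563353, 0, 0, 0, 0, 851845398, 0, 0, 0, ⟨0, 0⟩, 0⟩, 0, 0⟩ 0 0))) (.pos 50 .mp ⟨⟨1750318335, 0, 0, 0, 0, 388499332, 0, 0, 0, ⟨0, 0⟩, 0⟩, 0, 0⟩ 0 0)))) (.pos 40 .mp ⟨⟨1968542843, 0, 0, 0, 0, 0, 0, 0, 0, ⟨0, 0⟩, 0⟩, 0, 0⟩ 0 0)))) (.pos 38 .mp ⟨⟨1930618028, 0, 0, 0, 0, 0, 0, 0, 0, ⟨0, 0⟩, 0⟩, 0, 0⟩ 0 0)))))) (.pos 36 .mp ⟨⟨2118438142, 0, 0, 0, 0, 0, 0, 0, 0, ⟨0, 0⟩, 0⟩, 0, 0⟩ 0 0))) (.void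 34 ⟨⟨100000, 0, 0, 0, 0, 0, 0, 0, 0, ⟨0, 0⟩, 0⟩, 0, 0⟩ 0 0))) (.void 32 ⟨⟨100000, 0, 0, 0, 0, 0, 0, 0, 0, ⟨0, 0⟩, 0⟩, 0, 0⟩ 0 0))) (.void 30 ⟨⟨100000, 0, 0, 0, 0, 0, 0, 0, 0, ⟨0, 0⟩, 0⟩, 0, 0⟩ 0 0))) (.void 28 ⟨⟨100000, 0, 0, 0, 0, 0, 0, 0, 0, ⟨0, 0⟩, 0⟩, 0, 0⟩ 0 0))) (.void 26 ⟨⟨100000, 0, 0, 0, 0, 0, 0, 0, 0, ⟨0, 0⟩, 0⟩, 0, 0⟩ 0 0)))) (.void 95 ⟨⟨100000, 0, 0, 0, 0, 0, 0, 0, 0, ⟨0, 0⟩, 0⟩, 0, 0⟩ 0 0)) (.void 106 ⟨⟨100000, 0, 0, 0, 0, 0, 0, 0, 0, ⟨0, 0⟩, 0⟩, 0, 0⟩ 0 0)) (.void 115 ⟨⟨94019, 0, 0, 5981, 0, 0, 0, 0, 0, ⟨0, 0⟩, 0⟩, 0, 0⟩ 0 0))) (.cut .v 16777216 (.cut .v 8388608 (.cut .v 4194304 (.cut .v 2097152 (.cut .v 1048576 (.pos 111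 .pm ⟨⟨0, 0, 42830204, 0, 0, 0, 0, 0, 0, ⟨0, 0⟩, 0⟩, 0, 310⟩ 0 0) (.pos 112 .pm ⟨⟨0, 0, 80144540, 0, 0, 0, 0, 0, 0, ⟨0, 0⟩, 0⟩, 0, 895⟩ 0 0)) (.pos 7 .pm ⟨⟨0, 0, 143314264, 0, 0, 0, 0, 0, 0, ⟨0, 0⟩, 0⟩, 0, 2344⟩ 0 0)) (.pos 5 .pm ⟨⟨0, 0, 458057683, 0, 0, 0, 0, 0, 0, ⟨0, 0⟩, 0⟩, 0, 4219⟩ 0 0)) (.pos 3 .pm ⟨⟨0, 0, 0, 0, 0, 0, 0, 0, 0, ⟨0, 0⟩, 0⟩, 0, 0⟩ 0 0)) (.cut .v 268435456 (.cut .v 67108864 (.cut .d 1113533 (.cut .v 33554432 (.cut .d 556766 (.cut .d 278383 (.cut .v 25165824 (.cut .d 139191 (.cut .v 20971520 (.cut .d 69595 (.cut .v 18874368 (.cut .v 17825792 (.cut .s 14876672 (.pos 31 .pp ⟨⟨1239032645, 0, 0, 0, 0, 0, 0, 0, 0, ⟨0, 0⟩,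 0⟩, 62124996, 0⟩ 0 0) (.pos 31 .pp ⟨⟨1326039245, 0, 0, 0, 0, 0, 0, 0, 0, ⟨0, 0⟩, 0⟩, 65563493, 0⟩ 0 0)) (.pos 32 .pp ⟨⟨1961834260, 0, 0, 0, 0, 0, 0, 0, 0, ⟨0, 0⟩, 0⟩, 0, 0⟩ 0 0)) (.pos 30 .pp ⟨⟨2348532942, 0, 0, 0, 0, 0, 0, 0, 0, ⟨0, 0⟩, 0⟩, 0, 0⟩ 0 0)) (.pos 27 .pp ⟨⟨0, 0, 0, 0, 0, 0, 0, 0, 0, ⟨0, 0⟩, 0⟩, 209829006, 2788⟩ 0 0)) (.cut .d 69595 (.void 28 ⟨⟨0, 0, 0, 0, 0, 0, 0, 0, 0, ⟨0, 0⟩, 0⟩, 100000, 0⟩ 0 0) (.pos 28 .pp ⟨⟨0, 0, 0, 0, 0, 0, 0, 0, 0, ⟨0, 0⟩, 0⟩, 306221375, 0⟩ 0 0))) (.pos 25 .pp ⟨⟨0, 0, 0, 0, 0, 0, 0, 0, 0, ⟨0, 0⟩, 0⟩, 202976176, 3042⟩ 0 0)) (.pos 26 .pp ⟨⟨0, 0, 0, 0, 0, 0, 0, 0, 0, ⟨0, 0⟩, 0⟩, 435976138, 0⟩ 0 0)) (.pos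 24 .pp ⟨⟨0, 0, 0, 0, 0, 0, 0, 0, 0, ⟨0, 0⟩, 0⟩, 197402597, 3248⟩ 0 0)) (.pos 24 .pp ⟨⟨0, 0, 0, 0, 0, 0, 0, 0, 0, ⟨0, 0⟩, 0⟩, 0, 14063⟩ 0 0)) (.cut .d 556766 (.cut .v 50331648 (.pos 96 .pp ⟨⟨0, 0, 0, 0, 0, 0, 0, 0, 0, ⟨0, 0⟩, 0⟩, 625112866, 0⟩ 0 0) (.void 97 ⟨⟨0, 0, 0, 0, 0, 0, 0, 0, 0, ⟨0, 0⟩, 0⟩, 100000, 0⟩ 0 0)) (.pos 95 .pp ⟨⟨0, 0, 0, 0, 0, 0, 0, 0, 0, ⟨0, 0⟩, 0⟩, 346287291, 0⟩ 0 0))) (.pos 94 .pp ⟨⟨0, 0, 0, 0, 0, 0, 0, 0, 0, ⟨0, 0⟩, 0⟩, 0, 10547⟩ 0 0)) (.void 106 ⟨⟨0, 0, 0, 49260, 0, 0, 0, 0, 0, ⟨0, 0⟩, 0⟩, 50740, 0⟩ 0 0)) (.void 115 ⟨⟨0, 0, 0, 0, 0, 0, 0, 0, 0, ⟨0, 0⟩, 0⟩, 100000, 0⟩ 0 0)))),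
    by decide +kernel⟩

def covers32 : cell.Covers Vale.Agent.P237.Petty.Cor.Grid.N13.table row32.1 :=
  ⟨(.cut .d 0 (.cut .v 16777216 (.cut .v 8388608 (.void 2 ⟨⟨0, 0, 100000, 0, 0, 0, 0, 0, 0, ⟨0, 0⟩, 0⟩, 0, 0⟩ 0 0) (.cut .d (-8388608) (.void 3 ⟨⟨100000, 0, 0, 0, 0, 0, 0, 0, 0, ⟨0, 0⟩, 0⟩, 0, 0⟩ 0 0) (.cut .d (-4194304) (.void 3 ⟨⟨100000, 0, 0, 0, 0, 0, 0, 0, 0, ⟨0, 0⟩, 0⟩, 0, 0⟩ 0 0) (.cut .d (-2097152) (.void 3 ⟨⟨100000, 0, 0, 0, 0, 0, 0, 0, 0, ⟨0, 0⟩, 0⟩, 0, 0⟩ 0 0) (.cut .d (-1048576) (.void 3 ⟨⟨100000, 0, 0, 0, 0, 0, 0, 0, 0, ⟨0, 0⟩, 0⟩, 0, 0⟩ 0 0) (.cut .d (-524288) (.void 3 ⟨⟨0, 0, 0, 0, 0, 100000, 0, 0, 0, ⟨0, 0⟩, 0⟩, 0, 0⟩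 0 0) (.cut .d (-262144) (.void 3 ⟨⟨0, 0, 0, 0, 0, 100000, 0, 0, 0, ⟨0, 0⟩, 0⟩, 0, 0⟩ 0 0) (.cut .s 15007744 (.pos 3 .mm ⟨⟨0, 0, 0, 0, 0, 4052081095, 0, 0, 0, ⟨0, 0⟩, 0⟩, 0, 0⟩ 0 0) (.cut .s 15040512 (.pos 3 .mm ⟨⟨0, 0, 0, 0, 0, 4206146610, 0, 0, 0, ⟨0, 0⟩, 0⟩, 0, 0⟩ 0 0) (.pos 3 .mm ⟨⟨0, 0, 0, 0, 0, 4364792566, 0, 0, 0, ⟨0, 0⟩, 0⟩, 0, 0⟩ 0 0)))))))))) (.cut .v 268435456 (.cut .v 67108864 (.cut .v 33554432 (.cut .d (-8388608) (.void 24 ⟨⟨99913, 0, 0, 0, 0, 0, 0, 0, 0, ⟨0, 0⟩, 0⟩, 0, 0⟩ 0 0) (.cut .d (-4194304) (.void 24 ⟨⟨100000, 0, 0, 0, 0, 0, 0, 0, 0, ⟨0, 0⟩, 0⟩, 0, 0⟩ 0 0) (.cut .v 25165824 (.cut .d (-2097152) (.void 25 ⟨⟨100000, 0,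 0, 0, 0, 0, 0, 0, 0, ⟨0, 0⟩, 0⟩, 0, 0⟩ 0 0) (.cut .v 20971520 (.cut .d (-1048576) (.void 27 ⟨⟨100000, 0, 0, 0, 0, 0, 0, 0, 0, ⟨0, 0⟩, 0⟩, 0, 0⟩ 0 0) (.cut .v 18874368 (.cut .d (-524288) (.void 29 ⟨⟨100000, 0, 0, 0, 0, 0, 0, 0, 0, ⟨0, 0⟩, 0⟩, 0, 0⟩ 0 0) (.cut .v 17825792 (.cut .d (-262144) (.void 31 ⟨⟨100000, 0, 0, 0, 0, 0, 0, 0, 0, ⟨0, 0⟩, 0⟩, 0, 0⟩ 0 0) (.cut .v 17301504 (.cut .d (-131072) (.void 33 ⟨⟨100000, 0, 0, 0, 0, 0, 0, 0, 0, ⟨0, 0⟩, 0⟩, 0, 0⟩ 0 0) (.cut .v 17039360 (.cut .d (-65536) (.void 35 ⟨⟨100000, 0, 0, 0, 0, 0, 0, 0, 0, ⟨0, 0⟩, 0⟩, 0, 0⟩ 0 0) (.cut .d (-32768) (.void 35 ⟨⟨100000, 0, 0, 0, 0, 0, 0, 0, 0, ⟨0, 0⟩, 0⟩, 0,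 0⟩ 0 0) (.cut .d (-16384) (.void 35 ⟨⟨100000, 0, 0, 0, 0, 0, 0, 0, 0, ⟨0, 0⟩, 0⟩, 0, 0⟩ 0 0) (.cut .d (-8192) (.void 35 ⟨⟨100000, 0, 0, 0, 0, 0, 0, 0, 0, ⟨0, 0⟩, 0⟩, 0, 0⟩ 0 0) (.cut .v 16908288 (.cut .s 15007744 (.cut .d (-4096) (.cut .v 16842752 (.cut .d (-6144) (.void 39 ⟨⟨0, 0, 0, 0, 0, 100000, 0, 0, 0, ⟨0, 0⟩, 0⟩, 0, 0⟩ 0 0) (.cut .d (-5120) (.pos 39 .mp ⟨⟨1545625642, 0, 0, 0, 0, 1427952785, 0, 0, 0, ⟨0, 0⟩, 0⟩, 0, 0⟩ 0 0) (.cut .l 141961 (.void 39 ⟨⟨100000, 0, 0, 0, 0, 0, 0, 0, 0, ⟨0, 0⟩, 0⟩, 0, 0⟩ 0 0) (.cut .l 212942 (.void 39 ⟨⟨0, 0, 0, 0, 0, 100000, 0, 0, 0, ⟨0, 0⟩, 0⟩, 0, 0⟩ 0 0) (.cut .v 16809984 (.pos 49 .mp ⟨⟨0, 0, 0, 0,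 0, 4086250099, 0, 0, 0, ⟨0, 0⟩, 0⟩, 0, 0⟩ 0 0) (.cut .s 14974976 (.pos 50 .mp ⟨⟨1614323480, 0, 0, 0, 0, 762000812, 0, 0, 0, ⟨0, 0⟩, 0⟩, 0, 0⟩ 0 0) (.cut .s 14991360 (.pos 50 .mp ⟨⟨1642273666, 0, 0, 0, 0, 802513661, 0, 0, 0, ⟨0, 0⟩, 0⟩, 0, 0⟩ 0 0) (.pos 50 .mp ⟨⟨1670908940, 0, 0, 0, 0, 815025816, 0, 0, 0, ⟨0, 0⟩, 0⟩, 0, 0⟩ 0 0)))))))) (.pos 40 .mp ⟨⟨2128134444, 0, 0, 0, 0, 0, 0, 0, 0, ⟨0, 0⟩, 0⟩, 0, 0⟩ 0 0)) (.cut .v 16842752 (.cut .s 14974976 (.cut .s 14958592 (.cut .v 16809984 (.cut .s 14950400 (.cut .l 141961 (.cut .d (-2048) (.pos 49 .mp ⟨⟨1538620992, 0, 0, 0, 0, 878410616, 0, 0, 0, ⟨0, 0⟩, 0⟩, 0, 0⟩ 0 0) (.cut .s 14946304 (.pos 49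 .mp ⟨⟨1563682770, 0, 0, 0, 0, 785943208, 0, 0, 0, ⟨0, 0⟩, 0⟩, 0, 0⟩ 0 0) (.pos 49 .mp ⟨⟨1570359361, 0, 0, 0, 0, 788523019, 0, 0, 0, ⟨0, 0⟩, 0⟩, 0, 0⟩ 0 0))) (.pos 49 .mp ⟨⟨1525199818, 0, 0, 0, 0, 860802682, 0, 0, 0, ⟨0, 0⟩, 0⟩, 0, 0⟩ 0 0)) (.cut .l 141961 (.cut .d (-2048) (.pos 49 .mp ⟨⟨1551583111, 0, 0, 0, 0, 884573446, 0, 0, 0, ⟨0, 0⟩, 0⟩, 0, 0⟩ 0 0) (.cut .s 14954496 (.pos 49 .mp ⟨⟨1576974462, 0, 0, 0, 0, 791388015, 0, 0, 0, ⟨0, 0⟩, 0⟩, 0, 0⟩ 0 0) (.pos 49 .mp ⟨⟨1583629546, 0, 0, 0, 0, 794312669, 0, 0, 0, ⟨0, 0⟩, 0⟩, 0, 0⟩ 0 0))) (.pos 49 .mp ⟨⟨1537989375, 0, 0, 0, 0, 868015859, 0, 0, 0, ⟨0, 0⟩, 0⟩, 0, 0⟩ 0 0))) (.pos 50 .mp ⟨⟨1788876392,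 0, 0, 0, 0, 378220242, 0, 0, 0, ⟨0, 0⟩, 0⟩, 0, 0⟩ 0 0)) (.cut .v 16809984 (.cut .s 14966784 (.cut .l 141961 (.cut .d (-2048) (.pos 49 .mp ⟨⟨1564701218, 0, 0, 0, 0, 891079849, 0, 0, 0, ⟨0, 0⟩, 0⟩, 0, 0⟩ 0 0) (.cut .s 14962688 (.pos 49 .mp ⟨⟨1590324879, 0, 0, 0, 0, 797296926, 0, 0, 0, ⟨0, 0⟩, 0⟩, 0, 0⟩ 0 0) (.pos 49 .mp ⟨⟨1597060732, 0, 0, 0, 0, 800340732, 0, 0, 0, ⟨0, 0⟩, 0⟩, 0, 0⟩ 0 0))) (.pos 49 .mp ⟨⟨1550931908, 0, 0, 0, 0, 875358475, 0, 0, 0, ⟨0, 0⟩, 0⟩, 0, 0⟩ 0 0)) (.cut .l 141961 (.cut .d (-2048) (.pos 49 .mp ⟨⟨1577977401, 0, 0, 0, 0, 897934664, 0, 0, 0, ⟨0, 0⟩, 0⟩, 0, 0⟩ 0 0) (.cut .v 16793600 (.cut .s 14970880 (.pos 51 .mp ⟨⟨1589990328,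 0, 0, 0, 0, 832056793, 0, 0, 0, ⟨0, 0⟩, 0⟩, 0, 0⟩ 0 0) (.pos 51 .mp ⟨⟨1594680033, 0, 0, 0, 0, 839676213, 0, 0, 0, ⟨0, 0⟩, 0⟩, 0, 0⟩ 0 0)) (.pos 52 .mp ⟨⟨1743098596, 0, 0, 0, 0, 543840760, 0, 0, 0, ⟨0, 0⟩, 0⟩, 0, 0⟩ 0 0))) (.pos 49 .mp ⟨⟨1564029464, 0, 0, 0, 0, 882825734, 0, 0, 0, ⟨0, 0⟩, 0⟩, 0, 0⟩ 0 0))) (.pos 50 .mp ⟨⟨1814652113, 0, 0, 0, 0, 391944424, 0, 0, 0, ⟨0, 0⟩, 0⟩, 0, 0⟩ 0 0))) (.cut .s 14991360 (.cut .v 16809984 (.cut .s 14983168 (.cut .l 141961 (.cut .d (-2048) (.pos 49 .mp ⟨⟨1591413785, 0, 0, 0, 0, 905142819, 0, 0, 0, ⟨0, 0⟩, 0⟩, 0, 0⟩ 0 0) (.cut .l 70980 (.cut .d (-1024) (.pos 49 .mp ⟨⟨1596620781, 0, 0, 0, 0, 898171790,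 0, 0, 0, ⟨0, 0⟩, 0⟩, 0, 0⟩ 0 0) (.cut .s 14979072 (.pos 49 .mp ⟨⟨1610184662, 0, 0, 0, 0, 823868965, 0, 0, 0, ⟨0, 0⟩, 0⟩, 0, 0⟩ 0 0) (.pos 49 .mp ⟨⟨1617126898, 0, 0, 0, 0, 827020752, 0, 0, 0, ⟨0, 0⟩, 0⟩, 0, 0⟩ 0 0))) (.pos 49 .mp ⟨⟨1614706893, 0, 0, 0, 0, 808925028, 0, 0, 0, ⟨0, 0⟩, 0⟩, 0, 0⟩ 0 0))) (.pos 49 .mp ⟨⟨1577284128, 0, 0, 0, 0, 890412763, 0, 0, 0, ⟨0, 0⟩, 0⟩, 0, 0⟩ 0 0)) (.cut .l 141961 (.cut .d (-2048) (.pos 49 .mp ⟨⟨1605012533, 0, 0, 0, 0, 912709330, 0, 0, 0, ⟨0, 0⟩, 0⟩, 0, 0⟩ 0 0) (.cut .l 70980 (.cut .d (-1024) (.pos 49 .mp ⟨⟨1610113279, 0, 0, 0, 0, 906127661, 0, 0, 0, ⟨0, 0⟩, 0⟩, 0, 0⟩ 0 0) (.cut .s 14987264 (.pos 49 .mp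 ⟨⟨1624090801, 0, 0, 0, 0, 830282105, 0, 0, 0, ⟨0, 0⟩, 0⟩, 0, 0⟩ 0 0) (.pos 49 .mp ⟨⟨1631076127, 0, 0, 0, 0, 833654254, 0, 0, 0, ⟨0, 0⟩, 0⟩, 0, 0⟩ 0 0))) (.pos 49 .mp ⟨⟨1628552161, 0, 0, 0, 0, 815699131, 0, 0, 0, ⟨0, 0⟩, 0⟩, 0, 0⟩ 0 0))) (.pos 49 .mp ⟨⟨1590698023, 0, 0, 0, 0, 898114616, 0, 0, 0, ⟨0, 0⟩, 0⟩, 0, 0⟩ 0 0))) (.pos 50 .mp ⟨⟨1844031063, 0, 0, 0, 0, 400848754, 0, 0, 0, ⟨0, 0⟩, 0⟩, 0, 0⟩ 0 0)) (.cut .v 16809984 (.cut .s 14999552 (.cut .l 141961 (.cut .d (-2048) (.pos 49 .mp ⟨⟨1618775849, 0, 0, 0, 0, 920639306, 0, 0, 0, ⟨0, 0⟩, 0⟩, 0, 0⟩ 0 0) (.cut .l 70980 (.cut .d (-1024) (.pos 49 .mp ⟨⟨1623766290, 0, 0, 0, 0, 914460789, 0, 0,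 0, ⟨0, 0⟩, 0⟩, 0, 0⟩ 0 0) (.cut .s 14995456 (.pos 49 .mp ⟨⟨1638058702, 0, 0, 0, 0, 837198151, 0, 0, 0, ⟨0, 0⟩, 0⟩, 0, 0⟩ 0 0) (.pos 49 .mp ⟨⟨1645080606, 0, 0, 0, 0, 840809402, 0, 0, 0, ⟨0, 0⟩, 0⟩, 0, 0⟩ 0 0))) (.pos 49 .mp ⟨⟨1642565784, 0, 0, 0, 0, 822568442, 0, 0, 0, ⟨0, 0⟩, 0⟩, 0, 0⟩ 0 0))) (.pos 49 .mp ⟨⟨1604273310, 0, 0, 0, 0, 905926269, 0, 0, 0, ⟨0, 0⟩, 0⟩, 0, 0⟩ 0 0)) (.cut .l 141961 (.cut .d (-2048) (.pos 49 .mp ⟨⟨1632705977, 0, 0, 0, 0, 928937949, 0, 0, 0, ⟨0, 0⟩, 0⟩, 0, 0⟩ 0 0) (.cut .l 70980 (.cut .d (-1024) (.pos 49 .mp ⟨⟨1637581962, 0, 0, 0, 0, 923176711, 0, 0, 0, ⟨0, 0⟩, 0⟩, 0, 0⟩ 0 0) (.cut .s 15003648 (.pos 49 .mp ⟨⟨1652145158,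 0, 0, 0, 0, 844480373, 0, 0, 0, ⟨0, 0⟩, 0⟩, 0, 0⟩ 0 0) (.pos 49 .mp ⟨⟨1659226609, 0, 0, 0, 0, 848275951, 0, 0, 0, ⟨0, 0⟩, 0⟩, 0, 0⟩ 0 0))) (.pos 49 .mp ⟨⟨1656750067, 0, 0, 0, 0, 829527647, 0, 0, 0, ⟨0, 0⟩, 0⟩, 0, 0⟩ 0 0))) (.pos 49 .mp ⟨⟨1618012190, 0, 0, 0, 0, 913842622, 0, 0, 0, ⟨0, 0⟩, 0⟩, 0, 0⟩ 0 0))) (.pos 50 .mp ⟨⟨1877287353, 0, 0, 0, 0, 404416697, 0, 0, 0, ⟨0, 0⟩, 0⟩, 0, 0⟩ 0 0)))) (.pos 40 .mp ⟨⟨2043773037, 0, 0, 0, 0, 0, 0, 0, 0, ⟨0, 0⟩, 0⟩, 0, 0⟩ 0 0))) (.cut .d (-4096) (.cut .v 16842752 (.cut .l 141961 (.void 39 ⟨⟨100000, 0, 0, 0, 0, 0, 0, 0, 0, ⟨0, 0⟩, 0⟩, 0, 0⟩ 0 0) (.cut .d (-6144) (.void 39 ⟨⟨0, 0, 0, 0, 0, 100000, 0,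 0, 0, ⟨0, 0⟩, 0⟩, 0, 0⟩ 0 0) (.cut .d (-5120) (.void 39 ⟨⟨0, 0, 0, 0, 0, 100000, 0, 0, 0, ⟨0, 0⟩, 0⟩, 0, 0⟩ 0 0) (.cut .l 212942 (.void 39 ⟨⟨0, 0, 0, 0, 0, 100000, 0, 0, 0, ⟨0, 0⟩, 0⟩, 0, 0⟩ 0 0) (.cut .s 15040512 (.cut .s 15024128 (.pos 39 .mp ⟨⟨1647657840, 0, 0, 0, 0, 955751303, 0, 0, 0, ⟨0, 0⟩, 0⟩, 0, 0⟩ 0 0) (.pos 39 .mp ⟨⟨1676522192, 0, 0, 0, 0, 972880434, 0, 0, 0, ⟨0, 0⟩, 0⟩, 0, 0⟩ 0 0)) (.pos 39 .mp ⟨⟨1706094472, 0, 0, 0, 0, 1044414919, 0, 0, 0, ⟨0, 0⟩, 0⟩, 0, 0⟩ 0 0)))))) (.pos 40 .mp ⟨⟨2274241256, 0, 0, 0, 0, 0, 0, 0, 0, ⟨0, 0⟩, 0⟩, 0, 0⟩ 0 0)) (.cut .v 16842752 (.cut .s 15040512 (.cut .s 15024128 (.cut .v 16809984 (.cut .s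 15015936 (.cut .l 141961 (.cut .d (-2048) (.pos 49 .mp ⟨⟨1646805203, 0, 0, 0, 0, 937610557, 0, 0, 0, ⟨0, 0⟩, 0⟩, 0, 0⟩ 0 0) (.cut .l 70980 (.cut .d (-1024) (.pos 49 .mp ⟨⟨1651562480, 0, 0, 0, 0, 932281070, 0, 0, 0, ⟨0, 0⟩, 0⟩, 0, 0⟩ 0 0) (.cut .s 15011840 (.pos 49 .mp ⟨⟨1666315220, 0, 0, 0, 0, 852221064, 0, 0, 0, ⟨0, 0⟩, 0⟩, 0, 0⟩ 0 0) (.pos 49 .mp ⟨⟨1673423688, 0, 0, 0, 0, 856284673, 0, 0, 0, ⟨0, 0⟩, 0⟩, 0, 0⟩ 0 0))) (.pos 49 .mp ⟨⟨1671107360, 0, 0, 0, 0, 836571352, 0, 0, 0, ⟨0, 0⟩, 0⟩, 0, 0⟩ 0 0))) (.pos 49 .mp ⟨⟨1631916906, 0, 0, 0, 0, 921858494, 0, 0, 0, ⟨0, 0⟩, 0⟩, 0, 0⟩ 0 0)) (.cut .l 141961 (.cut .d (-2048) (.pos 49 .mp ⟨⟨1661075856,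 0, 0, 0, 0, 946662526, 0, 0, 0, ⟨0, 0⟩, 0⟩, 0, 0⟩ 0 0) (.cut .l 70980 (.cut .d (-1024) (.pos 49 .mp ⟨⟨1665710071, 0, 0, 0, 0, 941779616, 0, 0, 0, ⟨0, 0⟩, 0⟩, 0, 0⟩ 0 0) (.cut .s 15020032 (.pos 49 .mp ⟨⟨1680551733, 0, 0, 0, 0, 860468114, 0, 0, 0, ⟨0, 0⟩, 0⟩, 0, 0⟩ 0 0) (.pos 49 .mp ⟨⟨1687699073, 0, 0, 0, 0, 864772741, 0, 0, 0, ⟨0, 0⟩, 0⟩, 0, 0⟩ 0 0))) (.pos 49 .mp ⟨⟨1685640057, 0, 0, 0, 0, 843694076, 0, 0, 0, ⟨0, 0⟩, 0⟩, 0, 0⟩ 0 0))) (.pos 49 .mp ⟨⟨1645989741, 0, 0, 0, 0, 929968621, 0, 0, 0, ⟨0, 0⟩, 0⟩, 0, 0⟩ 0 0))) (.pos 50 .mp ⟨⟨1914704520, 0, 0, 0, 0, 402112744, 0, 0, 0, ⟨0, 0⟩, 0⟩, 0, 0⟩ 0 0)) (.cut .v 16809984 (.cut .s 15032320 (.cut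 .l 141961 (.cut .d (-2048) (.pos 49 .mp ⟨⟨1675520307, 0, 0, 0, 0, 956099354, 0, 0, 0, ⟨0, 0⟩, 0⟩, 0, 0⟩ 0 0) (.cut .s 15028224 (.pos 49 .mp ⟨⟨1703151637, 0, 0, 0, 0, 853096958, 0, 0, 0, ⟨0, 0⟩, 0⟩, 0, 0⟩ 0 0) (.pos 49 .mp ⟨⟨1710574496, 0, 0, 0, 0, 857083569, 0, 0, 0, ⟨0, 0⟩, 0⟩, 0, 0⟩ 0 0))) (.pos 49 .mp ⟨⟨1660233023, 0, 0, 0, 0, 938167655, 0, 0, 0, ⟨0, 0⟩, 0⟩, 0, 0⟩ 0 0)) (.cut .l 141961 (.cut .d (-2048) (.pos 49 .mp ⟨⟨1690140972, 0, 0, 0, 0, 965926639, 0, 0, 0, ⟨0, 0⟩, 0⟩, 0, 0⟩ 0 0) (.cut .s 15036416 (.pos 49 .mp ⟨⟨1718042849, 0, 0, 0, 0, 861128318, 0, 0, 0, ⟨0, 0⟩, 0⟩, 0, 0⟩ 0 0) (.pos 49 .mp ⟨⟨1725557014, 0, 0, 0, 0, 865231092,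 0, 0, 0, ⟨0, 0⟩, 0⟩, 0, 0⟩ 0 0))) (.pos 49 .mp ⟨⟨1674649122, 0, 0, 0, 0, 946450165, 0, 0, 0, ⟨0, 0⟩, 0⟩, 0, 0⟩ 0 0))) (.pos 50 .mp ⟨⟨1956575981, 0, 0, 0, 0, 393381505, 0, 0, 0, ⟨0, 0⟩, 0⟩, 0, 0⟩ 0 0))) (.cut .s 15056896 (.cut .v 16809984 (.cut .s 15048704 (.cut .l 141961 (.cut .d (-2048) (.pos 49 .mp ⟨⟨1704940315, 0, 0, 0, 0, 976150087, 0, 0, 0, ⟨0, 0⟩, 0⟩, 0, 0⟩ 0 0) (.cut .s 15044608 (.pos 49 .mp ⟨⟨1733117311, 0, 0, 0, 0, 869391775, 0, 0, 0, ⟨0, 0⟩, 0⟩, 0, 0⟩ 0 0) (.pos 49 .mp ⟨⟨1740724065, 0, 0, 0, 0, 873610245, 0, 0, 0, ⟨0, 0⟩, 0⟩, 0, 0⟩ 0 0))) (.pos 49 .mp ⟨⟨1689240453, 0, 0, 0, 0, 954810628, 0, 0, 0, ⟨0, 0⟩, 0⟩, 0, 0⟩ 0 0)) (.cut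 .l 141961 (.cut .d (-2048) (.pos 49 .mp ⟨⟨1719920843, 0, 0, 0, 0, 986775509, 0, 0, 0, ⟨0, 0⟩, 0⟩, 0, 0⟩ 0 0) (.cut .s 15052800 (.pos 49 .mp ⟨⟨1747850761, 0, 0, 0, 0, 879060404, 0, 0, 0, ⟨0, 0⟩, 0⟩, 0, 0⟩ 0 0) (.pos 49 .mp ⟨⟨1754790291, 0, 0, 0, 0, 885090179, 0, 0, 0, ⟨0, 0⟩, 0⟩, 0, 0⟩ 0 0))) (.pos 49 .mp ⟨⟨1704009477, 0, 0, 0, 0, 963243434, 0, 0, 0, ⟨0, 0⟩, 0⟩, 0, 0⟩ 0 0))) (.pos 50 .mp ⟨⟨2003205506, 0, 0, 0, 0, 377646756, 0, 0, 0, ⟨0, 0⟩, 0⟩, 0, 0⟩ 0 0)) (.cut .v 16809984 (.cut .s 15065088 (.cut .s 15060992 (.pos 49 .mp ⟨⟨1748206956, 0, 0, 0, 0, 922497668, 0, 0, 0, ⟨0, 0⟩, 0⟩, 0, 0⟩ 0 0) (.pos 49 .mp ⟨⟨1759114464, 0, 0, 0, 0, 920442113,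 0, 0, 0, ⟨0, 0⟩, 0⟩, 0, 0⟩ 0 0)) (.cut .s 15069184 (.pos 49 .mp ⟨⟨1773137168, 0, 0, 0, 0, 912010961, 0, 0, 0, ⟨0, 0⟩, 0⟩, 0, 0⟩ 0 0) (.pos 49 .mp ⟨⟨1787622452, 0, 0, 0, 0, 902766731, 0, 0, 0, ⟨0, 0⟩, 0⟩, 0, 0⟩ 0 0))) (.pos 50 .mp ⟨⟨2054907733, 0, 0, 0, 0, 354310425, 0, 0, 0, ⟨0, 0⟩, 0⟩, 0, 0⟩ 0 0)))) (.pos 40 .mp ⟨⟨2188252115, 0, 0, 0, 0, 0, 0, 0, 0, ⟨0, 0⟩, 0⟩, 0, 0⟩ 0 0)))) (.pos 38 .mp ⟨⟨2210383226, 0, 0, 0, 0, 0, 0, 0, 0, ⟨0, 0⟩, 0⟩, 0, 0⟩ 0 0)))))) (.pos 36 .mp ⟨⟨2428205306, 0, 0, 0, 0, 0, 0, 0, 0, ⟨0, 0⟩, 0⟩, 0, 0⟩ 0 0))) (.void 34 ⟨⟨100000, 0, 0, 0, 0, 0, 0, 0, 0, ⟨0, 0⟩, 0⟩, 0, 0⟩ 0 0))) (.void 32 ⟨⟨100000, 0, 0, 0, 0, 0, 0,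 0, 0, ⟨0, 0⟩, 0⟩, 0, 0⟩ 0 0))) (.void 30 ⟨⟨100000, 0, 0, 0, 0, 0, 0, 0, 0, ⟨0, 0⟩, 0⟩, 0, 0⟩ 0 0))) (.void 28 ⟨⟨100000, 0, 0, 0, 0, 0, 0, 0, 0, ⟨0, 0⟩, 0⟩, 0, 0⟩ 0 0))) (.void 26 ⟨⟨100000, 0, 0, 0, 0, 0, 0, 0, 0, ⟨0, 0⟩, 0⟩, 0, 0⟩ 0 0)))) (.void 95 ⟨⟨100000, 0, 0, 0, 0, 0, 0, 0, 0, ⟨0, 0⟩, 0⟩, 0, 0⟩ 0 0)) (.void 106 ⟨⟨99938, 0, 0, 0, 0, 0, 0, 0, 0, ⟨0, 0⟩, 0⟩, 0, 0⟩ 0 0)) (.void 115 ⟨⟨93852, 0, 0, 6034, 0, 0, 0, 0, 0, ⟨0, 0⟩, 0⟩, 0, 0⟩ 0 0))) (.cut .v 16777216 (.cut .v 8388608 (.cut .v 4194304 (.cut .v 2097152 (.cut .v 1048576 (.pos 111 .pm ⟨⟨0, 0, 49461199, 0, 0, 0, 0, 0, 0, ⟨0, 0⟩, 0⟩, 0, 218⟩ 0 0) (.pos 112 .pm ⟨⟨0, 0, 98488599, 0,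 0, 0, 0, 0, 0, ⟨0, 0⟩, 0⟩, 0, 629⟩ 0 0)) (.pos 7 .pm ⟨⟨0, 0, 184028876, 0, 0, 0, 0, 0, 0, ⟨0, 0⟩, 0⟩, 0, 1689⟩ 0 0)) (.pos 5 .pm ⟨⟨0, 0, 582818578, 0, 0, 0, 0, 0, 0, ⟨0, 0⟩, 0⟩, 0, 3040⟩ 0 0)) (.pos 3 .pm ⟨⟨0, 0, 0, 0, 0, 0, 0, 0, 0, ⟨0, 0⟩, 0⟩, 0, 0⟩ 0 0)) (.cut .v 268435456 (.cut .v 67108864 (.cut .d 1030181 (.cut .v 33554432 (.cut .d 515090 (.cut .d 257545 (.cut .v 25165824 (.cut .d 128772 (.cut .v 20971520 (.cut .d 64386 (.cut .v 18874368 (.cut .v 17825792 (.cut .s 15007744 (.pos 31 .pp ⟨⟨1425602336, 0, 0, 0, 0, 0, 0, 0, 0, ⟨0, 0⟩, 0⟩, 68928738, 0⟩ 0 0) (.pos 31 .pp ⟨⟨1540594017, 0, 0, 0, 0, 0, 0, 0, 0, ⟨0, 0⟩, 0⟩, 71656057, 0⟩ 0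 0)) (.pos 32 .pp ⟨⟨2237819888, 0, 0, 0, 0, 0, 0, 0, 0, ⟨0, 0⟩, 0⟩, 0, 0⟩ 0 0)) (.pos 30 .pp ⟨⟨2682062559, 0, 0, 0, 0, 0, 0, 0, 0, ⟨0, 0⟩, 0⟩, 0, 0⟩ 0 0)) (.pos 27 .pp ⟨⟨0, 0, 0, 0, 0, 0, 0, 0, 0, ⟨0, 0⟩, 0⟩, 239278462, 1983⟩ 0 0)) (.cut .d 64386 (.void 28 ⟨⟨0, 0, 0, 0, 0, 0, 0, 0, 0, ⟨0, 0⟩, 0⟩, 100000, 0⟩ 0 0) (.pos 28 .pp ⟨⟨0, 0, 0, 0, 0, 0, 0, 0, 0, ⟨0, 0⟩, 0⟩, 349908613, 0⟩ 0 0))) (.pos 25 .pp ⟨⟨0, 0, 0, 0, 0, 0, 0, 0, 0, ⟨0, 0⟩, 0⟩, 231783507, 2159⟩ 0 0)) (.cut .d 128772 (.void 26 ⟨⟨0, 0, 0, 0, 0, 0, 0, 0, 0, ⟨0, 0⟩, 0⟩, 100000, 0⟩ 0 0) (.pos 26 .pp ⟨⟨0, 0, 0, 0, 0, 0, 0, 0, 0, ⟨0, 0⟩, 0⟩, 417554856, 0⟩ 0 0))) (.pos 24 .pp ⟨⟨0,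 0, 0, 0, 0, 0, 0, 0, 0, ⟨0, 0⟩, 0⟩, 226549252, 2282⟩ 0 0)) (.pos 24 .pp ⟨⟨0, 0, 0, 0, 0, 0, 0, 0, 0, ⟨0, 0⟩, 0⟩, 0, 10134⟩ 0 0)) (.cut .d 515090 (.cut .v 50331648 (.pos 96 .pp ⟨⟨0, 0, 0, 0, 0, 0, 0, 0, 0, ⟨0, 0⟩, 0⟩, 711703779, 0⟩ 0 0) (.void 97 ⟨⟨0, 0, 0, 0, 0, 0, 0, 0, 0, ⟨0, 0⟩, 0⟩, 100000, 0⟩ 0 0)) (.pos 95 .pp ⟨⟨0, 0, 0, 0, 0, 0, 0, 0, 0, ⟨0, 0⟩, 0⟩, 407810721, 0⟩ 0 0))) (.pos 94 .pp ⟨⟨0, 0, 0, 0, 0, 0, 0, 0, 0, ⟨0, 0⟩, 0⟩, 0, 7600⟩ 0 0)) (.void 106 ⟨⟨0, 0, 0, 49442, 0, 0, 0, 0, 0, ⟨0, 0⟩, 0⟩, 50558, 0⟩ 0 0)) (.void 115 ⟨⟨0, 0, 0, 0, 0, 0, 0, 0, 0, ⟨0, 0⟩, 0⟩, 100000, 0⟩ 0 0)))),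
    by decide +kernel⟩

def covers33 : cell.Covers Vale.Agent.P237.Petty.Cor.Grid.N13.table row33.1 :=
  ⟨(.cut .d 0 (.cut .v 16777216 (.cut .v 8388608 (.void 2 ⟨⟨0, 0, 100000, 0, 0, 0, 0, 0, 0, ⟨0, 0⟩, 0⟩, 0, 0⟩ 0 0) (.cut .d (-8388608) (.void 3 ⟨⟨100000, 0, 0, 0, 0, 0, 0, 0, 0, ⟨0, 0⟩, 0⟩, 0, 0⟩ 0 0) (.cut .d (-4194304) (.void 3 ⟨⟨100000, 0, 0, 0, 0, 0, 0, 0, 0, ⟨0, 0⟩, 0⟩, 0, 0⟩ 0 0) (.cut .d (-2097152) (.void 3 ⟨⟨100000, 0, 0, 0, 0, 0, 0, 0, 0, ⟨0, 0⟩, 0⟩, 0, 0⟩ 0 0) (.cut .d (-1048576) (.void 3 ⟨⟨100000, 0, 0, 0, 0, 0, 0, 0, 0, ⟨0, 0⟩, 0⟩, 0, 0⟩ 0 0) (.cut .d (-524288) (.void 3 ⟨⟨0, 0, 0, 0, 0, 100000, 0, 0, 0, ⟨0, 0⟩, 0⟩, 0, 0⟩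 0 0) (.cut .s 15122432 (.cut .d (-262144) (.void 3 ⟨⟨0, 0, 0, 0, 0, 100000, 0, 0, 0, ⟨0, 0⟩, 0⟩, 0, 0⟩ 0 0) (.pos 3 .mm ⟨⟨0, 0, 0, 0, 0, 4617212654, 0, 0, 0, ⟨0, 0⟩, 0⟩, 0, 0⟩ 0 0)) (.pos 3 .mm ⟨⟨0, 0, 0, 0, 0, 5206228977, 0, 0, 0, ⟨0, 0⟩, 0⟩, 0, 0⟩ 0 0)))))))) (.cut .v 268435456 (.cut .v 67108864 (.cut .v 33554432 (.cut .d (-8388608) (.void 24 ⟨⟨101218, 0, 0, 0, 0, 0, 0, 0, 0, ⟨0, 0⟩, 0⟩, 0, 0⟩ 0 0) (.cut .d (-4194304) (.void 24 ⟨⟨100000, 0, 0, 0, 0, 0, 0, 0, 0, ⟨0, 0⟩, 0⟩, 0, 0⟩ 0 0) (.cut .v 25165824 (.cut .d (-2097152) (.void 25 ⟨⟨100000, 0, 0, 0, 0, 0, 0, 0, 0, ⟨0, 0⟩, 0⟩, 0, 0⟩ 0 0) (.cut .v 20971520 (.cut .d (-1048576) (.void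 27 ⟨⟨100000, 0, 0, 0, 0, 0, 0, 0, 0, ⟨0, 0⟩, 0⟩, 0, 0⟩ 0 0) (.cut .v 18874368 (.cut .d (-524288) (.void 29 ⟨⟨100000, 0, 0, 0, 0, 0, 0, 0, 0, ⟨0, 0⟩, 0⟩, 0, 0⟩ 0 0) (.cut .v 17825792 (.cut .s 15122432 (.cut .d (-262144) (.void 31 ⟨⟨100000, 0, 0, 0, 0, 0, 0, 0, 0, ⟨0, 0⟩, 0⟩, 0, 0⟩ 0 0) (.cut .v 17301504 (.cut .d (-131072) (.void 33 ⟨⟨100000, 0, 0, 0, 0, 0, 0, 0, 0, ⟨0, 0⟩, 0⟩, 0, 0⟩ 0 0) (.cut .s 15097856 (.cut .v 17039360 (.cut .d (-65536) (.void 35 ⟨⟨100000, 0, 0, 0, 0, 0, 0, 0, 0, ⟨0, 0⟩, 0⟩, 0, 0⟩ 0 0) (.cut .s 15085568 (.cut .v 16908288 (.cut .d (-32768) (.void 37 ⟨⟨100000, 0, 0, 0, 0, 0, 0, 0, 0, ⟨0, 0⟩, 0⟩, 0, 0⟩ 0 0) (.cut .s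 15079424 (.cut .v 16842752 (.cut .s 15076352 (.cut .d (-16384) (.void 39 ⟨⟨100000, 0, 0, 0, 0, 0, 0, 0, 0, ⟨0, 0⟩, 0⟩, 0, 0⟩ 0 0) (.cut .s 15074816 (.cut .d (-8192) (.void 39 ⟨⟨100000, 0, 0, 0, 0, 0, 0, 0, 0, ⟨0, 0⟩, 0⟩, 0, 0⟩ 0 0) (.pos 39 .mp ⟨⟨1783489874, 0, 0, 0, 0, 933630632, 0, 0, 0, ⟨0, 0⟩, 0⟩, 0, 0⟩ 0 0)) (.pos 39 .mp ⟨⟨1964139932, 0, 0, 0, 0, 614814292, 0, 0, 0, ⟨0, 0⟩, 0⟩, 0, 0⟩ 0 0))) (.pos 39 .mp ⟨⟨2095310109, 0, 0, 0, 0, 409342373, 0, 0, 0, ⟨0, 0⟩, 0⟩, 0, 0⟩ 0 0)) (.pos 40 .mp ⟨⟨2316567684, 0, 0, 0, 0, 0, 0, 0, 0, ⟨0, 0⟩, 0⟩, 0, 0⟩ 0 0)) (.pos 37 .mp ⟨⟨2247403130, 0, 0, 0, 0, 177495285, 0, 0, 0, ⟨0, 0⟩, 0⟩, 0, 0⟩ 0 0)))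 (.pos 38 .mp ⟨⟨2369217172, 0, 0, 0, 0, 0, 0, 0, 0, ⟨0, 0⟩, 0⟩, 0, 0⟩ 0 0)) (.pos 35 .mp ⟨⟨2398046835, 0, 0, 0, 0, 9693370, 0, 0, 0, ⟨0, 0⟩, 0⟩, 0, 0⟩ 0 0))) (.pos 36 .mp ⟨⟨2490261324, 0, 0, 0, 0, 0, 0, 0, 0, ⟨0, 0⟩, 0⟩, 0, 0⟩ 0 0)) (.pos 33 .mp ⟨⟨2522715242, 0, 0, 0, 0, 65922690, 0, 0, 0, ⟨0, 0⟩, 0⟩, 0, 0⟩ 0 0))) (.void 34 ⟨⟨100000, 0, 0, 0, 0, 0, 0, 0, 0, ⟨0, 0⟩, 0⟩, 0, 0⟩ 0 0))) (.pos 31 .mp ⟨⟨2572347688, 0, 0, 0, 0, 967782817, 0, 0, 0, ⟨0, 0⟩, 0⟩, 0, 0⟩ 0 0)) (.void 32 ⟨⟨100000, 0, 0, 0, 0, 0, 0, 0, 0, ⟨0, 0⟩, 0⟩, 0, 0⟩ 0 0))) (.void 30 ⟨⟨100000, 0, 0, 0, 0, 0, 0, 0, 0, ⟨0, 0⟩, 0⟩, 0, 0⟩ 0 0))) (.void 28 ⟨⟨100000, 0, 0, 0, 0, 0, 0,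 0, 0, ⟨0, 0⟩, 0⟩, 0, 0⟩ 0 0))) (.void 26 ⟨⟨100000, 0, 0, 0, 0, 0, 0, 0, 0, ⟨0, 0⟩, 0⟩, 0, 0⟩ 0 0)))) (.void 95 ⟨⟨100000, 0, 0, 0, 0, 0, 0, 0, 0, ⟨0, 0⟩, 0⟩, 0, 0⟩ 0 0)) (.void 106 ⟨⟨100000, 0, 0, 0, 0, 0, 0, 0, 0, ⟨0, 0⟩, 0⟩, 0, 0⟩ 0 0)) (.void 115 ⟨⟨93935, 0, 0, 6064, 0, 0, 0, 0, 0, ⟨0, 0⟩, 0⟩, 0, 0⟩ 0 0))) (.cut .v 16777216 (.cut .v 8388608 (.cut .v 4194304 (.cut .v 2097152 (.cut .v 1048576 (.pos 111 .pm ⟨⟨0, 0, 56783752, 0, 0, 0, 0, 0, 0, ⟨0, 0⟩, 0⟩, 0, 342⟩ 0 0) (.pos 112 .pm ⟨⟨0, 0, 120647670, 0, 0, 0, 0, 0, 0, ⟨0, 0⟩, 0⟩, 0, 629⟩ 0 0)) (.pos 7 .pm ⟨⟨0, 0, 236648343, 0, 0, 0, 0, 0, 0, ⟨0, 0⟩, 0⟩, 0, 1189⟩ 0 0)) (.pos 5 .pm ⟨⟨0,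 0, 745016435, 0, 0, 0, 0, 0, 0, ⟨0, 0⟩, 0⟩, 0, 2140⟩ 0 0)) (.pos 3 .pm ⟨⟨0, 0, 0, 0, 0, 0, 0, 0, 0, ⟨0, 0⟩, 0⟩, 0, 0⟩ 0 0)) (.cut .v 268435456 (.cut .v 67108864 (.cut .d 948278 (.cut .v 33554432 (.cut .d 474139 (.cut .d 237069 (.cut .v 25165824 (.cut .d 118534 (.cut .v 20971520 (.cut .d 59267 (.cut .v 18874368 (.cut .v 17825792 (.pos 31 .pp ⟨⟨1999052341, 0, 0, 0, 0, 0, 0, 0, 0, ⟨0, 0⟩, 0⟩, 32181640, 0⟩ 0 0) (.pos 32 .pp ⟨⟨2531089445, 0, 0, 0, 0, 0, 0, 0, 0, ⟨0, 0⟩, 0⟩, 0, 0⟩ 0 0)) (.pos 30 .pp ⟨⟨3007139907, 0, 0, 0, 0, 0, 0, 0, 0, ⟨0, 0⟩, 0⟩, 0, 0⟩ 0 0)) (.pos 27 .pp ⟨⟨0, 0, 0, 0, 0, 0, 0, 0, 0, ⟨0, 0⟩, 0⟩, 274871725, 1393⟩ 0 0)) (.cut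 .d 59267 (.void 28 ⟨⟨0, 0, 0, 0, 0, 0, 0, 0, 0, ⟨0, 0⟩, 0⟩, 100000, 0⟩ 0 0) (.pos 28 .pp ⟨⟨0, 0, 0, 0, 0, 0, 0, 0, 0, ⟨0, 0⟩, 0⟩, 395102783, 0⟩ 0 0))) (.pos 25 .pp ⟨⟨0, 0, 0, 0, 0, 0, 0, 0, 0, ⟨0, 0⟩, 0⟩, 266693609, 1511⟩ 0 0)) (.pos 26 .pp ⟨⟨0, 0, 0, 0, 0, 0, 0, 0, 0, ⟨0, 0⟩, 0⟩, 552928013, 0⟩ 0 0)) (.pos 24 .pp ⟨⟨0, 0, 0, 0, 0, 0, 0, 0, 0, ⟨0, 0⟩, 0⟩, 262110662, 1577⟩ 0 0)) (.pos 24 .pp ⟨⟨0, 0, 0, 0, 0, 0, 0, 0, 0, ⟨0, 0⟩, 0⟩, 0, 7132⟩ 0 0)) (.cut .d 474139 (.cut .v 50331648 (.pos 96 .pp ⟨⟨0, 0, 0, 0, 0, 0, 0, 0, 0, ⟨0, 0⟩, 0⟩, 787413691, 0⟩ 0 0) (.void 97 ⟨⟨0, 0, 0, 0, 0, 0, 0, 0, 0, ⟨0, 0⟩, 0⟩, 100000, 0⟩ 0 0)) (.pos 95 .pp ⟨⟨0,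 0, 0, 0, 0, 0, 0, 0, 0, ⟨0, 0⟩, 0⟩, 479628764, 0⟩ 0 0))) (.pos 94 .pp ⟨⟨0, 0, 0, 0, 0, 0, 0, 0, 0, ⟨0, 0⟩, 0⟩, 0, 5349⟩ 0 0)) (.void 106 ⟨⟨0, 0, 0, 49579, 0, 0, 0, 0, 0, ⟨0, 0⟩, 0⟩, 50421, 0⟩ 0 0)) (.void 115 ⟨⟨0, 0, 0, 0, 0, 0, 0, 0, 0, ⟨0, 0⟩, 0⟩, 100000, 0⟩ 0 0)))),
    by decide +kernel⟩

def covers34 : cell.Covers Vale.Agent.P237.Petty.Cor.Grid.N13.table row34.1 :=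
  ⟨(.cut .d 0 (.cut .v 16777216 (.cut .v 8388608 (.void 2 ⟨⟨0, 0, 100000, 0, 0, 0, 0, 0, 0, ⟨0, 0⟩, 0⟩, 0, 0⟩ 0 0) (.cut .d (-8388608) (.void 3 ⟨⟨100000, 0, 0, 0, 0, 0, 0, 0, 0, ⟨0, 0⟩, 0⟩, 0, 0⟩ 0 0) (.cut .d (-4194304) (.void 3 ⟨⟨100000, 0, 0, 0, 0, 0, 0, 0, 0, ⟨0, 0⟩, 0⟩, 0, 0⟩ 0 0) (.pos 3 .mm ⟨⟨0, 0, 0, 0, 0, 10534509641, 0, 0, 0, ⟨0, 0⟩, 0⟩, 0, 0⟩ 0 0)))) (.cut .v 268435456 (.cut .v 67108864 (.cut .v 33554432 (.cut .d (-8388608) (.void 24 ⟨⟨98995, 0, 0, 0, 0, 0, 0, 0, 0, ⟨0, 0⟩, 0⟩, 0, 0⟩ 0 0) (.cut .d (-4194304) (.void 24 ⟨⟨100000, 0, 0, 0, 0, 0, 0, 0, 0, ⟨0, 0⟩, 0⟩, 0, 0⟩ 0 0) (.cut .v 25165824 (.cut .d (-2097152) (.void 25 ⟨⟨100000,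 0, 0, 0, 0, 0, 0, 0, 0, ⟨0, 0⟩, 0⟩, 0, 0⟩ 0 0) (.cut .v 20971520 (.cut .d (-1048576) (.void 27 ⟨⟨100000, 0, 0, 0, 0, 0, 0, 0, 0, ⟨0, 0⟩, 0⟩, 0, 0⟩ 0 0) (.pos 27 .mp ⟨⟨3370039453, 0, 0, 0, 0, 2461852560, 0, 0, 0, ⟨0, 0⟩, 0⟩, 0, 0⟩ 0 0)) (.void 28 ⟨⟨100000, 0, 0, 0, 0, 0, 0, 0, 0, ⟨0, 0⟩, 0⟩, 0, 0⟩ 0 0))) (.void 26 ⟨⟨100000, 0, 0, 0, 0, 0, 0, 0, 0, ⟨0, 0⟩, 0⟩, 0, 0⟩ 0 0)))) (.void 95 ⟨⟨100000, 0, 0, 0, 0, 0, 0, 0, 0, ⟨0, 0⟩, 0⟩, 0, 0⟩ 0 0)) (.void 106 ⟨⟨99674, 0, 0, 0, 0, 0, 0, 0, 0, ⟨0, 0⟩, 0⟩, 0, 0⟩ 0 0)) (.void 115 ⟨⟨93906, 0, 0, 6103, 0, 0, 0, 0, 0, ⟨0, 0⟩, 0⟩, 0, 0⟩ 0 0))) (.cut .v 16777216 (.cut .v 8388608 (.cut .v 4194304 (.cut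 .v 2097152 (.cut .v 1048576 (.pos 111 .pm ⟨⟨0, 0, 64822884, 0, 0, 0, 0, 0, 0, ⟨0, 0⟩, 0⟩, 0, 256⟩ 0 0) (.pos 112 .pm ⟨⟨0, 0, 143214640, 0, 0, 0, 0, 0, 0, ⟨0, 0⟩, 0⟩, 0, 819⟩ 0 0)) (.pos 7 .pm ⟨⟨0, 0, 287685289, 0, 0, 0, 0, 0, 0, ⟨0, 0⟩, 0⟩, 0, 1861⟩ 0 0)) (.pos 5 .pm ⟨⟨0, 0, 898538208, 0, 0, 0, 0, 0, 0, ⟨0, 0⟩, 0⟩, 0, 3350⟩ 0 0)) (.pos 3 .pm ⟨⟨0, 0, 0, 0, 0, 0, 0, 0, 0, ⟨0, 0⟩, 0⟩, 0, 0⟩ 0 0)) (.cut .v 268435456 (.cut .v 67108864 (.cut .d 887780 (.cut .v 33554432 (.cut .d 443890 (.cut .d 221945 (.cut .v 25165824 (.cut .d 110972 (.cut .v 20971520 (.cut .d 55486 (.cut .v 18874368 (.cut .v 17825792 (.pos 31 .pp ⟨⟨2492302112, 0, 0, 0, 0,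 0, 0, 0, 0, ⟨0, 0⟩, 0⟩, 0, 3496⟩ 0 0) (.pos 32 .pp ⟨⟨2836253408, 0, 0, 0, 0, 0, 0, 0, 0, ⟨0, 0⟩, 0⟩, 0, 3858⟩ 0 0)) (.pos 30 .pp ⟨⟨3390237834, 0, 0, 0, 0, 0, 0, 0, 0, ⟨0, 0⟩, 0⟩, 0, 3802⟩ 0 0)) (.pos 27 .pp ⟨⟨0, 0, 0, 0, 0, 0, 4786, 0, 0, ⟨0, 0⟩, 0⟩, 306714949, 3006⟩ 0 0)) (.cut .d 55486 (.void 28 ⟨⟨0, 0, 0, 0, 0, 0, 0, 0, 0, ⟨0, 0⟩, 0⟩, 100000, 0⟩ 0 0) (.pos 28 .pp ⟨⟨0, 0, 0, 0, 0, 0, 10202, 0, 0, ⟨0, 0⟩, 0⟩, 442668204, 0⟩ 0 0))) (.pos 25 .pp ⟨⟨0, 0, 0, 0, 0, 0, 0, 0, 0, ⟨0, 0⟩, 0⟩, 298000346, 5484⟩ 0 0)) (.pos 26 .pp ⟨⟨0, 0, 0, 0, 0, 0, 7074, 0, 0, ⟨0, 0⟩, 0⟩, 620252952, 0⟩ 0 0)) (.pos 24 .pp ⟨⟨0, 0, 0, 0, 0, 0, 0, 0, 0, ⟨0, 0⟩, 0⟩,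 294167885, 5521⟩ 0 0)) (.pos 24 .pp ⟨⟨0, 0, 0, 0, 0, 0, 0, 0, 0, ⟨0, 0⟩, 0⟩, 0, 11167⟩ 0 0)) (.cut .d 443890 (.cut .v 50331648 (.pos 96 .pp ⟨⟨0, 0, 0, 0, 0, 0, 0, 0, 0, ⟨0, 0⟩, 0⟩, 881823315, 0⟩ 0 0) (.void 97 ⟨⟨0, 0, 0, 0, 0, 0, 0, 0, 0, ⟨0, 0⟩, 0⟩, 100000, 0⟩ 0 0)) (.pos 95 .pp ⟨⟨0, 0, 0, 0, 0, 0, 12177, 0, 0, ⟨0, 0⟩, 0⟩, 549510571, 0⟩ 0 0))) (.pos 94 .pp ⟨⟨0, 0, 0, 0, 0, 0, 0, 0, 0, ⟨0, 0⟩, 0⟩, 0, 8375⟩ 0 0)) (.void 106 ⟨⟨0, 0, 0, 49714, 0, 0, 0, 0, 0, ⟨0, 0⟩, 0⟩, 50286, 0⟩ 0 0)) (.void 115 ⟨⟨0, 0, 0, 0, 0, 0, 0, 0, 0, ⟨0, 0⟩, 0⟩, 100000, 0⟩ 0 0)))),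
    by decide +kernel⟩

def covers35 : cell.Covers Vale.Agent.P237.Petty.Cor.Grid.N13.table row35.1 :=
  ⟨(.cut .d 0 (.cut .v 16777216 (.cut .v 8388608 (.void 2 ⟨⟨0, 0, 100000, 0, 0, 0, 0, 0, 0, ⟨0, 0⟩, 0⟩, 0, 0⟩ 0 0) (.cut .d (-8388608) (.void 3 ⟨⟨100000, 0, 0, 0, 0, 0, 0, 0, 0, ⟨0, 0⟩, 0⟩, 0, 0⟩ 0 0) (.cut .d (-4194304) (.void 3 ⟨⟨100000, 0, 0, 0, 0, 0, 0, 0, 0, ⟨0, 0⟩, 0⟩, 0, 0⟩ 0 0) (.pos 3 .mm ⟨⟨0, 0, 0, 0, 0, 12547794368, 0, 0, 0, ⟨0, 0⟩, 0⟩, 0, 0⟩ 0 0)))) (.cut .v 268435456 (.cut .v 67108864 (.cut .v 33554432 (.cut .d (-8388608) (.void 24 ⟨⟨100002, 0, 0, 0, 0, 0, 0, 0, 0, ⟨0, 0⟩, 0⟩, 0, 0⟩ 0 0) (.cut .d (-4194304) (.void 24 ⟨⟨100000,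 0, 0, 0, 0, 0, 0, 0, 0, ⟨0, 0⟩, 0⟩, 0, 0⟩ 0 0) (.cut .v 25165824 (.cut .d (-2097152) (.void 25 ⟨⟨100000, 0, 0, 0, 0, 0, 0, 0, 0, ⟨0, 0⟩, 0⟩, 0, 0⟩ 0 0) (.cut .v 20971520 (.cut .d (-1048576) (.void 27 ⟨⟨100000, 0, 0, 0, 0, 0, 0, 0, 0, ⟨0, 0⟩, 0⟩, 0, 0⟩ 0 0) (.pos 27 .mp ⟨⟨3943459793, 0, 0, 0, 0, 2925468010, 0, 0, 0, ⟨0, 0⟩, 0⟩, 0, 0⟩ 0 0)) (.void 28 ⟨⟨100000, 0, 0, 0, 0, 0, 0, 0, 0, ⟨0, 0⟩, 0⟩, 0, 0⟩ 0 0))) (.void 26 ⟨⟨100000, 0, 0, 0, 0, 0, 0, 0, 0, ⟨0, 0⟩, 0⟩, 0, 0⟩ 0 0)))) (.void 95 ⟨⟨100000, 0, 0, 0, 0, 0, 0, 0, 0, ⟨0, 0⟩, 0⟩, 0, 0⟩ 0 0)) (.void 106 ⟨⟨100055, 0, 0, 0, 0, 0, 0, 0, 0, ⟨0, 0⟩, 0⟩, 0, 0⟩ 0 0)) (.void 115 ⟨⟨93847, 0, 0,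 6153, 0, 0, 0, 0, 0, ⟨0, 0⟩, 0⟩, 0, 0⟩ 0 0))) (.cut .v 16777216 (.cut .v 8388608 (.cut .v 4194304 (.cut .v 2097152 (.cut .v 1048576 (.pos 111 .pm ⟨⟨0, 0, 76895485, 0, 0, 0, 0, 0, 0, ⟨0, 0⟩, 0⟩, 0, 217⟩ 0 0) (.pos 112 .pm ⟨⟨0, 0, 174265652, 0, 0, 0, 0, 0, 0, ⟨0, 0⟩, 0⟩, 0, 505⟩ 0 0)) (.pos 7 .pm ⟨⟨0, 0, 353715041, 0, 0, 0, 0, 0, 0, ⟨0, 0⟩, 0⟩, 0, 1391⟩ 0 0)) (.pos 5 .pm ⟨⟨0, 0, 1087120360, 0, 0, 0, 0, 0, 0, ⟨0, 0⟩, 0⟩, 0, 2504⟩ 0 0)) (.pos 3 .pm ⟨⟨0, 0, 0, 0, 0, 0, 0, 0, 0, ⟨0, 0⟩, 0⟩, 0, 0⟩ 0 0)) (.cut .v 268435456 (.cut .v 67108864 (.cut .d 828061 (.cut .v 33554432 (.cut .d 414030 (.cut .d 207015 (.cut .v 25165824 (.cut .d 103507 (.cut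 .v 20971520 (.cut .d 51753 (.cut .v 18874368 (.cut .v 17825792 (.cut .s 15335424 (.pos 31 .pp ⟨⟨2769724437, 0, 0, 0, 0, 0, 0, 0, 0, ⟨0, 0⟩, 0⟩, 0, 2629⟩ 0 0) (.pos 31 .pp ⟨⟨2997451183, 0, 0, 0, 0, 0, 0, 0, 0, ⟨0, 0⟩, 0⟩, 0, 2154⟩ 0 0)) (.pos 32 .pp ⟨⟨3245898626, 0, 0, 0, 0, 0, 0, 0, 0, ⟨0, 0⟩, 0⟩, 0, 2618⟩ 0 0)) (.pos 30 .pp ⟨⟨3930377407, 0, 0, 0, 0, 0, 5892, 0, 0, ⟨0, 0⟩, 0⟩, 0, 0⟩ 0 0)) (.pos 27 .pp ⟨⟨0, 0, 0, 0, 0, 0, 7756, 0, 0, ⟨0, 0⟩, 0⟩, 344154666, 194⟩ 0 0)) (.cut .d 51753 (.void 28 ⟨⟨0, 0, 0, 0, 0, 0, 0, 0, 0, ⟨0, 0⟩, 0⟩, 100000, 0⟩ 0 0) (.pos 28 .pp ⟨⟨0, 0, 0, 0, 0, 0, 7032, 0, 0, ⟨0, 0⟩, 0⟩, 509267472, 0⟩ 0 0))) (.pos 25 .pp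 ⟨⟨0, 0, 0, 0, 0, 0, 0, 0, 0, ⟨0, 0⟩, 0⟩, 334885082, 4131⟩ 0 0)) (.cut .d 103507 (.void 26 ⟨⟨0, 0, 0, 0, 0, 0, 0, 0, 0, ⟨0, 0⟩, 0⟩, 100000, 0⟩ 0 0) (.pos 26 .pp ⟨⟨0, 0, 0, 0, 0, 0, 7162, 0, 0, ⟨0, 0⟩, 0⟩, 609091710, 0⟩ 0 0))) (.pos 24 .pp ⟨⟨0, 0, 0, 0, 0, 0, 0, 0, 0, ⟨0, 0⟩, 0⟩, 332086714, 4149⟩ 0 0)) (.pos 24 .pp ⟨⟨0, 0, 0, 0, 0, 0, 0, 0, 0, ⟨0, 0⟩, 0⟩, 0, 8347⟩ 0 0)) (.cut .d 414030 (.cut .v 50331648 (.pos 96 .pp ⟨⟨0, 0, 0, 0, 0, 0, 0, 0, 0, ⟨0, 0⟩, 0⟩, 1022936308, 0⟩ 0 0) (.void 97 ⟨⟨0, 0, 0, 0, 0, 0, 0, 0, 0, ⟨0, 0⟩, 0⟩, 100000, 0⟩ 0 0)) (.pos 95 .pp ⟨⟨0, 0, 0, 0, 0, 0, 8786, 0, 0, ⟨0, 0⟩, 0⟩, 639108350, 0⟩ 0 0))) (.pos 94 .pp ⟨⟨0,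 0, 0, 0, 0, 0, 0, 0, 0, ⟨0, 0⟩, 0⟩, 0, 6260⟩ 0 0)) (.void 106 ⟨⟨0, 0, 0, 49894, 0, 0, 0, 0, 0, ⟨0, 0⟩, 0⟩, 50106, 0⟩ 0 0)) (.void 115 ⟨⟨0, 0, 0, 0, 0, 0, 0, 0, 0, ⟨0, 0⟩, 0⟩, 100000, 0⟩ 0 0)))),
    by decide +kernel⟩

def covers36 : cell.Covers Vale.Agent.P237.Petty.Cor.Grid.N13.table row36.1 :=
  ⟨(.cut .d 0 (.cut .v 16777216 (.cut .v 8388608 (.void 2 ⟨⟨0, 0, 100000, 0, 0, 0, 0, 0, 0, ⟨0, 0⟩, 0⟩, 0, 0⟩ 0 0) (.cut .d (-8388608) (.void 3 ⟨⟨100000, 0, 0, 0, 0, 0, 0, 0, 0, ⟨0, 0⟩, 0⟩, 0, 0⟩ 0 0) (.cut .d (-4194304) (.void 3 ⟨⟨100000, 0, 0, 0, 0, 0, 0, 0, 0, ⟨0, 0⟩, 0⟩, 0, 0⟩ 0 0) (.pos 3 .mm ⟨⟨0, 0, 0, 0, 0, 15104937546, 0, 0, 0, ⟨0, 0⟩,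 0⟩, 0, 0⟩ 0 0)))) (.cut .v 268435456 (.cut .v 67108864 (.cut .v 33554432 (.cut .d (-8388608) (.void 24 ⟨⟨100165, 0, 0, 0, 0, 0, 0, 0, 0, ⟨0, 0⟩, 0⟩, 0, 0⟩ 0 0) (.cut .d (-4194304) (.void 24 ⟨⟨100000, 0, 0, 0, 0, 0, 0, 0, 0, ⟨0, 0⟩, 0⟩, 0, 0⟩ 0 0) (.cut .v 25165824 (.cut .d (-2097152) (.void 25 ⟨⟨100000, 0, 0, 0, 0, 0, 0, 0, 0, ⟨0, 0⟩, 0⟩, 0, 0⟩ 0 0) (.cut .v 20971520 (.cut .d (-1048576) (.void 27 ⟨⟨100000, 0, 0, 0, 0, 0, 0, 0, 0, ⟨0, 0⟩, 0⟩, 0, 0⟩ 0 0) (.pos 27 .mp ⟨⟨4700838443, 0, 0, 0, 0, 3464556406, 0, 0, 0, ⟨0, 0⟩, 0⟩, 0, 0⟩ 0 0)) (.void 28 ⟨⟨100000, 0, 0, 0, 0, 0, 0, 0, 0, ⟨0, 0⟩, 0⟩, 0, 0⟩ 0 0))) (.void 26 ⟨⟨100000, 0, 0, 0, 0,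 0, 0, 0, 0, ⟨0, 0⟩, 0⟩, 0, 0⟩ 0 0)))) (.void 95 ⟨⟨100000, 0, 0, 0, 0, 0, 0, 0, 0, ⟨0, 0⟩, 0⟩, 0, 0⟩ 0 0)) (.void 106 ⟨⟨100000, 0, 0, 0, 0, 0, 0, 0, 0, ⟨0, 0⟩, 0⟩, 0, 0⟩ 0 0)) (.void 115 ⟨⟨93797, 0, 0, 6203, 0, 0, 0, 0, 0, ⟨0, 0⟩, 0⟩, 0, 0⟩ 0 0))) (.cut .v 16777216 (.cut .v 8388608 (.cut .v 4194304 (.cut .v 2097152 (.cut .v 1048576 (.pos 111 .pm ⟨⟨0, 0, 94633986, 0, 0, 0, 0, 0, 0, ⟨0, 0⟩, 0⟩, 0, 140⟩ 0 0) (.pos 112 .pm ⟨⟨0, 0, 224140220, 0, 0, 0, 0, 0, 0, ⟨0, 0⟩, 0⟩, 0, 337⟩ 0 0)) (.pos 7 .pm ⟨⟨0, 0, 465542945, 0, 0, 0, 0, 0, 0, ⟨0, 0⟩, 0⟩, 0, 911⟩ 0 0)) (.pos 5 .pm ⟨⟨0, 0, 1411068580, 0, 0, 0, 0, 0, 0, ⟨0, 0⟩, 0⟩, 0, 1640⟩ 0 0)) (.pos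 3 .pm ⟨⟨0, 0, 0, 0, 0, 0, 0, 0, 0, ⟨0, 0⟩, 0⟩, 0, 0⟩ 0 0)) (.cut .v 268435456 (.cut .v 67108864 (.cut .d 749621 (.cut .v 33554432 (.cut .d 374810 (.cut .d 187405 (.cut .v 25165824 (.cut .d 93702 (.cut .v 20971520 (.cut .d 46851 (.cut .v 18874368 (.cut .v 17825792 (.cut .s 15466496 (.pos 31 .pp ⟨⟨3255784682, 0, 0, 0, 0, 0, 0, 0, 0, ⟨0, 0⟩, 0⟩, 0, 1747⟩ 0 0) (.pos 31 .pp ⟨⟨3548040416, 0, 0, 0, 0, 0, 0, 0, 0, ⟨0, 0⟩, 0⟩, 0, 1403⟩ 0 0)) (.pos 32 .pp ⟨⟨3831889088, 0, 0, 0, 0, 0, 0, 0, 0, ⟨0, 0⟩, 0⟩, 0, 1670⟩ 0 0)) (.pos 30 .pp ⟨⟨4653983828, 0, 0, 0, 0, 0, 3760, 0, 0, ⟨0, 0⟩, 0⟩, 0, 0⟩ 0 0)) (.pos 27 .pp ⟨⟨0, 0, 0, 0, 0, 0, 5248, 0, 0, ⟨0,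 0⟩, 0⟩, 405289644, 0⟩ 0 0)) (.cut .d 46851 (.void 28 ⟨⟨100000, 0, 0, 0, 0, 0, 0, 0, 0, ⟨0, 0⟩, 0⟩, 0, 0⟩ 0 0) (.pos 28 .pp ⟨⟨0, 0, 0, 0, 0, 0, 4490, 0, 0, ⟨0, 0⟩, 0⟩, 602880158, 0⟩ 0 0))) (.pos 25 .pp ⟨⟨0, 0, 0, 0, 0, 0, 0, 0, 0, ⟨0, 0⟩, 0⟩, 395236049, 2734⟩ 0 0)) (.cut .d 93702 (.void 26 ⟨⟨0, 0, 0, 0, 0, 0, 0, 0, 0, ⟨0, 0⟩, 0⟩, 100000, 0⟩ 0 0) (.pos 26 .pp ⟨⟨0, 0, 0, 0, 0, 0, 4808, 0, 0, ⟨0, 0⟩, 0⟩, 722314525, 0⟩ 0 0))) (.pos 24 .pp ⟨⟨0, 0, 0, 0, 0, 0, 0, 0, 0, ⟨0, 0⟩, 0⟩, 394442181, 2737⟩ 0 0)) (.pos 24 .pp ⟨⟨0, 0, 0, 0, 0, 0, 0, 0, 0, ⟨0, 0⟩, 0⟩, 0, 5467⟩ 0 0)) (.cut .d 374810 (.cut .v 50331648 (.pos 96 .pp ⟨⟨0, 0, 0, 0, 0, 0, 0,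 0, 0, ⟨0, 0⟩, 0⟩, 1208717340, 0⟩ 0 0) (.void 97 ⟨⟨0, 0, 0, 0, 0, 0, 0, 0, 0, ⟨0, 0⟩, 0⟩, 100000, 0⟩ 0 0)) (.pos 95 .pp ⟨⟨0, 0, 0, 0, 0, 0, 5713, 0, 0, ⟨0, 0⟩, 0⟩, 772801062, 0⟩ 0 0))) (.pos 94 .pp ⟨⟨0, 0, 0, 0, 0, 0, 0, 0, 0, ⟨0, 0⟩, 0⟩, 0, 4100⟩ 0 0)) (.void 106 ⟨⟨0, 0, 0, 50073, 0, 0, 0, 0, 0, ⟨0, 0⟩, 0⟩, 49927, 0⟩ 0 0)) (.void 115 ⟨⟨0, 0, 0, 0, 0, 0, 0, 0, 0, ⟨0, 0⟩, 0⟩, 100000, 0⟩ 0 0)))),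
    by decide +kernel⟩

def covers37 : cell.Covers Vale.Agent.P237.Petty.Cor.Grid.N13.table row37.1 :=
  ⟨(.cut .d 0 (.cut .v 16777216 (.cut .v 8388608 (.pos 2 .mm ⟨⟨0, 0, 1677721600000000, 0, 0, 0, 0, 0, 0, ⟨0, 0⟩, 0⟩, 0, 0⟩ 0 0) (.cut .d (-8388608) (.void 3 ⟨⟨100000, 0, 0, 0, 0, 0, 0, 0, 0, ⟨0, 0⟩, 0⟩, 0, 0⟩ 0 0) (.cut .d (-4194304) (.void 3 ⟨⟨100000, 0, 0, 0, 0, 0, 0, 0, 0, ⟨0, 0⟩, 0⟩, 0, 0⟩ 0 0) (.cut .d (-2097152) (.void 3 ⟨⟨100000, 0, 0, 0, 0, 0, 0, 0, 0, ⟨0, 0⟩, 0⟩, 0, 0⟩ 0 0) (.pos 3 .mm ⟨⟨0, 0, 0, 0, 0, 16532638732, 0, 0, 0, ⟨0, 0⟩, 0⟩, 0, 0⟩ 0 0))))) (.cut .v 268435456 (.cut .v 67108864 (.cut .v 33554432 (.cut .d (-8388608)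 (.void 24 ⟨⟨100010, 0, 0, 0, 0, 0, 0, 0, 0, ⟨0, 0⟩, 0⟩, 0, 0⟩ 0 0) (.cut .d (-4194304) (.void 24 ⟨⟨100000, 0, 0, 0, 0, 0, 0, 0, 0, ⟨0, 0⟩, 0⟩, 0, 0⟩ 0 0) (.cut .v 25165824 (.cut .d (-2097152) (.void 25 ⟨⟨100000, 0, 0, 0, 0, 0, 0, 0, 0, ⟨0, 0⟩, 0⟩, 0, 0⟩ 0 0) (.cut .v 20971520 (.cut .d (-1048576) (.void 27 ⟨⟨100000, 0, 0, 0, 0, 0, 0, 0, 0, ⟨0, 0⟩, 0⟩, 0, 0⟩ 0 0) (.cut .s 15654912 (.pos 27 .mp ⟨⟨5635738814, 0, 0, 0, 0, 4101944436, 0, 0, 0, ⟨0, 0⟩, 0⟩, 0, 0⟩ 0 0) (.pos 27 .mp ⟨⟨6870091265, 0, 0, 0, 0, 4907265262, 0, 0, 0, ⟨0, 0⟩, 0⟩, 0, 0⟩ 0 0))) (.void 28 ⟨⟨100000, 0, 0, 0, 0, 0, 0, 0, 0, ⟨0, 0⟩, 0⟩, 0, 0⟩ 0 0))) (.void 26 ⟨⟨100000, 0,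 0, 0, 0, 0, 0, 0, 0, ⟨0, 0⟩, 0⟩, 0, 0⟩ 0 0)))) (.void 95 ⟨⟨100000, 0, 0, 0, 0, 0, 0, 0, 0, ⟨0, 0⟩, 0⟩, 0, 0⟩ 0 0)) (.void 106 ⟨⟨100292, 0, 0, 0, 0, 0, 0, 0, 0, ⟨0, 0⟩, 0⟩, 0, 0⟩ 0 0)) (.void 115 ⟨⟨93705, 0, 0, 6295, 0, 0, 0, 0, 0, ⟨0, 0⟩, 0⟩, 0, 0⟩ 0 0))) (.cut .v 16777216 (.cut .v 8388608 (.cut .v 4194304 (.cut .v 2097152 (.cut .v 1048576 (.pos 111 .pm ⟨⟨0, 0, 122461223, 0, 0, 0, 0, 0, 0, ⟨0, 0⟩, 0⟩, 0, 0⟩ 0 0) (.pos 112 .pm ⟨⟨0, 0, 317439615, 0, 0, 0, 0, 0, 0, ⟨0, 0⟩, 0⟩, 0, 103⟩ 0 0)) (.pos 7 .pm ⟨⟨0, 0, 641717983, 0, 0, 0, 0, 0, 0, ⟨0, 0⟩, 0⟩, 0, 352⟩ 0 0)) (.pos 5 .pm ⟨⟨0, 0, 1840878322, 0, 0, 0, 0, 0, 0, ⟨0, 0⟩, 0⟩, 0, 978⟩ 0 0))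 (.pos 3 .pm ⟨⟨0, 0, 0, 0, 0, 0, 0, 0, 0, ⟨0, 0⟩, 0⟩, 0, 0⟩ 0 0)) (.cut .v 268435456 (.cut .v 67108864 (.cut .d 672505 (.cut .v 33554432 (.cut .d 336252 (.cut .d 168126 (.cut .v 25165824 (.cut .d 84063 (.cut .v 20971520 (.cut .d 42031 (.cut .v 18874368 (.cut .d 21015 (.cut .v 17825792 (.cut .d 10507 (.cut .v 17301504 (.cut .s 15654912 (.pos 33 .pp ⟨⟨3924453226, 0, 0, 0, 0, 0, 0, 0, 0, ⟨0, 0⟩, 0⟩, 0, 954⟩ 0 0) (.cut .s 15716352 (.pos 33 .pp ⟨⟨4557496087, 0, 0, 0, 0, 0, 0, 0, 0, ⟨0, 0⟩, 0⟩, 0, 680⟩ 0 0) (.pos 33 .pp ⟨⟨5032277082, 0, 0, 0, 0, 0, 0, 0, 0, ⟨0, 0⟩, 0⟩, 0, 529⟩ 0 0))) (.pos 34 .pp ⟨⟨5197479912, 0, 0, 0, 0, 0, 0, 0, 0, ⟨0, 0⟩,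 0⟩, 0, 566⟩ 0 0)) (.pos 31 .pp ⟨⟨3284934969, 0, 0, 0, 0, 0, 0, 0, 0, ⟨0, 0⟩, 0⟩, 0, 780⟩ 0 0)) (.pos 32 .pp ⟨⟨5599767583, 0, 0, 0, 0, 0, 0, 0, 0, ⟨0, 0⟩, 0⟩, 0, 590⟩ 0 0)) (.pos 29 .pp ⟨⟨3426194403, 0, 0, 0, 0, 0, 0, 0, 0, ⟨0, 0⟩, 0⟩, 0, 899⟩ 0 0)) (.cut .d 21015 (.pos 30 .pp ⟨⟨15280714612, 0, 0, 0, 0, 0, 0, 0, 0, ⟨0, 0⟩, 0⟩, 0, 0⟩ 0 0) (.cut .v 19922944 (.pos 55 .pp ⟨⟨5166356611, 0, 0, 0, 0, 0, 1425, 0, 0, ⟨0, 0⟩, 0⟩, 0, 0⟩ 0 0) (.pos 56 .pp ⟨⟨6565910313, 0, 0, 0, 0, 0, 1363, 0, 0, ⟨0, 0⟩, 0⟩, 0, 0⟩ 0 0)))) (.pos 27 .pp ⟨⟨0, 0, 0, 0, 0, 0, 2609, 0, 0, ⟨0, 0⟩, 0⟩, 486866969, 0⟩ 0 0)) (.cut .d 42031 (.pos 28 .pp ⟨⟨0, 0, 0, 0, 0, 0, 1175,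 0, 0, ⟨0, 0⟩, 0⟩, 1034556528, 0⟩ 0 0) (.cut .v 23068672 (.pos 59 .pp ⟨⟨0, 0, 0, 0, 0, 0, 1636, 0, 0, ⟨0, 0⟩, 0⟩, 718446811, 0⟩ 0 0) (.pos 60 .pp ⟨⟨0, 0, 0, 0, 0, 0, 1525, 0, 0, ⟨0, 0⟩, 0⟩, 937110365, 0⟩ 0 0)))) (.pos 25 .pp ⟨⟨0, 0, 0, 0, 0, 0, 0, 0, 0, ⟨0, 0⟩, 0⟩, 473475578, 1647⟩ 0 0)) (.cut .d 84063 (.pos 26 .pp ⟨⟨0, 0, 0, 0, 0, 0, 0, 0, 0, ⟨0, 0⟩, 0⟩, 2222940751, 0⟩ 0 0) (.pos 26 .pp ⟨⟨0, 0, 0, 0, 0, 0, 2001, 0, 0, ⟨0, 0⟩, 0⟩, 958113179, 0⟩ 0 0))) (.pos 24 .pp ⟨⟨0, 0, 0, 0, 0, 0, 0, 0, 0, ⟨0, 0⟩, 0⟩, 475227685, 1644⟩ 0 0)) (.pos 24 .pp ⟨⟨0, 0, 0, 0, 0, 0, 0, 0, 0, ⟨0, 0⟩, 0⟩, 0, 3261⟩ 0 0)) (.cut .d 336252 (.cut .v 50331648 (.cut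 .v 41943040 (.pos 98 .pp ⟨⟨0, 0, 0, 0, 0, 0, 0, 0, 0, ⟨0, 0⟩, 0⟩, 1524041624, 0⟩ 0 0) (.pos 99 .pp ⟨⟨0, 0, 0, 0, 0, 0, 0, 0, 0, ⟨0, 0⟩, 0⟩, 2161379877, 0⟩ 0 0)) (.void 97 ⟨⟨0, 0, 0, 0, 0, 0, 0, 0, 0, ⟨0, 0⟩, 0⟩, 100000, 0⟩ 0 0)) (.pos 95 .pp ⟨⟨0, 0, 0, 0, 0, 0, 3272, 0, 0, ⟨0, 0⟩, 0⟩, 964263239, 0⟩ 0 0))) (.pos 94 .pp ⟨⟨0, 0, 0, 0, 0, 0, 0, 0, 0, ⟨0, 0⟩, 0⟩, 0, 2446⟩ 0 0)) (.void 106 ⟨⟨0, 0, 0, 50406, 0, 0, 0, 0, 0, ⟨0, 0⟩, 0⟩, 49594, 0⟩ 0 0)) (.void 115 ⟨⟨0, 0, 0, 0, 0, 0, 0, 0, 0, ⟨0, 0⟩, 0⟩, 100000, 0⟩ 0 0)))),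
    by decide +kernel⟩

def covers38 : cell.Covers Vale.Agent.P237.Petty.Cor.Grid.N13.table row38.1 :=
  ⟨(.cut .d 0 (.cut .v 16777216 (.cut .v 8388608 (.void 2 ⟨⟨0, 0, 100000, 0, 0, 0, 0, 0, 0, ⟨0, 0⟩, 0⟩, 0, 0⟩ 0 0) (.cut .d (-8388608) (.void 3 ⟨⟨100000, 0, 0, 0, 0, 0, 0, 0, 0, ⟨0, 0⟩, 0⟩, 0, 0⟩ 0 0) (.cut .d (-4194304) (.void 3 ⟨⟨100000, 0, 0, 0, 0, 0, 0, 0, 0, ⟨0, 0⟩, 0⟩, 0, 0⟩ 0 0) (.cut .d (-2097152) (.void 3 ⟨⟨100000, 0, 0, 0, 0, 0, 0, 0, 0, ⟨0, 0⟩, 0⟩, 0, 0⟩ 0 0) (.pos 3 .mm ⟨⟨0, 0, 0, 0, 0, 23823741616, 0, 0, 0, ⟨0, 0⟩, 0⟩, 0, 0⟩ 0 0))))) (.cut .v 268435456 (.cut .v 67108864 (.cut .v 33554432 (.cut .d (-8388608) (.void 24 ⟨⟨100000,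 0, 0, 0, 0, 0, 0, 0, 0, ⟨0, 0⟩, 0⟩, 0, 0⟩ 0 0) (.cut .d (-4194304) (.void 24 ⟨⟨100000, 0, 0, 0, 0, 0, 0, 0, 0, ⟨0, 0⟩, 0⟩, 0, 0⟩ 0 0) (.cut .v 25165824 (.cut .d (-2097152) (.void 25 ⟨⟨100000, 0, 0, 0, 0, 0, 0, 0, 0, ⟨0, 0⟩, 0⟩, 0, 0⟩ 0 0) (.cut .v 20971520 (.cut .s 15876096 (.pos 27 .mp ⟨⟨8048192816, 0, 0, 0, 0, 10680085368, 0, 0, 0, ⟨0, 0⟩, 0⟩, 0, 0⟩ 0 0) (.pos 27 .mp ⟨⟨9766364420, 0, 0, 0, 0, 12701898870, 0, 0, 0, ⟨0, 0⟩, 0⟩, 0, 0⟩ 0 0)) (.void 28 ⟨⟨100000, 0, 0, 0, 0, 0, 0, 0, 0, ⟨0, 0⟩, 0⟩, 0, 0⟩ 0 0))) (.void 26 ⟨⟨100000, 0, 0, 0, 0, 0, 0, 0, 0, ⟨0, 0⟩, 0⟩, 0, 0⟩ 0 0)))) (.void 95 ⟨⟨100000, 0, 0, 0, 0, 0, 0, 0, 0, ⟨0, 0⟩, 0⟩, 0,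 0⟩ 0 0)) (.void 106 ⟨⟨99930, 0, 0, 0, 0, 0, 0, 0, 0, ⟨0, 0⟩, 0⟩, 0, 0⟩ 0 0)) (.void 115 ⟨⟨93632, 0, 0, 6368, 0, 0, 0, 0, 0, ⟨0, 0⟩, 0⟩, 0, 0⟩ 0 0))) (.cut .v 16777216 (.cut .v 8388608 (.cut .v 4194304 (.cut .d 531367 (.pos 4 .pm ⟨⟨0, 0, 9699302487, 0, 0, 0, 0, 0, 0, ⟨0, 0⟩, 0⟩, 0, 85⟩ 0 0) (.cut .d 797050 (.pos 4 .pm ⟨⟨0, 0, 1544761675, 0, 0, 0, 0, 0, 0, ⟨0, 0⟩, 0⟩, 0, 46⟩ 0 0) (.pos 4 .pm ⟨⟨0, 0, 88295889, 0, 0, 0, 0, 0, 0, ⟨0, 0⟩, 0⟩, 0, 0⟩ 0 0))) (.pos 5 .pm ⟨⟨0, 0, 3172558313, 0, 0, 0, 0, 0, 0, ⟨0, 0⟩, 0⟩, 0, 340⟩ 0 0)) (.pos 3 .pm ⟨⟨0, 0, 0, 0, 0, 0, 0, 0, 0, ⟨0, 0⟩, 0⟩, 0, 0⟩ 0 0)) (.cut .v 268435456 (.cut .v 67108864 (.cut .d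 531367 (.cut .v 33554432 (.cut .d 265683 (.cut .d 132841 (.cut .v 25165824 (.cut .d 66420 (.cut .v 20971520 (.cut .d 33210 (.cut .v 18874368 (.cut .d 16605 (.cut .v 17825792 (.cut .d 8302 (.cut .v 17301504 (.cut .s 15876096 (.pos 33 .pp ⟨⟨5689216448, 0, 0, 0, 0, 0, 0, 0, 0, ⟨0, 0⟩, 0⟩, 0, 337⟩ 0 0) (.cut .s 15925248 (.pos 33 .pp ⟨⟨6580021801, 0, 0, 0, 0, 0, 0, 0, 0, ⟨0, 0⟩, 0⟩, 0, 240⟩ 0 0) (.pos 33 .pp ⟨⟨7247450129, 0, 0, 0, 0, 0, 0, 0, 0, ⟨0, 0⟩, 0⟩, 0, 185⟩ 0 0))) (.pos 34 .pp ⟨⟨7485898015, 0, 0, 0, 0, 0, 0, 0, 0, ⟨0, 0⟩, 0⟩, 0, 198⟩ 0 0)) (.pos 31 .pp ⟨⟨4789140458, 0, 0, 0, 0, 0, 0, 0, 0, ⟨0, 0⟩, 0⟩, 0, 265⟩ 0 0)) (.pos 32 .pp ⟨⟨8060409159,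 0, 0, 0, 0, 0, 0, 0, 0, ⟨0, 0⟩, 0⟩, 0, 206⟩ 0 0)) (.pos 29 .pp ⟨⟨5001113388, 0, 0, 0, 0, 0, 0, 0, 0, ⟨0, 0⟩, 0⟩, 0, 302⟩ 0 0)) (.cut .d 16605 (.pos 30 .pp ⟨⟨23065767895, 0, 0, 0, 0, 0, 0, 0, 0, ⟨0, 0⟩, 0⟩, 0, 0⟩ 0 0) (.cut .v 19922944 (.pos 55 .pp ⟨⟨7479712246, 0, 0, 0, 0, 0, 493, 0, 0, ⟨0, 0⟩, 0⟩, 0, 0⟩ 0 0) (.pos 56 .pp ⟨⟨9466629590, 0, 0, 0, 0, 0, 476, 0, 0, ⟨0, 0⟩, 0⟩, 0, 0⟩ 0 0)))) (.pos 27 .pp ⟨⟨0, 0, 0, 0, 0, 0, 864, 0, 0, ⟨0, 0⟩, 0⟩, 712659666, 0⟩ 0 0)) (.cut .d 33210 (.pos 28 .pp ⟨⟨0, 0, 0, 0, 0, 0, 416, 0, 0, ⟨0, 0⟩, 0⟩, 1485877526, 0⟩ 0 0) (.cut .v 23068672 (.pos 59 .pp ⟨⟨0, 0, 0, 0, 0, 0, 566, 0, 0, ⟨0, 0⟩, 0⟩, 1043681231,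 0⟩ 0 0) (.pos 60 .pp ⟨⟨0, 0, 0, 0, 0, 0, 535, 0, 0, ⟨0, 0⟩, 0⟩, 1353448353, 0⟩ 0 0)))) (.pos 25 .pp ⟨⟨0, 0, 0, 0, 0, 0, 55, 0, 0, ⟨0, 0⟩, 0⟩, 696156868, 556⟩ 0 0)) (.cut .d 66420 (.pos 26 .pp ⟨⟨0, 0, 0, 0, 0, 0, 0, 0, 0, ⟨0, 0⟩, 0⟩, 3355460572, 0⟩ 0 0) (.cut .v 29360128 (.pos 77 .pp ⟨⟨0, 0, 0, 0, 0, 0, 657, 0, 0, ⟨0, 0⟩, 0⟩, 1246915027, 0⟩ 0 0) (.pos 78 .pp ⟨⟨0, 0, 0, 0, 0, 0, 498, 0, 0, ⟨0, 0⟩, 0⟩, 1756547111, 0⟩ 0 0)))) (.cut .v 25165824 (.pos 25 .pp ⟨⟨0, 0, 0, 0, 0, 0, 0, 0, 0, ⟨0, 0⟩, 0⟩, 0, 1019⟩ 0 0) (.pos 26 .pp ⟨⟨0, 0, 0, 0, 0, 0, 1559, 0, 0, ⟨0, 0⟩, 0⟩, 861888051, 0⟩ 0 0))) (.pos 24 .pp ⟨⟨0, 0, 0, 0, 0, 0, 0, 0, 0, ⟨0, 0⟩, 0⟩,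 0, 1132⟩ 0 0)) (.cut .d 265683 (.cut .v 50331648 (.cut .v 41943040 (.pos 98 .pp ⟨⟨0, 0, 0, 0, 0, 0, 66, 0, 0, ⟨0, 0⟩, 0⟩, 2179777501, 0⟩ 0 0) (.pos 99 .pp ⟨⟨0, 0, 0, 0, 0, 0, 0, 0, 0, ⟨0, 0⟩, 0⟩, 3087110095, 0⟩ 0 0)) (.void 97 ⟨⟨0, 0, 0, 0, 0, 0, 0, 0, 0, ⟨0, 0⟩, 0⟩, 100000, 0⟩ 0 0)) (.pos 95 .pp ⟨⟨0, 0, 0, 0, 0, 0, 1126, 0, 0, ⟨0, 0⟩, 0⟩, 1485486606, 0⟩ 0 0))) (.pos 94 .pp ⟨⟨0, 0, 0, 0, 0, 0, 0, 0, 0, ⟨0, 0⟩, 0⟩, 93196051, 813⟩ 0 0)) (.void 106 ⟨⟨0, 0, 0, 51468, 0, 0, 0, 0, 0, ⟨0, 0⟩, 0⟩, 48532, 0⟩ 0 0)) (.void 115 ⟨⟨0, 0, 0, 0, 0, 0, 0, 0, 0, ⟨0, 0⟩, 0⟩, 100000, 0⟩ 0 0)))),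
    by decide +kernel⟩

def covers39 : cell.Covers Vale.Agent.P237.Petty.Cor.Grid.N13.table row39.1 :=
  ⟨(.cut .d 0 (.cut .v 16777216 (.cut .v 8388608 (.pos 2 .mm ⟨⟨0, 0, 1677721600000000, 0, 0, 0, 0, 0, 0, ⟨0, 0⟩, 0⟩, 0, 0⟩ 0 0) (.cut .d (-8388608) (.void 3 ⟨⟨0, 0, 0, 578, 0, 42828, 0, 54686, 0, ⟨(-1), 11134499⟩, 0⟩, 0, 0⟩ 0 124) (.cut .d (-4194304) (.void 3 ⟨⟨100000, 0, 0, 0, 0, 0, 0, 0, 0, ⟨0, 0⟩, 0⟩, 0, 0⟩ 0 0) (.cut .d (-2097152) (.void 3 ⟨⟨100000, 0, 0, 0, 0, 0, 0, 0, 0, ⟨0, 0⟩, 0⟩, 0, 0⟩ 0 0) (.pos 3 .mm ⟨⟨0, 0, 0, 0, 0, 34339103905, 0, 0, 0, ⟨0, 0⟩, 0⟩, 0, 0⟩ 0 0))))) (.cut .v 268435456 (.cut .v 67108864 (.cut .v 33554432 (.cut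 .d (-8388608) (.void 24 ⟨⟨100000, 0, 0, 0, 0, 0, 0, 0, 0, ⟨0, 0⟩, 0⟩, 0, 0⟩ 0 0) (.cut .d (-4194304) (.void 24 ⟨⟨100000, 0, 0, 0, 0, 0, 0, 0, 0, ⟨0, 0⟩, 0⟩, 0, 0⟩ 0 0) (.cut .v 25165824 (.cut .d (-2097152) (.void 25 ⟨⟨100000, 0, 0, 0, 0, 0, 0, 0, 0, ⟨0, 0⟩, 0⟩, 0, 0⟩ 0 0) (.cut .v 20971520 (.cut .s 16056320 (.pos 27 .mp ⟨⟨11737294145, 0, 0, 0, 0, 14759237042, 0, 0, 0, ⟨0, 0⟩, 0⟩, 0, 0⟩ 0 0) (.pos 27 .mp ⟨⟨14320983205, 0, 0, 0, 0, 17477918004, 0, 0, 0, ⟨0, 0⟩, 0⟩, 0, 0⟩ 0 0)) (.void 28 ⟨⟨100000, 0, 0, 0, 0, 0, 0, 0, 0, ⟨0, 0⟩, 0⟩, 0, 0⟩ 0 0))) (.void 26 ⟨⟨100000, 0, 0, 0, 0, 0, 0, 0, 0, ⟨0, 0⟩, 0⟩, 0, 0⟩ 0 0)))) (.void 95 ⟨⟨100000, 0,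 0, 0, 0, 0, 0, 0, 0, ⟨0, 0⟩, 0⟩, 0, 0⟩ 0 0)) (.void 106 ⟨⟨100000, 0, 0, 0, 0, 0, 0, 0, 0, ⟨0, 0⟩, 0⟩, 0, 0⟩ 0 0)) (.void 115 ⟨⟨49978, 0, 0, 4944, 0, 34789, 0, 0, 0, ⟨0, 0⟩, 0⟩, 0, 0⟩ 0 0))) (.cut .v 16777216 (.cut .v 8388608 (.cut .d 421582 (.pos 2 .pm ⟨⟨0, 0, 5429592563, 0, 0, 0, 0, 0, 0, ⟨0, 0⟩, 0⟩, 0, 47⟩ 0 0) (.cut .d 632373 (.pos 2 .pm ⟨⟨0, 0, 1754026096, 0, 0, 0, 0, 0, 0, ⟨0, 0⟩, 0⟩, 0, 33⟩ 0 0) (.pos 2 .pm ⟨⟨0, 0, 21659798, 0, 83, 0, 0, 0, 0, ⟨0, 0⟩, 0⟩, 0, 0⟩ 0 0))) (.pos 3 .pm ⟨⟨0, 0, 0, 0, 0, 0, 0, 0, 0, ⟨0, 0⟩, 0⟩, 0, 0⟩ 0 0)) (.cut .v 268435456 (.cut .v 67108864 (.cut .d 421582 (.cut .v 33554432 (.cut .d 210791 (.cut .d 105395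 (.cut .v 25165824 (.cut .d 52697 (.cut .v 20971520 (.cut .d 26348 (.cut .v 18874368 (.cut .d 13174 (.cut .v 17825792 (.cut .d 6587 (.cut .v 17301504 (.cut .s 16056320 (.pos 33 .pp ⟨⟨8204754384, 0, 0, 0, 0, 0, 0, 0, 0, ⟨0, 0⟩, 0⟩, 0, 114⟩ 0 0) (.cut .s 16097280 (.pos 33 .pp ⟨⟨9502209055, 0, 0, 0, 0, 0, 0, 0, 0, ⟨0, 0⟩, 0⟩, 0, 80⟩ 0 0) (.pos 33 .pp ⟨⟨10493534399, 0, 0, 0, 0, 0, 0, 0, 0, ⟨0, 0⟩, 0⟩, 0, 60⟩ 0 0))) (.pos 34 .pp ⟨⟨10833190187, 0, 0, 0, 0, 0, 0, 0, 0, ⟨0, 0⟩, 0⟩, 0, 65⟩ 0 0)) (.pos 31 .pp ⟨⟨6926765615, 0, 0, 0, 0, 0, 0, 0, 0, ⟨0, 0⟩, 0⟩, 0, 85⟩ 0 0)) (.pos 32 .pp ⟨⟨11658489797, 0, 0, 0, 0, 0, 0, 0, 0, ⟨0, 0⟩, 0⟩, 0, 67⟩ 0 0))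 (.pos 29 .pp ⟨⟨7240060431, 0, 0, 0, 0, 0, 0, 0, 0, ⟨0, 0⟩, 0⟩, 0, 97⟩ 0 0)) (.cut .d 13174 (.pos 30 .pp ⟨⟨15002256678, 0, 0, 0, 0, 0, 0, 0, 0, ⟨0, 0⟩, 0⟩, 0, 57⟩ 0 0) (.cut .v 19922944 (.pos 55 .pp ⟨⟨10772901471, 0, 0, 0, 0, 0, 160, 0, 0, ⟨0, 0⟩, 0⟩, 0, 0⟩ 0 0) (.pos 56 .pp ⟨⟨13662776783, 0, 0, 0, 0, 0, 155, 0, 0, ⟨0, 0⟩, 0⟩, 0, 0⟩ 0 0)))) (.pos 27 .pp ⟨⟨0, 0, 0, 0, 0, 0, 277, 0, 0, ⟨0, 0⟩, 0⟩, 1033865821, 0⟩ 0 0)) (.cut .d 26348 (.pos 28 .pp ⟨⟨0, 0, 0, 0, 0, 0, 137, 0, 0, ⟨0, 0⟩, 0⟩, 2153607185, 0⟩ 0 0) (.cut .v 23068672 (.pos 59 .pp ⟨⟨0, 0, 0, 0, 0, 0, 183, 0, 0, ⟨0, 0⟩, 0⟩, 1506137649, 0⟩ 0 0) (.pos 60 .pp ⟨⟨0, 0, 0, 0, 0, 0, 175,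 0, 0, ⟨0, 0⟩, 0⟩, 1956539629, 0⟩ 0 0)))) (.pos 25 .pp ⟨⟨0, 0, 0, 0, 0, 0, 163, 0, 0, ⟨0, 0⟩, 0⟩, 1012525199, 118⟩ 0 0)) (.cut .d 52697 (.pos 26 .pp ⟨⟨0, 0, 0, 0, 0, 0, 0, 0, 0, ⟨0, 0⟩, 0⟩, 5087986327, 0⟩ 0 0) (.cut .v 29360128 (.pos 77 .pp ⟨⟨0, 0, 0, 0, 0, 0, 214, 0, 0, ⟨0, 0⟩, 0⟩, 1804556385, 0⟩ 0 0) (.pos 78 .pp ⟨⟨0, 0, 0, 0, 0, 0, 167, 0, 0, ⟨0, 0⟩, 0⟩, 2519746283, 0⟩ 0 0)))) (.cut .v 25165824 (.pos 25 .pp ⟨⟨0, 0, 0, 0, 0, 0, 0, 0, 0, ⟨0, 0⟩, 0⟩, 0, 343⟩ 0 0) (.pos 26 .pp ⟨⟨0, 0, 0, 0, 0, 0, 531, 0, 0, ⟨0, 0⟩, 0⟩, 1276913825, 0⟩ 0 0))) (.pos 24 .pp ⟨⟨0, 0, 0, 0, 0, 0, 0, 0, 0, ⟨0, 0⟩, 0⟩, 0, 381⟩ 0 0)) (.cut .v 50331648 (.cut .d 210791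 (.cut .v 41943040 (.pos 98 .pp ⟨⟨0, 0, 0, 0, 0, 0, 74, 0, 0, ⟨0, 0⟩, 0⟩, 3136774562, 0⟩ 0 0) (.pos 99 .pp ⟨⟨0, 0, 0, 0, 0, 0, 0, 0, 0, ⟨0, 0⟩, 0⟩, 4519142112, 0⟩ 0 0)) (.pos 96 .pp ⟨⟨0, 0, 0, 0, 0, 0, 634, 0, 0, ⟨0, 0⟩, 0⟩, 1496439295, 0⟩ 0 0)) (.pos 97 .pp ⟨⟨0, 0, 0, 0, 0, 0, 0, 0, 0, ⟨0, 0⟩, 0⟩, 4886380783, 0⟩ 0 0))) (.pos 94 .pp ⟨⟨0, 0, 0, 0, 0, 0, 0, 0, 0, ⟨0, 0⟩, 0⟩, 264440029, 263⟩ 0 0)) (.void 106 ⟨⟨0, 0, 0, 49696, 0, 0, 0, 0, 0, ⟨0, 0⟩, 0⟩, 48382, 0⟩ 0 0)) (.void 115 ⟨⟨0, 0, 0, 0, 0, 0, 0, 0, 0, ⟨0, 0⟩, 0⟩, 100000, 0⟩ 0 0)))),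
    by decide +kernel⟩

def covers40 : cell.Covers Vale.Agent.P237.Petty.Cor.Grid.N13.table row40.1 :=
  ⟨(.cut .d 0 (.cut .v 16777216 (.cut .v 8388608 (.pos 2 .mm ⟨⟨0, 0, 1677721600000000, 0, 0, 0, 0, 0, 0, ⟨0, 0⟩, 0⟩, 0, 0⟩ 0 0) (.cut .d (-8388608) (.void 3 ⟨⟨99975, 0, 0, 0, 0, 0, 0, 0, 0, ⟨0, 0⟩, 0⟩, 0, 0⟩ 0 0) (.cut .d (-4194304) (.void 3 ⟨⟨100000, 0, 0, 0, 0, 0, 0, 0, 0, ⟨0, 0⟩, 0⟩, 0, 0⟩ 0 0) (.pos 3 .mm ⟨⟨0, 0, 0, 0, 0, 64498536217, 0, 0, 0, ⟨0, 0⟩, 0⟩, 0, 0⟩ 0 0)))) (.cut .v 268435456 (.cut .v 67108864 (.cut .v 33554432 (.cut .d (-8388608) (.void 24 ⟨⟨100091, 0, 0, 0, 0, 0, 0, 0, 0, ⟨0, 0⟩, 0⟩, 0, 0⟩ 0 0) (.cut .d (-4194304)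 (.void 24 ⟨⟨100000, 0, 0, 0, 0, 0, 0, 0, 0, ⟨0, 0⟩, 0⟩, 0, 0⟩ 0 0) (.cut .v 25165824 (.cut .d (-2097152) (.void 25 ⟨⟨100000, 0, 0, 0, 0, 0, 0, 0, 0, ⟨0, 0⟩, 0⟩, 0, 0⟩ 0 0) (.cut .v 20971520 (.cut .s 16203776 (.pos 27 .mp ⟨⟨17203895056, 0, 0, 0, 0, 20082129018, 0, 0, 0, ⟨0, 0⟩, 0⟩, 0, 0⟩ 0 0) (.pos 27 .mp ⟨⟨20964831426, 0, 0, 0, 0, 23577950492, 0, 0, 0, ⟨0, 0⟩, 0⟩, 0, 0⟩ 0 0)) (.void 28 ⟨⟨100000, 0, 0, 0, 0, 0, 0, 0, 0, ⟨0, 0⟩, 0⟩, 0, 0⟩ 0 0))) (.void 26 ⟨⟨100000, 0, 0, 0, 0, 0, 0, 0, 0, ⟨0, 0⟩, 0⟩, 0, 0⟩ 0 0)))) (.void 95 ⟨⟨100000, 0, 0, 0, 0, 0, 0, 0, 0, ⟨0, 0⟩, 0⟩, 0, 0⟩ 0 0)) (.pos 106 .mp ⟨⟨1677721600000000, 0, 0, 0, 0, 0, 0, 0,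 0, ⟨0, 0⟩, 0⟩, 0, 0⟩ 0 0)) (.void 115 ⟨⟨0, 0, 0, 6780, 0, 91515, 0, 0, 0, ⟨0, 0⟩, 0⟩, 0, 0⟩ 0 0))) (.cut .v 16777216 (.cut .v 8388608 (.cut .d 332139 (.pos 2 .pm ⟨⟨0, 0, 8318409433, 0, 0, 0, 0, 0, 0, ⟨0, 0⟩, 0⟩, 0, 15⟩ 0 0) (.cut .d 498208 (.pos 2 .pm ⟨⟨0, 0, 4767274636, 0, 0, 0, 0, 0, 0, ⟨0, 0⟩, 0⟩, 0, 0⟩ 0 0) (.pos 2 .pm ⟨⟨0, 0, 21406163, 0, 45, 0, 0, 0, 0, ⟨0, 0⟩, 0⟩, 0, 0⟩ 0 0))) (.pos 3 .pm ⟨⟨0, 0, 0, 0, 0, 0, 0, 0, 0, ⟨0, 0⟩, 0⟩, 0, 0⟩ 0 0)) (.cut .v 268435456 (.cut .v 67108864 (.cut .d 332139 (.cut .v 33554432 (.cut .d 166069 (.cut .d 83034 (.cut .v 25165824 (.cut .d 41517 (.cut .v 20971520 (.cut .d 20758 (.cut .v 18874368 (.cut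 .d 10379 (.cut .v 17825792 (.cut .d 5189 (.cut .v 17301504 (.cut .s 16203776 (.pos 33 .pp ⟨⟨11907786285, 0, 0, 0, 0, 0, 0, 0, 0, ⟨0, 0⟩, 0⟩, 0, 36⟩ 0 0) (.cut .s 16236544 (.pos 33 .pp ⟨⟨13766729571, 0, 0, 0, 0, 0, 51, 0, 0, ⟨0, 0⟩, 0⟩, 0, 0⟩ 0 0) (.pos 33 .pp ⟨⟨15193346812, 0, 0, 0, 0, 0, 38, 0, 0, ⟨0, 0⟩, 0⟩, 0, 0⟩ 0 0))) (.pos 34 .pp ⟨⟨15686124739, 0, 0, 0, 0, 0, 0, 0, 0, ⟨0, 0⟩, 0⟩, 0, 20⟩ 0 0)) (.pos 31 .pp ⟨⟨10099002077, 0, 0, 0, 0, 0, 0, 0, 0, ⟨0, 0⟩, 0⟩, 0, 26⟩ 0 0)) (.cut .s 16203776 (.pos 32 .pp ⟨⟨14559476653, 0, 0, 0, 0, 0, 0, 0, 0, ⟨0, 0⟩, 0⟩, 0, 37⟩ 0 0) (.pos 32 .pp ⟨⟨17419169201, 0, 0, 0, 0, 0, 0, 0, 0, ⟨0, 0⟩, 0⟩, 0, 21⟩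 0 0))) (.pos 29 .pp ⟨⟨10564034839, 0, 0, 0, 0, 0, 0, 0, 0, ⟨0, 0⟩, 0⟩, 0, 30⟩ 0 0)) (.cut .d 10379 (.pos 30 .pp ⟨⟨21711735704, 0, 0, 0, 0, 0, 0, 0, 0, ⟨0, 0⟩, 0⟩, 0, 18⟩ 0 0) (.cut .v 19922944 (.pos 55 .pp ⟨⟨15623070194, 0, 0, 0, 0, 0, 50, 0, 0, ⟨0, 0⟩, 0⟩, 0, 0⟩ 0 0) (.pos 56 .pp ⟨⟨19784784295, 0, 0, 0, 0, 0, 49, 0, 0, ⟨0, 0⟩, 0⟩, 0, 0⟩ 0 0)))) (.pos 27 .pp ⟨⟨0, 0, 0, 0, 0, 0, 85, 0, 0, ⟨0, 0⟩, 0⟩, 1511257309, 0⟩ 0 0)) (.cut .d 20758 (.pos 28 .pp ⟨⟨0, 0, 0, 0, 0, 0, 44, 0, 0, ⟨0, 0⟩, 0⟩, 3115978122, 0⟩ 0 0) (.cut .v 23068672 (.pos 59 .pp ⟨⟨0, 0, 0, 0, 0, 0, 58, 0, 0, ⟨0, 0⟩, 0⟩, 2188679664, 0⟩ 0 0) (.pos 60 .pp ⟨⟨0, 0, 0, 0, 0, 0, 55,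 0, 0, ⟨0, 0⟩, 0⟩, 2836545018, 0⟩ 0 0)))) (.pos 25 .pp ⟨⟨0, 0, 0, 0, 0, 0, 88, 0, 0, ⟨0, 0⟩, 0⟩, 1484039008, 20⟩ 0 0)) (.cut .d 41517 (.pos 26 .pp ⟨⟨0, 0, 0, 0, 0, 0, 0, 0, 0, ⟨0, 0⟩, 0⟩, 7651087226, 0⟩ 0 0) (.cut .v 29360128 (.pos 77 .pp ⟨⟨0, 0, 0, 0, 0, 0, 67, 0, 0, ⟨0, 0⟩, 0⟩, 2626889506, 0⟩ 0 0) (.pos 78 .pp ⟨⟨0, 0, 0, 0, 0, 0, 54, 0, 0, ⟨0, 0⟩, 0⟩, 3636165252, 0⟩ 0 0)))) (.cut .v 25165824 (.pos 25 .pp ⟨⟨0, 0, 0, 0, 0, 0, 0, 0, 0, ⟨0, 0⟩, 0⟩, 0, 109⟩ 0 0) (.pos 26 .pp ⟨⟨0, 0, 0, 0, 0, 0, 171, 0, 0, ⟨0, 0⟩, 0⟩, 1895704770, 0⟩ 0 0))) (.pos 24 .pp ⟨⟨0, 0, 0, 0, 0, 0, 0, 0, 0, ⟨0, 0⟩, 0⟩, 0, 121⟩ 0 0)) (.cut .v 50331648 (.cut .d 166069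 (.cut .v 41943040 (.pos 98 .pp ⟨⟨0, 0, 0, 0, 0, 0, 40, 0, 0, ⟨0, 0⟩, 0⟩, 4520973747, 0⟩ 0 0) (.pos 99 .pp ⟨⟨0, 0, 0, 0, 0, 0, 0, 0, 0, ⟨0, 0⟩, 0⟩, 6544547356, 0⟩ 0 0)) (.pos 96 .pp ⟨⟨0, 0, 0, 0, 0, 0, 200, 0, 0, ⟨0, 0⟩, 0⟩, 2276763419, 0⟩ 0 0)) (.pos 97 .pp ⟨⟨0, 0, 0, 0, 0, 0, 0, 0, 0, ⟨0, 0⟩, 0⟩, 7031049400, 0⟩ 0 0))) (.pos 94 .pp ⟨⟨0, 0, 0, 0, 0, 0, 0, 0, 0, ⟨0, 0⟩, 0⟩, 536229716, 81⟩ 0 0)) (.void 106 ⟨⟨0, 0, 0, 51152, 0, 0, 0, 0, 0, ⟨0, 0⟩, 0⟩, 48848, 0⟩ 0 0)) (.void 115 ⟨⟨0, 0, 0, 0, 0, 0, 0, 0, 0, ⟨0, 0⟩, 0⟩, 100000, 0⟩ 0 0)))),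
    by decide +kernel⟩

def covers41 : cell.Covers Vale.Agent.P237.Petty.Cor.Grid.N13.table row41.1 :=
  ⟨(.cut .d 0 (.cut .v 16777216 (.cut .v 8388608 (.pos 2 .mm ⟨⟨0, 0, 1677721600000000, 0, 0, 0, 0, 0, 0, ⟨0, 0⟩, 0⟩, 0, 0⟩ 0 0) (.cut .d (-8388608) (.void 3 ⟨⟨0, 0, 0, 1909, 0, 54554, 0, 43005, 0, ⟨(-1), 11072006⟩, 0⟩, 0, 0⟩ 0 125) (.cut .d (-4194304) (.void 3 ⟨⟨100000, 0, 0, 0, 0, 0, 0, 0, 0, ⟨0, 0⟩, 0⟩, 0, 0⟩ 0 0) (.pos 3 .mm ⟨⟨0, 0, 0, 0, 0, 88360983252, 0, 0, 0, ⟨0, 0⟩, 0⟩, 0, 0⟩ 0 0)))) (.cut .v 4294967296 (.cut .v 268435456 (.cut .v 67108864 (.cut .v 33554432 (.cut .d (-8388608) (.void 24 ⟨⟨99953, 0, 0, 0, 0, 0, 0, 0, 0, ⟨0, 0⟩,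 0⟩, 0, 0⟩ 0 0) (.cut .d (-4194304) (.void 24 ⟨⟨100000, 0, 0, 0, 0, 0, 0, 0, 0, ⟨0, 0⟩, 0⟩, 0, 0⟩ 0 0) (.cut .v 25165824 (.cut .d (-2097152) (.void 25 ⟨⟨100000, 0, 0, 0, 0, 0, 0, 0, 0, ⟨0, 0⟩, 0⟩, 0, 0⟩ 0 0) (.cut .v 20971520 (.pos 27 .mp ⟨⟨29170708669, 0, 0, 0, 0, 31994266032, 0, 0, 0, ⟨0, 0⟩, 0⟩, 0, 0⟩ 0 0) (.void 28 ⟨⟨100000, 0, 0, 0, 0, 0, 0, 0, 0, ⟨0, 0⟩, 0⟩, 0, 0⟩ 0 0))) (.void 26 ⟨⟨100000, 0, 0, 0, 0, 0, 0, 0, 0, ⟨0, 0⟩, 0⟩, 0, 0⟩ 0 0)))) (.void 95 ⟨⟨100000, 0, 0, 0, 0, 0, 0, 0, 0, ⟨0, 0⟩, 0⟩, 0, 0⟩ 0 0)) (.void 106 ⟨⟨100000, 0, 0, 0, 0, 0, 0, 0, 0, ⟨0, 0⟩, 0⟩, 0, 0⟩ 0 0)) (.pos 115 .mp ⟨⟨1568674430347066, 0, 0, 109047169652934,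 0, 0, 0, 0, 0, ⟨0, 0⟩, 0⟩, 0, 0⟩ 0 0)) (.void 122 ⟨⟨93485, 0, 0, 6515, 0, 0, 0, 0, 0, ⟨0, 0⟩, 0⟩, 0, 0⟩ 0 0))) (.cut .v 16777216 (.cut .v 8388608 (.cut .d 261881 (.pos 2 .pm ⟨⟨0, 0, 12377364348, 0, 0, 0, 0, 0, 0, ⟨0, 0⟩, 0⟩, 0, 5⟩ 0 0) (.cut .d 392822 (.pos 2 .pm ⟨⟨0, 0, 8301483632, 0, 0, 0, 0, 0, 0, ⟨0, 0⟩, 0⟩, 0, 0⟩ 0 0) (.pos 2 .pm ⟨⟨0, 0, 21196057, 0, 16, 0, 0, 0, 0, ⟨0, 0⟩, 0⟩, 0, 0⟩ 0 0))) (.pos 3 .pm ⟨⟨0, 0, 0, 0, 0, 0, 0, 0, 0, ⟨0, 0⟩, 0⟩, 0, 0⟩ 0 0)) (.cut .v 4294967296 (.cut .v 268435456 (.cut .v 67108864 (.cut .d 261881 (.cut .v 33554432 (.cut .d 130940 (.cut .d 65470 (.cut .v 25165824 (.cut .d 32735 (.cut .v 20971520 (.cut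 .d 16367 (.cut .v 18874368 (.cut .d 8183 (.cut .v 17825792 (.cut .d 4091 (.cut .v 17301504 (.cut .d 2045 (.cut .v 17039360 (.cut .s 16318464 (.cut .s 16293888 (.pos 35 .pp ⟨⟨16572713973, 0, 0, 0, 0, 0, 30, 0, 0, ⟨0, 0⟩, 0⟩, 0, 0⟩ 0 0) (.pos 35 .pp ⟨⟨17974707225, 0, 0, 0, 0, 0, 23, 0, 0, ⟨0, 0⟩, 0⟩, 0, 0⟩ 0 0)) (.pos 35 .pp ⟨⟨20112683857, 0, 0, 0, 0, 0, 13, 0, 0, ⟨0, 0⟩, 0⟩, 0, 0⟩ 0 0)) (.pos 36 .pp ⟨⟨21655494103, 0, 0, 0, 0, 0, 13, 0, 0, ⟨0, 0⟩, 0⟩, 0, 0⟩ 0 0)) (.pos 33 .pp ⟨⟨14317327799, 0, 0, 0, 0, 0, 16, 0, 0, ⟨0, 0⟩, 0⟩, 0, 0⟩ 0 0)) (.pos 34 .pp ⟨⟨22256830460, 0, 0, 0, 0, 0, 14, 0, 0, ⟨0, 0⟩, 0⟩, 0, 0⟩ 0 0)) (.pos 31 .pp ⟨⟨14650685476,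 0, 0, 0, 0, 0, 18, 0, 0, ⟨0, 0⟩, 0⟩, 0, 0⟩ 0 0)) (.pos 32 .pp ⟨⟨23938859231, 0, 0, 0, 0, 0, 15, 0, 0, ⟨0, 0⟩, 0⟩, 0, 0⟩ 0 0)) (.pos 29 .pp ⟨⟨15336855306, 0, 0, 0, 0, 0, 20, 0, 0, ⟨0, 0⟩, 0⟩, 0, 0⟩ 0 0)) (.cut .d 8183 (.pos 30 .pp ⟨⟨76461873729, 0, 0, 0, 0, 0, 0, 0, 0, ⟨0, 0⟩, 0⟩, 0, 0⟩ 0 0) (.cut .v 19922944 (.pos 55 .pp ⟨⟨22487334288, 0, 0, 0, 0, 0, 17, 0, 0, ⟨0, 0⟩, 0⟩, 0, 0⟩ 0 0) (.pos 56 .pp ⟨⟨28218799095, 0, 0, 0, 0, 0, 16, 0, 0, ⟨0, 0⟩, 0⟩, 0, 0⟩ 0 0)))) (.pos 27 .pp ⟨⟨0, 0, 0, 0, 0, 0, 27, 0, 0, ⟨0, 0⟩, 0⟩, 2197581559, 0⟩ 0 0)) (.cut .d 16367 (.pos 28 .pp ⟨⟨0, 0, 0, 0, 0, 0, 15, 0, 0, ⟨0, 0⟩, 0⟩, 4394785415, 0⟩ 0 0) (.cut .v 23068672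 (.cut .v 22020096 (.pos 63 .pp ⟨⟨0, 0, 0, 0, 0, 0, 19, 0, 0, ⟨0, 0⟩, 0⟩, 2985903691, 0⟩ 0 0) (.pos 64 .pp ⟨⟨0, 0, 0, 0, 0, 0, 18, 0, 0, ⟨0, 0⟩, 0⟩, 3496393685, 0⟩ 0 0)) (.pos 60 .pp ⟨⟨0, 0, 0, 0, 0, 0, 18, 0, 0, ⟨0, 0⟩, 0⟩, 4047567143, 0⟩ 0 0)))) (.pos 25 .pp ⟨⟨0, 0, 0, 0, 0, 0, 35, 0, 0, ⟨0, 0⟩, 0⟩, 2165561535, 3⟩ 0 0)) (.cut .d 32735 (.pos 26 .pp ⟨⟨0, 0, 0, 0, 0, 0, 0, 0, 0, ⟨0, 0⟩, 0⟩, 11123184962, 0⟩ 0 0) (.cut .v 29360128 (.pos 77 .pp ⟨⟨0, 0, 0, 0, 0, 0, 22, 0, 0, ⟨0, 0⟩, 0⟩, 3790022378, 0⟩ 0 0) (.pos 78 .pp ⟨⟨0, 0, 0, 0, 0, 0, 18, 0, 0, ⟨0, 0⟩, 0⟩, 5190694968, 0⟩ 0 0)))) (.cut .v 25165824 (.pos 25 .pp ⟨⟨0, 0, 0, 0, 0, 0, 0, 0,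 0, ⟨0, 0⟩, 0⟩, 0, 34⟩ 0 0) (.pos 26 .pp ⟨⟨0, 0, 0, 0, 0, 0, 54, 0, 0, ⟨0, 0⟩, 0⟩, 2782084129, 0⟩ 0 0))) (.pos 24 .pp ⟨⟨0, 0, 0, 0, 0, 0, 0, 0, 0, ⟨0, 0⟩, 0⟩, 0, 38⟩ 0 0)) (.cut .v 50331648 (.cut .d 130940 (.cut .v 41943040 (.pos 98 .pp ⟨⟨0, 0, 0, 0, 0, 0, 19, 0, 0, ⟨0, 0⟩, 0⟩, 6388774228, 0⟩ 0 0) (.pos 99 .pp ⟨⟨0, 0, 0, 0, 0, 0, 1, 0, 0, ⟨0, 0⟩, 0⟩, 9037912769, 0⟩ 0 0)) (.pos 96 .pp ⟨⟨0, 0, 0, 0, 0, 0, 63, 0, 0, ⟨0, 0⟩, 0⟩, 3404209176, 0⟩ 0 0)) (.pos 97 .pp ⟨⟨0, 0, 0, 0, 0, 0, 0, 0, 0, ⟨0, 0⟩, 0⟩, 9931750434, 0⟩ 0 0))) (.pos 94 .pp ⟨⟨0, 0, 0, 0, 0, 0, 0, 0, 0, ⟨0, 0⟩, 0⟩, 941723838, 25⟩ 0 0)) (.void 106 ⟨⟨0, 0, 0, 51191, 0, 0, 0, 0,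 0, ⟨0, 0⟩, 0⟩, 48809, 0⟩ 0 0)) (.void 115 ⟨⟨0, 0, 0, 0, 0, 0, 0, 0, 0, ⟨0, 0⟩, 0⟩, 100000, 0⟩ 0 0)) (.void 122 ⟨⟨0, 0, 0, 0, 0, 0, 0, 0, 0, ⟨0, 0⟩, 0⟩, 100000, 0⟩ 0 0)))),
    by decide +kernel⟩

def covers42 : cell.Covers Vale.Agent.P237.Petty.Cor.Grid.N13.table row42.1 :=
  ⟨(.cut .d 0 (.cut .v 16777216 (.cut .v 8388608 (.pos 2 .mm ⟨⟨0, 0, 1677721600000000, 0, 0, 0, 0, 0, 0, ⟨0, 0⟩, 0⟩, 0, 0⟩ 0 0) (.cut .d (-8388608) (.void 3 ⟨⟨0, 0, 28591, 4847, 0, 49578, 0, 16332, 0, ⟨(-1), 11009724⟩, 0⟩, 0, 0⟩ 0 126) (.cut .d (-4194304) (.void 3 ⟨⟨100000, 0, 0, 0, 0, 0, 0, 0, 0, ⟨0, 0⟩, 0⟩, 0, 0⟩ 0 0) (.pos 3 .mm ⟨⟨0, 0, 0, 0, 0, 121710601798, 0,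 0, 0, ⟨0, 0⟩, 0⟩, 0, 0⟩ 0 0)))) (.cut .v 4294967296 (.cut .v 268435456 (.cut .v 67108864 (.cut .v 33554432 (.cut .d (-8388608) (.void 24 ⟨⟨99906, 0, 0, 0, 0, 0, 0, 0, 0, ⟨0, 0⟩, 0⟩, 0, 0⟩ 0 0) (.cut .d (-4194304) (.void 24 ⟨⟨100000, 0, 0, 0, 0, 0, 0, 0, 0, ⟨0, 0⟩, 0⟩, 0, 0⟩ 0 0) (.cut .v 25165824 (.cut .d (-2097152) (.void 25 ⟨⟨100000, 0, 0, 0, 0, 0, 0, 0, 0, ⟨0, 0⟩, 0⟩, 0, 0⟩ 0 0) (.cut .v 20971520 (.pos 27 .mp ⟨⟨41894073666, 0, 0, 0, 0, 41958366849, 0, 0, 0, ⟨0, 0⟩, 0⟩, 0, 0⟩ 0 0) (.void 28 ⟨⟨100000, 0, 0, 0, 0, 0, 0, 0, 0, ⟨0, 0⟩, 0⟩, 0, 0⟩ 0 0))) (.void 26 ⟨⟨100000, 0, 0, 0, 0, 0, 0, 0, 0, ⟨0, 0⟩, 0⟩, 0, 0⟩ 0 0)))) (.void 95 ⟨⟨100000,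 0, 0, 0, 0, 0, 0, 0, 0, ⟨0, 0⟩, 0⟩, 0, 0⟩ 0 0)) (.void 106 ⟨⟨100000, 0, 0, 0, 0, 0, 0, 0, 0, ⟨0, 0⟩, 0⟩, 0, 0⟩ 0 0)) (.void 115 ⟨⟨93452, 0, 0, 6545, 0, 0, 0, 0, 0, ⟨0, 0⟩, 0⟩, 0, 0⟩ 0 0)) (.void 122 ⟨⟨88276, 0, 6110, 5812, 0, 0, 0, 0, 0, ⟨0, 0⟩, 0⟩, 0, 0⟩ 0 0))) (.cut .v 16777216 (.cut .v 8388608 (.cut .d 209926 (.pos 2 .pm ⟨⟨0, 0, 18070669389, 0, 0, 0, 0, 0, 0, ⟨0, 0⟩, 0⟩, 0, 2⟩ 0 0) (.cut .d 314889 (.pos 2 .pm ⟨⟨0, 0, 14023637180, 0, 0, 0, 0, 0, 0, ⟨0, 0⟩, 0⟩, 0, 0⟩ 0 0) (.pos 2 .pm ⟨⟨0, 0, 21049876, 0, 5, 0, 0, 0, 0, ⟨0, 0⟩, 0⟩, 0, 0⟩ 0 0))) (.pos 3 .pm ⟨⟨0, 0, 0, 0, 0, 0, 0, 0, 0, ⟨0, 0⟩, 0⟩, 0, 0⟩ 0 0)) (.cut .v 4294967296 (.cut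 .v 268435456 (.cut .v 67108864 (.cut .d 209926 (.cut .v 33554432 (.cut .d 104963 (.cut .d 52481 (.cut .v 25165824 (.cut .d 26240 (.cut .v 20971520 (.cut .d 13120 (.cut .v 18874368 (.cut .d 6560 (.cut .v 17825792 (.cut .d 3280 (.cut .v 17301504 (.cut .l 141961 (.cut .d 1640 (.cut .v 17039360 (.cut .s 16408576 (.cut .s 16388096 (.pos 35 .pp ⟨⟨23375622826, 0, 0, 0, 0, 0, 0, 0, 0, ⟨0, 0⟩, 0⟩, 0, 5⟩ 0 0) (.cut .s 16398336 (.pos 35 .pp ⟨⟨25097146446, 0, 0, 0, 0, 0, 0, 0, 0, ⟨0, 0⟩, 0⟩, 0, 4⟩ 0 0) (.cut .l 70980 (.pos 35 .pp ⟨⟨26226339389, 0, 0, 0, 0, 0, 0, 0, 0, ⟨0, 0⟩, 0⟩, 0, 3⟩ 0 0) (.pos 35 .pp ⟨⟨2677907085, 0, 0, 0, 0, 0, 0, 0, 0, ⟨0,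 0⟩, 0⟩, 3291258102, 0⟩ 0 0)))) (.pos 35 .pp ⟨⟨28590912436, 0, 0, 0, 0, 0, 0, 0, 0, ⟨0, 0⟩, 0⟩, 0, 2⟩ 0 0)) (.pos 36 .pp ⟨⟨30660676745, 0, 0, 0, 0, 0, 0, 0, 0, ⟨0, 0⟩, 0⟩, 0, 2⟩ 0 0)) (.pos 33 .pp ⟨⟨20274515132, 0, 0, 0, 0, 0, 0, 0, 0, ⟨0, 0⟩, 0⟩, 0, 3⟩ 0 0)) (.pos 33 .pp ⟨⟨16654637592, 0, 0, 0, 0, 0, 0, 0, 0, ⟨0, 0⟩, 0⟩, 1010469061, 0⟩ 0 0)) (.pos 34 .pp ⟨⟨31612995153, 0, 0, 0, 0, 0, 0, 0, 0, ⟨0, 0⟩, 0⟩, 0, 2⟩ 0 0)) (.pos 31 .pp ⟨⟨20750922182, 0, 0, 0, 0, 0, 0, 0, 0, ⟨0, 0⟩, 0⟩, 0, 3⟩ 0 0)) (.cut .s 16408576 (.pos 32 .pp ⟨⟨29538154971, 0, 0, 0, 0, 0, 0, 0, 0, ⟨0, 0⟩, 0⟩, 0, 4⟩ 0 0) (.pos 32 .pp ⟨⟨35070764116, 0, 0, 0, 0, 0, 0, 0, 0,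 ⟨0, 0⟩, 0⟩, 0, 2⟩ 0 0))) (.pos 29 .pp ⟨⟨21730766715, 0, 0, 0, 0, 0, 0, 0, 0, ⟨0, 0⟩, 0⟩, 0, 3⟩ 0 0)) (.cut .d 6560 (.pos 30 .pp ⟨⟨43909688206, 0, 0, 0, 0, 0, 0, 0, 0, ⟨0, 0⟩, 0⟩, 0, 2⟩ 0 0) (.cut .v 19922944 (.pos 55 .pp ⟨⟨31773177443, 0, 0, 0, 0, 0, 0, 0, 0, ⟨0, 0⟩, 0⟩, 0, 2⟩ 0 0) (.pos 56 .pp ⟨⟨39989460200, 0, 0, 0, 0, 0, 0, 0, 0, ⟨0, 0⟩, 0⟩, 0, 2⟩ 0 0)))) (.pos 27 .pp ⟨⟨0, 0, 0, 0, 0, 0, 0, 0, 0, ⟨0, 0⟩, 0⟩, 3116218038, 4⟩ 0 0)) (.cut .d 13120 (.pos 28 .pp ⟨⟨0, 0, 0, 0, 0, 0, 0, 0, 0, ⟨0, 0⟩, 0⟩, 6256720425, 2⟩ 0 0) (.cut .v 23068672 (.cut .v 22020096 (.pos 63 .pp ⟨⟨0, 0, 0, 0, 0, 0, 0, 0, 0, ⟨0, 0⟩, 0⟩, 4220562974, 3⟩ 0 0) (.pos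 64 .pp ⟨⟨0, 0, 0, 0, 0, 0, 0, 0, 0, ⟨0, 0⟩, 0⟩, 4943508537, 2⟩ 0 0)) (.pos 60 .pp ⟨⟨0, 0, 0, 0, 0, 0, 0, 0, 0, ⟨0, 0⟩, 0⟩, 5740757392, 2⟩ 0 0)))) (.pos 25 .pp ⟨⟨0, 0, 0, 0, 0, 0, 0, 0, 0, ⟨0, 0⟩, 0⟩, 3072543777, 5⟩ 0 0)) (.cut .d 26240 (.pos 26 .pp ⟨⟨0, 0, 0, 0, 0, 0, 0, 0, 0, ⟨0, 0⟩, 0⟩, 16282976552, 0⟩ 0 0) (.cut .v 29360128 (.pos 77 .pp ⟨⟨0, 0, 0, 0, 0, 0, 0, 0, 0, ⟨0, 0⟩, 0⟩, 5366619225, 3⟩ 0 0) (.pos 78 .pp ⟨⟨0, 0, 0, 0, 0, 0, 0, 0, 0, ⟨0, 0⟩, 0⟩, 7330388077, 2⟩ 0 0)))) (.cut .v 25165824 (.pos 25 .pp ⟨⟨0, 0, 0, 0, 0, 0, 0, 0, 0, ⟨0, 0⟩, 0⟩, 0, 11⟩ 0 0) (.pos 26 .pp ⟨⟨0, 0, 0, 0, 0, 0, 3, 0, 0, ⟨0, 0⟩, 0⟩, 3976611684, 6⟩ 0 0))) (.pos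 24 .pp ⟨⟨0, 0, 0, 0, 0, 0, 0, 0, 0, ⟨0, 0⟩, 0⟩, 0, 12⟩ 0 0)) (.cut .v 50331648 (.cut .d 104963 (.cut .v 41943040 (.pos 98 .pp ⟨⟨0, 0, 0, 0, 0, 0, 7, 0, 0, ⟨0, 0⟩, 0⟩, 9053704344, 0⟩ 0 0) (.pos 99 .pp ⟨⟨0, 0, 0, 0, 0, 0, 1, 0, 0, ⟨0, 0⟩, 0⟩, 13024524254, 0⟩ 0 0)) (.pos 96 .pp ⟨⟨0, 0, 0, 0, 0, 0, 0, 0, 0, ⟨0, 0⟩, 0⟩, 4924563684, 7⟩ 0 0)) (.pos 97 .pp ⟨⟨0, 0, 0, 0, 0, 0, 0, 0, 0, ⟨0, 0⟩, 0⟩, 14062099824, 0⟩ 0 0))) (.pos 94 .pp ⟨⟨0, 0, 0, 0, 0, 0, 0, 0, 0, ⟨0, 0⟩, 0⟩, 1495212322, 8⟩ 0 0)) (.void 106 ⟨⟨0, 0, 0, 57497, 0, 0, 0, 0, 0, ⟨0, 0⟩, 0⟩, 42503, 0⟩ 0 0)) (.void 115 ⟨⟨0, 0, 0, 0, 0, 0, 0, 0, 0, ⟨0, 0⟩, 0⟩, 100000, 0⟩ 0 0)) (.void 122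 ⟨⟨0, 0, 0, 0, 0, 0, 0, 0, 0, ⟨0, 0⟩, 0⟩, 100000, 0⟩ 0 0)))),
    by decide +kernel⟩

def covers43 : cell.Covers Vale.Agent.P237.Petty.Cor.Grid.N13.table row43.1 :=
  ⟨(.cut .d 0 (.cut .v 16777216 (.cut .v 8388608 (.pos 2 .mm ⟨⟨0, 0, 1677721600000000, 0, 0, 0, 0, 0, 0, ⟨0, 0⟩, 0⟩, 0, 0⟩ 0 0) (.cut .d (-8388608) (.void 3 ⟨⟨97596, 0, 0, 2417, 0, 0, 0, 0, 0, ⟨0, 0⟩, 0⟩, 0, 0⟩ 0 0) (.cut .d (-4194304) (.void 3 ⟨⟨100000, 0, 0, 0, 0, 0, 0, 0, 0, ⟨0, 0⟩, 0⟩, 0, 0⟩ 0 0) (.pos 3 .mm ⟨⟨0, 0, 0, 0, 0, 166871510127, 0, 0, 0, ⟨0, 0⟩, 0⟩, 0, 0⟩ 0 0)))) (.cut .v 4294967296 (.cut .v 268435456 (.cut .v 67108864 (.cut .v 33554432 (.cut .d (-8388608) (.void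 24 ⟨⟨87883, 0, 8505, 3684, 0, 0, 0, 0, 0, ⟨0, 0⟩, 0⟩, 0, 0⟩ 0 0) (.cut .d (-4194304) (.void 24 ⟨⟨100000, 0, 0, 0, 0, 0, 0, 0, 0, ⟨0, 0⟩, 0⟩, 0, 0⟩ 0 0) (.cut .v 25165824 (.cut .d (-2097152) (.void 25 ⟨⟨100000, 0, 0, 0, 0, 0, 0, 0, 0, ⟨0, 0⟩, 0⟩, 0, 0⟩ 0 0) (.cut .v 20971520 (.pos 27 .mp ⟨⟨60104856324, 0, 0, 0, 0, 54333057281, 0, 0, 0, ⟨0, 0⟩, 0⟩, 0, 0⟩ 0 0) (.void 28 ⟨⟨100000, 0, 0, 0, 0, 0, 0, 0, 0, ⟨0, 0⟩, 0⟩, 0, 0⟩ 0 0))) (.void 26 ⟨⟨100000, 0, 0, 0, 0, 0, 0, 0, 0, ⟨0, 0⟩, 0⟩, 0, 0⟩ 0 0)))) (.pos 95 .mp ⟨⟨1677721600000000, 0, 0, 0, 0, 0, 0, 0, 0, ⟨0, 0⟩, 0⟩, 0, 0⟩ 0 0)) (.pos 106 .mp ⟨⟨1677721600000001, 0, 0, 0, 0, 0, 0, 0, 0, ⟨0,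 0⟩, 0⟩, 0, 0⟩ 0 0)) (.void 115 ⟨⟨93337, 0, 0, 6562, 0, 0, 0, 0, 0, ⟨0, 0⟩, 0⟩, 0, 0⟩ 0 0)) (.void 122 ⟨⟨95692, 0, 0, 5665, 0, 0, 0, 0, 0, ⟨0, 0⟩, 0⟩, 0, 0⟩ 0 0))) (.cut .v 16777216 (.cut .v 8388608 (.cut .d 167105 (.pos 2 .pm ⟨⟨0, 0, 26302432910, 0, 0, 0, 0, 0, 0, ⟨0, 0⟩, 0⟩, 0, 0⟩ 0 0) (.pos 2 .pm ⟨⟨0, 0, 21196523, 0, 0, 0, 0, 0, 0, ⟨0, 0⟩, 0⟩, 0, 0⟩ 0 0)) (.pos 3 .pm ⟨⟨0, 0, 0, 0, 0, 0, 0, 0, 0, ⟨0, 0⟩, 0⟩, 0, 0⟩ 0 0)) (.cut .v 4294967296 (.cut .v 268435456 (.cut .v 67108864 (.cut .d 167105 (.cut .v 33554432 (.cut .d 83552 (.cut .d 41776 (.cut .v 25165824 (.cut .d 20888 (.cut .v 20971520 (.cut .d 10444 (.cut .v 18874368 (.cut .d 5222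 (.cut .v 17825792 (.cut .l 141961 (.cut .d 2611 (.cut .v 17301504 (.cut .l 70980 (.cut .d 1305 (.cut .v 17039360 (.cut .s 16482304 (.pos 35 .pp ⟨⟨34116409535, 0, 0, 0, 0, 0, 2, 0, 0, ⟨0, 0⟩, 0⟩, 0, 0⟩ 0 0) (.pos 35 .pp ⟨⟨40688629365, 0, 0, 0, 0, 0, 1, 0, 0, ⟨0, 0⟩, 0⟩, 0, 0⟩ 0 0)) (.pos 36 .pp ⟨⟨43549855179, 0, 0, 0, 0, 0, 1, 0, 0, ⟨0, 0⟩, 0⟩, 0, 0⟩ 0 0)) (.pos 33 .pp ⟨⟨28971506094, 0, 0, 0, 0, 0, 2, 0, 0, ⟨0, 0⟩, 0⟩, 0, 0⟩ 0 0)) (.pos 33 .pp ⟨⟨35402906708, 0, 0, 0, 0, 0, 0, 0, 0, ⟨0, 0⟩, 0⟩, 0, 0⟩ 0 0)) (.pos 34 .pp ⟨⟨44948897187, 0, 0, 0, 0, 0, 1, 0, 0, ⟨0, 0⟩, 0⟩, 0, 0⟩ 0 0)) (.pos 31 .pp ⟨⟨29654834880, 0, 0, 0, 0, 0, 2, 0, 0, ⟨0,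 0⟩, 0⟩, 0, 0⟩ 0 0)) (.pos 31 .pp ⟨⟨35896520077, 0, 0, 0, 0, 0, 0, 0, 0, ⟨0, 0⟩, 0⟩, 0, 0⟩ 0 0)) (.cut .v 18350080 (.pos 118 .pp ⟨⟨46658131096, 0, 0, 0, 0, 0, 1, 0, 0, ⟨0, 0⟩, 0⟩, 0, 0⟩ 0 0) (.pos 119 .pp ⟨⟨51957112896, 0, 0, 0, 0, 0, 1, 0, 0, ⟨0, 0⟩, 0⟩, 0, 0⟩ 0 0))) (.pos 29 .pp ⟨⟨31064768706, 0, 0, 0, 0, 0, 2, 0, 0, ⟨0, 0⟩, 0⟩, 0, 0⟩ 0 0)) (.cut .d 5222 (.pos 30 .pp ⟨⟨62578849169, 0, 0, 0, 0, 0, 1, 0, 0, ⟨0, 0⟩, 0⟩, 0, 0⟩ 0 0) (.cut .s 16482304 (.pos 30 .pp ⟨⟨46472538198, 0, 0, 0, 0, 0, 3, 0, 0, ⟨0, 0⟩, 0⟩, 0, 0⟩ 0 0) (.cut .s 16498688 (.pos 30 .pp ⟨⟨51553744784, 0, 0, 0, 0, 0, 2, 0, 0, ⟨0, 0⟩, 0⟩, 0, 0⟩ 0 0) (.cut .s 16506880 (.pos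 30 .pp ⟨⟨54835870861, 0, 0, 0, 0, 0, 2, 0, 0, ⟨0, 0⟩, 0⟩, 0, 0⟩ 0 0) (.cut .v 19922944 (.pos 55 .pp ⟨⟨54019543168, 0, 0, 0, 0, 0, 2, 0, 0, ⟨0, 0⟩, 0⟩, 0, 0⟩ 0 0) (.cut .v 20447232 (.pos 123 .pp ⟨⟨58403081018, 0, 0, 0, 0, 0, 2, 0, 0, ⟨0, 0⟩, 0⟩, 0, 0⟩ 0 0) (.pos 124 .pp ⟨⟨61216816915, 0, 0, 0, 0, 0, 2, 0, 0, ⟨0, 0⟩, 0⟩, 0, 0⟩ 0 0)))))))) (.cut .v 18874368 (.pos 29 .pp ⟨⟨0, 0, 0, 0, 0, 0, 5, 0, 0, ⟨0, 0⟩, 0⟩, 0, 0⟩ 0 0) (.pos 30 .pp ⟨⟨0, 0, 0, 0, 0, 0, 2, 0, 0, ⟨0, 0⟩, 0⟩, 4917892467, 0⟩ 0 0))) (.cut .d 10444 (.pos 28 .pp ⟨⟨0, 0, 0, 0, 0, 0, 1, 0, 0, ⟨0, 0⟩, 0⟩, 8892254086, 0⟩ 0 0) (.cut .v 23068672 (.cut .v 22020096 (.pos 63 .pp ⟨⟨0,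 0, 0, 0, 0, 0, 2, 0, 0, ⟨0, 0⟩, 0⟩, 6011199938, 0⟩ 0 0) (.pos 64 .pp ⟨⟨0, 0, 0, 0, 0, 0, 2, 0, 0, ⟨0, 0⟩, 0⟩, 7033206680, 0⟩ 0 0)) (.pos 60 .pp ⟨⟨0, 0, 0, 0, 0, 0, 2, 0, 0, ⟨0, 0⟩, 0⟩, 8167905300, 0⟩ 0 0)))) (.pos 25 .pp ⟨⟨0, 0, 0, 0, 0, 0, 4, 0, 0, ⟨0, 0⟩, 0⟩, 4399235829, 0⟩ 0 0)) (.cut .d 20888 (.pos 26 .pp ⟨⟨0, 0, 0, 0, 0, 0, 0, 0, 0, ⟨0, 0⟩, 0⟩, 23693774600, 0⟩ 0 0) (.cut .v 29360128 (.pos 77 .pp ⟨⟨0, 0, 0, 0, 0, 0, 2, 0, 0, ⟨0, 0⟩, 0⟩, 7650662248, 0⟩ 0 0) (.pos 78 .pp ⟨⟨0, 0, 0, 0, 0, 0, 2, 0, 0, ⟨0, 0⟩, 0⟩, 10430121459, 0⟩ 0 0)))) (.cut .v 25165824 (.pos 25 .pp ⟨⟨0, 0, 0, 0, 0, 0, 9, 0, 0, ⟨0, 0⟩, 0⟩, 0, 0⟩ 0 0) (.pos 26 .pp ⟨⟨0,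 0, 0, 0, 0, 0, 6, 0, 0, ⟨0, 0⟩, 0⟩, 5716979774, 0⟩ 0 0))) (.pos 24 .pp ⟨⟨0, 0, 0, 0, 0, 0, 12, 0, 0, ⟨0, 0⟩, 0⟩, 0, 0⟩ 0 0)) (.cut .v 50331648 (.cut .d 83552 (.cut .v 41943040 (.pos 98 .pp ⟨⟨0, 0, 0, 0, 0, 0, 2, 0, 0, ⟨0, 0⟩, 0⟩, 12846095633, 0⟩ 0 0) (.pos 99 .pp ⟨⟨0, 0, 0, 0, 0, 0, 0, 0, 0, ⟨0, 0⟩, 0⟩, 18558240339, 0⟩ 0 0)) (.pos 96 .pp ⟨⟨0, 0, 0, 0, 0, 0, 7, 0, 0, ⟨0, 0⟩, 0⟩, 7141436692, 0⟩ 0 0)) (.pos 97 .pp ⟨⟨0, 0, 0, 0, 0, 0, 0, 0, 0, ⟨0, 0⟩, 0⟩, 19944431057, 0⟩ 0 0))) (.pos 94 .pp ⟨⟨0, 0, 0, 0, 0, 0, 0, 0, 0, ⟨0, 0⟩, 0⟩, 2311816551, 2⟩ 0 0)) (.void 106 ⟨⟨0, 0, 0, 50872, 0, 0, 0, 0, 0, ⟨0, 0⟩, 0⟩, 51605, 0⟩ 0 0)) (.void 115 ⟨⟨0,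 0, 0, 0, 0, 0, 0, 0, 0, ⟨0, 0⟩, 0⟩, 100000, 0⟩ 0 0)) (.void 122 ⟨⟨0, 0, 0, 0, 0, 0, 0, 0, 0, ⟨0, 0⟩, 0⟩, 100000, 0⟩ 0 0)))),
    by decide +kernel⟩

def covers44 : cell.Covers Vale.Agent.P237.Petty.Cor.Grid.N13.table row44.1 :=
  ⟨(.cut .d 0 (.cut .v 16777216 (.cut .v 8388608 (.void 2 ⟨⟨0, 0, 100000, 0, 0, 0, 0, 0, 0, ⟨0, 0⟩, 0⟩, 0, 0⟩ 0 0) (.cut .d (-8388608) (.void 3 ⟨⟨100004, 0, 0, 0, 0, 0, 0, 0, 0, ⟨0, 0⟩, 0⟩, 0, 0⟩ 0 0) (.pos 3 .mm ⟨⟨0, 0, 0, 0, 0, 312083087090, 0, 0, 0, ⟨0, 0⟩, 0⟩, 0, 0⟩ 0 0))) (.cut .d (-8388608) (.void 121 ⟨⟨0, 0, 0, 0, 0, 39487, 0, 60513, 0, ⟨(-1), 10947662⟩, 0⟩, 0, 0⟩ 0 127) (.cut .v 4294967296 (.cut .v 268435456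 (.cut .v 67108864 (.cut .v 33554432 (.cut .v 25165824 (.cut .d (-4194304) (.void 25 ⟨⟨100000, 0, 0, 0, 0, 0, 0, 0, 0, ⟨0, 0⟩, 0⟩, 0, 0⟩ 0 0) (.cut .d (-2097152) (.void 25 ⟨⟨100000, 0, 0, 0, 0, 0, 0, 0, 0, ⟨0, 0⟩, 0⟩, 0, 0⟩ 0 0) (.pos 25 .mp ⟨⟨113879724559, 0, 0, 0, 0, 58463957568, 0, 0, 0, ⟨0, 0⟩, 0⟩, 0, 0⟩ 0 0))) (.void 26 ⟨⟨100000, 0, 0, 0, 0, 0, 0, 0, 0, ⟨0, 0⟩, 0⟩, 0, 0⟩ 0 0)) (.void 95 ⟨⟨100000, 0, 0, 0, 0, 0, 0, 0, 0, ⟨0, 0⟩, 0⟩, 0, 0⟩ 0 0)) (.void 106 ⟨⟨100000, 0, 0, 0, 0, 0, 0, 0, 0, ⟨0, 0⟩, 0⟩, 0, 0⟩ 0 0)) (.void 115 ⟨⟨90543, 0, 0, 9570, 0, 0, 0, 0, 0, ⟨0, 0⟩, 0⟩, 0, 0⟩ 0 0)) (.void 122 ⟨⟨88896, 0, 0, 10509, 0, 0, 0, 0, 0, ⟨0,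 0⟩, 0⟩, 0, 0⟩ 0 0)))) (.cut .v 16777216 (.cut .v 8388608 (.cut .d 133154 (.pos 2 .pm ⟨⟨0, 0, 37476177813, 0, 0, 0, 0, 0, 0, ⟨0, 0⟩, 0⟩, 0, 0⟩ 0 0) (.pos 2 .pm ⟨⟨0, 0, 21038287, 0, 0, 0, 0, 0, 0, ⟨0, 0⟩, 0⟩, 0, 0⟩ 0 0)) (.pos 3 .pm ⟨⟨0, 0, 0, 0, 0, 0, 0, 0, 0, ⟨0, 0⟩, 0⟩, 0, 0⟩ 0 0)) (.cut .v 4294967296 (.cut .v 268435456 (.cut .v 67108864 (.cut .d 133154 (.cut .v 33554432 (.cut .d 66577 (.cut .d 33288 (.cut .v 25165824 (.cut .d 16644 (.cut .v 20971520 (.cut .d 8322 (.cut .v 18874368 (.cut .d 4161 (.cut .l 141961 (.cut .v 17825792 (.cut .d 2080 (.cut .v 17301504 (.cut .s 16539648 (.pos 33 .pp ⟨⟨48878685362, 0, 0, 0, 0, 0, 0, 0, 0, ⟨0,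 0⟩, 0⟩, 0, 0⟩ 0 0) (.cut .s 16551936 (.pos 33 .pp ⟨⟨55536885224, 0, 0, 0, 0, 0, 0, 0, 0, ⟨0, 0⟩, 0⟩, 0, 0⟩ 0 0) (.pos 33 .pp ⟨⟨60542294859, 0, 0, 0, 0, 0, 0, 0, 0, ⟨0, 0⟩, 0⟩, 0, 0⟩ 0 0))) (.pos 34 .pp ⟨⟨62651446276, 0, 0, 0, 0, 0, 0, 0, 0, ⟨0, 0⟩, 0⟩, 0, 0⟩ 0 0)) (.pos 31 .pp ⟨⟨42187463109, 0, 0, 0, 0, 0, 0, 0, 0, ⟨0, 0⟩, 0⟩, 0, 0⟩ 0 0)) (.cut .s 16539648 (.pos 32 .pp ⟨⟨59224581862, 0, 0, 0, 0, 0, 0, 0, 0, ⟨0, 0⟩, 0⟩, 0, 0⟩ 0 0) (.pos 32 .pp ⟨⟨69378700443, 0, 0, 0, 0, 0, 0, 0, 0, ⟨0, 0⟩, 0⟩, 0, 0⟩ 0 0))) (.pos 29 .pp ⟨⟨55976344609, 0, 0, 0, 0, 0, 0, 0, 0, ⟨0, 0⟩, 0⟩, 0, 0⟩ 0 0)) (.pos 29 .pp ⟨⟨44207511710, 0, 0, 0, 0, 0, 0, 0, 0, ⟨0,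 0⟩, 0⟩, 0, 0⟩ 0 0)) (.cut .v 19922944 (.cut .d 4161 (.pos 55 .pp ⟨⟨229850458402, 0, 0, 0, 0, 0, 0, 0, 0, ⟨0, 0⟩, 0⟩, 0, 0⟩ 0 0) (.pos 55 .pp ⟨⟨63899351404, 0, 0, 0, 0, 0, 0, 0, 0, ⟨0, 0⟩, 0⟩, 0, 0⟩ 0 0)) (.pos 56 .pp ⟨⟨82024021592, 0, 0, 0, 0, 0, 0, 0, 0, ⟨0, 0⟩, 0⟩, 0, 0⟩ 0 0))) (.pos 27 .pp ⟨⟨0, 0, 0, 0, 0, 0, 0, 0, 0, ⟨0, 0⟩, 0⟩, 6348392431, 0⟩ 0 0)) (.cut .d 8322 (.pos 28 .pp ⟨⟨0, 0, 0, 0, 0, 0, 0, 0, 0, ⟨0, 0⟩, 0⟩, 12321828058, 0⟩ 0 0) (.cut .v 23068672 (.cut .v 22020096 (.pos 63 .pp ⟨⟨0, 0, 0, 0, 0, 0, 0, 0, 0, ⟨0, 0⟩, 0⟩, 8515675352, 0⟩ 0 0) (.pos 64 .pp ⟨⟨0, 0, 0, 0, 0, 0, 0, 0, 0, ⟨0, 0⟩, 0⟩, 9906701504, 0⟩ 0 0)) (.pos 60 .pp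 ⟨⟨0, 0, 0, 0, 0, 0, 0, 0, 0, ⟨0, 0⟩, 0⟩, 11436426060, 0⟩ 0 0)))) (.cut .v 20971520 (.pos 27 .pp ⟨⟨0, 0, 0, 0, 0, 0, 0, 0, 0, ⟨0, 0⟩, 0⟩, 0, 1⟩ 0 0) (.pos 28 .pp ⟨⟨0, 0, 0, 0, 0, 0, 0, 0, 0, ⟨0, 0⟩, 0⟩, 7292185166, 0⟩ 0 0))) (.cut .d 16644 (.pos 26 .pp ⟨⟨0, 0, 0, 0, 0, 0, 0, 0, 0, ⟨0, 0⟩, 0⟩, 33437175932, 0⟩ 0 0) (.cut .v 29360128 (.pos 77 .pp ⟨⟨0, 0, 0, 0, 0, 0, 0, 0, 0, ⟨0, 0⟩, 0⟩, 10813806047, 0⟩ 0 0) (.pos 78 .pp ⟨⟨0, 0, 0, 0, 0, 0, 0, 0, 0, ⟨0, 0⟩, 0⟩, 14598023360, 0⟩ 0 0)))) (.cut .v 25165824 (.pos 25 .pp ⟨⟨0, 0, 0, 0, 0, 0, 0, 0, 0, ⟨0, 0⟩, 0⟩, 0, 1⟩ 0 0) (.pos 26 .pp ⟨⟨0, 0, 0, 0, 0, 0, 0, 0, 0, ⟨0, 0⟩, 0⟩, 8154001378, 1⟩ 0 0)))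 (.pos 24 .pp ⟨⟨0, 0, 0, 0, 0, 0, 0, 0, 0, ⟨0, 0⟩, 0⟩, 0, 1⟩ 0 0)) (.cut .v 50331648 (.cut .d 66577 (.cut .v 41943040 (.pos 98 .pp ⟨⟨0, 0, 0, 0, 0, 0, 0, 0, 0, ⟨0, 0⟩, 0⟩, 17865007967, 0⟩ 0 0) (.pos 99 .pp ⟨⟨0, 0, 0, 0, 0, 0, 0, 0, 0, ⟨0, 0⟩, 0⟩, 25326833610, 0⟩ 0 0)) (.pos 96 .pp ⟨⟨0, 0, 0, 0, 0, 0, 0, 0, 0, ⟨0, 0⟩, 0⟩, 10244310262, 1⟩ 0 0)) (.pos 97 .pp ⟨⟨0, 0, 0, 0, 0, 0, 0, 0, 0, ⟨0, 0⟩, 0⟩, 27736846461, 0⟩ 0 0))) (.pos 94 .pp ⟨⟨0, 0, 0, 0, 0, 0, 0, 0, 0, ⟨0, 0⟩, 0⟩, 3469197293, 1⟩ 0 0)) (.void 106 ⟨⟨0, 0, 0, 51448, 0, 0, 0, 0, 0, ⟨0, 0⟩, 0⟩, 48552, 0⟩ 0 0)) (.void 115 ⟨⟨0, 0, 0, 0, 0, 0, 0, 0, 0, ⟨0, 0⟩, 0⟩, 100000, 0⟩ 0 0)) (.void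 122 ⟨⟨0, 0, 0, 0, 0, 0, 0, 0, 0, ⟨0, 0⟩, 0⟩, 100000, 0⟩ 0 0)))),
    by decide +kernel⟩

def covers45 : cell.Covers Vale.Agent.P237.Petty.Cor.Grid.N13.table row45.1 :=
  ⟨(.cut .d 0 (.cut .v 16777216 (.cut .v 8388608 (.void 2 ⟨⟨0, 0, 87212, 0, 0, 0, 0, 0, 0, ⟨0, 0⟩, 0⟩, 0, 0⟩ 0 0) (.cut .d (-8388608) (.void 3 ⟨⟨99997, 0, 0, 0, 0, 0, 0, 0, 0, ⟨0, 0⟩, 0⟩, 0, 0⟩ 0 0) (.pos 3 .mm ⟨⟨0, 0, 0, 0, 0, 441172540690, 0, 0, 0, ⟨0, 0⟩, 0⟩, 0, 0⟩ 0 0))) (.cut .v 4294967296 (.cut .v 268435456 (.cut .v 67108864 (.cut .v 33554432 (.cut .d (-8388608) (.void 24 ⟨⟨100000, 0, 0, 0, 0, 0, 0, 0, 0, ⟨0, 0⟩, 0⟩, 0, 0⟩ 0 0) (.cut .v 25165824 (.cut .d (-4194304)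 (.void 25 ⟨⟨100000, 0, 0, 0, 0, 0, 0, 0, 0, ⟨0, 0⟩, 0⟩, 0, 0⟩ 0 0) (.cut .d (-2097152) (.void 25 ⟨⟨100000, 0, 0, 0, 0, 0, 0, 0, 0, ⟨0, 0⟩, 0⟩, 0, 0⟩ 0 0) (.cut .s 16588800 (.pos 25 .mp ⟨⟨139458859822, 0, 0, 0, 0, 63696835882, 0, 0, 0, ⟨0, 0⟩, 0⟩, 0, 0⟩ 0 0) (.pos 25 .mp ⟨⟨173449539940, 0, 0, 0, 0, 72699466940, 0, 0, 0, ⟨0, 0⟩, 0⟩, 0, 0⟩ 0 0)))) (.void 26 ⟨⟨100000, 0, 0, 0, 0, 0, 0, 0, 0, ⟨0, 0⟩, 0⟩, 0, 0⟩ 0 0))) (.pos 95 .mp ⟨⟨1677721600011386, 0, 0, 0, 0, 0, 0, 0, 0, ⟨0, 0⟩, 0⟩, 0, 0⟩ 0 0)) (.void 106 ⟨⟨100024, 0, 0, 0, 0, 0, 0, 0, 0, ⟨0, 0⟩, 0⟩, 0, 0⟩ 0 0)) (.pos 115 .mp ⟨⟨1567644472238875, 0, 0, 110077127761126, 0, 0, 0, 0, 0, ⟨0,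 0⟩, 0⟩, 0, 0⟩ 0 0)) (.void 122 ⟨⟨186588, 0, 0, 1711, 0, 0, 0, 0, 0, ⟨0, 0⟩, 0⟩, 0, 0⟩ 0 0))) (.cut .v 16777216 (.cut .v 8388608 (.cut .d 107866 (.pos 2 .pm ⟨⟨0, 0, 54971854122, 0, 0, 0, 0, 0, 0, ⟨0, 0⟩, 0⟩, 0, 0⟩ 0 0) (.pos 2 .pm ⟨⟨0, 0, 20935381, 0, 0, 0, 0, 0, 0, ⟨0, 0⟩, 0⟩, 0, 0⟩ 0 0)) (.pos 3 .pm ⟨⟨0, 0, 0, 0, 0, 0, 0, 0, 0, ⟨0, 0⟩, 0⟩, 0, 0⟩ 0 0)) (.cut .v 4294967296 (.cut .v 268435456 (.cut .v 67108864 (.cut .d 107866 (.cut .v 33554432 (.cut .d 53933 (.cut .d 26966 (.cut .v 25165824 (.cut .d 13483 (.cut .v 20971520 (.cut .d 6741 (.cut .v 18874368 (.cut .d 3370 (.cut .v 17825792 (.cut .d 1685 (.cut .v 17301504 (.cut .d 842 (.cut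 .v 17039360 (.cut .d 421 (.cut .v 16908288 (.cut .s 16588800 (.pos 37 .pp ⟨⟨67573288446, 0, 0, 0, 0, 0, 0, 0, 0, ⟨0, 0⟩, 0⟩, 0, 0⟩ 0 0) (.cut .s 16601088 (.pos 37 .pp ⟨⟨79955895246, 0, 0, 0, 0, 0, 0, 0, 0, ⟨0, 0⟩, 0⟩, 0, 0⟩ 0 0) (.pos 37 .pp ⟨⟨89238501973, 0, 0, 0, 0, 0, 0, 0, 0, ⟨0, 0⟩, 0⟩, 0, 0⟩ 0 0))) (.pos 38 .pp ⟨⟨87803123871, 0, 0, 0, 0, 0, 0, 0, 0, ⟨0, 0⟩, 0⟩, 0, 0⟩ 0 0)) (.pos 35 .pp ⟨⟨57014535369, 0, 0, 0, 0, 0, 0, 0, 0, ⟨0, 0⟩, 0⟩, 0, 0⟩ 0 0)) (.pos 36 .pp ⟨⟨88906531372, 0, 0, 0, 0, 0, 0, 0, 0, ⟨0, 0⟩, 0⟩, 0, 0⟩ 0 0)) (.pos 33 .pp ⟨⟨57688732124, 0, 0, 0, 0, 0, 0, 0, 0, ⟨0, 0⟩, 0⟩, 0, 0⟩ 0 0)) (.pos 34 .pp ⟨⟨92304645286, 0,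 0, 0, 0, 0, 0, 0, 0, ⟨0, 0⟩, 0⟩, 0, 0⟩ 0 0)) (.pos 31 .pp ⟨⟨59047121807, 0, 0, 0, 0, 0, 0, 0, 0, ⟨0, 0⟩, 0⟩, 0, 0⟩ 0 0)) (.cut .d 1685 (.pos 32 .pp ⟨⟨111634011357, 0, 0, 0, 0, 0, 0, 0, 0, ⟨0, 0⟩, 0⟩, 0, 0⟩ 0 0) (.pos 32 .pp ⟨⟨89517906283, 0, 0, 0, 0, 0, 0, 0, 0, ⟨0, 0⟩, 0⟩, 0, 0⟩ 0 0))) (.pos 29 .pp ⟨⟨61856635336, 0, 0, 0, 0, 0, 0, 0, 0, ⟨0, 0⟩, 0⟩, 0, 0⟩ 0 0)) (.cut .d 3370 (.pos 30 .pp ⟨⟨130504010484, 0, 0, 0, 0, 0, 0, 0, 0, ⟨0, 0⟩, 0⟩, 0, 0⟩ 0 0) (.cut .v 19922944 (.pos 55 .pp ⟨⟨89914643763, 0, 0, 0, 0, 0, 0, 0, 0, ⟨0, 0⟩, 0⟩, 0, 0⟩ 0 0) (.cut .s 16588800 (.pos 56 .pp ⟨⟨100395606669, 0, 0, 0, 0, 0, 0, 0, 0, ⟨0, 0⟩, 0⟩, 0, 0⟩ 0 0)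 (.pos 56 .pp ⟨⟨119905053954, 0, 0, 0, 0, 0, 0, 0, 0, ⟨0, 0⟩, 0⟩, 0, 0⟩ 0 0))))) (.pos 27 .pp ⟨⟨0, 0, 0, 0, 0, 0, 0, 0, 0, ⟨0, 0⟩, 0⟩, 8877259217, 0⟩ 0 0)) (.cut .d 6741 (.pos 28 .pp ⟨⟨24753443805, 0, 0, 0, 0, 0, 0, 0, 0, ⟨0, 0⟩, 0⟩, 15793362220, 0⟩ 0 0) (.cut .v 23068672 (.cut .v 22020096 (.pos 63 .pp ⟨⟨0, 0, 0, 0, 0, 0, 0, 0, 0, ⟨0, 0⟩, 0⟩, 11974107248, 0⟩ 0 0) (.pos 64 .pp ⟨⟨0, 0, 0, 0, 0, 0, 0, 0, 0, ⟨0, 0⟩, 0⟩, 14045580861, 0⟩ 0 0)) (.pos 60 .pp ⟨⟨0, 0, 0, 0, 0, 0, 0, 0, 0, ⟨0, 0⟩, 0⟩, 16563910857, 0⟩ 0 0)))) (.pos 25 .pp ⟨⟨0, 0, 0, 0, 0, 0, 0, 0, 0, ⟨0, 0⟩, 0⟩, 8755836963, 0⟩ 0 0)) (.cut .d 13483 (.pos 26 .pp ⟨⟨0, 0, 0, 0, 0, 0,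 0, 0, 0, ⟨0, 0⟩, 0⟩, 23152271812, 0⟩ 0 0) (.cut .v 29360128 (.pos 77 .pp ⟨⟨0, 0, 0, 0, 0, 0, 0, 0, 0, ⟨0, 0⟩, 0⟩, 15252881012, 0⟩ 0 0) (.pos 78 .pp ⟨⟨0, 0, 0, 0, 0, 0, 0, 0, 0, ⟨0, 0⟩, 0⟩, 21222198538, 0⟩ 0 0)))) (.cut .v 25165824 (.pos 25 .pp ⟨⟨0, 0, 0, 0, 0, 0, 0, 0, 0, ⟨0, 0⟩, 0⟩, 0, 0⟩ 0 0) (.pos 26 .pp ⟨⟨0, 0, 0, 0, 0, 0, 1, 0, 0, ⟨0, 0⟩, 0⟩, 11510877508, 0⟩ 0 0))) (.pos 24 .pp ⟨⟨0, 0, 0, 0, 0, 0, 0, 0, 0, ⟨0, 0⟩, 0⟩, 0, 0⟩ 0 0)) (.cut .v 50331648 (.cut .d 53933 (.cut .d 26966 (.void 96 ⟨⟨0, 0, 0, 0, 0, 0, 0, 0, 0, ⟨0, 0⟩, 0⟩, 100000, 0⟩ 0 0) (.pos 96 .pp ⟨⟨0, 0, 0, 0, 0, 0, 0, 0, 0, ⟨0, 0⟩, 0⟩, 23888546132, 0⟩ 0 0)) (.pos 96 .pp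 ⟨⟨0, 0, 0, 0, 0, 0, 1, 0, 0, ⟨0, 0⟩, 0⟩, 14524698027, 0⟩ 0 0)) (.pos 97 .pp ⟨⟨0, 0, 0, 0, 0, 0, 0, 0, 0, ⟨0, 0⟩, 0⟩, 40816910232, 0⟩ 0 0))) (.pos 94 .pp ⟨⟨0, 0, 0, 0, 0, 0, 0, 0, 0, ⟨0, 0⟩, 0⟩, 5017095621, 0⟩ 0 0)) (.pos 106 .pp ⟨⟨0, 0, 0, 864200715942616, 0, 0, 0, 0, 0, ⟨0, 0⟩, 0⟩, 813520884057384, 0⟩ 0 0)) (.void 115 ⟨⟨0, 0, 0, 0, 0, 0, 0, 0, 0, ⟨0, 0⟩, 0⟩, 100000, 0⟩ 0 0)) (.void 122 ⟨⟨0, 0, 0, 0, 0, 0, 0, 0, 0, ⟨0, 0⟩, 0⟩, 100000, 0⟩ 0 0)))),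
    by decide +kernel⟩

def covers46 : cell.Covers Vale.Agent.P237.Petty.Cor.Grid.N13.table row46.1 :=
  ⟨(.cut .d 0 (.cut .v 16777216 (.cut .v 8388608 (.void 2 ⟨⟨0, 0, 100000, 0, 0, 0, 0, 0, 0, ⟨0, 0⟩, 0⟩, 0, 0⟩ 0 0) (.cut .d (-8388608) (.void 3 ⟨⟨100000, 0, 0, 0, 0, 0, 0, 0, 0, ⟨0, 0⟩, 0⟩, 0, 0⟩ 0 0) (.pos 3 .mm ⟨⟨0, 0, 0, 0, 0, 590945842444, 0, 0, 0, ⟨0, 0⟩, 0⟩, 0, 0⟩ 0 0))) (.cut .d (-8388608) (.void 121 ⟨⟨100390, 0, 0, 0, 0, 0, 0, 0, 0, ⟨0, 0⟩, 0⟩, 0, 0⟩ 0 0) (.cut .d (-4194304) (.void 121 ⟨⟨99999, 0, 1, 0, 0, 0, 0, 0, 0, ⟨0, 0⟩, 0⟩, 0, 0⟩ 0 0) (.cut .v 4294967296 (.cut .d (-2097152) (.cut .s 16629760 (.void 114 ⟨⟨99799, 0, 0, 0,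 0, 0, 0, 0, 0, ⟨0, 0⟩, 0⟩, 0, 0⟩ 0 0) (.void 114 ⟨⟨99799, 0, 0, 0, 0, 0, 0, 0, 0, ⟨0, 0⟩, 0⟩, 0, 0⟩ 0 0)) (.cut .v 268435456 (.cut .v 67108864 (.cut .v 33554432 (.cut .v 25165824 (.pos 25 .mp ⟨⟨243947748028, 0, 0, 0, 0, 91752360604, 0, 0, 0, ⟨0, 0⟩, 0⟩, 0, 0⟩ 0 0) (.void 26 ⟨⟨100000, 0, 0, 0, 0, 0, 0, 0, 0, ⟨0, 0⟩, 0⟩, 0, 0⟩ 0 0)) (.void 95 ⟨⟨100000, 0, 0, 0, 0, 0, 0, 0, 0, ⟨0, 0⟩, 0⟩, 0, 0⟩ 0 0)) (.void 106 ⟨⟨100000, 0, 0, 0, 0, 0, 0, 0, 0, ⟨0, 0⟩, 0⟩, 0, 0⟩ 0 0)) (.void 115 ⟨⟨100000, 0, 0, 0, 0, 0, 0, 0, 0, ⟨0, 0⟩, 0⟩, 0, 0⟩ 0 0))) (.void 122 ⟨⟨88966, 0, 0, 11034, 0, 0, 0, 0, 0, ⟨0, 0⟩, 0⟩, 0, 0⟩ 0 0))))) (.cut .v 16777216 (.cut .v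 8388608 (.cut .d 82729 (.pos 2 .pm ⟨⟨0, 0, 83267570238, 0, 0, 0, 0, 0, 0, ⟨0, 0⟩, 0⟩, 0, 0⟩ 0 0) (.pos 2 .pm ⟨⟨0, 0, 20811996, 0, 0, 0, 0, 0, 0, ⟨0, 0⟩, 0⟩, 0, 0⟩ 0 0)) (.pos 3 .pm ⟨⟨0, 0, 0, 0, 0, 0, 0, 0, 0, ⟨0, 0⟩, 0⟩, 0, 0⟩ 0 0)) (.cut .v 4294967296 (.cut .v 268435456 (.cut .v 67108864 (.cut .d 82729 (.cut .v 33554432 (.cut .d 41364 (.cut .d 20682 (.cut .v 25165824 (.cut .d 10341 (.cut .v 20971520 (.cut .d 5170 (.cut .v 18874368 (.cut .d 2585 (.cut .l 141961 (.cut .v 17825792 (.cut .d 1292 (.cut .v 17301504 (.cut .d 646 (.cut .v 17039360 (.cut .s 16629760 (.pos 35 .pp ⟨⟨101085237720, 0, 0, 0, 0, 0, 0, 0, 0, ⟨0, 0⟩, 0⟩, 0, 0⟩ 0 0)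 (.cut .s 16637952 (.pos 35 .pp ⟨⟨116746880028, 0, 0, 0, 0, 0, 0, 0, 0, ⟨0, 0⟩, 0⟩, 0, 0⟩ 0 0) (.pos 35 .pp ⟨⟨128024741615, 0, 0, 0, 0, 0, 0, 0, 0, ⟨0, 0⟩, 0⟩, 0, 0⟩ 0 0))) (.pos 36 .pp ⟨⟨128186060753, 0, 0, 0, 0, 0, 0, 0, 0, ⟨0, 0⟩, 0⟩, 0, 0⟩ 0 0)) (.pos 33 .pp ⟨⟨86531977440, 0, 0, 0, 0, 0, 0, 0, 0, ⟨0, 0⟩, 0⟩, 0, 0⟩ 0 0)) (.pos 34 .pp ⟨⟨132684371933, 0, 0, 0, 0, 0, 0, 0, 0, ⟨0, 0⟩, 0⟩, 0, 0⟩ 0 0)) (.pos 31 .pp ⟨⟨88602502833, 0, 0, 0, 0, 0, 0, 0, 0, ⟨0, 0⟩, 0⟩, 0, 0⟩ 0 0)) (.cut .s 16629760 (.pos 32 .pp ⟨⟨124327582760, 0, 0, 0, 0, 0, 0, 0, 0, ⟨0, 0⟩, 0⟩, 0, 0⟩ 0 0) (.pos 32 .pp ⟨⟨147094932329, 0, 0, 0, 0, 0, 0, 0, 0, ⟨0, 0⟩, 0⟩, 0, 0⟩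 0 0))) (.pos 29 .pp ⟨⟨117911017029, 0, 0, 0, 0, 0, 0, 0, 0, ⟨0, 0⟩, 0⟩, 0, 0⟩ 0 0)) (.pos 29 .pp ⟨⟨92850475962, 0, 0, 0, 0, 0, 0, 0, 0, ⟨0, 0⟩, 0⟩, 0, 0⟩ 0 0)) (.cut .v 19922944 (.cut .d 2585 (.pos 55 .pp ⟨⟨170906731651, 0, 0, 0, 0, 0, 0, 0, 0, ⟨0, 0⟩, 0⟩, 0, 0⟩ 0 0) (.pos 55 .pp ⟨⟨133858438386, 0, 0, 0, 0, 0, 0, 0, 0, ⟨0, 0⟩, 0⟩, 0, 0⟩ 0 0)) (.pos 56 .pp ⟨⟨173523994815, 0, 0, 0, 0, 0, 0, 0, 0, ⟨0, 0⟩, 0⟩, 0, 0⟩ 0 0))) (.pos 27 .pp ⟨⟨0, 0, 0, 0, 0, 0, 0, 0, 0, ⟨0, 0⟩, 0⟩, 13336729090, 0⟩ 0 0)) (.cut .d 5170 (.pos 28 .pp ⟨⟨0, 0, 0, 0, 0, 0, 0, 0, 0, ⟨0, 0⟩, 0⟩, 26224152086, 0⟩ 0 0) (.cut .v 23068672 (.cut .v 22020096 (.pos 63 .pp ⟨⟨0,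 0, 0, 0, 0, 0, 0, 0, 0, ⟨0, 0⟩, 0⟩, 17802185655, 0⟩ 0 0) (.pos 64 .pp ⟨⟨0, 0, 0, 0, 0, 0, 0, 0, 0, ⟨0, 0⟩, 0⟩, 20781053487, 0⟩ 0 0)) (.pos 60 .pp ⟨⟨0, 0, 0, 0, 0, 0, 0, 0, 0, ⟨0, 0⟩, 0⟩, 24135241543, 0⟩ 0 0)))) (.pos 25 .pp ⟨⟨0, 0, 0, 0, 0, 0, 0, 0, 0, ⟨0, 0⟩, 0⟩, 13173685207, 0⟩ 0 0)) (.cut .d 10341 (.pos 26 .pp ⟨⟨0, 0, 0, 0, 0, 0, 0, 0, 0, ⟨0, 0⟩, 0⟩, 73759633371, 0⟩ 0 0) (.cut .v 29360128 (.pos 77 .pp ⟨⟨0, 0, 0, 0, 0, 0, 0, 0, 0, ⟨0, 0⟩, 0⟩, 22689650023, 0⟩ 0 0) (.pos 78 .pp ⟨⟨0, 0, 0, 0, 0, 0, 0, 0, 0, ⟨0, 0⟩, 0⟩, 30813967495, 0⟩ 0 0)))) (.cut .v 25165824 (.pos 25 .pp ⟨⟨0, 0, 0, 0, 0, 0, 0, 0, 0, ⟨0, 0⟩, 0⟩, 0, 0⟩ 0 0) (.pos 26 .pp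 ⟨⟨0, 0, 0, 0, 0, 0, 0, 0, 0, ⟨0, 0⟩, 0⟩, 17216459905, 0⟩ 0 0))) (.pos 24 .pp ⟨⟨0, 0, 0, 0, 0, 0, 0, 0, 0, ⟨0, 0⟩, 0⟩, 0, 0⟩ 0 0)) (.cut .v 50331648 (.cut .d 41364 (.cut .v 41943040 (.pos 98 .pp ⟨⟨0, 0, 0, 0, 0, 0, 0, 0, 0, ⟨0, 0⟩, 0⟩, 37761190279, 0⟩ 0 0) (.pos 99 .pp ⟨⟨0, 0, 0, 0, 0, 0, 0, 0, 0, ⟨0, 0⟩, 0⟩, 54899047648, 0⟩ 0 0)) (.pos 96 .pp ⟨⟨0, 0, 0, 0, 0, 0, 0, 0, 0, ⟨0, 0⟩, 0⟩, 21781242098, 0⟩ 0 0)) (.pos 97 .pp ⟨⟨0, 0, 0, 0, 0, 0, 0, 0, 0, ⟨0, 0⟩, 0⟩, 58576535473, 0⟩ 0 0))) (.pos 94 .pp ⟨⟨0, 0, 0, 0, 0, 0, 0, 0, 0, ⟨0, 0⟩, 0⟩, 7756485630, 0⟩ 0 0)) (.pos 106 .pp ⟨⟨0, 0, 0, 864902820524505, 0, 0, 0, 0, 0, ⟨0, 0⟩, 0⟩, 812818779475494,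 0⟩ 0 0)) (.void 115 ⟨⟨0, 0, 0, 0, 0, 0, 0, 0, 0, ⟨0, 0⟩, 0⟩, 100000, 0⟩ 0 0)) (.void 122 ⟨⟨0, 0, 0, 0, 0, 0, 0, 0, 0, ⟨0, 0⟩, 0⟩, 100000, 0⟩ 0 0)))),
    by decide +kernel⟩

def covers47 : cell.Covers Vale.Agent.P237.Petty.Cor.Grid.N13.table row47.1 :=
  ⟨(.cut .d 0 (.cut .v 16777216 (.cut .v 8388608 (.void 2 ⟨⟨0, 0, 100000, 0, 0, 0, 0, 0, 0, ⟨0, 0⟩, 0⟩, 0, 0⟩ 0 0) (.cut .d (-8388608) (.void 3 ⟨⟨100000, 0, 0, 0, 0, 0, 0, 0, 0, ⟨0, 0⟩, 0⟩, 0, 0⟩ 0 0) (.pos 3 .mm ⟨⟨0, 0, 0, 0, 0, 703590463279, 0, 0, 0, ⟨0, 0⟩, 0⟩, 0, 0⟩ 0 0))) (.cut .v 4294967296 (.cut .v 268435456 (.cut .v 67108864 (.cut .v 33554432 (.cut .d (-8388608) (.void 24 ⟨⟨103935,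 0, 0, 3571, 0, 0, 0, 0, 0, ⟨0, 0⟩, 0⟩, 0, 0⟩ 0 0) (.cut .v 25165824 (.cut .d (-4194304) (.void 25 ⟨⟨100000, 0, 0, 0, 0, 0, 0, 0, 0, ⟨0, 0⟩, 0⟩, 0, 0⟩ 0 0) (.pos 25 .mp ⟨⟨299654861773, 0, 0, 0, 0, 272623417255, 0, 0, 0, ⟨0, 0⟩, 0⟩, 0, 0⟩ 0 0)) (.void 26 ⟨⟨100000, 0, 0, 0, 0, 0, 0, 0, 0, ⟨0, 0⟩, 0⟩, 0, 0⟩ 0 0))) (.pos 95 .mp ⟨⟨1677721600012838, 0, 0, 0, 0, 0, 0, 0, 0, ⟨0, 0⟩, 0⟩, 0, 0⟩ 0 0)) (.pos 106 .mp ⟨⟨1677721599991041, 0, 0, 0, 0, 0, 0, 0, 0, ⟨0, 0⟩, 0⟩, 0, 0⟩ 0 0)) (.void 115 ⟨⟨132432, 0, 0, 7977, 0, 0, 0, 0, 0, ⟨0, 0⟩, 0⟩, 0, 0⟩ 0 0)) (.cut .l 141961 (.void 122 ⟨⟨93015, 0, 0, 6539, 0, 0, 0, 0, 0, ⟨0, 0⟩, 0⟩, 0, 0⟩ 0 0) (.void 122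 ⟨⟨93266, 0, 0, 6734, 0, 0, 0, 0, 0, ⟨0, 0⟩, 0⟩, 0, 0⟩ 0 0)))) (.cut .v 16777216 (.cut .v 8388608 (.cut .d 66053 (.pos 2 .pm ⟨⟨0, 0, 120949277181, 0, 0, 0, 0, 0, 0, ⟨0, 0⟩, 0⟩, 0, 0⟩ 0 0) (.pos 2 .pm ⟨⟨0, 0, 20723131, 0, 0, 0, 0, 0, 0, ⟨0, 0⟩, 0⟩, 0, 0⟩ 0 0)) (.pos 3 .pm ⟨⟨0, 0, 0, 0, 0, 0, 0, 0, 0, ⟨0, 0⟩, 0⟩, 0, 0⟩ 0 0)) (.cut .v 4294967296 (.cut .v 268435456 (.cut .v 67108864 (.cut .d 66053 (.cut .v 33554432 (.cut .d 33026 (.cut .v 25165824 (.cut .d 16513 (.cut .d 8256 (.cut .v 20971520 (.cut .d 4128 (.cut .v 18874368 (.cut .d 2064 (.cut .v 17825792 (.cut .s 16654336 (.pos 31 .pp ⟨⟨144286175159, 0, 0, 0, 0, 0, 0, 0, 0, ⟨0, 0⟩, 0⟩,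 0, 0⟩ 0 0) (.cut .s 16658432 (.pos 31 .pp ⟨⟨155485618463, 0, 0, 0, 0, 0, 0, 0, 0, ⟨0, 0⟩, 0⟩, 0, 0⟩ 0 0) (.pos 31 .pp ⟨⟨164118817093, 0, 0, 0, 0, 0, 0, 0, 0, ⟨0, 0⟩, 0⟩, 0, 0⟩ 0 0))) (.pos 32 .pp ⟨⟨181746698963, 0, 0, 0, 0, 0, 0, 0, 0, ⟨0, 0⟩, 0⟩, 0, 0⟩ 0 0)) (.pos 29 .pp ⟨⟨130485791875, 0, 0, 0, 0, 0, 0, 0, 0, ⟨0, 0⟩, 0⟩, 0, 0⟩ 0 0)) (.cut .v 19922944 (.cut .d 2064 (.pos 55 .pp ⟨⟨628582567334, 0, 0, 0, 0, 0, 0, 0, 0, ⟨0, 0⟩, 0⟩, 0, 0⟩ 0 0) (.pos 55 .pp ⟨⟨181828391650, 0, 0, 0, 0, 0, 0, 0, 0, ⟨0, 0⟩, 0⟩, 0, 0⟩ 0 0)) (.pos 56 .pp ⟨⟨219376434886, 0, 0, 0, 0, 0, 0, 0, 0, ⟨0, 0⟩, 0⟩, 0, 0⟩ 0 0))) (.pos 27 .pp ⟨⟨0, 0, 0, 0, 0, 0, 0, 0, 0,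 ⟨0, 0⟩, 0⟩, 18780570280, 0⟩ 0 0)) (.cut .d 4128 (.pos 28 .pp ⟨⟨710797838972, 0, 0, 0, 0, 0, 0, 0, 0, ⟨0, 0⟩, 0⟩, 0, 0⟩ 0 0) (.cut .v 23068672 (.pos 59 .pp ⟨⟨0, 0, 0, 0, 0, 0, 0, 0, 0, ⟨0, 0⟩, 0⟩, 25741700512, 0⟩ 0 0) (.pos 60 .pp ⟨⟨0, 0, 0, 0, 0, 0, 0, 0, 0, ⟨0, 0⟩, 0⟩, 31184068031, 0⟩ 0 0)))) (.pos 25 .pp ⟨⟨0, 0, 0, 0, 0, 0, 0, 0, 0, ⟨0, 0⟩, 0⟩, 18656625405, 0⟩ 0 0)) (.pos 25 .pp ⟨⟨0, 0, 0, 0, 0, 0, 0, 0, 0, ⟨0, 0⟩, 0⟩, 0, 0⟩ 0 0)) (.cut .d 16513 (.cut .d 8256 (.void 26 ⟨⟨0, 0, 0, 0, 0, 0, 0, 0, 0, ⟨0, 0⟩, 0⟩, 100000, 0⟩ 0 0) (.cut .v 29360128 (.pos 77 .pp ⟨⟨0, 0, 0, 0, 0, 0, 0, 0, 0, ⟨0, 0⟩, 0⟩, 30747827245, 0⟩ 0 0) (.pos 78 .pp ⟨⟨0,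 0, 0, 0, 0, 0, 0, 0, 0, ⟨0, 0⟩, 0⟩, 40076754981, 0⟩ 0 0))) (.pos 26 .pp ⟨⟨0, 0, 0, 0, 0, 0, 0, 0, 0, ⟨0, 0⟩, 0⟩, 24085925683, 0⟩ 0 0))) (.pos 24 .pp ⟨⟨0, 0, 0, 0, 0, 0, 0, 0, 0, ⟨0, 0⟩, 0⟩, 0, 0⟩ 0 0)) (.cut .v 50331648 (.cut .d 33026 (.pos 96 .pp ⟨⟨0, 0, 0, 0, 0, 0, 0, 0, 0, ⟨0, 0⟩, 0⟩, 52791374489, 0⟩ 0 0) (.pos 96 .pp ⟨⟨0, 0, 0, 0, 0, 0, 0, 0, 0, ⟨0, 0⟩, 0⟩, 30489044456, 0⟩ 0 0)) (.pos 97 .pp ⟨⟨0, 0, 0, 0, 0, 0, 0, 0, 0, ⟨0, 0⟩, 0⟩, 73880818244, 0⟩ 0 0))) (.pos 94 .pp ⟨⟨0, 0, 0, 0, 0, 0, 0, 0, 0, ⟨0, 0⟩, 0⟩, 11107516577, 0⟩ 0 0)) (.void 106 ⟨⟨0, 0, 0, 51576, 0, 0, 0, 0, 0, ⟨0, 0⟩, 0⟩, 48424, 0⟩ 0 0)) (.void 115 ⟨⟨0, 0, 0, 0, 0, 0,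 0, 0, 0, ⟨0, 0⟩, 0⟩, 100000, 0⟩ 0 0)) (.void 122 ⟨⟨0, 0, 0, 0, 0, 0, 0, 0, 0, ⟨0, 0⟩, 0⟩, 100000, 0⟩ 0 0)))),
    by decide +kernel⟩

def covers48 : cell.Covers Vale.Agent.P237.Petty.Cor.Grid.N13.table row48.1 :=
  ⟨(.cut .d 0 (.cut .v 16777216 (.cut .v 8388608 (.void 2 ⟨⟨0, 0, 100000, 0, 0, 0, 0, 0, 0, ⟨0, 0⟩, 0⟩, 0, 0⟩ 0 0) (.cut .d (-8388608) (.void 3 ⟨⟨100001, 0, 0, 0, 0, 0, 0, 0, 0, ⟨0, 0⟩, 0⟩, 0, 0⟩ 0 0) (.pos 3 .mm ⟨⟨0, 0, 0, 0, 0, 1097333116790, 0, 0, 0, ⟨0, 0⟩, 0⟩, 0, 0⟩ 0 0))) (.cut .d (-8388608) (.void 121 ⟨⟨98364, 0, 3801, 3549, 0, 0, 0, 0, 0, ⟨0, 0⟩, 0⟩, 0, 0⟩ 0 0) (.cut .v 4294967296 (.cut .v 268435456 (.cut .v 67108864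 (.cut .d (-4194304) (.void 94 ⟨⟨100000, 0, 0, 0, 0, 0, 0, 0, 0, ⟨0, 0⟩, 0⟩, 0, 0⟩ 0 0) (.cut .v 33554432 (.cut .v 25165824 (.cut .s 16678912 (.pos 25 .mp ⟨⟨380474756778, 0, 0, 0, 0, 324474597145, 0, 0, 0, ⟨0, 0⟩, 0⟩, 0, 0⟩ 0 0) (.pos 25 .mp ⟨⟨503801629265, 0, 0, 0, 0, 393352411340, 0, 0, 0, ⟨0, 0⟩, 0⟩, 0, 0⟩ 0 0)) (.void 26 ⟨⟨100000, 0, 0, 0, 0, 0, 0, 0, 0, ⟨0, 0⟩, 0⟩, 0, 0⟩ 0 0)) (.void 95 ⟨⟨100000, 0, 0, 0, 0, 0, 0, 0, 0, ⟨0, 0⟩, 0⟩, 0, 0⟩ 0 0))) (.void 106 ⟨⟨100000, 0, 0, 0, 0, 0, 0, 0, 0, ⟨0, 0⟩, 0⟩, 0, 0⟩ 0 0)) (.void 115 ⟨⟨90379, 0, 0, 9638, 0, 0, 0, 0, 0, ⟨0, 0⟩, 0⟩, 0, 0⟩ 0 0)) (.void 122 ⟨⟨90365, 0, 0, 9635, 0, 0, 0, 0, 0, ⟨0,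 0⟩, 0⟩, 0, 0⟩ 0 0)))) (.cut .v 16777216 (.cut .v 8388608 (.cut .d 57740 (.pos 2 .pm ⟨⟨0, 0, 155817064096, 0, 0, 0, 0, 0, 0, ⟨0, 0⟩, 0⟩, 0, 0⟩ 0 0) (.pos 2 .pm ⟨⟨0, 0, 20519574, 0, 0, 0, 0, 0, 0, ⟨0, 0⟩, 0⟩, 0, 0⟩ 0 0)) (.pos 3 .pm ⟨⟨0, 0, 0, 0, 0, 0, 0, 0, 0, ⟨0, 0⟩, 0⟩, 0, 0⟩ 0 0)) (.cut .v 4294967296 (.cut .v 268435456 (.cut .v 67108864 (.cut .d 57740 (.cut .v 33554432 (.cut .d 28870 (.cut .d 14435 (.cut .v 25165824 (.cut .d 7217 (.cut .v 20971520 (.cut .d 3608 (.cut .v 18874368 (.cut .d 1804 (.cut .v 17825792 (.cut .d 902 (.cut .l 141961 (.cut .v 17301504 (.cut .d 451 (.cut .l 70980 (.cut .l 35490 (.cut .s 16678912 (.cut .s 16670720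 (.pos 33 .pp ⟨⟨172524638584, 0, 0, 0, 0, 0, 0, 0, 0, ⟨0, 0⟩, 0⟩, 0, 0⟩ 0 0) (.pos 33 .pp ⟨⟨194690371991, 0, 0, 0, 0, 0, 0, 0, 0, ⟨0, 0⟩, 0⟩, 0, 0⟩ 0 0)) (.cut .s 16687104 (.pos 33 .pp ⟨⟨222473765286, 0, 0, 0, 0, 0, 0, 0, 0, ⟨0, 0⟩, 0⟩, 0, 0⟩ 0 0) (.pos 33 .pp ⟨⟨256967097254, 0, 0, 0, 0, 0, 0, 0, 0, ⟨0, 0⟩, 0⟩, 0, 0⟩ 0 0))) (.pos 33 .pp ⟨⟨205865854509, 0, 0, 0, 0, 0, 0, 0, 0, ⟨0, 0⟩, 0⟩, 0, 0⟩ 0 0)) (.pos 33 .pp ⟨⟨196650916532, 0, 0, 0, 0, 0, 0, 0, 0, ⟨0, 0⟩, 0⟩, 0, 0⟩ 0 0)) (.pos 33 .pp ⟨⟨154434366507, 0, 0, 0, 0, 0, 0, 0, 0, ⟨0, 0⟩, 0⟩, 0, 0⟩ 0 0)) (.cut .d 451 (.pos 34 .pp ⟨⟨335258000941, 0, 0, 0, 0, 0, 0, 0, 0, ⟨0, 0⟩, 0⟩, 0, 0⟩ 0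 0) (.pos 34 .pp ⟨⟨226481006715, 0, 0, 0, 0, 0, 0, 0, 0, ⟨0, 0⟩, 0⟩, 0, 0⟩ 0 0))) (.pos 31 .pp ⟨⟨200605284246, 0, 0, 0, 0, 0, 0, 0, 0, ⟨0, 0⟩, 0⟩, 0, 0⟩ 0 0)) (.pos 31 .pp ⟨⟨158077517446, 0, 0, 0, 0, 0, 0, 0, 0, ⟨0, 0⟩, 0⟩, 0, 0⟩ 0 0)) (.cut .d 902 (.pos 32 .pp ⟨⟨350816378352, 0, 0, 0, 0, 0, 0, 0, 0, ⟨0, 0⟩, 0⟩, 0, 0⟩ 0 0) (.cut .v 18350080 (.pos 118 .pp ⟨⟨214505040655, 0, 0, 0, 0, 0, 0, 0, 0, ⟨0, 0⟩, 0⟩, 0, 0⟩ 0 0) (.pos 119 .pp ⟨⟨273276509953, 0, 0, 0, 0, 0, 0, 0, 0, ⟨0, 0⟩, 0⟩, 0, 0⟩ 0 0)))) (.pos 29 .pp ⟨⟨165573373163, 0, 0, 0, 0, 0, 0, 0, 0, ⟨0, 0⟩, 0⟩, 0, 0⟩ 0 0)) (.cut .d 1804 (.pos 30 .pp ⟨⟨382778668228, 0, 0, 0, 0, 0, 0, 0, 0,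 ⟨0, 0⟩, 0⟩, 0, 0⟩ 0 0) (.cut .l 141961 (.cut .v 19922944 (.cut .s 16678912 (.pos 55 .pp ⟨⟨225238180960, 0, 0, 0, 0, 0, 0, 0, 0, ⟨0, 0⟩, 0⟩, 0, 0⟩ 0 0) (.pos 55 .pp ⟨⟨273555852662, 0, 0, 0, 0, 0, 0, 0, 0, ⟨0, 0⟩, 0⟩, 0, 0⟩ 0 0)) (.cut .s 16678912 (.pos 56 .pp ⟨⟨269685378132, 0, 0, 0, 0, 0, 0, 0, 0, ⟨0, 0⟩, 0⟩, 0, 0⟩ 0 0) (.cut .d 2706 (.pos 56 .pp ⟨⟨376726166732, 0, 0, 0, 0, 0, 0, 0, 0, ⟨0, 0⟩, 0⟩, 0, 0⟩ 0 0) (.pos 56 .pp ⟨⟨154585804800, 0, 0, 0, 0, 0, 0, 0, 0, ⟨0, 0⟩, 0⟩, 17924778744, 0⟩ 0 0)))) (.pos 30 .pp ⟨⟨265108144469, 0, 0, 0, 0, 0, 0, 0, 0, ⟨0, 0⟩, 0⟩, 0, 0⟩ 0 0)))) (.cut .s 16678912 (.pos 27 .pp ⟨⟨0, 0, 0, 0, 0, 0, 0, 0, 0, ⟨0,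 0⟩, 0⟩, 23416378626, 0⟩ 0 0) (.pos 27 .pp ⟨⟨0, 0, 0, 0, 0, 0, 0, 0, 0, ⟨0, 0⟩, 0⟩, 28313102131, 0⟩ 0 0))) (.cut .d 3608 (.cut .v 23068672 (.pos 59 .pp ⟨⟨0, 0, 0, 0, 0, 0, 0, 0, 0, ⟨0, 0⟩, 0⟩, 59261460194, 0⟩ 0 0) (.void 60 ⟨⟨0, 0, 0, 0, 0, 0, 0, 0, 0, ⟨0, 0⟩, 0⟩, 100000, 0⟩ 0 0)) (.cut .v 23068672 (.cut .s 16678912 (.cut .v 22020096 (.pos 63 .pp ⟨⟨0, 0, 0, 0, 0, 0, 0, 0, 0, ⟨0, 0⟩, 0⟩, 30628135176, 0⟩ 0 0) (.pos 64 .pp ⟨⟨0, 0, 0, 0, 0, 0, 0, 0, 0, ⟨0, 0⟩, 0⟩, 34534702991, 0⟩ 0 0)) (.pos 59 .pp ⟨⟨0, 0, 0, 0, 0, 0, 0, 0, 0, ⟨0, 0⟩, 0⟩, 38674113155, 0⟩ 0 0)) (.cut .s 16678912 (.pos 60 .pp ⟨⟨0, 0, 0, 0, 0, 0, 0, 0, 0, ⟨0, 0⟩, 0⟩, 38729507336,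 0⟩ 0 0) (.pos 60 .pp ⟨⟨0, 0, 0, 0, 0, 0, 0, 0, 0, ⟨0, 0⟩, 0⟩, 48416936366, 0⟩ 0 0))))) (.pos 25 .pp ⟨⟨0, 0, 0, 0, 0, 0, 0, 0, 0, ⟨0, 0⟩, 0⟩, 23427391186, 0⟩ 0 0)) (.cut .d 7217 (.pos 26 .pp ⟨⟨0, 0, 0, 0, 0, 0, 0, 0, 0, ⟨0, 0⟩, 0⟩, 67318134666, 0⟩ 0 0) (.cut .v 29360128 (.pos 77 .pp ⟨⟨0, 0, 0, 0, 0, 0, 0, 0, 0, ⟨0, 0⟩, 0⟩, 40288341055, 0⟩ 0 0) (.pos 78 .pp ⟨⟨0, 0, 0, 0, 0, 0, 0, 0, 0, ⟨0, 0⟩, 0⟩, 58394359883, 0⟩ 0 0)))) (.cut .v 25165824 (.pos 25 .pp ⟨⟨0, 0, 0, 0, 0, 0, 0, 0, 0, ⟨0, 0⟩, 0⟩, 0, 0⟩ 0 0) (.pos 26 .pp ⟨⟨0, 0, 0, 0, 0, 0, 0, 0, 0, ⟨0, 0⟩, 0⟩, 31408261130, 0⟩ 0 0))) (.pos 24 .pp ⟨⟨0, 0, 0, 0, 0, 0, 0, 0, 0, ⟨0, 0⟩, 0⟩, 0, 0⟩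 0 0)) (.cut .v 50331648 (.cut .d 28870 (.cut .d 14435 (.pos 96 .pp ⟨⟨0, 0, 0, 0, 0, 0, 0, 0, 0, ⟨0, 0⟩, 0⟩, 156269149746, 0⟩ 0 0) (.cut .v 41943040 (.pos 98 .pp ⟨⟨0, 0, 0, 0, 0, 0, 0, 0, 0, ⟨0, 0⟩, 0⟩, 55101840848, 0⟩ 0 0) (.pos 99 .pp ⟨⟨0, 0, 0, 0, 0, 0, 0, 0, 0, ⟨0, 0⟩, 0⟩, 127737707874, 0⟩ 0 0))) (.pos 96 .pp ⟨⟨0, 0, 0, 0, 0, 0, 0, 0, 0, ⟨0, 0⟩, 0⟩, 39883678578, 0⟩ 0 0)) (.pos 97 .pp ⟨⟨0, 0, 0, 0, 0, 0, 0, 0, 0, ⟨0, 0⟩, 0⟩, 115055695178, 0⟩ 0 0))) (.pos 94 .pp ⟨⟨0, 0, 0, 0, 0, 0, 0, 0, 0, ⟨0, 0⟩, 0⟩, 14123212634, 0⟩ 0 0)) (.void 106 ⟨⟨0, 0, 0, 51294, 0, 0, 0, 0, 0, ⟨0, 0⟩, 0⟩, 48706, 0⟩ 0 0)) (.void 115 ⟨⟨0, 0, 0, 51294, 0, 0, 0,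 0, 0, ⟨0, 0⟩, 0⟩, 48706, 0⟩ 0 0)) (.void 122 ⟨⟨0, 0, 0, 51294, 0, 0, 0, 0, 0, ⟨0, 0⟩, 0⟩, 48706, 0⟩ 0 0)))),
    by decide +kernel⟩

def covers49 : cell.Covers Vale.Agent.P237.Petty.Cor.Grid.N13.table row49.1 :=
  ⟨(.cut .d 0 (.cut .v 16777216 (.cut .v 8388608 (.void 2 ⟨⟨0, 0, 103255, 0, 0, 0, 0, 0, 0, ⟨0, 0⟩, 0⟩, 0, 0⟩ 0 0) (.pos 3 .mm ⟨⟨0, 0, 0, 0, 0, 2103880100813, 0, 0, 0, ⟨0, 0⟩, 0⟩, 0, 0⟩ 0 0)) (.cut .v 4294967296 (.cut .v 268435456 (.cut .v 67108864 (.cut .v 33554432 (.cut .d (-8388608) (.void 24 ⟨⟨110046, 0, 18709, 6955, 0, 0, 0, 0, 0, ⟨0, 0⟩, 0⟩, 0, 0⟩ 0 0) (.cut .v 25165824 (.cut .d (-4194304) (.void 25 ⟨⟨100000, 0, 0, 0, 0,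 0, 0, 0, 0, ⟨0, 0⟩, 0⟩, 0, 0⟩ 0 0) (.pos 25 .mp ⟨⟨708925880317, 0, 0, 0, 0, 496553106636, 0, 0, 0, ⟨0, 0⟩, 0⟩, 0, 0⟩ 0 0)) (.void 26 ⟨⟨100000, 0, 0, 0, 0, 0, 0, 0, 0, ⟨0, 0⟩, 0⟩, 0, 0⟩ 0 0))) (.pos 95 .mp ⟨⟨1677721599979334, 0, 0, 0, 0, 0, 0, 0, 0, ⟨0, 0⟩, 0⟩, 0, 0⟩ 0 0)) (.pos 106 .mp ⟨⟨1677721599982149, 0, 0, 0, 0, 0, 32, 0, 0, ⟨0, 0⟩, 0⟩, 0, 0⟩ 0 0)) (.pos 115 .mp ⟨⟨1602408416205999, 0, 0, 75313183795150, 0, 0, 0, 0, 0, ⟨0, 0⟩, 0⟩, 0, 0⟩ 0 0)) (.void 122 ⟨⟨86460, 0, 7035, 6580, 0, 0, 0, 0, 0, ⟨0, 0⟩, 0⟩, 0, 0⟩ 0 0))) (.cut .v 16777216 (.cut .v 8388608 (.cut .d 41162 (.pos 2 .pm ⟨⟨0, 0, 261694183324, 0, 0, 0, 0, 0, 0, ⟨0, 0⟩, 0⟩, 0,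 0⟩ 0 0) (.pos 2 .pm ⟨⟨0, 0, 20620553, 0, 0, 0, 0, 0, 0, ⟨0, 0⟩, 0⟩, 0, 0⟩ 0 0)) (.pos 3 .pm ⟨⟨0, 0, 0, 0, 0, 0, 0, 0, 0, ⟨0, 0⟩, 0⟩, 0, 0⟩ 0 0)) (.cut .v 4294967296 (.cut .v 268435456 (.cut .v 67108864 (.cut .d 41162 (.cut .v 33554432 (.cut .d 20581 (.cut .d 10290 (.cut .v 25165824 (.cut .d 5145 (.cut .v 20971520 (.cut .d 2572 (.cut .v 18874368 (.cut .d 1286 (.cut .l 141961 (.cut .v 17825792 (.cut .d 643 (.cut .v 17301504 (.cut .d 321 (.cut .v 17039360 (.cut .s 16703488 (.pos 35 .pp ⟨⟨295699696704, 0, 0, 0, 0, 0, 0, 0, 0, ⟨0, 0⟩, 0⟩, 0, 0⟩ 0 0) (.cut .s 16707584 (.pos 35 .pp ⟨⟨340518517160, 0, 0, 0, 0, 0, 0, 0, 0, ⟨0, 0⟩, 0⟩, 0, 0⟩ 0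 0) (.pos 35 .pp ⟨⟨373056951695, 0, 0, 0, 0, 0, 0, 0, 0, ⟨0, 0⟩, 0⟩, 0, 0⟩ 0 0))) (.pos 36 .pp ⟨⟨373129162604, 0, 0, 0, 0, 0, 0, 0, 0, ⟨0, 0⟩, 0⟩, 0, 0⟩ 0 0)) (.pos 33 .pp ⟨⟨254397342735, 0, 0, 0, 0, 0, 0, 0, 0, ⟨0, 0⟩, 0⟩, 0, 0⟩ 0 0)) (.pos 34 .pp ⟨⟨386848245217, 0, 0, 0, 0, 0, 0, 0, 0, ⟨0, 0⟩, 0⟩, 0, 0⟩ 0 0)) (.pos 31 .pp ⟨⟨260425206543, 0, 0, 0, 0, 0, 0, 0, 0, ⟨0, 0⟩, 0⟩, 0, 0⟩ 0 0)) (.cut .s 16703488 (.pos 32 .pp ⟨⟨363002185348, 0, 0, 0, 0, 0, 0, 0, 0, ⟨0, 0⟩, 0⟩, 0, 0⟩ 0 0) (.pos 32 .pp ⟨⟨428727703727, 0, 0, 0, 0, 0, 0, 0, 0, ⟨0, 0⟩, 0⟩, 0, 0⟩ 0 0))) (.pos 29 .pp ⟨⟨344429190997, 0, 0, 0, 0, 0, 0, 0, 0, ⟨0, 0⟩, 0⟩, 0, 0⟩ 0 0)) (.pos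 29 .pp ⟨⟨272963151075, 0, 0, 0, 0, 0, 0, 0, 0, ⟨0, 0⟩, 0⟩, 0, 0⟩ 0 0)) (.cut .d 1286 (.pos 30 .pp ⟨⟨543052708353, 0, 0, 0, 0, 0, 0, 0, 0, ⟨0, 0⟩, 0⟩, 0, 0⟩ 0 0) (.cut .v 19922944 (.pos 55 .pp ⟨⟨390928756250, 0, 0, 0, 0, 0, 0, 0, 0, ⟨0, 0⟩, 0⟩, 0, 0⟩ 0 0) (.pos 56 .pp ⟨⟨489610166307, 0, 0, 0, 0, 0, 0, 0, 0, ⟨0, 0⟩, 0⟩, 0, 0⟩ 0 0)))) (.pos 27 .pp ⟨⟨0, 0, 0, 0, 0, 0, 0, 0, 0, ⟨0, 0⟩, 0⟩, 39214287688, 0⟩ 0 0)) (.cut .d 2572 (.pos 28 .pp ⟨⟨0, 0, 0, 0, 0, 0, 0, 0, 0, ⟨0, 0⟩, 0⟩, 76417144936, 0⟩ 0 0) (.cut .v 23068672 (.cut .v 22020096 (.pos 63 .pp ⟨⟨0, 0, 0, 0, 0, 0, 0, 0, 0, ⟨0, 0⟩, 0⟩, 51996792809, 0⟩ 0 0) (.pos 64 .pp ⟨⟨0, 0, 0, 0, 0, 0,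 0, 0, 0, ⟨0, 0⟩, 0⟩, 60616581288, 0⟩ 0 0)) (.pos 60 .pp ⟨⟨0, 0, 0, 0, 0, 0, 0, 0, 0, ⟨0, 0⟩, 0⟩, 70392031584, 0⟩ 0 0)))) (.pos 25 .pp ⟨⟨0, 0, 0, 0, 0, 0, 0, 0, 0, ⟨0, 0⟩, 0⟩, 38722218113, 0⟩ 0 0)) (.cut .d 5145 (.pos 26 .pp ⟨⟨0, 0, 0, 0, 0, 0, 0, 0, 0, ⟨0, 0⟩, 0⟩, 222486820721, 0⟩ 0 0) (.cut .v 29360128 (.pos 77 .pp ⟨⟨0, 0, 0, 0, 0, 0, 0, 0, 0, ⟨0, 0⟩, 0⟩, 66293832128, 0⟩ 0 0) (.pos 78 .pp ⟨⟨0, 0, 0, 0, 0, 0, 0, 0, 0, ⟨0, 0⟩, 0⟩, 89838719061, 0⟩ 0 0)))) (.cut .v 25165824 (.pos 25 .pp ⟨⟨0, 0, 0, 0, 0, 0, 0, 0, 0, ⟨0, 0⟩, 0⟩, 0, 0⟩ 0 0) (.pos 26 .pp ⟨⟨0, 0, 0, 0, 0, 0, 0, 0, 0, ⟨0, 0⟩, 0⟩, 50653473710, 0⟩ 0 0))) (.pos 24 .pp ⟨⟨0, 0, 0,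 0, 0, 0, 0, 0, 0, ⟨0, 0⟩, 0⟩, 0, 0⟩ 0 0)) (.cut .v 50331648 (.cut .d 20581 (.cut .v 41943040 (.pos 98 .pp ⟨⟨0, 0, 0, 0, 0, 0, 0, 0, 0, ⟨0, 0⟩, 0⟩, 109855027049, 0⟩ 0 0) (.pos 99 .pp ⟨⟨0, 0, 0, 0, 0, 0, 0, 0, 0, ⟨0, 0⟩, 0⟩, 159863977373, 0⟩ 0 0)) (.pos 96 .pp ⟨⟨0, 0, 0, 0, 0, 0, 0, 0, 0, ⟨0, 0⟩, 0⟩, 64282172940, 0⟩ 0 0)) (.pos 97 .pp ⟨⟨0, 0, 0, 0, 0, 0, 0, 0, 0, ⟨0, 0⟩, 0⟩, 170312415040, 0⟩ 0 0))) (.pos 94 .pp ⟨⟨0, 0, 0, 0, 0, 0, 0, 0, 0, ⟨0, 0⟩, 0⟩, 23625837986, 0⟩ 0 0)) (.void 106 ⟨⟨0, 0, 0, 51639, 0, 0, 0, 0, 0, ⟨0, 0⟩, 0⟩, 48361, 0⟩ 0 0)) (.void 115 ⟨⟨0, 0, 0, 0, 0, 0, 0, 0, 0, ⟨0, 0⟩, 0⟩, 100000, 0⟩ 0 0)) (.void 122 ⟨⟨0, 0, 0, 0,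 0, 0, 0, 0, 0, ⟨0, 0⟩, 0⟩, 100000, 0⟩ 0 0)))),
    by decide +kernel⟩

def covers50 : cell.Covers Vale.Agent.P237.Petty.Cor.Grid.N13.table row50.1 :=
  ⟨(.cut .d 0 (.cut .v 16777216 (.cut .v 8388608 (.void 2 ⟨⟨0, 0, 100388, 0, 0, 0, 0, 0, 0, ⟨0, 0⟩, 0⟩, 0, 0⟩ 0 0) (.pos 3 .mm ⟨⟨0, 0, 0, 0, 0, 3010269598452, 0, 0, 0, ⟨0, 0⟩, 0⟩, 0, 0⟩ 0 0)) (.cut .d (-8388608) (.void 121 ⟨⟨33396, 0, 0, 0, 0, 0, 0, 0, 0, ⟨0, 0⟩, 0⟩, 0, 0⟩ 0 0) (.cut .v 4294967296 (.cut .v 268435456 (.cut .v 67108864 (.cut .v 33554432 (.cut .v 25165824 (.cut .d (-4194304) (.void 25 ⟨⟨6231624598, 0, 0, 0, 0, 9972128315, 0, 0, 0, ⟨0, 0⟩, 0⟩, 0, 0⟩ 0 0) (.cut .s 16719872 (.pos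 25 .mp ⟨⟨880210417921, 0, 0, 0, 0, 556657210177, 0, 0, 0, ⟨0, 0⟩, 0⟩, 0, 0⟩ 0 0) (.pos 25 .mp ⟨⟨1114299847840, 0, 0, 0, 0, 652391374160, 0, 0, 0, ⟨0, 0⟩, 0⟩, 0, 0⟩ 0 0))) (.void 26 ⟨⟨100000, 0, 0, 0, 0, 0, 0, 0, 0, ⟨0, 0⟩, 0⟩, 0, 0⟩ 0 0)) (.void 95 ⟨⟨100000, 0, 0, 0, 0, 0, 0, 0, 0, ⟨0, 0⟩, 0⟩, 0, 0⟩ 0 0)) (.void 106 ⟨⟨100000, 0, 0, 0, 0, 0, 0, 0, 0, ⟨0, 0⟩, 0⟩, 0, 0⟩ 0 0)) (.void 115 ⟨⟨90348, 0, 0, 9652, 0, 0, 0, 0, 0, ⟨0, 0⟩, 0⟩, 0, 0⟩ 0 0)) (.void 122 ⟨⟨90348, 0, 0, 9652, 0, 0, 0, 0, 0, ⟨0, 0⟩, 0⟩, 0, 0⟩ 0 0)))) (.cut .v 16777216 (.cut .v 8388608 (.cut .d 32898 (.pos 2 .pm ⟨⟨0, 0, 374086424269, 0, 0, 0, 0, 0, 0, ⟨0, 0⟩, 0⟩, 0, 0⟩ 0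 0) (.pos 2 .pm ⟨⟨0, 0, 20478076, 0, 0, 0, 0, 0, 0, ⟨0, 0⟩, 0⟩, 0, 0⟩ 0 0)) (.pos 3 .pm ⟨⟨0, 0, 0, 0, 0, 0, 0, 0, 0, ⟨0, 0⟩, 0⟩, 0, 0⟩ 0 0)) (.cut .v 4294967296 (.cut .v 268435456 (.cut .v 67108864 (.cut .d 32898 (.cut .v 33554432 (.cut .d 16449 (.cut .d 8224 (.cut .v 25165824 (.cut .d 4112 (.cut .v 20971520 (.cut .d 2056 (.cut .v 18874368 (.cut .d 1028 (.cut .v 17825792 (.cut .d 514 (.cut .l 141961 (.cut .l 70980 (.cut .v 17301504 (.cut .d 257 (.cut .v 17039360 (.cut .d 128 (.cut .v 16908288 (.cut .d 64 (.cut .v 16842752 (.cut .d 32 (.cut .v 16809984 (.cut .l 35490 (.cut .l 17745 (.cut .l 8872 (.cut .l 4436 (.cut .l 2218 (.cut .s 16719872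 (.cut .s 16715776 (.pos 49 .pp ⟨⟨406876924996, 0, 0, 0, 0, 0, 0, 0, 0, ⟨0, 0⟩, 0⟩, 0, 0⟩ 0 0) (.pos 49 .pp ⟨⟨449930864116, 0, 0, 0, 0, 0, 0, 0, 0, ⟨0, 0⟩, 0⟩, 0, 0⟩ 0 0)) (.cut .s 16723968 (.pos 49 .pp ⟨⟨502918590388, 0, 0, 0, 0, 0, 0, 0, 0, ⟨0, 0⟩, 0⟩, 0, 0⟩ 0 0) (.pos 49 .pp ⟨⟨566451474263, 0, 0, 0, 0, 0, 0, 0, 0, ⟨0, 0⟩, 0⟩, 0, 0⟩ 0 0))) (.pos 49 .pp ⟨⟨447108824624, 0, 0, 0, 0, 0, 0, 0, 0, ⟨0, 0⟩, 0⟩, 0, 0⟩ 0 0)) (.pos 49 .pp ⟨⟨436580853770, 0, 0, 0, 0, 0, 0, 0, 0, ⟨0, 0⟩, 0⟩, 0, 0⟩ 0 0)) (.pos 49 .pp ⟨⟨385188653184, 0, 0, 0, 0, 0, 0, 0, 0, ⟨0, 0⟩, 0⟩, 4416258215, 0⟩ 0 0)) (.pos 49 .pp ⟨⟨41488817281, 0, 0, 0, 0, 0, 0, 0, 0, ⟨0, 0⟩,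 0⟩, 50218950626, 0⟩ 0 0)) (.pos 49 .pp ⟨⟨0, 0, 0, 0, 0, 0, 0, 0, 0, ⟨0, 0⟩, 0⟩, 0, 0⟩ 0 0)) (.pos 50 .pp ⟨⟨549641146256, 0, 0, 0, 0, 0, 0, 0, 0, ⟨0, 0⟩, 0⟩, 0, 0⟩ 0 0)) (.pos 39 .pp ⟨⟨355801059257, 0, 0, 0, 0, 0, 0, 0, 0, ⟨0, 0⟩, 0⟩, 0, 0⟩ 0 0)) (.pos 40 .pp ⟨⟨550711959197, 0, 0, 0, 0, 0, 0, 0, 0, ⟨0, 0⟩, 0⟩, 0, 0⟩ 0 0)) (.pos 37 .pp ⟨⟨356858992121, 0, 0, 0, 0, 0, 0, 0, 0, ⟨0, 0⟩, 0⟩, 0, 0⟩ 0 0)) (.pos 38 .pp ⟨⟨554110928866, 0, 0, 0, 0, 0, 0, 0, 0, ⟨0, 0⟩, 0⟩, 0, 0⟩ 0 0)) (.pos 35 .pp ⟨⟨358981189193, 0, 0, 0, 0, 0, 0, 0, 0, ⟨0, 0⟩, 0⟩, 0, 0⟩ 0 0)) (.pos 36 .pp ⟨⟨564420693740, 0, 0, 0, 0, 0, 0, 0, 0, ⟨0, 0⟩, 0⟩, 0, 0⟩ 0 0)) (.pos 33 .pp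 ⟨⟨362948584771, 0, 0, 0, 0, 0, 0, 0, 0, ⟨0, 0⟩, 0⟩, 0, 0⟩ 0 0)) (.cut .s 16719872 (.pos 34 .pp ⟨⟨490766477898, 0, 0, 0, 0, 0, 0, 0, 0, ⟨0, 0⟩, 0⟩, 0, 0⟩ 0 0) (.pos 34 .pp ⟨⟨609164919163, 0, 0, 0, 0, 0, 0, 0, 0, ⟨0, 0⟩, 0⟩, 0, 0⟩ 0 0))) (.pos 31 .pp ⟨⟨483552873291, 0, 0, 0, 0, 0, 0, 0, 0, ⟨0, 0⟩, 0⟩, 0, 0⟩ 0 0)) (.pos 31 .pp ⟨⟨462821877897, 0, 0, 0, 0, 0, 0, 0, 0, ⟨0, 0⟩, 0⟩, 0, 0⟩ 0 0)) (.pos 31 .pp ⟨⟨371549278102, 0, 0, 0, 0, 0, 0, 0, 0, ⟨0, 0⟩, 0⟩, 0, 0⟩ 0 0)) (.cut .d 514 (.pos 32 .pp ⟨⟨731704867985, 0, 0, 0, 0, 0, 0, 0, 0, ⟨0, 0⟩, 0⟩, 0, 0⟩ 0 0) (.cut .v 18350080 (.pos 118 .pp ⟨⟨506433099896, 0, 0, 0, 0, 0, 0, 0, 0, ⟨0, 0⟩, 0⟩, 0,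 0⟩ 0 0) (.pos 119 .pp ⟨⟨629185595976, 0, 0, 0, 0, 0, 0, 0, 0, ⟨0, 0⟩, 0⟩, 0, 0⟩ 0 0)))) (.pos 29 .pp ⟨⟨389231233429, 0, 0, 0, 0, 0, 0, 0, 0, ⟨0, 0⟩, 0⟩, 0, 0⟩ 0 0)) (.cut .d 1028 (.pos 30 .pp ⟨⟨839202004696, 0, 0, 0, 0, 0, 0, 0, 0, ⟨0, 0⟩, 0⟩, 0, 0⟩ 0 0) (.cut .l 141961 (.cut .v 19922944 (.cut .s 16719872 (.pos 55 .pp ⟨⟨528364822814, 0, 0, 0, 0, 0, 0, 0, 0, ⟨0, 0⟩, 0⟩, 0, 0⟩ 0 0) (.pos 55 .pp ⟨⟨628699540778, 0, 0, 0, 0, 0, 0, 0, 0, ⟨0, 0⟩, 0⟩, 0, 0⟩ 0 0)) (.cut .d 1542 (.pos 56 .pp ⟨⟨867364315121, 0, 0, 0, 0, 0, 0, 0, 0, ⟨0, 0⟩, 0⟩, 0, 0⟩ 0 0) (.pos 56 .pp ⟨⟨512200988043, 0, 0, 0, 0, 0, 0, 0, 0, ⟨0, 0⟩, 0⟩, 16755147699, 0⟩ 0 0))) (.pos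 30 .pp ⟨⟨615783611101, 0, 0, 0, 0, 0, 0, 0, 0, ⟨0, 0⟩, 0⟩, 0, 0⟩ 0 0)))) (.cut .s 16719872 (.pos 27 .pp ⟨⟨0, 0, 0, 0, 0, 0, 0, 0, 0, ⟨0, 0⟩, 0⟩, 55366619433, 0⟩ 0 0) (.pos 27 .pp ⟨⟨0, 0, 0, 0, 0, 0, 0, 0, 0, ⟨0, 0⟩, 0⟩, 65394946877, 0⟩ 0 0))) (.cut .d 2056 (.pos 28 .pp ⟨⟨295218929889, 0, 0, 0, 0, 0, 0, 0, 0, ⟨0, 0⟩, 0⟩, 85951716356, 0⟩ 0 0) (.cut .v 23068672 (.cut .v 22020096 (.cut .s 16719872 (.pos 63 .pp ⟨⟨0, 0, 0, 0, 0, 0, 0, 0, 0, ⟨0, 0⟩, 0⟩, 72374480311, 0⟩ 0 0) (.pos 63 .pp ⟨⟨0, 0, 0, 0, 0, 0, 0, 0, 0, ⟨0, 0⟩, 0⟩, 85909014863, 0⟩ 0 0)) (.pos 64 .pp ⟨⟨0, 0, 0, 0, 0, 0, 0, 0, 0, ⟨0, 0⟩, 0⟩, 87439644406, 0⟩ 0 0)) (.pos 60 .pp ⟨⟨0,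 0, 0, 0, 0, 0, 0, 0, 0, ⟨0, 0⟩, 0⟩, 104132496544, 0⟩ 0 0)))) (.pos 25 .pp ⟨⟨0, 0, 0, 0, 0, 0, 0, 0, 0, ⟨0, 0⟩, 0⟩, 55084401875, 0⟩ 0 0)) (.cut .d 4112 (.pos 26 .pp ⟨⟨0, 0, 0, 0, 0, 0, 0, 0, 0, ⟨0, 0⟩, 0⟩, 147903298083, 0⟩ 0 0) (.cut .v 29360128 (.pos 77 .pp ⟨⟨0, 0, 0, 0, 0, 0, 0, 0, 0, ⟨0, 0⟩, 0⟩, 95051036023, 0⟩ 0 0) (.pos 78 .pp ⟨⟨0, 0, 0, 0, 0, 0, 0, 0, 0, ⟨0, 0⟩, 0⟩, 133654393237, 0⟩ 0 0)))) (.cut .v 25165824 (.pos 25 .pp ⟨⟨0, 0, 0, 0, 0, 0, 0, 0, 0, ⟨0, 0⟩, 0⟩, 0, 0⟩ 0 0) (.pos 26 .pp ⟨⟨0, 0, 0, 0, 0, 0, 0, 0, 0, ⟨0, 0⟩, 0⟩, 72909317669, 0⟩ 0 0))) (.pos 24 .pp ⟨⟨0, 0, 0, 0, 0, 0, 0, 0, 0, ⟨0, 0⟩, 0⟩, 0, 0⟩ 0 0)) (.cut .v 50331648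 (.cut .d 16449 (.cut .d 8224 (.void 96 ⟨⟨0, 0, 0, 0, 0, 0, 0, 0, 0, ⟨0, 0⟩, 0⟩, 100000, 0⟩ 0 0) (.pos 96 .pp ⟨⟨0, 0, 0, 0, 0, 0, 0, 0, 0, ⟨0, 0⟩, 0⟩, 151004884954, 0⟩ 0 0)) (.pos 96 .pp ⟨⟨0, 0, 0, 0, 0, 0, 0, 0, 0, ⟨0, 0⟩, 0⟩, 92620046097, 0⟩ 0 0)) (.pos 97 .pp ⟨⟨0, 0, 0, 0, 0, 0, 0, 0, 0, ⟨0, 0⟩, 0⟩, 257795829412, 0⟩ 0 0))) (.pos 94 .pp ⟨⟨0, 0, 0, 0, 0, 0, 0, 0, 0, ⟨0, 0⟩, 0⟩, 33792301538, 0⟩ 0 0)) (.void 106 ⟨⟨0, 0, 0, 51661, 0, 0, 0, 0, 0, ⟨0, 0⟩, 0⟩, 48339, 0⟩ 0 0)) (.void 115 ⟨⟨0, 0, 0, 0, 0, 0, 0, 0, 0, ⟨0, 0⟩, 0⟩, 100000, 0⟩ 0 0)) (.void 122 ⟨⟨0, 0, 0, 0, 0, 0, 0, 0, 0, ⟨0, 0⟩, 0⟩, 100000, 0⟩ 0 0)))),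
    by decide +kernel⟩

end Vale.Agent.P237.Petty.Cor.Grid.Tiny.N13
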