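import Vale.Agent.P237.Petty.Cor.Grid.Tiny.N13.Cert

/-!
# P237: a cell down to zero in dimension 13, subdivisions
-/

namespace Vale.Agent.P237.Petty.Cor.Grid.Tiny.N13

def covers0 : cell.Covers Vale.Agent.P237.Petty.Cor.Grid.N13.table row0.1 :=
  ⟨(.cut .d 0 (.cut .v 16777216 (.cut .v 8388608 (.cut .s 851968 (.cut .s 425984 (.cut .s 212992 (.cut .v 4194304 (.cut .v 2097152 (.void 6 ⟨⟨0, 0, 100000, 0, 0, 0, 0, 0, 0, ⟨0, 0⟩, 0⟩, 0, 0⟩ 0 0) (.pos 7 .mm ⟨⟨0, 0, 0, 0, 0, 0, 0, 0, 0, ⟨0, 0⟩, 0⟩, 0, 0⟩ 0 0)) (.cut .d (-8388608) (.pos 5 .mm ⟨⟨0, 0, 0, 0, 0, 0, 0, 0, 0, ⟨0, 0⟩, 0⟩, 0, 0⟩ 0 0) (.pos 5 .mm ⟨⟨0, 0, 0, 0, 0, 0, 0, 0, 0, ⟨0,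 0⟩, 0⟩, 0, 0⟩ 0 0))) (.void 2 ⟨⟨0, 0, 0, 0, 50000, 50000, 0, 0, 0, ⟨0, 0⟩, 0⟩, 0, 0⟩ 0 0)) (.void 2 ⟨⟨0, 0, 0, 0, 50000, 50000, 0, 0, 0, ⟨0, 0⟩, 0⟩, 0, 0⟩ 0 0)) (.void 2 ⟨⟨0, 0, 0, 0, 50000, 50000, 0, 0, 0, ⟨0, 0⟩, 0⟩, 0, 0⟩ 0 0)) (.cut .v 12582912 (.cut .d (-8388608) (.pos 10 .mm ⟨⟨0, 0, 0, 0, 0, 0, 0, 0, 0, ⟨0, 0⟩, 0⟩, 0, 0⟩ 0 0) (.cut .d (-4194304) (.cut .d (-6291456) (.pos 10 .mm ⟨⟨0, 0, 0, 0, 0, 0, 0, 0, 0, ⟨0, 0⟩, 0⟩, 0, 0⟩ 0 0) (.pos 10 .mm ⟨⟨0, 0, 0, 0, 0, 0, 0, 0, 0, ⟨0, 0⟩, 0⟩, 0, 0⟩ 0 0)) (.pos 10 .mm ⟨⟨0, 0, 0, 0, 0, 0, 0, 0, 0, ⟨0, 0⟩, 0⟩, 0, 0⟩ 0 0))) (.cut .d (-8388608) (.pos 11 .mm ⟨⟨0, 0, 0, 0, 0, 0, 0, 0, 0, ⟨0,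 0⟩, 0⟩, 0, 0⟩ 0 0) (.cut .d (-4194304) (.cut .v 14680064 (.cut .v 13631488 (.pos 16 .mm ⟨⟨0, 0, 0, 0, 0, 0, 0, 0, 0, ⟨0, 0⟩, 0⟩, 0, 0⟩ 0 0) (.pos 17 .mm ⟨⟨0, 0, 0, 0, 0, 0, 0, 0, 0, ⟨0, 0⟩, 0⟩, 0, 0⟩ 0 0)) (.pos 15 .mm ⟨⟨0, 0, 0, 0, 0, 0, 0, 0, 0, ⟨0, 0⟩, 0⟩, 0, 0⟩ 0 0)) (.cut .v 14680064 (.cut .d (-2097152) (.cut .s 851968 (.cut .v 13631488 (.cut .d (-3145728) (.cut .d (-3670016) (.pos 16 .mm ⟨⟨0, 0, 0, 0, 0, 0, 0, 0, 0, ⟨0, 0⟩, 0⟩, 0, 0⟩ 0 0) (.pos 16 .mm ⟨⟨0, 0, 0, 0, 0, 0, 0, 0, 0, ⟨0, 0⟩, 0⟩, 0, 0⟩ 0 0)) (.pos 16 .mm ⟨⟨0, 0, 0, 0, 0, 0, 0, 0, 0, ⟨0, 0⟩, 0⟩, 0, 0⟩ 0 0)) (.cut .d (-3145728) (.pos 17 .mm ⟨⟨0, 0, 0, 0, 0, 0, 0,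 0, 0, ⟨0, 0⟩, 0⟩, 0, 0⟩ 0 0) (.cut .d (-2621440) (.cut .d (-2883584) (.pos 17 .mm ⟨⟨0, 0, 0, 0, 0, 0, 0, 0, 0, ⟨0, 0⟩, 0⟩, 0, 0⟩ 0 0) (.pos 17 .mm ⟨⟨0, 0, 0, 0, 0, 0, 0, 0, 0, ⟨0, 0⟩, 0⟩, 0, 0⟩ 0 0)) (.pos 17 .mm ⟨⟨0, 0, 0, 0, 0, 0, 0, 0, 0, ⟨0, 0⟩, 0⟩, 0, 0⟩ 0 0)))) (.void 14 ⟨⟨0, 0, 0, 0, 0, 100000, 0, 0, 0, ⟨0, 0⟩, 0⟩, 0, 0⟩ 0 0)) (.pos 14 .mm ⟨⟨0, 0, 0, 0, 0, 0, 0, 0, 0, ⟨0, 0⟩, 0⟩, 0, 0⟩ 0 0)) (.cut .d (-2097152) (.pos 15 .mm ⟨⟨0, 0, 0, 0, 0, 0, 0, 0, 0, ⟨0, 0⟩, 0⟩, 0, 0⟩ 0 0) (.cut .d (-1048576) (.cut .v 15728640 (.pos 22 .mm ⟨⟨0, 0, 0, 0, 0, 0, 0, 0, 0, ⟨0, 0⟩, 0⟩, 0, 0⟩ 0 0) (.pos 23 .mm ⟨⟨0, 0, 0, 0, 0, 0, 0, 0, 0, ⟨0, 0⟩,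 0⟩, 0, 0⟩ 0 0)) (.pos 15 .mm ⟨⟨0, 0, 0, 0, 0, 661734, 0, 0, 0, ⟨0, 0⟩, 0⟩, 0, 0⟩ 0 0)))))))) (.cut .v 25165824 (.cut .v 20971520 (.cut .v 18874368 (.pos 29 .mp ⟨⟨1446765, 0, 0, 0, 0, 9781, 0, 0, 0, ⟨0, 0⟩, 0⟩, 0, 0⟩ 0 0) (.void 30 ⟨⟨0, 0, 0, 0, 0, 0, 100000, 0, 0, ⟨0, 0⟩, 0⟩, 0, 0⟩ 0 0)) (.void 28 ⟨⟨0, 0, 0, 0, 0, 0, 100000, 0, 0, ⟨0, 0⟩, 0⟩, 0, 0⟩ 0 0)) (.void 26 ⟨⟨0, 0, 0, 0, 0, 0, 100000, 0, 0, ⟨0, 0⟩, 0⟩, 0, 0⟩ 0 0))) (.cut .v 16777216 (.cut .v 8388608 (.cut .v 4194304 (.cut .v 2097152 (.void 6 ⟨⟨0, 0, 100000, 0, 0, 0, 0, 0, 0, ⟨0, 0⟩, 0⟩, 0, 0⟩ 0 0) (.pos 7 .pm ⟨⟨0, 0, 0, 0, 830020, 0, 0, 0, 0, ⟨0, 0⟩, 0⟩, 0, 0⟩ 0 0)) (.pos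 5 .pm ⟨⟨0, 0, 0, 0, 794827, 0, 0, 0, 0, ⟨0, 0⟩, 0⟩, 0, 0⟩ 0 0)) (.cut .v 12582912 (.pos 10 .pm ⟨⟨0, 0, 0, 0, 761031, 0, 0, 0, 0, ⟨0, 0⟩, 0⟩, 0, 0⟩ 0 0) (.pos 11 .pm ⟨⟨0, 0, 0, 0, 0, 0, 0, 0, 0, ⟨0, 0⟩, 0⟩, 0, 768577⟩ 0 0))) (.cut .v 25165824 (.cut .v 20971520 (.cut .v 18874368 (.cut .v 17825792 (.cut .v 17301504 (.cut .d 334088 (.cut .v 17039360 (.cut .s 851968 (.pos 35 .pp ⟨⟨847342, 0, 0, 0, 0, 0, 415536, 0, 0, ⟨0, 0⟩, 0⟩, 0, 102797⟩ 0 0) (.cut .s 1277952 (.pos 35 .pp ⟨⟨1505388, 0, 0, 0, 0, 0, 0, 0, 0, ⟨0, 0⟩, 0⟩, 0, 203716⟩ 0 0) (.cut .d 167044 (.pos 35 .pp ⟨⟨1253843, 0, 0, 0, 0, 0, 0, 0, 0, ⟨0, 0⟩, 0⟩, 0, 225918⟩ 0 0) (.pos 35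 .pp ⟨⟨1238587, 0, 0, 0, 0, 0, 0, 0, 0, ⟨0, 0⟩, 0⟩, 0, 332293⟩ 0 0)))) (.pos 36 .pp ⟨⟨1755894, 0, 0, 0, 0, 0, 0, 0, 0, ⟨0, 0⟩, 0⟩, 0, 76829⟩ 0 0)) (.pos 33 .pp ⟨⟨0, 0, 0, 0, 0, 0, 990709, 0, 0, ⟨0, 0⟩, 0⟩, 0, 3290549⟩ 0 0)) (.void 34 ⟨⟨0, 0, 0, 0, 0, 0, 100000, 0, 0, ⟨0, 0⟩, 0⟩, 0, 0⟩ 0 0)) (.void 32 ⟨⟨0, 0, 0, 0, 0, 0, 100000, 0, 0, ⟨0, 0⟩, 0⟩, 0, 0⟩ 0 0)) (.void 30 ⟨⟨0, 0, 0, 0, 0, 0, 0, 0, 0, ⟨0, 0⟩, 0⟩, 100000, 0⟩ 0 0)) (.void 28 ⟨⟨0, 0, 0, 0, 0, 0, 0, 0, 0, ⟨0, 0⟩, 0⟩, 100000, 0⟩ 0 0)) (.void 26 ⟨⟨0, 0, 0, 0, 0, 0, 0, 0, 0, ⟨0, 0⟩, 0⟩, 100000, 0⟩ 0 0)))),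
    by decide +kernel⟩

def covers1 : cell.Covers Vale.Agent.P237.Petty.Cor.Grid.N13.table row1.1 :=
  ⟨(.cut .d 0 (.cut .v 16777216 (.cut .v 8388608 (.void 2 ⟨⟨0, 0, 0, 0, 50000, 50000, 0, 0, 0, ⟨0, 0⟩, 0⟩, 0, 0⟩ 0 0) (.cut .v 12582912 (.void 10 ⟨⟨0, 0, 0, 0, 50000, 50000, 0, 0, 0, ⟨0, 0⟩, 0⟩, 0, 0⟩ 0 0) (.cut .v 14680064 (.void 14 ⟨⟨0, 0, 0, 0, 1230, 63935, 0, 0, 34834, ⟨0, 0⟩, 15100357⟩, 0, 0⟩ 0 0) (.cut .d (-8388608) (.void 15 ⟨⟨0, 0, 0, 0, 0, 100000, 0, 0, 0, ⟨0, 0⟩, 0⟩, 0, 0⟩ 0 0) (.cut .d (-4194304) (.void 15 ⟨⟨0, 0, 0, 0, 0, 100000, 0, 0, 0, ⟨0, 0⟩, 0⟩, 0, 0⟩ 0 0) (.cut .d (-2097152) (.void 15 ⟨⟨0, 0, 0, 0, 0, 100000, 0,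 0, 0, ⟨0, 0⟩, 0⟩, 0, 0⟩ 0 0) (.pos 15 .mm ⟨⟨0, 0, 0, 0, 0, 791807, 0, 0, 0, ⟨0, 0⟩, 0⟩, 0, 0⟩ 0 0))))))) (.cut .v 25165824 (.cut .v 20971520 (.cut .v 18874368 (.pos 29 .mp ⟨⟨1083077, 0, 0, 0, 0, 0, 0, 0, 0, ⟨0, 0⟩, 0⟩, 0, 0⟩ 0 0) (.void 30 ⟨⟨0, 0, 0, 0, 0, 0, 100000, 0, 0, ⟨0, 0⟩, 0⟩, 0, 0⟩ 0 0)) (.void 28 ⟨⟨0, 0, 0, 0, 0, 0, 100000, 0, 0, ⟨0, 0⟩, 0⟩, 0, 0⟩ 0 0)) (.void 26 ⟨⟨0, 0, 0, 0, 0, 0, 100000, 0, 0, ⟨0, 0⟩, 0⟩, 0, 0⟩ 0 0))) (.cut .v 16777216 (.cut .v 8388608 (.void 2 ⟨⟨0, 0, 0, 0, 100000, 0, 0, 0, 0, ⟨0, 0⟩, 0⟩, 0, 0⟩ 0 0) (.cut .v 12582912 (.void 10 ⟨⟨0, 0, 0, 0, 100000, 0, 0, 0, 0, ⟨0, 0⟩, 0⟩, 0, 0⟩ 0 0) (.pos 11 .pm ⟨⟨0,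 0, 0, 0, 0, 0, 0, 0, 0, ⟨0, 0⟩, 0⟩, 0, 127281⟩ 0 0))) (.cut .v 25165824 (.cut .v 20971520 (.cut .v 18874368 (.cut .d 727710 (.cut .v 17825792 (.cut .d 363855 (.cut .v 17301504 (.cut .s 2359296 (.cut .v 17039360 (.cut .d 181927 (.cut .v 16908288 (.cut .s 2031616 (.pos 37 .pp ⟨⟨1086209, 0, 0, 0, 0, 0, 0, 0, 0, ⟨0, 0⟩, 0⟩, 0, 235362⟩ 0 0) (.cut .s 2195456 (.pos 37 .pp ⟨⟨957764, 0, 0, 0, 0, 0, 0, 0, 0, ⟨0, 0⟩, 0⟩, 0, 254965⟩ 0 0) (.pos 37 .pp ⟨⟨878850, 0, 0, 0, 0, 0, 0, 0, 0, ⟨0, 0⟩, 0⟩, 0, 249245⟩ 0 0))) (.pos 38 .pp ⟨⟨1219140, 0, 0, 0, 0, 0, 0, 0, 0, ⟨0, 0⟩, 0⟩, 0, 96938⟩ 0 0)) (.cut .s 2031616 (.pos 35 .pp ⟨⟨1025064, 0, 0, 0, 0, 0,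 0, 0, 0, ⟨0, 0⟩, 0⟩, 0, 370960⟩ 0 0) (.pos 35 .pp ⟨⟨848288, 0, 0, 0, 0, 0, 0, 0, 0, ⟨0, 0⟩, 0⟩, 0, 354365⟩ 0 0))) (.pos 36 .pp ⟨⟨1332070, 0, 0, 0, 0, 0, 0, 0, 0, ⟨0, 0⟩, 0⟩, 0, 145290⟩ 0 0)) (.cut .v 17039360 (.cut .s 2686976 (.cut .d 181927 (.cut .s 2523136 (.pos 35 .pp ⟨⟨772622, 0, 0, 0, 0, 0, 0, 0, 0, ⟨0, 0⟩, 0⟩, 0, 257027⟩ 0 0) (.pos 35 .pp ⟨⟨697817, 0, 0, 0, 0, 0, 0, 0, 0, ⟨0, 0⟩, 0⟩, 0, 244799⟩ 0 0)) (.pos 35 .pp ⟨⟨660913, 0, 0, 0, 0, 0, 0, 0, 0, ⟨0, 0⟩, 0⟩, 0, 339628⟩ 0 0)) (.cut .s 2850816 (.cut .s 2768896 (.pos 35 .pp ⟨⟨655312, 0, 0, 0, 0, 0, 0, 0, 0, ⟨0, 0⟩, 0⟩, 0, 237158⟩ 0 0) (.pos 35 .pp ⟨⟨630963, 0, 0, 0, 0, 0, 0, 0,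 0, ⟨0, 0⟩, 0⟩, 0, 224134⟩ 0 0)) (.pos 35 .pp ⟨⟨565628, 0, 0, 0, 0, 0, 0, 0, 0, ⟨0, 0⟩, 0⟩, 0, 212192⟩ 0 0))) (.pos 36 .pp ⟨⟨878244, 0, 0, 0, 0, 0, 0, 0, 0, ⟨0, 0⟩, 0⟩, 0, 232181⟩ 0 0))) (.void 34 ⟨⟨100000, 0, 0, 0, 0, 0, 0, 0, 0, ⟨0, 0⟩, 0⟩, 0, 0⟩ 0 0)) (.void 31 ⟨⟨2198, 0, 0, 0, 0, 0, 0, 0, 0, ⟨0, 0⟩, 0⟩, 0, 97802⟩ 0 0)) (.void 32 ⟨⟨0, 0, 0, 0, 0, 0, 100000, 0, 0, ⟨0, 0⟩, 0⟩, 0, 0⟩ 0 0)) (.void 29 ⟨⟨0, 0, 0, 0, 0, 0, 700, 0, 0, ⟨0, 0⟩, 0⟩, 0, 99300⟩ 0 0)) (.void 30 ⟨⟨0, 0, 0, 0, 0, 0, 100000, 0, 0, ⟨0, 0⟩, 0⟩, 0, 0⟩ 0 0)) (.void 28 ⟨⟨0, 0, 0, 0, 0, 0, 0, 0, 0, ⟨0, 0⟩, 0⟩, 100000, 0⟩ 0 0)) (.void 26 ⟨⟨0, 0, 0, 0, 0, 0, 0, 0, 0, ⟨0,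 0⟩, 0⟩, 100000, 0⟩ 0 0)))),
    by decide +kernel⟩

def covers2 : cell.Covers Vale.Agent.P237.Petty.Cor.Grid.N13.table row2.1 :=
  ⟨(.cut .d 0 (.cut .v 16777216 (.cut .v 8388608 (.void 2 ⟨⟨0, 0, 0, 0, 50000, 50000, 0, 0, 0, ⟨0, 0⟩, 0⟩, 0, 0⟩ 0 0) (.cut .v 12582912 (.void 10 ⟨⟨0, 0, 0, 0, 0, 61015, 0, 0, 38985, ⟨0, 0⟩, 13128881⟩, 0, 0⟩ 0 0) (.cut .d (-8388608) (.void 11 ⟨⟨0, 0, 0, 0, 0, 100000, 0, 0, 0, ⟨0, 0⟩, 0⟩, 0, 0⟩ 0 0) (.cut .d (-4194304) (.void 11 ⟨⟨0, 0, 0, 0, 0, 100000, 0, 0, 0, ⟨0, 0⟩, 0⟩, 0, 0⟩ 0 0) (.cut .v 14680064 (.pos 14 .mm ⟨⟨0, 0, 0, 0, 0, 1988750, 0, 0, 0, ⟨0, 0⟩, 0⟩, 0, 0⟩ 0 0) (.cut .d (-2097152) (.void 15 ⟨⟨0,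 0, 0, 0, 0, 100000, 0, 0, 0, ⟨0, 0⟩, 0⟩, 0, 0⟩ 0 0) (.cut .d (-1048576) (.void 15 ⟨⟨0, 0, 0, 0, 0, 100000, 0, 0, 0, ⟨0, 0⟩, 0⟩, 0, 0⟩ 0 0) (.cut .d (-524288) (.void 15 ⟨⟨0, 0, 0, 0, 0, 100000, 0, 0, 0, ⟨0, 0⟩, 0⟩, 0, 0⟩ 0 0) (.pos 15 .mm ⟨⟨0, 0, 0, 0, 0, 434008, 0, 0, 0, ⟨0, 0⟩, 0⟩, 0, 0⟩ 0 0))))))))) (.cut .v 25165824 (.cut .d (-8388608) (.void 25 ⟨⟨0, 0, 0, 0, 0, 100000, 0, 0, 0, ⟨0, 0⟩, 0⟩, 0, 0⟩ 0 0) (.cut .v 20971520 (.cut .d (-4194304) (.void 27 ⟨⟨0, 0, 0, 0, 0, 100000, 0, 0, 0, ⟨0, 0⟩, 0⟩, 0, 0⟩ 0 0) (.cut .d (-2097152) (.void 27 ⟨⟨0, 0, 0, 0, 0, 100000, 0, 0, 0, ⟨0, 0⟩, 0⟩, 0, 0⟩ 0 0) (.cut .d (-1048576) (.void 27 ⟨⟨0, 0,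 0, 0, 0, 100000, 0, 0, 0, ⟨0, 0⟩, 0⟩, 0, 0⟩ 0 0) (.cut .v 18874368 (.cut .d (-524288) (.void 29 ⟨⟨0, 0, 0, 0, 0, 100000, 0, 0, 0, ⟨0, 0⟩, 0⟩, 0, 0⟩ 0 0) (.cut .d (-262144) (.pos 29 .mp ⟨⟨522486, 0, 0, 0, 0, 2189914, 0, 0, 0, ⟨0, 0⟩, 0⟩, 0, 0⟩ 0 0) (.pos 29 .mp ⟨⟨588747, 0, 0, 0, 0, 0, 0, 0, 0, ⟨0, 0⟩, 0⟩, 0, 0⟩ 0 0))) (.void 30 ⟨⟨100000, 0, 0, 0, 0, 0, 0, 0, 0, ⟨0, 0⟩, 0⟩, 0, 0⟩ 0 0))))) (.void 28 ⟨⟨0, 0, 0, 0, 0, 0, 100000, 0, 0, ⟨0, 0⟩, 0⟩, 0, 0⟩ 0 0))) (.void 26 ⟨⟨0, 0, 0, 0, 0, 0, 100000, 0, 0, ⟨0, 0⟩, 0⟩, 0, 0⟩ 0 0))) (.cut .v 16777216 (.cut .v 8388608 (.void 2 ⟨⟨0, 0, 0, 0, 100000, 0, 0, 0, 0, ⟨0, 0⟩, 0⟩, 0, 0⟩ 0 0) (.cut .v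 12582912 (.void 10 ⟨⟨0, 0, 0, 0, 0, 0, 0, 0, 100000, ⟨0, 0⟩, 13128881⟩, 0, 0⟩ 0 0) (.cut .v 14680064 (.pos 14 .pm ⟨⟨0, 0, 0, 0, 0, 0, 0, 0, 877479, ⟨0, 0⟩, 15100357⟩, 0, 0⟩ 0 0) (.cut .d 1104621 (.cut .d 552310 (.cut .d 276155 (.pos 15 .pm ⟨⟨0, 0, 0, 0, 0, 0, 0, 0, 0, ⟨0, 0⟩, 0⟩, 0, 146948⟩ 0 0) (.pos 15 .pm ⟨⟨0, 0, 0, 0, 0, 0, 0, 0, 0, ⟨0, 0⟩, 0⟩, 0, 295742⟩ 0 0)) (.void 15 ⟨⟨0, 0, 0, 0, 0, 0, 0, 0, 0, ⟨0, 0⟩, 0⟩, 0, 100000⟩ 0 0)) (.void 15 ⟨⟨0, 0, 0, 0, 0, 0, 0, 0, 0, ⟨0, 0⟩, 0⟩, 0, 100000⟩ 0 0))))) (.cut .v 25165824 (.cut .v 20971520 (.cut .v 18874368 (.cut .d 1104621 (.cut .v 17825792 (.cut .d 552310 (.cut .v 17301504 (.cut .d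 276155 (.cut .s 3407872 (.cut .v 17039360 (.cut .s 3211264 (.pos 35 .pp ⟨⟨465392, 0, 0, 0, 0, 0, 0, 0, 0, ⟨0, 0⟩, 0⟩, 0, 181779⟩ 0 0) (.cut .s 3309568 (.pos 35 .pp ⟨⟨414874, 0, 0, 0, 0, 0, 0, 0, 0, ⟨0, 0⟩, 0⟩, 0, 163906⟩ 0 0) (.pos 35 .pp ⟨⟨357416, 0, 0, 0, 0, 0, 0, 0, 0, ⟨0, 0⟩, 0⟩, 0, 155709⟩ 0 0))) (.pos 36 .pp ⟨⟨478685, 0, 0, 0, 0, 0, 0, 460324, 0, ⟨431162, 13345060⟩, 0⟩, 0, 0⟩ 46 53)) (.cut .v 17039360 (.cut .l 141961 (.cut .d 138077 (.cut .s 3604480 (.pos 35 .pp ⟨⟨296652, 0, 0, 0, 0, 0, 0, 0, 0, ⟨0, 0⟩, 0⟩, 0, 125208⟩ 0 0) (.pos 35 .pp ⟨⟨228497, 0, 0, 0, 0, 0, 0, 0, 0, ⟨0, 0⟩, 0⟩, 0, 101786⟩ 0 0)) (.pos 35 .pp ⟨⟨110927, 0,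 0, 0, 0, 0, 0, 0, 0, ⟨0, 0⟩, 0⟩, 0, 242019⟩ 0 0)) (.pos 35 .pp ⟨⟨76087, 0, 0, 0, 0, 0, 0, 0, 0, ⟨0, 0⟩, 0⟩, 0, 89624⟩ 0 0)) (.pos 36 .pp ⟨⟨343838, 0, 0, 0, 0, 0, 0, 339607, 0, ⟨590974, 12565613⟩, 0⟩, 0, 0⟩ 52 59))) (.cut .s 3407872 (.pos 33 .pp ⟨⟨200515, 0, 0, 0, 0, 0, 0, 0, 0, ⟨0, 0⟩, 0⟩, 0, 368657⟩ 0 0) (.pos 33 .pp ⟨⟨28096, 0, 0, 0, 0, 0, 0, 0, 0, ⟨0, 0⟩, 0⟩, 0, 271168⟩ 0 0))) (.pos 34 .pp ⟨⟨440450, 0, 0, 0, 0, 0, 0, 0, 0, ⟨0, 0⟩, 0⟩, 0, 216424⟩ 0 0)) (.void 31 ⟨⟨0, 0, 0, 0, 0, 0, 1643, 0, 0, ⟨0, 0⟩, 0⟩, 0, 98357⟩ 0 0)) (.void 32 ⟨⟨81036, 0, 0, 0, 0, 0, 0, 0, 0, ⟨0, 0⟩, 0⟩, 0, 18964⟩ 0 0)) (.void 29 ⟨⟨0, 0, 0, 0, 0, 0, 1643, 0,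 0, ⟨0, 0⟩, 0⟩, 0, 98357⟩ 0 0)) (.void 30 ⟨⟨0, 0, 0, 0, 0, 0, 100000, 0, 0, ⟨0, 0⟩, 0⟩, 0, 0⟩ 0 0)) (.void 28 ⟨⟨0, 0, 0, 0, 0, 0, 0, 0, 0, ⟨0, 0⟩, 0⟩, 20864, 79136⟩ 0 0)) (.void 26 ⟨⟨0, 0, 0, 0, 0, 0, 0, 0, 0, ⟨0, 0⟩, 0⟩, 100000, 0⟩ 0 0)))),
    by decide +kernel⟩

def covers3 : cell.Covers Vale.Agent.P237.Petty.Cor.Grid.N13.table row3.1 :=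
  ⟨(.cut .d 0 (.cut .v 16777216 (.cut .v 8388608 (.void 2 ⟨⟨0, 0, 0, 0, 50000, 50000, 0, 0, 0, ⟨0, 0⟩, 0⟩, 0, 0⟩ 0 0) (.cut .v 12582912 (.void 10 ⟨⟨0, 0, 0, 0, 0, 61015, 0, 0, 38985, ⟨0, 0⟩, 13128881⟩, 0, 0⟩ 0 0) (.cut .d (-8388608) (.void 11 ⟨⟨0, 0, 0, 0, 0, 100000, 0, 0, 0, ⟨0, 0⟩, 0⟩, 0, 0⟩ 0 0) (.cut .d (-4194304) (.void 11 ⟨⟨0, 0, 0, 0, 0, 100000, 0, 0, 0, ⟨0, 0⟩, 0⟩, 0, 0⟩ 0 0) (.cut .d (-2097152) (.void 11 ⟨⟨0, 0, 0, 0, 0, 100000, 0, 0, 0, ⟨0, 0⟩, 0⟩, 0, 0⟩ 0 0) (.cut .v 14680064 (.pos 14 .mm ⟨⟨0, 0, 0, 0, 0, 2230220, 0, 0, 0, ⟨0, 0⟩, 0⟩, 0, 0⟩ 0 0) (.cut .d (-1048576) (.void 15 ⟨⟨0, 0, 0, 0, 0, 100000, 0, 0, 0, ⟨0, 0⟩, 0⟩,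 0, 0⟩ 0 0) (.cut .d (-524288) (.void 15 ⟨⟨0, 0, 0, 0, 0, 100000, 0, 0, 0, ⟨0, 0⟩, 0⟩, 0, 0⟩ 0 0) (.cut .d (-262144) (.void 15 ⟨⟨0, 0, 0, 0, 0, 100000, 0, 0, 0, ⟨0, 0⟩, 0⟩, 0, 0⟩ 0 0) (.cut .d (-131072) (.pos 15 .mm ⟨⟨0, 0, 0, 0, 0, 923487, 0, 0, 0, ⟨0, 0⟩, 0⟩, 0, 0⟩ 0 0) (.cut .s 4161536 (.pos 15 .mm ⟨⟨0, 0, 0, 0, 0, 388965, 0, 0, 0, ⟨0, 0⟩, 0⟩, 0, 0⟩ 0 0) (.cut .v 15728640 (.pos 22 .mm ⟨⟨0, 0, 0, 0, 0, 76504, 0, 0, 0, ⟨0, 0⟩, 0⟩, 0, 0⟩ 0 0) (.pos 23 .mm ⟨⟨0, 0, 0, 0, 0, 743996, 0, 0, 0, ⟨0, 0⟩, 0⟩, 0, 0⟩ 0 0))))))))))))) (.cut .v 25165824 (.cut .d (-8388608) (.void 25 ⟨⟨0, 0, 0, 0, 0, 100000, 0, 0, 0, ⟨0, 0⟩, 0⟩, 0, 0⟩ 0 0) (.cut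 .d (-4194304) (.void 25 ⟨⟨0, 0, 0, 0, 0, 100000, 0, 0, 0, ⟨0, 0⟩, 0⟩, 0, 0⟩ 0 0) (.cut .v 20971520 (.cut .d (-2097152) (.void 27 ⟨⟨0, 0, 0, 0, 0, 100000, 0, 0, 0, ⟨0, 0⟩, 0⟩, 0, 0⟩ 0 0) (.cut .d (-1048576) (.void 27 ⟨⟨0, 0, 0, 0, 0, 100000, 0, 0, 0, ⟨0, 0⟩, 0⟩, 0, 0⟩ 0 0) (.cut .d (-524288) (.void 27 ⟨⟨0, 0, 0, 0, 0, 100000, 0, 0, 0, ⟨0, 0⟩, 0⟩, 0, 0⟩ 0 0) (.cut .v 18874368 (.cut .d (-262144) (.void 29 ⟨⟨0, 0, 0, 0, 0, 100000, 0, 0, 0, ⟨0, 0⟩, 0⟩, 0, 0⟩ 0 0) (.cut .v 17825792 (.cut .v 17301504 (.cut .v 17039360 (.cut .d (-131072) (.cut .s 4161536 (.pos 35 .mp ⟨⟨189905, 0, 0, 0, 0, 526733, 0, 0, 0, ⟨0, 0⟩, 0⟩, 0, 0⟩ 0 0) (.pos 35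 .mp ⟨⟨147794, 0, 0, 0, 0, 1001566, 0, 0, 0, ⟨0, 0⟩, 0⟩, 0, 0⟩ 0 0)) (.cut .s 4161536 (.pos 35 .mp ⟨⟨231033, 0, 0, 0, 0, 289719, 0, 0, 0, ⟨0, 0⟩, 0⟩, 0, 0⟩ 0 0) (.pos 35 .mp ⟨⟨183599, 0, 0, 0, 0, 609285, 0, 0, 0, ⟨0, 0⟩, 0⟩, 0, 0⟩ 0 0))) (.pos 36 .mp ⟨⟨1225361, 0, 0, 0, 0, 0, 0, 0, 0, ⟨0, 0⟩, 0⟩, 0, 0⟩ 0 0)) (.void 34 ⟨⟨100000, 0, 0, 0, 0, 0, 0, 0, 0, ⟨0, 0⟩, 0⟩, 0, 0⟩ 0 0)) (.void 32 ⟨⟨100000, 0, 0, 0, 0, 0, 0, 0, 0, ⟨0, 0⟩, 0⟩, 0, 0⟩ 0 0))) (.void 30 ⟨⟨100000, 0, 0, 0, 0, 0, 0, 0, 0, ⟨0, 0⟩, 0⟩, 0, 0⟩ 0 0))))) (.void 28 ⟨⟨0, 0, 0, 0, 0, 0, 100000, 0, 0, ⟨0, 0⟩, 0⟩, 0, 0⟩ 0 0)))) (.void 26 ⟨⟨0, 0, 0, 0, 0, 0, 100000, 0, 0, ⟨0, 0⟩,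 0⟩, 0, 0⟩ 0 0))) (.cut .v 16777216 (.cut .v 8388608 (.void 2 ⟨⟨0, 0, 0, 0, 100000, 0, 0, 0, 0, ⟨0, 0⟩, 0⟩, 0, 0⟩ 0 0) (.cut .v 12582912 (.void 10 ⟨⟨0, 0, 0, 0, 0, 0, 0, 0, 100000, ⟨0, 0⟩, 13128881⟩, 0, 0⟩ 0 0) (.cut .d 1501481 (.cut .d 750740 (.cut .v 14680064 (.pos 14 .pm ⟨⟨0, 0, 0, 0, 0, 0, 0, 0, 0, ⟨0, 0⟩, 0⟩, 0, 812564⟩ 0 0) (.cut .v 15728640 (.cut .d 375370 (.pos 22 .pm ⟨⟨0, 0, 0, 0, 0, 0, 0, 0, 0, ⟨0, 0⟩, 0⟩, 0, 258401⟩ 0 0) (.pos 22 .pm ⟨⟨0, 0, 0, 0, 0, 0, 0, 0, 0, ⟨0, 0⟩, 0⟩, 0, 919409⟩ 0 0)) (.cut .d 375370 (.cut .d 187685 (.pos 23 .pm ⟨⟨0, 0, 0, 0, 0, 0, 0, 0, 0, ⟨0, 0⟩, 0⟩, 0, 118546⟩ 0 0) (.cut .v 16252928 (.pos 43 .pm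 ⟨⟨0, 0, 0, 0, 0, 0, 0, 0, 0, ⟨0, 0⟩, 0⟩, 0, 332412⟩ 0 0) (.pos 44 .pm ⟨⟨0, 0, 0, 0, 0, 0, 0, 0, 0, ⟨0, 0⟩, 0⟩, 0, 254802⟩ 0 0))) (.pos 23 .pm ⟨⟨0, 0, 0, 0, 0, 0, 0, 0, 0, ⟨0, 0⟩, 0⟩, 0, 1191013⟩ 0 0)))) (.void 11 ⟨⟨0, 0, 0, 0, 0, 0, 0, 0, 0, ⟨0, 0⟩, 0⟩, 0, 100000⟩ 0 0)) (.void 11 ⟨⟨0, 0, 0, 0, 0, 0, 0, 0, 0, ⟨0, 0⟩, 0⟩, 0, 100000⟩ 0 0)))) (.cut .v 25165824 (.cut .v 20971520 (.cut .d 1501481 (.cut .v 18874368 (.cut .d 750740 (.cut .v 17825792 (.cut .d 375370 (.cut .d 187685 (.pos 31 .pp ⟨⟨182054, 0, 0, 0, 0, 0, 0, 0, 0, ⟨0, 0⟩, 0⟩, 0, 107773⟩ 0 0) (.pos 31 .pp ⟨⟨19799, 0, 0, 0, 0, 0, 0, 0, 0, ⟨0, 0⟩, 0⟩, 0, 163548⟩ 0 0)) (.pos 31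 .pp ⟨⟨0, 0, 0, 0, 0, 0, 0, 0, 0, ⟨0, 0⟩, 0⟩, 0, 2564846⟩ 0 0)) (.void 32 ⟨⟨78397, 0, 0, 0, 0, 0, 0, 0, 0, ⟨0, 0⟩, 0⟩, 0, 21603⟩ 0 0)) (.void 29 ⟨⟨0, 0, 0, 0, 0, 0, 2510, 0, 0, ⟨0, 0⟩, 0⟩, 0, 97490⟩ 0 0)) (.void 30 ⟨⟨0, 0, 0, 0, 0, 0, 100000, 0, 0, ⟨0, 0⟩, 0⟩, 0, 0⟩ 0 0)) (.void 27 ⟨⟨0, 0, 0, 0, 0, 0, 0, 0, 0, ⟨0, 0⟩, 0⟩, 415, 99585⟩ 0 0)) (.void 28 ⟨⟨0, 0, 0, 0, 0, 0, 0, 0, 0, ⟨0, 0⟩, 0⟩, 21089, 78911⟩ 0 0)) (.void 26 ⟨⟨0, 0, 0, 0, 0, 0, 0, 0, 0, ⟨0, 0⟩, 0⟩, 100000, 0⟩ 0 0)))),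
    by decide +kernel⟩

def covers4 : cell.Covers Vale.Agent.P237.Petty.Cor.Grid.N13.table row4.1 :=
  ⟨(.cut .d 0 (.cut .v 16777216 (.cut .v 8388608 (.void 2 ⟨⟨0, 0, 0, 0, 50000, 50000, 0, 0, 0, ⟨0, 0⟩, 0⟩, 0, 0⟩ 0 0) (.cut .d (-8388608) (.void 3 ⟨⟨0, 0, 0, 0, 0, 100000, 0, 0, 0, ⟨0, 0⟩, 0⟩, 0, 0⟩ 0 0) (.cut .v 12582912 (.pos 10 .mm ⟨⟨0, 0, 0, 0, 0, 14290926, 0, 0, 20853, ⟨0, 0⟩, 13128881⟩, 0, 0⟩ 0 0) (.cut .d (-4194304) (.void 11 ⟨⟨0, 0, 0, 0, 0, 100000, 0, 0, 0, ⟨0, 0⟩, 0⟩, 0, 0⟩ 0 0) (.cut .d (-2097152) (.void 11 ⟨⟨0, 0, 0, 0, 0, 100000, 0, 0, 0, ⟨0, 0⟩, 0⟩, 0, 0⟩ 0 0) (.cut .d (-1048576) (.void 11 ⟨⟨0, 0, 0, 0, 0, 100000, 0,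 0, 0, ⟨0, 0⟩, 0⟩, 0, 0⟩ 0 0) (.cut .v 14680064 (.pos 14 .mm ⟨⟨0, 0, 0, 0, 0, 2015823, 0, 0, 0, ⟨0, 0⟩, 0⟩, 0, 0⟩ 0 0) (.cut .d (-524288) (.void 15 ⟨⟨0, 0, 0, 0, 0, 100000, 0, 0, 0, ⟨0, 0⟩, 0⟩, 0, 0⟩ 0 0) (.cut .d (-262144) (.void 15 ⟨⟨0, 0, 0, 0, 0, 100000, 0, 0, 0, ⟨0, 0⟩, 0⟩, 0, 0⟩ 0 0) (.cut .d (-131072) (.pos 15 .mm ⟨⟨0, 0, 0, 0, 0, 2136533, 0, 0, 0, ⟨0, 0⟩, 0⟩, 0, 0⟩ 0 0) (.cut .v 15728640 (.pos 22 .mm ⟨⟨0, 0, 0, 0, 0, 335963, 0, 0, 0, ⟨0, 0⟩, 0⟩, 0, 0⟩ 0 0) (.cut .s 4882432 (.pos 23 .mm ⟨⟨0, 0, 0, 0, 0, 1159950, 0, 0, 0, ⟨0, 0⟩, 0⟩, 0, 0⟩ 0 0) (.cut .s 5062656 (.pos 23 .mm ⟨⟨0, 0, 0, 0, 0, 1503771, 0, 0, 0, ⟨0, 0⟩, 0⟩, 0, 0⟩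 0 0) (.pos 23 .mm ⟨⟨0, 0, 0, 0, 0, 1798815, 0, 0, 0, ⟨0, 0⟩, 0⟩, 0, 0⟩ 0 0)))))))))))))) (.cut .v 25165824 (.cut .d (-8388608) (.void 25 ⟨⟨0, 0, 0, 0, 0, 100000, 0, 0, 0, ⟨0, 0⟩, 0⟩, 0, 0⟩ 0 0) (.cut .d (-4194304) (.void 25 ⟨⟨0, 0, 0, 0, 0, 100000, 0, 0, 0, ⟨0, 0⟩, 0⟩, 0, 0⟩ 0 0) (.cut .d (-2097152) (.void 25 ⟨⟨0, 0, 0, 0, 0, 100000, 0, 0, 0, ⟨0, 0⟩, 0⟩, 0, 0⟩ 0 0) (.cut .v 20971520 (.cut .d (-1048576) (.void 27 ⟨⟨0, 0, 0, 0, 0, 100000, 0, 0, 0, ⟨0, 0⟩, 0⟩, 0, 0⟩ 0 0) (.cut .d (-524288) (.void 27 ⟨⟨0, 0, 0, 0, 0, 100000, 0, 0, 0, ⟨0, 0⟩, 0⟩, 0, 0⟩ 0 0) (.cut .d (-262144) (.void 27 ⟨⟨0, 0, 0, 0, 0, 100000, 0, 0, 0, ⟨0, 0⟩, 0⟩, 0,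 0⟩ 0 0) (.cut .v 18874368 (.cut .v 17825792 (.cut .v 17301504 (.cut .v 17039360 (.cut .d (-131072) (.cut .s 4882432 (.pos 35 .mp ⟨⟨161666, 0, 0, 0, 0, 1756367, 0, 0, 0, ⟨0, 0⟩, 0⟩, 0, 0⟩ 0 0) (.pos 35 .mp ⟨⟨255599, 0, 0, 0, 0, 2499432, 0, 0, 0, ⟨0, 0⟩, 0⟩, 0, 0⟩ 0 0)) (.cut .v 16908288 (.cut .s 4882432 (.cut .s 4702208 (.pos 37 .mp ⟨⟨422811, 0, 0, 0, 0, 733367, 0, 0, 0, ⟨0, 0⟩, 0⟩, 0, 0⟩ 0 0) (.pos 37 .mp ⟨⟨342209, 0, 0, 0, 0, 990495, 0, 0, 0, ⟨0, 0⟩, 0⟩, 0, 0⟩ 0 0)) (.cut .s 5062656 (.pos 37 .mp ⟨⟨374084, 0, 0, 0, 0, 1208552, 0, 0, 0, ⟨0, 0⟩, 0⟩, 0, 0⟩ 0 0) (.cut .s 5152768 (.pos 37 .mp ⟨⟨499324, 0, 0, 0, 0, 1322910, 0, 0, 0, ⟨0,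 0⟩, 0⟩, 0, 0⟩ 0 0) (.pos 37 .mp ⟨⟨525973, 0, 0, 0, 0, 1457673, 0, 0, 0, ⟨0, 0⟩, 0⟩, 0, 0⟩ 0 0)))) (.pos 38 .mp ⟨⟨1994742, 0, 0, 0, 0, 0, 0, 0, 0, ⟨0, 0⟩, 0⟩, 0, 0⟩ 0 0))) (.pos 36 .mp ⟨⟨3172877, 0, 0, 0, 0, 0, 0, 0, 0, ⟨0, 0⟩, 0⟩, 0, 0⟩ 0 0)) (.void 34 ⟨⟨100000, 0, 0, 0, 0, 0, 0, 0, 0, ⟨0, 0⟩, 0⟩, 0, 0⟩ 0 0)) (.void 32 ⟨⟨100000, 0, 0, 0, 0, 0, 0, 0, 0, ⟨0, 0⟩, 0⟩, 0, 0⟩ 0 0)) (.void 30 ⟨⟨100000, 0, 0, 0, 0, 0, 0, 0, 0, ⟨0, 0⟩, 0⟩, 0, 0⟩ 0 0))))) (.void 28 ⟨⟨100000, 0, 0, 0, 0, 0, 0, 0, 0, ⟨0, 0⟩, 0⟩, 0, 0⟩ 0 0))))) (.void 26 ⟨⟨0, 0, 0, 0, 0, 0, 100000, 0, 0, ⟨0, 0⟩, 0⟩, 0, 0⟩ 0 0))) (.cut .v 16777216 (.cut .v 8388608 (.void 2 ⟨⟨0,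 0, 0, 0, 100000, 0, 0, 0, 0, ⟨0, 0⟩, 0⟩, 0, 0⟩ 0 0) (.cut .v 12582912 (.void 10 ⟨⟨0, 0, 0, 0, 0, 0, 0, 0, 100000, ⟨0, 0⟩, 13128881⟩, 0, 0⟩ 0 0) (.cut .d 2018745 (.cut .d 1009372 (.cut .d 504686 (.cut .v 14680064 (.pos 14 .pm ⟨⟨0, 0, 0, 0, 0, 0, 0, 0, 0, ⟨0, 0⟩, 0⟩, 0, 743240⟩ 0 0) (.cut .v 15728640 (.cut .d 252343 (.pos 22 .pm ⟨⟨0, 0, 0, 0, 0, 0, 0, 0, 0, ⟨0, 0⟩, 0⟩, 0, 241859⟩ 0 0) (.cut .s 4882432 (.cut .s 4702208 (.pos 22 .pm ⟨⟨0, 0, 0, 0, 0, 0, 0, 0, 0, ⟨0, 0⟩, 0⟩, 0, 670384⟩ 0 0) (.pos 22 .pm ⟨⟨0, 0, 0, 0, 0, 0, 0, 0, 0, ⟨0, 0⟩, 0⟩, 0, 702903⟩ 0 0)) (.pos 22 .pm ⟨⟨0, 0, 0, 0, 0, 0, 0, 0, 0, ⟨0, 0⟩, 0⟩, 0, 730704⟩ 0 0))) (.cut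 .d 252343 (.pos 23 .pm ⟨⟨0, 0, 0, 0, 0, 0, 0, 0, 0, ⟨0, 0⟩, 0⟩, 0, 144903⟩ 0 0) (.cut .s 4882432 (.cut .d 378514 (.pos 23 .pm ⟨⟨0, 0, 0, 0, 0, 0, 0, 0, 0, ⟨0, 0⟩, 0⟩, 0, 266162⟩ 0 0) (.pos 23 .pm ⟨⟨0, 0, 0, 0, 0, 0, 0, 0, 0, ⟨0, 0⟩, 0⟩, 0, 701308⟩ 0 0)) (.pos 23 .pm ⟨⟨0, 0, 0, 0, 0, 0, 0, 0, 0, ⟨0, 0⟩, 0⟩, 0, 601528⟩ 0 0))))) (.void 11 ⟨⟨0, 0, 0, 0, 0, 0, 0, 0, 0, ⟨0, 0⟩, 0⟩, 0, 100000⟩ 0 0)) (.void 11 ⟨⟨0, 0, 0, 0, 0, 0, 0, 0, 0, ⟨0, 0⟩, 0⟩, 0, 100000⟩ 0 0)) (.void 11 ⟨⟨0, 0, 0, 0, 0, 0, 0, 0, 0, ⟨0, 0⟩, 0⟩, 0, 100000⟩ 0 0)))) (.cut .v 25165824 (.cut .v 20971520 (.cut .d 2018745 (.cut .d 1009372 (.cut .v 18874368 (.cut .d 504686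 (.cut .v 17825792 (.cut .d 252343 (.pos 31 .pp ⟨⟨463834, 0, 0, 0, 0, 0, 0, 0, 0, ⟨0, 0⟩, 0⟩, 0, 139960⟩ 0 0) (.pos 31 .pp ⟨⟨0, 0, 0, 0, 0, 0, 0, 0, 0, ⟨0, 0⟩, 0⟩, 0, 372117⟩ 0 0)) (.void 32 ⟨⟨75919, 0, 0, 0, 0, 0, 0, 0, 0, ⟨0, 0⟩, 0⟩, 0, 24081⟩ 0 0)) (.void 29 ⟨⟨5513, 0, 0, 0, 0, 0, 0, 0, 0, ⟨0, 0⟩, 0⟩, 0, 94487⟩ 0 0)) (.void 30 ⟨⟨0, 0, 0, 0, 0, 0, 100000, 0, 0, ⟨0, 0⟩, 0⟩, 0, 0⟩ 0 0)) (.void 27 ⟨⟨0, 0, 0, 0, 0, 0, 0, 0, 0, ⟨0, 0⟩, 0⟩, 614, 99386⟩ 0 0)) (.void 27 ⟨⟨0, 0, 0, 0, 0, 0, 0, 0, 0, ⟨0, 0⟩, 0⟩, 0, 100000⟩ 0 0)) (.void 28 ⟨⟨0, 0, 0, 0, 0, 0, 0, 0, 0, ⟨0, 0⟩, 0⟩, 20888, 79112⟩ 0 0)) (.void 26 ⟨⟨0, 0, 0, 0, 0, 0, 0, 0, 0, ⟨0,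 0⟩, 0⟩, 20888, 79112⟩ 0 0)))),
    by decide +kernel⟩

def covers5 : cell.Covers Vale.Agent.P237.Petty.Cor.Grid.N13.table row5.1 :=
  ⟨(.cut .d 0 (.cut .v 16777216 (.cut .v 8388608 (.void 2 ⟨⟨0, 0, 0, 0, 50000, 50000, 0, 0, 0, ⟨0, 0⟩, 0⟩, 0, 0⟩ 0 0) (.cut .d (-8388608) (.void 3 ⟨⟨0, 0, 0, 0, 0, 100000, 0, 0, 0, ⟨0, 0⟩, 0⟩, 0, 0⟩ 0 0) (.cut .d (-4194304) (.void 3 ⟨⟨0, 0, 0, 0, 0, 100000, 0, 0, 0, ⟨0, 0⟩, 0⟩, 0, 0⟩ 0 0) (.cut .v 12582912 (.pos 10 .mm ⟨⟨0, 0, 0, 0, 0, 11126034, 0, 0, 0, ⟨0, 0⟩, 0⟩, 0, 0⟩ 0 0) (.cut .d (-2097152) (.void 11 ⟨⟨0, 0, 0, 0, 0, 100000, 0, 0, 0, ⟨0, 0⟩, 0⟩, 0, 0⟩ 0 0) (.cut .d (-1048576) (.void 11 ⟨⟨0, 0,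 0, 0, 0, 100000, 0, 0, 0, ⟨0, 0⟩, 0⟩, 0, 0⟩ 0 0) (.cut .v 14680064 (.pos 14 .mm ⟨⟨0, 0, 0, 0, 0, 4089903, 0, 0, 0, ⟨0, 0⟩, 0⟩, 0, 0⟩ 0 0) (.cut .d (-524288) (.void 15 ⟨⟨0, 0, 0, 0, 0, 100000, 0, 0, 0, ⟨0, 0⟩, 0⟩, 0, 0⟩ 0 0) (.cut .d (-262144) (.void 15 ⟨⟨0, 0, 0, 0, 0, 100000, 0, 0, 0, ⟨0, 0⟩, 0⟩, 0, 0⟩ 0 0) (.cut .d (-131072) (.pos 15 .mm ⟨⟨0, 0, 0, 0, 0, 4438539, 0, 0, 0, ⟨0, 0⟩, 0⟩, 0, 0⟩ 0 0) (.cut .v 15728640 (.pos 22 .mm ⟨⟨0, 0, 0, 0, 0, 887656, 0, 0, 0, ⟨0, 0⟩, 0⟩, 0, 0⟩ 0 0) (.cut .v 16252928 (.pos 43 .mm ⟨⟨0, 0, 0, 0, 0, 1985706, 0, 0, 0, ⟨0, 0⟩, 0⟩, 0, 0⟩ 0 0) (.cut .s 5636096 (.cut .s 5439488 (.pos 44 .mm ⟨⟨0, 0, 0, 0,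 0, 2166626, 0, 0, 0, ⟨0, 0⟩, 0⟩, 0, 0⟩ 0 0) (.cut .s 5537792 (.pos 44 .mm ⟨⟨0, 0, 0, 0, 0, 2482319, 0, 0, 0, ⟨0, 0⟩, 0⟩, 0, 0⟩ 0 0) (.pos 44 .mm ⟨⟨0, 0, 0, 0, 0, 2728007, 0, 0, 0, ⟨0, 0⟩, 0⟩, 0, 0⟩ 0 0))) (.cut .d (-65536) (.pos 44 .mm ⟨⟨0, 0, 0, 0, 0, 3845008, 0, 0, 0, ⟨0, 0⟩, 0⟩, 0, 0⟩ 0 0) (.cut .s 5832704 (.pos 44 .mm ⟨⟨0, 0, 0, 0, 0, 3056778, 0, 0, 0, ⟨0, 0⟩, 0⟩, 0, 0⟩ 0 0) (.pos 44 .mm ⟨⟨0, 0, 0, 0, 0, 3682752, 0, 0, 0, ⟨0, 0⟩, 0⟩, 0, 0⟩ 0 0)))))))))))))))) (.cut .v 25165824 (.cut .d (-8388608) (.void 25 ⟨⟨0, 0, 0, 0, 0, 100000, 0, 0, 0, ⟨0, 0⟩, 0⟩, 0, 0⟩ 0 0) (.cut .d (-4194304) (.void 25 ⟨⟨0, 0, 0, 0, 0, 100000, 0, 0, 0,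 ⟨0, 0⟩, 0⟩, 0, 0⟩ 0 0) (.cut .d (-2097152) (.void 25 ⟨⟨0, 0, 0, 0, 0, 100000, 0, 0, 0, ⟨0, 0⟩, 0⟩, 0, 0⟩ 0 0) (.cut .v 20971520 (.cut .d (-1048576) (.void 27 ⟨⟨0, 0, 0, 0, 0, 100000, 0, 0, 0, ⟨0, 0⟩, 0⟩, 0, 0⟩ 0 0) (.cut .d (-524288) (.void 27 ⟨⟨0, 0, 0, 0, 0, 100000, 0, 0, 0, ⟨0, 0⟩, 0⟩, 0, 0⟩ 0 0) (.cut .d (-262144) (.void 27 ⟨⟨0, 0, 0, 0, 0, 100000, 0, 0, 0, ⟨0, 0⟩, 0⟩, 0, 0⟩ 0 0) (.cut .v 18874368 (.cut .v 17825792 (.cut .v 17301504 (.cut .v 17039360 (.cut .d (-131072) (.pos 35 .mp ⟨⟨471380, 0, 0, 0, 0, 5759501, 0, 0, 0, ⟨0, 0⟩, 0⟩, 0, 0⟩ 0 0) (.cut .s 5636096 (.cut .v 16908288 (.cut .s 5439488 (.cut .s 5341184 (.pos 37 .mp ⟨⟨577759,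 0, 0, 0, 0, 1593215, 0, 0, 0, ⟨0, 0⟩, 0⟩, 0, 0⟩ 0 0) (.pos 37 .mp ⟨⟨671289, 0, 0, 0, 0, 1708268, 0, 0, 0, ⟨0, 0⟩, 0⟩, 0, 0⟩ 0 0)) (.cut .d (-65536) (.pos 37 .mp ⟨⟨482715, 0, 0, 0, 0, 2516849, 0, 0, 0, ⟨0, 0⟩, 0⟩, 0, 0⟩ 0 0) (.cut .s 5537792 (.pos 37 .mp ⟨⟨793265, 0, 0, 0, 0, 1745481, 0, 0, 0, ⟨0, 0⟩, 0⟩, 0, 0⟩ 0 0) (.pos 37 .mp ⟨⟨858136, 0, 0, 0, 0, 1920691, 0, 0, 0, ⟨0, 0⟩, 0⟩, 0, 0⟩ 0 0)))) (.pos 38 .mp ⟨⟨3198691, 0, 0, 0, 0, 0, 0, 0, 0, ⟨0, 0⟩, 0⟩, 0, 0⟩ 0 0)) (.cut .v 16908288 (.cut .s 5832704 (.cut .d (-65536) (.pos 37 .mp ⟨⟨687993, 0, 0, 0, 0, 2919368, 0, 0, 0, ⟨0, 0⟩, 0⟩, 0, 0⟩ 0 0) (.cut .s 5734400 (.pos 37 .mp ⟨⟨942936,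 0, 0, 0, 0, 2102406, 0, 0, 0, ⟨0, 0⟩, 0⟩, 0, 0⟩ 0 0) (.pos 37 .mp ⟨⟨1050710, 0, 0, 0, 0, 2287490, 0, 0, 0, ⟨0, 0⟩, 0⟩, 0, 0⟩ 0 0))) (.cut .d (-65536) (.pos 37 .mp ⟨⟨947669, 0, 0, 0, 0, 3368080, 0, 0, 0, ⟨0, 0⟩, 0⟩, 0, 0⟩ 0 0) (.cut .s 5931008 (.pos 37 .mp ⟨⟨1184543, 0, 0, 0, 0, 2472653, 0, 0, 0, ⟨0, 0⟩, 0⟩, 0, 0⟩ 0 0) (.pos 37 .mp ⟨⟨1347551, 0, 0, 0, 0, 2654445, 0, 0, 0, ⟨0, 0⟩, 0⟩, 0, 0⟩ 0 0)))) (.pos 38 .mp ⟨⟨4381014, 0, 0, 0, 0, 0, 0, 0, 0, ⟨0, 0⟩, 0⟩, 0, 0⟩ 0 0)))) (.pos 36 .mp ⟨⟨5779113, 0, 0, 0, 0, 0, 0, 0, 0, ⟨0, 0⟩, 0⟩, 0, 0⟩ 0 0)) (.void 34 ⟨⟨100000, 0, 0, 0, 0, 0, 0, 0, 0, ⟨0, 0⟩, 0⟩, 0, 0⟩ 0 0)) (.void 32 ⟨⟨100000, 0,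 0, 0, 0, 0, 0, 0, 0, ⟨0, 0⟩, 0⟩, 0, 0⟩ 0 0)) (.void 30 ⟨⟨100000, 0, 0, 0, 0, 0, 0, 0, 0, ⟨0, 0⟩, 0⟩, 0, 0⟩ 0 0))))) (.void 28 ⟨⟨100000, 0, 0, 0, 0, 0, 0, 0, 0, ⟨0, 0⟩, 0⟩, 0, 0⟩ 0 0))))) (.void 26 ⟨⟨100000, 0, 0, 0, 0, 0, 0, 0, 0, ⟨0, 0⟩, 0⟩, 0, 0⟩ 0 0))) (.cut .v 16777216 (.cut .v 8388608 (.void 2 ⟨⟨0, 0, 0, 0, 100000, 0, 0, 0, 0, ⟨0, 0⟩, 0⟩, 0, 0⟩ 0 0) (.cut .d 2626177 (.cut .d 1313088 (.cut .v 12582912 (.pos 10 .pm ⟨⟨0, 0, 0, 0, 0, 0, 0, 0, 194428, ⟨0, 0⟩, 13128881⟩, 0, 1753754⟩ 0 0) (.cut .d 656544 (.cut .v 14680064 (.pos 14 .pm ⟨⟨0, 0, 0, 0, 0, 0, 0, 0, 0, ⟨0, 0⟩, 0⟩, 0, 826062⟩ 0 0) (.cut .d 328272 (.cut .v 15728640 (.pos 22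 .pm ⟨⟨0, 0, 0, 0, 0, 0, 0, 0, 0, ⟨0, 0⟩, 0⟩, 0, 151814⟩ 0 0) (.pos 23 .pm ⟨⟨0, 0, 0, 0, 0, 0, 0, 0, 0, ⟨0, 0⟩, 0⟩, 0, 0⟩ 0 0)) (.cut .v 15728640 (.pos 22 .pm ⟨⟨0, 0, 0, 0, 0, 0, 0, 0, 0, ⟨0, 0⟩, 0⟩, 0, 1093525⟩ 0 0) (.pos 23 .pm ⟨⟨0, 0, 0, 0, 0, 0, 0, 0, 0, ⟨0, 0⟩, 0⟩, 0, 914509⟩ 0 0)))) (.void 11 ⟨⟨0, 0, 0, 0, 0, 0, 0, 0, 0, ⟨0, 0⟩, 0⟩, 0, 100000⟩ 0 0))) (.void 3 ⟨⟨0, 0, 0, 0, 0, 0, 0, 0, 0, ⟨0, 0⟩, 0⟩, 0, 100000⟩ 0 0)) (.void 3 ⟨⟨0, 0, 0, 0, 0, 0, 0, 0, 0, ⟨0, 0⟩, 0⟩, 0, 100000⟩ 0 0))) (.cut .v 25165824 (.cut .v 20971520 (.cut .d 2626177 (.cut .d 1313088 (.cut .v 18874368 (.cut .d 656544 (.cut .d 328272 (.cut .v 17825792 (.cut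 .s 5636096 (.pos 31 .pp ⟨⟨975200, 0, 0, 0, 0, 0, 0, 0, 0, ⟨0, 0⟩, 0⟩, 0, 132060⟩ 0 0) (.pos 31 .pp ⟨⟨1699797, 0, 0, 0, 0, 0, 0, 0, 0, ⟨0, 0⟩, 0⟩, 0, 107710⟩ 0 0)) (.void 32 ⟨⟨100000, 0, 0, 0, 0, 0, 0, 0, 0, ⟨0, 0⟩, 0⟩, 0, 0⟩ 0 0)) (.pos 29 .pp ⟨⟨329062, 0, 0, 0, 0, 0, 0, 0, 0, ⟨0, 0⟩, 0⟩, 0, 462566⟩ 0 0)) (.void 29 ⟨⟨0, 0, 0, 0, 0, 0, 0, 0, 0, ⟨0, 0⟩, 0⟩, 0, 100000⟩ 0 0)) (.void 30 ⟨⟨72810, 0, 0, 0, 0, 0, 0, 0, 0, ⟨0, 0⟩, 0⟩, 0, 27190⟩ 0 0)) (.void 27 ⟨⟨0, 0, 0, 0, 0, 0, 0, 0, 0, ⟨0, 0⟩, 0⟩, 744, 99256⟩ 0 0)) (.void 27 ⟨⟨0, 0, 0, 0, 0, 0, 0, 0, 0, ⟨0, 0⟩, 0⟩, 0, 100000⟩ 0 0)) (.void 28 ⟨⟨0, 0, 0, 0, 0, 0, 0, 0, 0, ⟨0, 0⟩, 0⟩, 20379,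 79621⟩ 0 0)) (.void 26 ⟨⟨0, 0, 0, 0, 0, 0, 0, 0, 0, ⟨0, 0⟩, 0⟩, 20379, 79621⟩ 0 0)))),
    by decide +kernel⟩

def covers6 : cell.Covers Vale.Agent.P237.Petty.Cor.Grid.N13.table row6.1 :=
  ⟨(.cut .d 0 (.cut .v 16777216 (.cut .d (-8388608) (.void 1 ⟨⟨0, 0, 0, 0, 0, 100000, 0, 0, 0, ⟨0, 0⟩, 0⟩, 0, 0⟩ 0 0) (.cut .d (-4194304) (.void 1 ⟨⟨0, 0, 0, 0, 0, 100000, 0, 0, 0, ⟨0, 0⟩, 0⟩, 0, 0⟩ 0 0) (.cut .d (-2097152) (.void 1 ⟨⟨0, 0, 0, 0, 0, 100000, 0, 0, 0, ⟨0, 0⟩, 0⟩, 0, 0⟩ 0 0) (.cut .d (-1048576) (.void 1 ⟨⟨0, 0, 0, 0, 0, 100000, 0, 0, 0, ⟨0, 0⟩, 0⟩, 0, 0⟩ 0 0) (.cut .d (-524288) (.void 1 ⟨⟨0, 0, 0, 0, 0, 100000, 0, 0, 0, ⟨0, 0⟩, 0⟩,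 0, 0⟩ 0 0) (.cut .d (-262144) (.void 1 ⟨⟨0, 0, 0, 0, 0, 100000, 0, 0, 0, ⟨0, 0⟩, 0⟩, 0, 0⟩ 0 0) (.cut .d (-131072) (.void 1 ⟨⟨0, 0, 0, 0, 0, 100000, 0, 0, 0, ⟨0, 0⟩, 0⟩, 0, 0⟩ 0 0) (.cut .v 8388608 (.cut .v 4194304 (.void 4 ⟨⟨0, 0, 100000, 0, 0, 0, 0, 0, 0, ⟨0, 0⟩, 0⟩, 0, 0⟩ 0 0) (.void 5 ⟨⟨0, 0, 0, 0, 0, 0, 0, 0, 100000, ⟨0, 0⟩, 9975792⟩, 0, 0⟩ 0 0)) (.cut .v 12582912 (.pos 10 .mm ⟨⟨0, 0, 0, 0, 0, 444554, 0, 0, 0, ⟨0, 0⟩, 0⟩, 0, 0⟩ 0 0) (.cut .v 14680064 (.pos 14 .mm ⟨⟨0, 0, 0, 0, 0, 1776913, 0, 0, 0, ⟨0, 0⟩, 0⟩, 0, 0⟩ 0 0) (.cut .v 15728640 (.pos 22 .mm ⟨⟨0, 0, 0, 0, 0, 2707624, 0, 0, 0, ⟨0, 0⟩, 0⟩, 0, 0⟩ 0 0) (.cut .v 16252928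 (.pos 43 .mm ⟨⟨0, 0, 0, 0, 0, 4330046, 0, 0, 0, ⟨0, 0⟩, 0⟩, 0, 0⟩ 0 0) (.cut .v 16515072 (.pos 45 .mm ⟨⟨0, 0, 0, 0, 0, 5279409, 0, 0, 0, ⟨0, 0⟩, 0⟩, 0, 0⟩ 0 0) (.cut .s 6422528 (.cut .d (-65536) (.pos 46 .mm ⟨⟨0, 0, 0, 0, 0, 5551272, 0, 0, 0, ⟨0, 0⟩, 0⟩, 0, 0⟩ 0 0) (.cut .s 6225920 (.pos 46 .mm ⟨⟨0, 0, 0, 0, 0, 4427345, 0, 0, 0, ⟨0, 0⟩, 0⟩, 0, 0⟩ 0 0) (.pos 46 .mm ⟨⟨0, 0, 0, 0, 0, 5233246, 0, 0, 0, ⟨0, 0⟩, 0⟩, 0, 0⟩ 0 0))) (.cut .d (-65536) (.pos 46 .mm ⟨⟨0, 0, 0, 0, 0, 7769214, 0, 0, 0, ⟨0, 0⟩, 0⟩, 0, 0⟩ 0 0) (.cut .s 6619136 (.pos 46 .mm ⟨⟨0, 0, 0, 0, 0, 6211870, 0, 0, 0, ⟨0, 0⟩, 0⟩, 0, 0⟩ 0 0) (.pos 46 .mm ⟨⟨0, 0, 0, 0, 0, 7364622,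 0, 0, 0, ⟨0, 0⟩, 0⟩, 0, 0⟩ 0 0))))))))))))))))) (.cut .v 25165824 (.cut .d (-8388608) (.void 25 ⟨⟨0, 0, 0, 0, 0, 100000, 0, 0, 0, ⟨0, 0⟩, 0⟩, 0, 0⟩ 0 0) (.cut .d (-4194304) (.void 25 ⟨⟨0, 0, 0, 0, 0, 100000, 0, 0, 0, ⟨0, 0⟩, 0⟩, 0, 0⟩ 0 0) (.cut .d (-2097152) (.void 25 ⟨⟨0, 0, 0, 0, 0, 100000, 0, 0, 0, ⟨0, 0⟩, 0⟩, 0, 0⟩ 0 0) (.cut .v 20971520 (.cut .d (-1048576) (.void 27 ⟨⟨0, 0, 0, 0, 0, 100000, 0, 0, 0, ⟨0, 0⟩, 0⟩, 0, 0⟩ 0 0) (.cut .d (-524288) (.void 27 ⟨⟨0, 0, 0, 0, 0, 100000, 0, 0, 0, ⟨0, 0⟩, 0⟩, 0, 0⟩ 0 0) (.cut .d (-262144) (.void 27 ⟨⟨0, 0, 0, 0, 0, 100000, 0, 0, 0, ⟨0, 0⟩, 0⟩, 0, 0⟩ 0 0) (.cut .v 18874368 (.cut .d (-131072)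 (.void 29 ⟨⟨0, 0, 0, 0, 0, 100000, 0, 0, 0, ⟨0, 0⟩, 0⟩, 0, 0⟩ 0 0) (.cut .v 17825792 (.cut .v 17301504 (.cut .v 17039360 (.cut .s 6422528 (.cut .v 16908288 (.cut .d (-65536) (.cut .s 6225920 (.pos 37 .mp ⟨⟨1264673, 0, 0, 0, 0, 3888848, 0, 0, 0, ⟨0, 0⟩, 0⟩, 0, 0⟩ 0 0) (.cut .s 6324224 (.pos 37 .mp ⟨⟨1652530, 0, 0, 0, 0, 4023744, 0, 0, 0, ⟨0, 0⟩, 0⟩, 0, 0⟩ 0 0) (.pos 37 .mp ⟨⟨1879255, 0, 0, 0, 0, 4290041, 0, 0, 0, ⟨0, 0⟩, 0⟩, 0, 0⟩ 0 0))) (.cut .s 6225920 (.cut .s 6127616 (.pos 37 .mp ⟨⟨1528659, 0, 0, 0, 0, 2846227, 0, 0, 0, ⟨0, 0⟩, 0⟩, 0, 0⟩ 0 0) (.pos 37 .mp ⟨⟨1739665, 0, 0, 0, 0, 2996984, 0, 0, 0, ⟨0, 0⟩, 0⟩, 0, 0⟩ 0 0)) (.cut .v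 16842752 (.cut .l 141961 (.cut .d (-32768) (.pos 39 .mp ⟨⟨1571691, 0, 0, 0, 0, 4356403, 0, 0, 0, ⟨0, 0⟩, 0⟩, 0, 0⟩ 0 0) (.cut .s 6324224 (.pos 39 .mp ⟨⟨1940877, 0, 0, 0, 0, 3141895, 0, 0, 0, ⟨0, 0⟩, 0⟩, 0, 0⟩ 0 0) (.pos 39 .mp ⟨⟨2108710, 0, 0, 0, 0, 3410910, 0, 0, 0, ⟨0, 0⟩, 0⟩, 0, 0⟩ 0 0))) (.pos 39 .mp ⟨⟨2149699, 0, 0, 0, 0, 2814932, 0, 0, 0, ⟨0, 0⟩, 0⟩, 0, 0⟩ 0 0)) (.pos 40 .mp ⟨⟨5435728, 0, 0, 0, 0, 0, 0, 0, 0, ⟨0, 0⟩, 0⟩, 0, 0⟩ 0 0)))) (.pos 38 .mp ⟨⟨6223020, 0, 0, 0, 0, 0, 0, 0, 0, ⟨0, 0⟩, 0⟩, 0, 0⟩ 0 0)) (.cut .v 16908288 (.cut .d (-65536) (.cut .d (-98304) (.void 37 ⟨⟨0, 0, 0, 0, 0, 100000, 0, 0, 0, ⟨0, 0⟩, 0⟩, 0, 0⟩ 0 0)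 (.cut .l 141961 (.void 37 ⟨⟨0, 0, 0, 0, 0, 100000, 0, 0, 0, ⟨0, 0⟩, 0⟩, 0, 0⟩ 0 0) (.cut .s 6619136 (.cut .s 6520832 (.pos 37 .mp ⟨⟨2128362, 0, 0, 0, 0, 4415337, 0, 0, 0, ⟨0, 0⟩, 0⟩, 0, 0⟩ 0 0) (.pos 37 .mp ⟨⟨2400264, 0, 0, 0, 0, 4698939, 0, 0, 0, ⟨0, 0⟩, 0⟩, 0, 0⟩ 0 0)) (.pos 37 .mp ⟨⟨2695394, 0, 0, 0, 0, 5486411, 0, 0, 0, ⟨0, 0⟩, 0⟩, 0, 0⟩ 0 0)))) (.cut .s 6619136 (.cut .v 16842752 (.cut .l 141961 (.cut .d (-32768) (.pos 39 .mp ⟨⟨2039836, 0, 0, 0, 0, 4950783, 0, 0, 0, ⟨0, 0⟩, 0⟩, 0, 0⟩ 0 0) (.cut .s 6520832 (.pos 39 .mp ⟨⟨2362678, 0, 0, 0, 0, 3636451, 0, 0, 0, ⟨0, 0⟩, 0⟩, 0, 0⟩ 0 0) (.cut .s 6569984 (.pos 39 .mp ⟨⟨2795153, 0, 0,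 0, 0, 3624898, 0, 0, 0, ⟨0, 0⟩, 0⟩, 0, 0⟩ 0 0) (.pos 39 .mp ⟨⟨2941024, 0, 0, 0, 0, 3748855, 0, 0, 0, ⟨0, 0⟩, 0⟩, 0, 0⟩ 0 0)))) (.pos 39 .mp ⟨⟨2718987, 0, 0, 0, 0, 3203902, 0, 0, 0, ⟨0, 0⟩, 0⟩, 0, 0⟩ 0 0)) (.pos 40 .mp ⟨⟨6336591, 0, 0, 0, 0, 0, 0, 0, 0, ⟨0, 0⟩, 0⟩, 0, 0⟩ 0 0)) (.cut .v 16842752 (.cut .l 141961 (.cut .d (-32768) (.pos 39 .mp ⟨⟨2598938, 0, 0, 0, 0, 5639229, 0, 0, 0, ⟨0, 0⟩, 0⟩, 0, 0⟩ 0 0) (.cut .v 16809984 (.cut .l 70980 (.cut .d (-16384) (.pos 49 .mp ⟨⟨2552391, 0, 0, 0, 0, 5668735, 0, 0, 0, ⟨0, 0⟩, 0⟩, 0, 0⟩ 0 0) (.cut .s 6717440 (.pos 49 .mp ⟨⟨2948465, 0, 0, 0, 0, 4095044, 0, 0, 0, ⟨0, 0⟩, 0⟩, 0, 0⟩ 0 0) (.pos 49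 .mp ⟨⟨3293397, 0, 0, 0, 0, 4345440, 0, 0, 0, ⟨0, 0⟩, 0⟩, 0, 0⟩ 0 0))) (.pos 49 .mp ⟨⟨3266684, 0, 0, 0, 0, 3553999, 0, 0, 0, ⟨0, 0⟩, 0⟩, 0, 0⟩ 0 0)) (.pos 50 .mp ⟨⟨7366397, 0, 0, 0, 0, 0, 0, 0, 0, ⟨0, 0⟩, 0⟩, 0, 0⟩ 0 0))) (.pos 39 .mp ⟨⟨3383780, 0, 0, 0, 0, 3615987, 0, 0, 0, ⟨0, 0⟩, 0⟩, 0, 0⟩ 0 0)) (.pos 40 .mp ⟨⟨7392142, 0, 0, 0, 0, 0, 0, 0, 0, ⟨0, 0⟩, 0⟩, 0, 0⟩ 0 0)))) (.pos 38 .mp ⟨⟨8168314, 0, 0, 0, 0, 0, 0, 0, 0, ⟨0, 0⟩, 0⟩, 0, 0⟩ 0 0))) (.pos 36 .mp ⟨⟨8423862, 0, 0, 0, 0, 0, 0, 0, 0, ⟨0, 0⟩, 0⟩, 0, 0⟩ 0 0)) (.void 34 ⟨⟨100000, 0, 0, 0, 0, 0, 0, 0, 0, ⟨0, 0⟩, 0⟩, 0, 0⟩ 0 0)) (.void 32 ⟨⟨100000, 0, 0, 0, 0, 0, 0, 0, 0, ⟨0, 0⟩,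 0⟩, 0, 0⟩ 0 0))) (.void 30 ⟨⟨100000, 0, 0, 0, 0, 0, 0, 0, 0, ⟨0, 0⟩, 0⟩, 0, 0⟩ 0 0))))) (.void 28 ⟨⟨100000, 0, 0, 0, 0, 0, 0, 0, 0, ⟨0, 0⟩, 0⟩, 0, 0⟩ 0 0))))) (.void 26 ⟨⟨100000, 0, 0, 0, 0, 0, 0, 0, 0, ⟨0, 0⟩, 0⟩, 0, 0⟩ 0 0))) (.cut .v 16777216 (.cut .d 3449849 (.cut .d 1724924 (.cut .d 862462 (.cut .v 8388608 (.cut .v 4194304 (.void 4 ⟨⟨0, 0, 50000, 0, 50000, 0, 0, 0, 0, ⟨0, 0⟩, 0⟩, 0, 0⟩ 0 0) (.void 5 ⟨⟨0, 0, 0, 0, 0, 0, 0, 0, 100000, ⟨0, 0⟩, 9975792⟩, 0, 0⟩ 0 0)) (.cut .v 12582912 (.pos 10 .pm ⟨⟨0, 0, 0, 0, 0, 0, 0, 0, 0, ⟨0, 0⟩, 0⟩, 0, 1117532⟩ 0 0) (.cut .v 14680064 (.pos 14 .pm ⟨⟨0, 0, 0, 0, 0, 0, 0, 0, 0, ⟨0, 0⟩, 0⟩, 0, 728419⟩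 0 0) (.pos 15 .pm ⟨⟨0, 0, 0, 0, 0, 0, 0, 0, 0, ⟨0, 0⟩, 0⟩, 0, 373504⟩ 0 0)))) (.void 1 ⟨⟨0, 0, 0, 0, 0, 0, 0, 0, 0, ⟨0, 0⟩, 0⟩, 0, 100000⟩ 0 0)) (.void 1 ⟨⟨0, 0, 0, 0, 0, 0, 0, 0, 0, ⟨0, 0⟩, 0⟩, 0, 100000⟩ 0 0)) (.void 1 ⟨⟨0, 0, 0, 0, 0, 0, 0, 0, 0, ⟨0, 0⟩, 0⟩, 0, 100000⟩ 0 0)) (.cut .v 25165824 (.cut .d 3449849 (.cut .v 20971520 (.cut .d 1724924 (.cut .v 18874368 (.cut .d 862462 (.cut .d 431231 (.cut .v 17825792 (.cut .s 6422528 (.pos 31 .pp ⟨⟨2630859, 0, 0, 0, 0, 0, 0, 0, 0, ⟨0, 0⟩, 0⟩, 0, 153116⟩ 0 0) (.pos 31 .pp ⟨⟨4062968, 0, 0, 0, 0, 0, 0, 0, 0, ⟨0, 0⟩, 0⟩, 0, 125050⟩ 0 0)) (.pos 32 .pp ⟨⟨6444200, 0, 0, 0, 0, 0, 0, 0, 0, ⟨0,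 0⟩, 0⟩, 0, 0⟩ 0 0)) (.pos 29 .pp ⟨⟨597693, 0, 0, 0, 0, 0, 0, 0, 0, ⟨0, 0⟩, 0⟩, 0, 496718⟩ 0 0)) (.void 29 ⟨⟨0, 0, 0, 0, 0, 0, 0, 0, 0, ⟨0, 0⟩, 0⟩, 0, 100000⟩ 0 0)) (.void 30 ⟨⟨70071, 0, 0, 0, 0, 0, 0, 0, 0, ⟨0, 0⟩, 0⟩, 0, 29929⟩ 0 0)) (.void 27 ⟨⟨0, 0, 0, 0, 0, 0, 0, 0, 0, ⟨0, 0⟩, 0⟩, 0, 100000⟩ 0 0)) (.void 28 ⟨⟨0, 0, 0, 0, 0, 0, 0, 0, 0, ⟨0, 0⟩, 0⟩, 19706, 80294⟩ 0 0)) (.void 25 ⟨⟨0, 0, 0, 0, 0, 0, 0, 0, 0, ⟨0, 0⟩, 0⟩, 0, 100000⟩ 0 0)) (.void 26 ⟨⟨0, 0, 0, 0, 0, 0, 0, 0, 0, ⟨0, 0⟩, 0⟩, 19706, 80294⟩ 0 0)))),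
    by decide +kernel⟩

def covers7 : cell.Covers Vale.Agent.P237.Petty.Cor.Grid.N13.table row7.1 :=
  ⟨(.cut .d 0 (.cut .v 16777216 (.cut .d (-8388608) (.void 1 ⟨⟨0, 0, 0, 0, 0, 100000, 0, 0, 0, ⟨0, 0⟩, 0⟩, 0, 0⟩ 0 0) (.cut .d (-4194304) (.void 1 ⟨⟨0, 0, 0, 0, 0, 100000, 0, 0, 0, ⟨0, 0⟩, 0⟩, 0, 0⟩ 0 0) (.cut .d (-2097152) (.void 1 ⟨⟨0, 0, 0, 0, 0, 100000, 0, 0, 0, ⟨0, 0⟩, 0⟩, 0, 0⟩ 0 0) (.cut .d (-1048576) (.void 1 ⟨⟨0, 0, 0, 0, 0, 100000, 0, 0, 0, ⟨0, 0⟩, 0⟩, 0, 0⟩ 0 0) (.cut .d (-524288) (.void 1 ⟨⟨0, 0, 0, 0, 0, 100000, 0, 0, 0, ⟨0, 0⟩, 0⟩, 0, 0⟩ 0 0) (.cut .d (-262144) (.void 1 ⟨⟨0, 0, 0, 0, 0, 100000, 0, 0, 0, ⟨0, 0⟩, 0⟩, 0,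 0⟩ 0 0) (.cut .d (-131072) (.void 1 ⟨⟨0, 0, 0, 0, 0, 100000, 0, 0, 0, ⟨0, 0⟩, 0⟩, 0, 0⟩ 0 0) (.cut .v 8388608 (.cut .v 4194304 (.void 4 ⟨⟨0, 0, 100000, 0, 0, 0, 0, 0, 0, ⟨0, 0⟩, 0⟩, 0, 0⟩ 0 0) (.void 5 ⟨⟨0, 0, 0, 0, 0, 54321, 0, 0, 45679, ⟨0, 0⟩, 9975792⟩, 0, 0⟩ 0 0)) (.cut .v 12582912 (.pos 10 .mm ⟨⟨0, 0, 0, 0, 0, 3257734, 0, 0, 0, ⟨0, 0⟩, 0⟩, 0, 0⟩ 0 0) (.cut .d (-65536) (.pos 11 .mm ⟨⟨0, 0, 0, 0, 0, 13574023, 0, 0, 0, ⟨0, 0⟩, 0⟩, 0, 0⟩ 0 0) (.cut .v 14680064 (.pos 14 .mm ⟨⟨0, 0, 0, 0, 0, 4760373, 0, 0, 0, ⟨0, 0⟩, 0⟩, 0, 0⟩ 0 0) (.cut .v 15728640 (.pos 22 .mm ⟨⟨0, 0, 0, 0, 0, 5901809, 0, 0, 0, ⟨0, 0⟩, 0⟩, 0, 0⟩ 0 0) (.cut .v 16252928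 (.pos 43 .mm ⟨⟨0, 0, 0, 0, 0, 6542083, 0, 0, 0, ⟨0, 0⟩, 0⟩, 0, 0⟩ 0 0) (.cut .v 16515072 (.pos 45 .mm ⟨⟨0, 0, 0, 0, 0, 8769000, 0, 0, 0, ⟨0, 0⟩, 0⟩, 0, 0⟩ 0 0) (.cut .v 16646144 (.pos 47 .mm ⟨⟨0, 0, 0, 0, 0, 9780025, 0, 0, 0, ⟨0, 0⟩, 0⟩, 0, 0⟩ 0 0) (.cut .s 7176192 (.cut .s 6995968 (.pos 48 .mm ⟨⟨0, 0, 0, 0, 0, 8670290, 0, 0, 0, ⟨0, 0⟩, 0⟩, 0, 0⟩ 0 0) (.pos 48 .mm ⟨⟨0, 0, 0, 0, 0, 10000843, 0, 0, 0, ⟨0, 0⟩, 0⟩, 0, 0⟩ 0 0)) (.cut .s 7356416 (.pos 48 .mm ⟨⟨0, 0, 0, 0, 0, 11567075, 0, 0, 0, ⟨0, 0⟩, 0⟩, 0, 0⟩ 0 0) (.pos 48 .mm ⟨⟨0, 0, 0, 0, 0, 13369892, 0, 0, 0, ⟨0, 0⟩, 0⟩, 0, 0⟩ 0 0)))))))))))))))))) (.cut .v 25165824 (.cut .d (-8388608)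 (.void 25 ⟨⟨0, 0, 0, 0, 0, 100000, 0, 0, 0, ⟨0, 0⟩, 0⟩, 0, 0⟩ 0 0) (.cut .d (-4194304) (.void 25 ⟨⟨0, 0, 0, 0, 0, 100000, 0, 0, 0, ⟨0, 0⟩, 0⟩, 0, 0⟩ 0 0) (.cut .d (-2097152) (.void 25 ⟨⟨0, 0, 0, 0, 0, 100000, 0, 0, 0, ⟨0, 0⟩, 0⟩, 0, 0⟩ 0 0) (.cut .v 20971520 (.cut .d (-1048576) (.void 27 ⟨⟨0, 0, 0, 0, 0, 100000, 0, 0, 0, ⟨0, 0⟩, 0⟩, 0, 0⟩ 0 0) (.cut .d (-524288) (.void 27 ⟨⟨0, 0, 0, 0, 0, 100000, 0, 0, 0, ⟨0, 0⟩, 0⟩, 0, 0⟩ 0 0) (.cut .v 18874368 (.cut .d (-262144) (.void 29 ⟨⟨0, 0, 0, 0, 0, 100000, 0, 0, 0, ⟨0, 0⟩, 0⟩, 0, 0⟩ 0 0) (.cut .d (-131072) (.void 29 ⟨⟨0, 0, 0, 0, 0, 100000, 0, 0, 0, ⟨0, 0⟩, 0⟩, 0, 0⟩ 0 0) (.cut .v 17825792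 (.cut .v 17301504 (.cut .v 17039360 (.cut .s 7176192 (.cut .v 16908288 (.cut .d (-65536) (.cut .s 6995968 (.pos 37 .mp ⟨⟨3357263, 0, 0, 0, 0, 6414006, 0, 0, 0, ⟨0, 0⟩, 0⟩, 0, 0⟩ 0 0) (.pos 37 .mp ⟨⟨4068769, 0, 0, 0, 0, 7155060, 0, 0, 0, ⟨0, 0⟩, 0⟩, 0, 0⟩ 0 0)) (.cut .s 6995968 (.cut .v 16842752 (.cut .s 6905856 (.cut .s 6860800 (.pos 39 .mp ⟨⟨3784901, 0, 0, 0, 0, 4463005, 0, 0, 0, ⟨0, 0⟩, 0⟩, 0, 0⟩ 0 0) (.pos 39 .mp ⟨⟨3883940, 0, 0, 0, 0, 4637984, 0, 0, 0, ⟨0, 0⟩, 0⟩, 0, 0⟩ 0 0)) (.cut .s 6950912 (.pos 39 .mp ⟨⟨3991020, 0, 0, 0, 0, 4818743, 0, 0, 0, ⟨0, 0⟩, 0⟩, 0, 0⟩ 0 0) (.pos 39 .mp ⟨⟨3999308, 0, 0, 0, 0, 5140456, 0, 0, 0, ⟨0,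 0⟩, 0⟩, 0, 0⟩ 0 0))) (.pos 40 .mp ⟨⟨7520438, 0, 0, 0, 0, 1219492, 0, 0, 0, ⟨0, 0⟩, 0⟩, 0, 0⟩ 0 0)) (.cut .v 16842752 (.cut .s 7086080 (.cut .d (-32768) (.pos 39 .mp ⟨⟨3875442, 0, 0, 0, 0, 6039734, 0, 0, 0, ⟨0, 0⟩, 0⟩, 0, 0⟩ 0 0) (.cut .s 7041024 (.pos 39 .mp ⟨⟨4461975, 0, 0, 0, 0, 4903145, 0, 0, 0, ⟨0, 0⟩, 0⟩, 0, 0⟩ 0 0) (.pos 39 .mp ⟨⟨4613593, 0, 0, 0, 0, 5075154, 0, 0, 0, ⟨0, 0⟩, 0⟩, 0, 0⟩ 0 0))) (.cut .l 141961 (.cut .d (-32768) (.pos 39 .mp ⟨⟨4348515, 0, 0, 0, 0, 6616806, 0, 0, 0, ⟨0, 0⟩, 0⟩, 0, 0⟩ 0 0) (.cut .s 7131136 (.pos 39 .mp ⟨⟨4736094, 0, 0, 0, 0, 5274943, 0, 0, 0, ⟨0, 0⟩, 0⟩, 0, 0⟩ 0 0) (.pos 39 .mp ⟨⟨4916002, 0, 0,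 0, 0, 5447321, 0, 0, 0, ⟨0, 0⟩, 0⟩, 0, 0⟩ 0 0))) (.pos 39 .mp ⟨⟨4201273, 0, 0, 0, 0, 5956462, 0, 0, 0, ⟨0, 0⟩, 0⟩, 0, 0⟩ 0 0))) (.pos 40 .mp ⟨⟨8648055, 0, 0, 0, 0, 1290180, 0, 0, 0, ⟨0, 0⟩, 0⟩, 0, 0⟩ 0 0)))) (.pos 38 .mp ⟨⟨10904845, 0, 0, 0, 0, 0, 0, 0, 0, ⟨0, 0⟩, 0⟩, 0, 0⟩ 0 0)) (.cut .v 16908288 (.cut .d (-65536) (.cut .s 7356416 (.pos 37 .mp ⟨⟨4897720, 0, 0, 0, 0, 7942049, 0, 0, 0, ⟨0, 0⟩, 0⟩, 0, 0⟩ 0 0) (.pos 37 .mp ⟨⟨5848785, 0, 0, 0, 0, 8751149, 0, 0, 0, ⟨0, 0⟩, 0⟩, 0, 0⟩ 0 0)) (.cut .s 7356416 (.cut .s 7266304 (.cut .v 16842752 (.cut .s 7221248 (.cut .s 7198720 (.pos 39 .mp ⟨⟨5146847, 0, 0, 0, 0, 5580977, 0, 0, 0, ⟨0, 0⟩,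 0⟩, 0, 0⟩ 0 0) (.pos 39 .mp ⟨⟨5241972, 0, 0, 0, 0, 5673681, 0, 0, 0, ⟨0, 0⟩, 0⟩, 0, 0⟩ 0 0)) (.cut .s 7243776 (.pos 39 .mp ⟨⟨5325463, 0, 0, 0, 0, 5785817, 0, 0, 0, ⟨0, 0⟩, 0⟩, 0, 0⟩ 0 0) (.pos 39 .mp ⟨⟨5416455, 0, 0, 0, 0, 5892679, 0, 0, 0, ⟨0, 0⟩, 0⟩, 0, 0⟩ 0 0))) (.pos 40 .mp ⟨⟨7818769, 0, 0, 0, 0, 3188014, 0, 0, 0, ⟨0, 0⟩, 0⟩, 0, 0⟩ 0 0)) (.cut .v 16842752 (.cut .s 7311360 (.cut .s 7288832 (.pos 39 .mp ⟨⟨5515186, 0, 0, 0, 0, 5993942, 0, 0, 0, ⟨0, 0⟩, 0⟩, 0, 0⟩ 0 0) (.pos 39 .mp ⟨⟨5621890, 0, 0, 0, 0, 6089286, 0, 0, 0, ⟨0, 0⟩, 0⟩, 0, 0⟩ 0 0)) (.cut .s 7333888 (.pos 39 .mp ⟨⟨5736800, 0, 0, 0, 0, 6178389, 0, 0, 0, ⟨0, 0⟩, 0⟩, 0,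 0⟩ 0 0) (.pos 39 .mp ⟨⟨5860143, 0, 0, 0, 0, 6260932, 0, 0, 0, ⟨0, 0⟩, 0⟩, 0, 0⟩ 0 0))) (.pos 40 .mp ⟨⟨8437691, 0, 0, 0, 0, 3328735, 0, 0, 0, ⟨0, 0⟩, 0⟩, 0, 0⟩ 0 0))) (.cut .s 7446528 (.cut .v 16842752 (.cut .s 7401472 (.cut .s 7378944 (.pos 39 .mp ⟨⟨5992146, 0, 0, 0, 0, 6336598, 0, 0, 0, ⟨0, 0⟩, 0⟩, 0, 0⟩ 0 0) (.pos 39 .mp ⟨⟨6133032, 0, 0, 0, 0, 6405070, 0, 0, 0, ⟨0, 0⟩, 0⟩, 0, 0⟩ 0 0)) (.cut .s 7424000 (.pos 39 .mp ⟨⟨6283024, 0, 0, 0, 0, 6466033, 0, 0, 0, ⟨0, 0⟩, 0⟩, 0, 0⟩ 0 0) (.pos 39 .mp ⟨⟨6442341, 0, 0, 0, 0, 6519171, 0, 0, 0, ⟨0, 0⟩, 0⟩, 0, 0⟩ 0 0))) (.pos 40 .mp ⟨⟨9150859, 0, 0, 0, 0, 3419347, 0, 0, 0, ⟨0, 0⟩, 0⟩, 0, 0⟩ 0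 0)) (.cut .v 16842752 (.cut .s 7491584 (.cut .s 7469056 (.pos 39 .mp ⟨⟨6611200, 0, 0, 0, 0, 6564171, 0, 0, 0, ⟨0, 0⟩, 0⟩, 0, 0⟩ 0 0) (.pos 39 .mp ⟨⟨6789816, 0, 0, 0, 0, 6600719, 0, 0, 0, ⟨0, 0⟩, 0⟩, 0, 0⟩ 0 0)) (.cut .s 7514112 (.pos 39 .mp ⟨⟨6957528, 0, 0, 0, 0, 6656216, 0, 0, 0, ⟨0, 0⟩, 0⟩, 0, 0⟩ 0 0) (.pos 39 .mp ⟨⟨7126280, 0, 0, 0, 0, 6714910, 0, 0, 0, ⟨0, 0⟩, 0⟩, 0, 0⟩ 0 0))) (.pos 40 .mp ⟨⟨9971722, 0, 0, 0, 0, 3443248, 0, 0, 0, ⟨0, 0⟩, 0⟩, 0, 0⟩ 0 0))))) (.pos 38 .mp ⟨⟨13767004, 0, 0, 0, 0, 0, 0, 0, 0, ⟨0, 0⟩, 0⟩, 0, 0⟩ 0 0))) (.pos 36 .mp ⟨⟨14254543, 0, 0, 0, 0, 0, 0, 0, 0, ⟨0, 0⟩, 0⟩, 0, 0⟩ 0 0)) (.void 34 ⟨⟨100000, 0, 0,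 0, 0, 0, 0, 0, 0, ⟨0, 0⟩, 0⟩, 0, 0⟩ 0 0)) (.void 32 ⟨⟨100000, 0, 0, 0, 0, 0, 0, 0, 0, ⟨0, 0⟩, 0⟩, 0, 0⟩ 0 0)))) (.void 30 ⟨⟨100000, 0, 0, 0, 0, 0, 0, 0, 0, ⟨0, 0⟩, 0⟩, 0, 0⟩ 0 0)))) (.void 28 ⟨⟨100000, 0, 0, 0, 0, 0, 0, 0, 0, ⟨0, 0⟩, 0⟩, 0, 0⟩ 0 0))))) (.void 26 ⟨⟨100000, 0, 0, 0, 0, 0, 0, 0, 0, ⟨0, 0⟩, 0⟩, 0, 0⟩ 0 0))) (.cut .v 16777216 (.cut .d 4252696 (.cut .d 2126348 (.cut .d 1063174 (.cut .v 8388608 (.cut .v 4194304 (.void 4 ⟨⟨0, 0, 100000, 0, 0, 0, 0, 0, 0, ⟨0, 0⟩, 0⟩, 0, 0⟩ 0 0) (.void 5 ⟨⟨0, 0, 0, 0, 0, 0, 0, 0, 100000, ⟨0, 0⟩, 9975792⟩, 0, 0⟩ 0 0)) (.cut .v 12582912 (.pos 10 .pm ⟨⟨0, 0, 0, 0, 0, 0, 0, 0, 0, ⟨0, 0⟩, 0⟩, 0,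 433245⟩ 0 0) (.pos 11 .pm ⟨⟨0, 0, 0, 0, 0, 0, 0, 0, 0, ⟨0, 0⟩, 0⟩, 0, 111072⟩ 0 0))) (.void 1 ⟨⟨0, 0, 0, 0, 0, 0, 0, 0, 0, ⟨0, 0⟩, 0⟩, 0, 100000⟩ 0 0)) (.void 1 ⟨⟨0, 0, 0, 0, 0, 0, 0, 0, 0, ⟨0, 0⟩, 0⟩, 0, 100000⟩ 0 0)) (.void 1 ⟨⟨0, 0, 0, 0, 0, 0, 0, 0, 0, ⟨0, 0⟩, 0⟩, 0, 100000⟩ 0 0)) (.cut .v 25165824 (.cut .d 4252696 (.cut .v 20971520 (.cut .d 2126348 (.cut .d 1063174 (.cut .v 18874368 (.cut .d 531587 (.cut .v 17825792 (.cut .d 265793 (.cut .s 7176192 (.pos 31 .pp ⟨⟨6179439, 0, 0, 0, 0, 0, 0, 0, 0, ⟨0, 0⟩, 0⟩, 0, 2417⟩ 0 0) (.pos 31 .pp ⟨⟨7966772, 0, 0, 0, 0, 0, 0, 0, 0, ⟨0, 0⟩, 0⟩, 77756, 0⟩ 0 0)) (.pos 31 .pp ⟨⟨2830654, 0, 0,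 0, 0, 0, 0, 0, 0, ⟨0, 0⟩, 0⟩, 0, 403632⟩ 0 0)) (.pos 32 .pp ⟨⟨10234515, 0, 0, 0, 0, 0, 0, 0, 0, ⟨0, 0⟩, 0⟩, 0, 0⟩ 0 0)) (.pos 29 .pp ⟨⟨1899117, 0, 0, 0, 0, 0, 0, 0, 0, ⟨0, 0⟩, 0⟩, 0, 495735⟩ 0 0)) (.cut .d 531587 (.void 30 ⟨⟨100000, 0, 0, 0, 0, 0, 0, 0, 0, ⟨0, 0⟩, 0⟩, 0, 0⟩ 0 0) (.pos 30 .pp ⟨⟨13281565, 0, 0, 0, 0, 0, 0, 0, 0, ⟨0, 0⟩, 0⟩, 0, 4031109⟩ 0 0))) (.void 27 ⟨⟨0, 0, 0, 0, 0, 0, 0, 0, 0, ⟨0, 0⟩, 0⟩, 0, 100000⟩ 0 0)) (.void 27 ⟨⟨0, 0, 0, 0, 0, 0, 0, 0, 0, ⟨0, 0⟩, 0⟩, 0, 100000⟩ 0 0)) (.void 28 ⟨⟨0, 0, 0, 0, 0, 0, 100000, 0, 0, ⟨0, 0⟩, 0⟩, 0, 0⟩ 0 0)) (.void 25 ⟨⟨0, 0, 0, 0, 0, 0, 0, 0, 0, ⟨0, 0⟩, 0⟩, 0, 100000⟩ 0 0)) (.void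 26 ⟨⟨0, 0, 0, 0, 0, 0, 0, 0, 0, ⟨0, 0⟩, 0⟩, 19020, 80980⟩ 0 0)))),
    by decide +kernel⟩

def covers8 : cell.Covers Vale.Agent.P237.Petty.Cor.Grid.N13.table row8.1 :=
  ⟨(.cut .d 0 (.cut .v 16777216 (.cut .d (-8388608) (.void 1 ⟨⟨0, 0, 0, 0, 0, 100000, 0, 0, 0, ⟨0, 0⟩, 0⟩, 0, 0⟩ 0 0) (.cut .d (-4194304) (.void 1 ⟨⟨0, 0, 0, 0, 0, 100000, 0, 0, 0, ⟨0, 0⟩, 0⟩, 0, 0⟩ 0 0) (.cut .d (-2097152) (.void 1 ⟨⟨0, 0, 0, 0, 0, 100000, 0, 0, 0, ⟨0, 0⟩, 0⟩, 0, 0⟩ 0 0) (.cut .d (-1048576) (.void 1 ⟨⟨0, 0, 0, 0, 0, 100000, 0, 0, 0, ⟨0, 0⟩, 0⟩, 0, 0⟩ 0 0) (.cut .d (-524288) (.void 1 ⟨⟨0, 0, 0, 0, 0, 100000, 0, 0, 0, ⟨0, 0⟩, 0⟩, 0, 0⟩ 0 0) (.cut .d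 (-262144) (.void 1 ⟨⟨0, 0, 0, 0, 0, 100000, 0, 0, 0, ⟨0, 0⟩, 0⟩, 0, 0⟩ 0 0) (.cut .d (-131072) (.void 1 ⟨⟨0, 0, 0, 0, 0, 100000, 0, 0, 0, ⟨0, 0⟩, 0⟩, 0, 0⟩ 0 0) (.cut .v 8388608 (.cut .v 4194304 (.void 4 ⟨⟨0, 0, 100000, 0, 0, 0, 0, 0, 0, ⟨0, 0⟩, 0⟩, 0, 0⟩ 0 0) (.pos 5 .mm ⟨⟨0, 0, 0, 0, 0, 6350240, 0, 0, 644365, ⟨0, 0⟩, 9975792⟩, 0, 0⟩ 0 0)) (.cut .v 12582912 (.pos 10 .mm ⟨⟨0, 0, 0, 0, 0, 7715444, 0, 0, 0, ⟨0, 0⟩, 0⟩, 0, 0⟩ 0 0) (.cut .d (-65536) (.pos 11 .mm ⟨⟨0, 0, 0, 0, 0, 22045877, 0, 0, 0, ⟨0, 0⟩, 0⟩, 0, 0⟩ 0 0) (.cut .v 14680064 (.pos 14 .mm ⟨⟨0, 0, 0, 0, 0, 9868204, 0, 0, 0, ⟨0, 0⟩, 0⟩, 0, 0⟩ 0 0) (.cut .v 15728640 (.pos 22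 .mm ⟨⟨0, 0, 0, 0, 0, 11362804, 0, 0, 0, ⟨0, 0⟩, 0⟩, 0, 0⟩ 0 0) (.cut .v 16252928 (.pos 43 .mm ⟨⟨0, 0, 0, 0, 0, 12182194, 0, 0, 0, ⟨0, 0⟩, 0⟩, 0, 0⟩ 0 0) (.cut .v 16515072 (.pos 45 .mm ⟨⟨0, 0, 0, 0, 0, 15215388, 0, 0, 0, ⟨0, 0⟩, 0⟩, 0, 0⟩ 0 0) (.cut .v 16646144 (.pos 47 .mm ⟨⟨0, 0, 0, 0, 0, 16580497, 0, 0, 0, ⟨0, 0⟩, 0⟩, 0, 0⟩ 0 0) (.cut .v 16711680 (.pos 53 .mm ⟨⟨0, 0, 0, 0, 0, 17175012, 0, 0, 0, ⟨0, 0⟩, 0⟩, 0, 0⟩ 0 0) (.cut .s 7798784 (.cut .s 7667712 (.pos 54 .mm ⟨⟨0, 0, 0, 0, 0, 15281845, 0, 0, 0, ⟨0, 0⟩, 0⟩, 0, 0⟩ 0 0) (.pos 54 .mm ⟨⟨0, 0, 0, 0, 0, 16863385, 0, 0, 0, ⟨0, 0⟩, 0⟩, 0, 0⟩ 0 0)) (.cut .s 7929856 (.pos 54 .mm ⟨⟨0,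 0, 0, 0, 0, 18641542, 0, 0, 0, ⟨0, 0⟩, 0⟩, 0, 0⟩ 0 0) (.pos 54 .mm ⟨⟨0, 0, 0, 0, 0, 20620009, 0, 0, 0, ⟨0, 0⟩, 0⟩, 0, 0⟩ 0 0))))))))))))))))))) (.cut .v 25165824 (.cut .d (-8388608) (.void 25 ⟨⟨0, 0, 0, 0, 0, 100000, 0, 0, 0, ⟨0, 0⟩, 0⟩, 0, 0⟩ 0 0) (.cut .d (-4194304) (.void 25 ⟨⟨0, 0, 0, 0, 0, 100000, 0, 0, 0, ⟨0, 0⟩, 0⟩, 0, 0⟩ 0 0) (.cut .v 20971520 (.cut .d (-2097152) (.void 27 ⟨⟨0, 0, 0, 0, 0, 100000, 0, 0, 0, ⟨0, 0⟩, 0⟩, 0, 0⟩ 0 0) (.cut .d (-1048576) (.void 27 ⟨⟨0, 0, 0, 0, 0, 100000, 0, 0, 0, ⟨0, 0⟩, 0⟩, 0, 0⟩ 0 0) (.cut .d (-524288) (.void 27 ⟨⟨0, 0, 0, 0, 0, 100000, 0, 0, 0, ⟨0, 0⟩, 0⟩, 0, 0⟩ 0 0) (.cut .v 18874368 (.cut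 .d (-262144) (.void 29 ⟨⟨0, 0, 0, 0, 0, 100000, 0, 0, 0, ⟨0, 0⟩, 0⟩, 0, 0⟩ 0 0) (.cut .d (-131072) (.void 29 ⟨⟨0, 0, 0, 0, 0, 100000, 0, 0, 0, ⟨0, 0⟩, 0⟩, 0, 0⟩ 0 0) (.cut .v 17825792 (.cut .v 17301504 (.cut .v 17039360 (.cut .d (-65536) (.cut .v 16908288 (.pos 37 .mp ⟨⟨6924448, 0, 0, 0, 0, 19040262, 0, 0, 0, ⟨0, 0⟩, 0⟩, 0, 0⟩ 0 0) (.void 38 ⟨⟨100000, 0, 0, 0, 0, 0, 0, 0, 0, ⟨0, 0⟩, 0⟩, 0, 0⟩ 0 0)) (.cut .v 16908288 (.cut .s 7798784 (.cut .s 7667712 (.cut .v 16842752 (.cut .s 7602176 (.cut .s 7569408 (.pos 39 .mp ⟨⟨6987398, 0, 0, 0, 0, 7199701, 0, 0, 0, ⟨0, 0⟩, 0⟩, 0, 0⟩ 0 0) (.cut .s 7585792 (.pos 39 .mp ⟨⟨7569774, 0, 0, 0, 0, 6788546,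 0, 0, 0, ⟨0, 0⟩, 0⟩, 0, 0⟩ 0 0) (.pos 39 .mp ⟨⟨7649829, 0, 0, 0, 0, 6874076, 0, 0, 0, ⟨0, 0⟩, 0⟩, 0, 0⟩ 0 0))) (.cut .d (-32768) (.pos 39 .mp ⟨⟨7074709, 0, 0, 0, 0, 8358229, 0, 0, 0, ⟨0, 0⟩, 0⟩, 0, 0⟩ 0 0) (.cut .s 7634944 (.pos 39 .mp ⟨⟨7736611, 0, 0, 0, 0, 6964262, 0, 0, 0, ⟨0, 0⟩, 0⟩, 0, 0⟩ 0 0) (.pos 39 .mp ⟨⟨7910404, 0, 0, 0, 0, 7133187, 0, 0, 0, ⟨0, 0⟩, 0⟩, 0, 0⟩ 0 0)))) (.pos 40 .mp ⟨⟨12273092, 0, 0, 0, 0, 2179737, 0, 0, 0, ⟨0, 0⟩, 0⟩, 0, 0⟩ 0 0)) (.cut .v 16842752 (.cut .s 7733248 (.cut .d (-32768) (.pos 39 .mp ⟨⟨7515185, 0, 0, 0, 0, 8625965, 0, 0, 0, ⟨0, 0⟩, 0⟩, 0, 0⟩ 0 0) (.cut .s 7700480 (.pos 39 .mp ⟨⟨8092554, 0, 0, 0,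 0, 7303759, 0, 0, 0, ⟨0, 0⟩, 0⟩, 0, 0⟩ 0 0) (.pos 39 .mp ⟨⟨8283615, 0, 0, 0, 0, 7475325, 0, 0, 0, ⟨0, 0⟩, 0⟩, 0, 0⟩ 0 0))) (.cut .d (-32768) (.pos 39 .mp ⟨⟨7977674, 0, 0, 0, 0, 8925374, 0, 0, 0, ⟨0, 0⟩, 0⟩, 0, 0⟩ 0 0) (.cut .s 7766016 (.pos 39 .mp ⟨⟨8493601, 0, 0, 0, 0, 7636385, 0, 0, 0, ⟨0, 0⟩, 0⟩, 0, 0⟩ 0 0) (.pos 39 .mp ⟨⟨8745244, 0, 0, 0, 0, 7760696, 0, 0, 0, ⟨0, 0⟩, 0⟩, 0, 0⟩ 0 0)))) (.pos 40 .mp ⟨⟨13455850, 0, 0, 0, 0, 2343420, 0, 0, 0, ⟨0, 0⟩, 0⟩, 0, 0⟩ 0 0))) (.cut .s 7929856 (.cut .s 7864320 (.cut .v 16842752 (.cut .d (-32768) (.cut .s 7831552 (.pos 39 .mp ⟨⟨8462533, 0, 0, 0, 0, 8939639, 0, 0, 0, ⟨0, 0⟩, 0⟩, 0, 0⟩ 0 0) (.pos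 39 .mp ⟨⟨8713466, 0, 0, 0, 0, 9094516, 0, 0, 0, ⟨0, 0⟩, 0⟩, 0, 0⟩ 0 0)) (.cut .s 7831552 (.pos 39 .mp ⟨⟨9002750, 0, 0, 0, 0, 7889190, 0, 0, 0, ⟨0, 0⟩, 0⟩, 0, 0⟩ 0 0) (.pos 39 .mp ⟨⟨9266167, 0, 0, 0, 0, 8021817, 0, 0, 0, ⟨0, 0⟩, 0⟩, 0, 0⟩ 0 0))) (.pos 40 .mp ⟨⟨12166464, 0, 0, 0, 0, 4894886, 0, 0, 0, ⟨0, 0⟩, 0⟩, 0, 0⟩ 0 0)) (.cut .v 16842752 (.cut .d (-32768) (.cut .s 7897088 (.pos 39 .mp ⟨⟨8970131, 0, 0, 0, 0, 9255165, 0, 0, 0, ⟨0, 0⟩, 0⟩, 0, 0⟩ 0 0) (.pos 39 .mp ⟨⟨9232574, 0, 0, 0, 0, 9421666, 0, 0, 0, ⟨0, 0⟩, 0⟩, 0, 0⟩ 0 0)) (.cut .s 7897088 (.pos 39 .mp ⟨⟨9535544, 0, 0, 0, 0, 8158524, 0, 0, 0, ⟨0, 0⟩, 0⟩, 0, 0⟩ 0 0) (.cut .s 7913472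 (.pos 39 .mp ⟨⟨9919034, 0, 0, 0, 0, 8102526, 0, 0, 0, ⟨0, 0⟩, 0⟩, 0, 0⟩ 0 0) (.pos 39 .mp ⟨⟨10055027, 0, 0, 0, 0, 8177923, 0, 0, 0, ⟨0, 0⟩, 0⟩, 0, 0⟩ 0 0)))) (.pos 40 .mp ⟨⟨12817734, 0, 0, 0, 0, 5039480, 0, 0, 0, ⟨0, 0⟩, 0⟩, 0, 0⟩ 0 0))) (.cut .s 7995392 (.cut .v 16842752 (.cut .d (-32768) (.cut .s 7962624 (.pos 39 .mp ⟨⟨9500846, 0, 0, 0, 0, 9594102, 0, 0, 0, ⟨0, 0⟩, 0⟩, 0, 0⟩ 0 0) (.pos 39 .mp ⟨⟨9774996, 0, 0, 0, 0, 9772556, 0, 0, 0, ⟨0, 0⟩, 0⟩, 0, 0⟩ 0 0)) (.cut .l 141961 (.cut .d (-16384) (.pos 39 .mp ⟨⟨9951604, 0, 0, 0, 0, 9247056, 0, 0, 0, ⟨0, 0⟩, 0⟩, 0, 0⟩ 0 0) (.cut .s 7962624 (.pos 39 .mp ⟨⟨9983117, 0, 0, 0, 0, 8535833, 0,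 0, 0, ⟨0, 0⟩, 0⟩, 0, 0⟩ 0 0) (.pos 39 .mp ⟨⟨10266124, 0, 0, 0, 0, 8689696, 0, 0, 0, ⟨0, 0⟩, 0⟩, 0, 0⟩ 0 0))) (.pos 39 .mp ⟨⟨10003855, 0, 0, 0, 0, 8123359, 0, 0, 0, ⟨0, 0⟩, 0⟩, 0, 0⟩ 0 0))) (.pos 40 .mp ⟨⟨13545328, 0, 0, 0, 0, 5138179, 0, 0, 0, ⟨0, 0⟩, 0⟩, 0, 0⟩ 0 0)) (.cut .v 16842752 (.cut .d (-32768) (.cut .s 8028160 (.pos 39 .mp ⟨⟨10055073, 0, 0, 0, 0, 9957112, 0, 0, 0, ⟨0, 0⟩, 0⟩, 0, 0⟩ 0 0) (.pos 39 .mp ⟨⟨10341130, 0, 0, 0, 0, 10147855, 0, 0, 0, ⟨0, 0⟩, 0⟩, 0, 0⟩ 0 0)) (.cut .l 141961 (.cut .d (-16384) (.pos 39 .mp ⟨⟨10547010, 0, 0, 0, 0, 9554024, 0, 0, 0, ⟨0, 0⟩, 0⟩, 0, 0⟩ 0 0) (.cut .s 8028160 (.pos 39 .mp ⟨⟨10560725, 0, 0,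 0, 0, 8841077, 0, 0, 0, ⟨0, 0⟩, 0⟩, 0, 0⟩ 0 0) (.pos 39 .mp ⟨⟨10867362, 0, 0, 0, 0, 8989409, 0, 0, 0, ⟨0, 0⟩, 0⟩, 0, 0⟩ 0 0))) (.pos 39 .mp ⟨⟨10578947, 0, 0, 0, 0, 8413463, 0, 0, 0, ⟨0, 0⟩, 0⟩, 0, 0⟩ 0 0))) (.pos 40 .mp ⟨⟨14357258, 0, 0, 0, 0, 5180661, 0, 0, 0, ⟨0, 0⟩, 0⟩, 0, 0⟩ 0 0))))) (.pos 38 .mp ⟨⟨17504227, 0, 0, 0, 0, 0, 0, 0, 0, ⟨0, 0⟩, 0⟩, 0, 0⟩ 0 0))) (.pos 36 .mp ⟨⟨20547232, 0, 0, 0, 0, 0, 0, 0, 0, ⟨0, 0⟩, 0⟩, 0, 0⟩ 0 0)) (.void 34 ⟨⟨100000, 0, 0, 0, 0, 0, 0, 0, 0, ⟨0, 0⟩, 0⟩, 0, 0⟩ 0 0)) (.void 32 ⟨⟨100000, 0, 0, 0, 0, 0, 0, 0, 0, ⟨0, 0⟩, 0⟩, 0, 0⟩ 0 0)))) (.void 30 ⟨⟨100000, 0, 0, 0, 0, 0, 0, 0, 0, ⟨0, 0⟩, 0⟩, 0, 0⟩ 0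 0))))) (.void 28 ⟨⟨100000, 0, 0, 0, 0, 0, 0, 0, 0, ⟨0, 0⟩, 0⟩, 0, 0⟩ 0 0)))) (.void 26 ⟨⟨100000, 0, 0, 0, 0, 0, 0, 0, 0, ⟨0, 0⟩, 0⟩, 0, 0⟩ 0 0))) (.cut .v 16777216 (.cut .d 4986709 (.cut .d 2493354 (.cut .d 1246677 (.cut .v 8388608 (.cut .v 4194304 (.void 4 ⟨⟨0, 0, 100000, 0, 0, 0, 0, 0, 0, ⟨0, 0⟩, 0⟩, 0, 0⟩ 0 0) (.pos 5 .pm ⟨⟨0, 0, 0, 0, 0, 0, 0, 0, 842855, ⟨0, 0⟩, 9975792⟩, 0, 0⟩ 0 0)) (.cut .v 12582912 (.pos 10 .pm ⟨⟨0, 0, 0, 0, 0, 0, 0, 0, 0, ⟨0, 0⟩, 0⟩, 0, 0⟩ 0 0) (.pos 11 .pm ⟨⟨0, 0, 0, 0, 0, 0, 0, 0, 0, ⟨0, 0⟩, 0⟩, 0, 0⟩ 0 0))) (.void 1 ⟨⟨0, 0, 0, 0, 0, 0, 0, 0, 0, ⟨0, 0⟩, 0⟩, 0, 100000⟩ 0 0)) (.void 1 ⟨⟨0, 0, 0, 0, 0, 0,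 0, 0, 0, ⟨0, 0⟩, 0⟩, 0, 100000⟩ 0 0)) (.void 1 ⟨⟨0, 0, 0, 0, 0, 0, 0, 0, 0, ⟨0, 0⟩, 0⟩, 0, 100000⟩ 0 0)) (.cut .v 25165824 (.cut .d 4986709 (.cut .d 2493354 (.cut .d 1246677 (.cut .v 20971520 (.cut .v 18874368 (.cut .d 623338 (.cut .v 17825792 (.cut .s 7798784 (.pos 31 .pp ⟨⟨10256194, 0, 0, 0, 0, 0, 0, 0, 0, ⟨0, 0⟩, 0⟩, 0, 117981⟩ 0 0) (.pos 31 .pp ⟨⟨12814376, 0, 0, 0, 0, 0, 0, 0, 0, ⟨0, 0⟩, 0⟩, 0, 85630⟩ 0 0)) (.pos 32 .pp ⟨⟨14993670, 0, 0, 0, 0, 0, 0, 0, 0, ⟨0, 0⟩, 0⟩, 0, 0⟩ 0 0)) (.pos 29 .pp ⟨⟨0, 0, 0, 0, 0, 0, 0, 0, 0, ⟨0, 0⟩, 0⟩, 0, 739200⟩ 0 0)) (.cut .d 623338 (.pos 30 .pp ⟨⟨21597891, 0, 0, 0, 0, 0, 0, 0, 0, ⟨0, 0⟩, 0⟩, 0,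 0⟩ 0 0) (.pos 30 .pp ⟨⟨9770492, 0, 0, 0, 0, 0, 0, 0, 0, ⟨0, 0⟩, 0⟩, 0, 490344⟩ 0 0))) (.cut .d 623338 (.void 28 ⟨⟨0, 0, 0, 0, 0, 0, 0, 0, 0, ⟨0, 0⟩, 0⟩, 100000, 0⟩ 0 0) (.cut .d 935007 (.pos 28 .pp ⟨⟨34213766, 0, 0, 0, 0, 0, 0, 0, 0, ⟨0, 0⟩, 0⟩, 0, 0⟩ 0 0) (.pos 28 .pp ⟨⟨12728973, 0, 0, 0, 0, 0, 19480446, 0, 0, ⟨0, 0⟩, 0⟩, 0, 0⟩ 0 0)))) (.void 25 ⟨⟨0, 0, 0, 0, 0, 0, 21226, 0, 0, ⟨0, 0⟩, 0⟩, 0, 78774⟩ 0 0)) (.void 25 ⟨⟨0, 0, 0, 0, 0, 0, 0, 0, 0, ⟨0, 0⟩, 0⟩, 0, 100000⟩ 0 0)) (.void 25 ⟨⟨0, 0, 0, 0, 0, 0, 0, 0, 0, ⟨0, 0⟩, 0⟩, 0, 100000⟩ 0 0)) (.void 26 ⟨⟨0, 0, 0, 0, 0, 0, 0, 0, 0, ⟨0, 0⟩, 0⟩, 18505, 81495⟩ 0 0)))),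
    by decide +kernel⟩

def covers9 : cell.Covers Vale.Agent.P237.Petty.Cor.Grid.N13.table row9.1 :=
  ⟨(.cut .d 0 (.cut .v 16777216 (.cut .d (-8388608) (.void 1 ⟨⟨0, 0, 0, 0, 0, 100000, 0, 0, 0, ⟨0, 0⟩, 0⟩, 0, 0⟩ 0 0) (.cut .d (-4194304) (.void 1 ⟨⟨0, 0, 0, 0, 0, 100000, 0, 0, 0, ⟨0, 0⟩, 0⟩, 0, 0⟩ 0 0) (.cut .d (-2097152) (.void 1 ⟨⟨0, 0, 0, 0, 0, 100000, 0, 0, 0, ⟨0, 0⟩, 0⟩, 0, 0⟩ 0 0) (.cut .d (-1048576) (.void 1 ⟨⟨0, 0, 0, 0, 0, 100000, 0, 0, 0, ⟨0, 0⟩, 0⟩, 0, 0⟩ 0 0) (.cut .d (-524288) (.void 1 ⟨⟨0, 0, 0, 0, 0, 100000, 0, 0, 0, ⟨0, 0⟩, 0⟩, 0, 0⟩ 0 0) (.cut .d (-262144) (.void 1 ⟨⟨0, 0, 0, 0, 0, 100000, 0, 0, 0, ⟨0, 0⟩, 0⟩, 0,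 0⟩ 0 0) (.cut .d (-131072) (.void 1 ⟨⟨0, 0, 0, 0, 0, 100000, 0, 0, 0, ⟨0, 0⟩, 0⟩, 0, 0⟩ 0 0) (.cut .d (-65536) (.void 1 ⟨⟨0, 0, 0, 0, 0, 100000, 0, 0, 0, ⟨0, 0⟩, 0⟩, 0, 0⟩ 0 0) (.cut .v 8388608 (.cut .v 4194304 (.void 4 ⟨⟨0, 0, 100000, 0, 0, 0, 0, 0, 0, ⟨0, 0⟩, 0⟩, 0, 0⟩ 0 0) (.pos 5 .mm ⟨⟨0, 0, 0, 0, 0, 8248953, 0, 0, 0, ⟨0, 0⟩, 0⟩, 0, 0⟩ 0 0)) (.cut .v 12582912 (.pos 10 .mm ⟨⟨0, 0, 0, 0, 0, 12330134, 0, 0, 0, ⟨0, 0⟩, 0⟩, 0, 0⟩ 0 0) (.cut .v 14680064 (.pos 14 .mm ⟨⟨0, 0, 0, 0, 0, 15580378, 0, 0, 0, ⟨0, 0⟩, 0⟩, 0, 0⟩ 0 0) (.cut .v 15728640 (.pos 22 .mm ⟨⟨0, 0, 0, 0, 0, 17507914, 0, 0, 0, ⟨0, 0⟩, 0⟩, 0, 0⟩ 0 0) (.cut .v 16252928 (.pos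 43 .mm ⟨⟨0, 0, 0, 0, 0, 18547286, 0, 0, 0, ⟨0, 0⟩, 0⟩, 0, 0⟩ 0 0) (.cut .v 16515072 (.pos 45 .mm ⟨⟨0, 0, 0, 0, 0, 23420932, 0, 0, 0, ⟨0, 0⟩, 0⟩, 0, 0⟩ 0 0) (.cut .v 16646144 (.pos 47 .mm ⟨⟨0, 0, 0, 0, 0, 25019019, 0, 0, 0, ⟨0, 0⟩, 0⟩, 0, 0⟩ 0 0) (.cut .v 16711680 (.pos 53 .mm ⟨⟨0, 0, 0, 0, 0, 25831396, 0, 0, 0, ⟨0, 0⟩, 0⟩, 0, 0⟩ 0 0) (.cut .s 8323072 (.cut .s 8192000 (.pos 54 .mm ⟨⟨0, 0, 0, 0, 0, 22817626, 0, 0, 0, ⟨0, 0⟩, 0⟩, 0, 0⟩ 0 0) (.pos 54 .mm ⟨⟨0, 0, 0, 0, 0, 25128081, 0, 0, 0, ⟨0, 0⟩, 0⟩, 0, 0⟩ 0 0)) (.cut .s 8454144 (.pos 54 .mm ⟨⟨0, 0, 0, 0, 0, 27712462, 0, 0, 0, ⟨0, 0⟩, 0⟩, 0, 0⟩ 0 0) (.pos 54 .mm ⟨⟨0, 0, 0, 0, 0, 30575529,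 0, 0, 0, ⟨0, 0⟩, 0⟩, 0, 0⟩ 0 0))))))))))))))))))) (.cut .v 25165824 (.cut .d (-8388608) (.void 25 ⟨⟨0, 0, 0, 0, 0, 100000, 0, 0, 0, ⟨0, 0⟩, 0⟩, 0, 0⟩ 0 0) (.cut .d (-4194304) (.void 25 ⟨⟨0, 0, 0, 0, 0, 100000, 0, 0, 0, ⟨0, 0⟩, 0⟩, 0, 0⟩ 0 0) (.cut .v 20971520 (.cut .d (-2097152) (.void 27 ⟨⟨0, 0, 0, 0, 0, 100000, 0, 0, 0, ⟨0, 0⟩, 0⟩, 0, 0⟩ 0 0) (.cut .d (-1048576) (.void 27 ⟨⟨0, 0, 0, 0, 0, 100000, 0, 0, 0, ⟨0, 0⟩, 0⟩, 0, 0⟩ 0 0) (.cut .d (-524288) (.void 27 ⟨⟨0, 0, 0, 0, 0, 100000, 0, 0, 0, ⟨0, 0⟩, 0⟩, 0, 0⟩ 0 0) (.cut .v 18874368 (.cut .d (-262144) (.void 29 ⟨⟨0, 0, 0, 0, 0, 100000, 0, 0, 0, ⟨0, 0⟩, 0⟩, 0, 0⟩ 0 0) (.cut .d (-131072)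 (.void 29 ⟨⟨0, 0, 0, 0, 0, 100000, 0, 0, 0, ⟨0, 0⟩, 0⟩, 0, 0⟩ 0 0) (.cut .d (-65536) (.void 29 ⟨⟨0, 0, 0, 0, 0, 100000, 0, 0, 0, ⟨0, 0⟩, 0⟩, 0, 0⟩ 0 0) (.cut .v 17825792 (.cut .v 17301504 (.cut .v 17039360 (.cut .s 8323072 (.cut .v 16908288 (.cut .s 8192000 (.cut .s 8126464 (.cut .v 16842752 (.cut .d (-32768) (.pos 39 .mp ⟨⟨10633706, 0, 0, 0, 0, 10696363, 0, 0, 0, ⟨0, 0⟩, 0⟩, 0, 0⟩ 0 0) (.cut .s 8093696 (.pos 39 .mp ⟨⟨11280695, 0, 0, 0, 0, 9061387, 0, 0, 0, ⟨0, 0⟩, 0⟩, 0, 0⟩ 0 0) (.cut .s 8110080 (.pos 39 .mp ⟨⟨11678175, 0, 0, 0, 0, 9008748, 0, 0, 0, ⟨0, 0⟩, 0⟩, 0, 0⟩ 0 0) (.pos 39 .mp ⟨⟨11808172, 0, 0, 0, 0, 9109348, 0, 0, 0, ⟨0,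 0⟩, 0⟩, 0, 0⟩ 0 0)))) (.pos 40 .mp ⟨⟨14626405, 0, 0, 0, 0, 5874416, 0, 0, 0, ⟨0, 0⟩, 0⟩, 0, 0⟩ 0 0)) (.cut .v 16842752 (.cut .d (-32768) (.cut .s 8159232 (.pos 39 .mp ⟨⟨11239488, 0, 0, 0, 0, 10652187, 0, 0, 0, ⟨0, 0⟩, 0⟩, 0, 0⟩ 0 0) (.pos 39 .mp ⟨⟨11553344, 0, 0, 0, 0, 10817482, 0, 0, 0, ⟨0, 0⟩, 0⟩, 0, 0⟩ 0 0)) (.cut .l 141961 (.cut .v 16809984 (.cut .d (-16384) (.pos 49 .mp ⟨⟨11221524, 0, 0, 0, 0, 10995229, 0, 0, 0, ⟨0, 0⟩, 0⟩, 0, 0⟩ 0 0) (.cut .s 8159232 (.pos 49 .mp ⟨⟨11785794, 0, 0, 0, 0, 9442743, 0, 0, 0, ⟨0, 0⟩, 0⟩, 0, 0⟩ 0 0) (.pos 49 .mp ⟨⟨12050077, 0, 0, 0, 0, 9661098, 0, 0, 0, ⟨0, 0⟩, 0⟩, 0, 0⟩ 0 0))) (.pos 50 .mp ⟨⟨15934958,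 0, 0, 0, 0, 5222273, 0, 0, 0, ⟨0, 0⟩, 0⟩, 0, 0⟩ 0 0)) (.pos 39 .mp ⟨⟨12030526, 0, 0, 0, 0, 8792658, 0, 0, 0, ⟨0, 0⟩, 0⟩, 0, 0⟩ 0 0))) (.pos 40 .mp ⟨⟨15271521, 0, 0, 0, 0, 6149134, 0, 0, 0, ⟨0, 0⟩, 0⟩, 0, 0⟩ 0 0))) (.cut .s 8257536 (.cut .v 16842752 (.cut .d (-32768) (.cut .s 8224768 (.pos 39 .mp ⟨⟨11874597, 0, 0, 0, 0, 10990154, 0, 0, 0, ⟨0, 0⟩, 0⟩, 0, 0⟩ 0 0) (.pos 39 .mp ⟨⟨12203310, 0, 0, 0, 0, 11170313, 0, 0, 0, ⟨0, 0⟩, 0⟩, 0, 0⟩ 0 0)) (.cut .l 141961 (.cut .v 16809984 (.cut .d (-16384) (.pos 49 .mp ⟨⟨11855420, 0, 0, 0, 0, 11357456, 0, 0, 0, ⟨0, 0⟩, 0⟩, 0, 0⟩ 0 0) (.cut .s 8224768 (.pos 49 .mp ⟨⟨12372956, 0, 0, 0, 0, 9825216,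 0, 0, 0, ⟨0, 0⟩, 0⟩, 0, 0⟩ 0 0) (.cut .s 8241152 (.pos 49 .mp ⟨⟨12962784, 0, 0, 0, 0, 9591541, 0, 0, 0, ⟨0, 0⟩, 0⟩, 0, 0⟩ 0 0) (.pos 49 .mp ⟨⟨13118391, 0, 0, 0, 0, 9691660, 0, 0, 0, ⟨0, 0⟩, 0⟩, 0, 0⟩ 0 0)))) (.pos 50 .mp ⟨⟨16649988, 0, 0, 0, 0, 5465939, 0, 0, 0, ⟨0, 0⟩, 0⟩, 0, 0⟩ 0 0)) (.pos 39 .mp ⟨⟨12717286, 0, 0, 0, 0, 9079713, 0, 0, 0, ⟨0, 0⟩, 0⟩, 0, 0⟩ 0 0))) (.pos 40 .mp ⟨⟨15980855, 0, 0, 0, 0, 6408044, 0, 0, 0, ⟨0, 0⟩, 0⟩, 0, 0⟩ 0 0)) (.cut .d (-32768) (.cut .d (-49152) (.pos 37 .mp ⟨⟨12949880, 0, 0, 0, 0, 11815550, 0, 0, 0, ⟨0, 0⟩, 0⟩, 0, 0⟩ 0 0) (.cut .s 8290304 (.pos 37 .mp ⟨⟨12798311, 0, 0, 0, 0, 11164265, 0, 0, 0, ⟨0,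 0⟩, 0⟩, 0, 0⟩ 0 0) (.cut .s 8306688 (.pos 37 .mp ⟨⟨13141990, 0, 0, 0, 0, 11095385, 0, 0, 0, ⟨0, 0⟩, 0⟩, 0, 0⟩ 0 0) (.pos 37 .mp ⟨⟨13316331, 0, 0, 0, 0, 11196197, 0, 0, 0, ⟨0, 0⟩, 0⟩, 0, 0⟩ 0 0)))) (.cut .v 16842752 (.cut .l 141961 (.cut .v 16809984 (.cut .d (-16384) (.pos 49 .mp ⟨⟨12519065, 0, 0, 0, 0, 11749893, 0, 0, 0, ⟨0, 0⟩, 0⟩, 0, 0⟩ 0 0) (.cut .l 70980 (.cut .d (-8192) (.pos 49 .mp ⟨⟨13161008, 0, 0, 0, 0, 10737825, 0, 0, 0, ⟨0, 0⟩, 0⟩, 0, 0⟩ 0 0) (.cut .s 8290304 (.pos 49 .mp ⟨⟨12984022, 0, 0, 0, 0, 10220783, 0, 0, 0, ⟨0, 0⟩, 0⟩, 0, 0⟩ 0 0) (.pos 49 .mp ⟨⟨13337449, 0, 0, 0, 0, 10393897, 0, 0, 0, ⟨0, 0⟩, 0⟩, 0, 0⟩ 0 0))) (.pos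 49 .mp ⟨⟨13311433, 0, 0, 0, 0, 9398356, 0, 0, 0, ⟨0, 0⟩, 0⟩, 0, 0⟩ 0 0))) (.pos 50 .mp ⟨⟨17440087, 0, 0, 0, 0, 5679982, 0, 0, 0, ⟨0, 0⟩, 0⟩, 0, 0⟩ 0 0)) (.pos 39 .mp ⟨⟨13432865, 0, 0, 0, 0, 9384308, 0, 0, 0, ⟨0, 0⟩, 0⟩, 0, 0⟩ 0 0)) (.pos 40 .mp ⟨⟨21474149, 0, 0, 0, 0, 0, 0, 0, 0, ⟨0, 0⟩, 0⟩, 0, 0⟩ 0 0))))) (.pos 38 .mp ⟨⟨22083735, 0, 0, 0, 0, 0, 0, 0, 0, ⟨0, 0⟩, 0⟩, 0, 0⟩ 0 0)) (.cut .v 16908288 (.cut .s 8454144 (.cut .s 8388608 (.cut .d (-32768) (.cut .d (-49152) (.pos 37 .mp ⟨⟨13666572, 0, 0, 0, 0, 12241035, 0, 0, 0, ⟨0, 0⟩, 0⟩, 0, 0⟩ 0 0) (.cut .v 16842752 (.cut .s 8355840 (.pos 39 .mp ⟨⟨13234887, 0, 0, 0, 0, 11756811, 0, 0, 0,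 ⟨0, 0⟩, 0⟩, 0, 0⟩ 0 0) (.pos 39 .mp ⟨⟨13594120, 0, 0, 0, 0, 11968026, 0, 0, 0, ⟨0, 0⟩, 0⟩, 0, 0⟩ 0 0)) (.pos 40 .mp ⟨⟨22682037, 0, 0, 0, 0, 0, 0, 0, 0, ⟨0, 0⟩, 0⟩, 0, 0⟩ 0 0))) (.cut .v 16842752 (.cut .l 141961 (.cut .v 16809984 (.cut .d (-16384) (.pos 49 .mp ⟨⟨13212994, 0, 0, 0, 0, 12173417, 0, 0, 0, ⟨0, 0⟩, 0⟩, 0, 0⟩ 0 0) (.cut .l 70980 (.cut .v 16793600 (.cut .d (-8192) (.pos 51 .mp ⟨⟨13202683, 0, 0, 0, 0, 12154579, 0, 0, 0, ⟨0, 0⟩, 0⟩, 0, 0⟩ 0 0) (.cut .s 8355840 (.pos 51 .mp ⟨⟨13664323, 0, 0, 0, 0, 10614107, 0, 0, 0, ⟨0, 0⟩, 0⟩, 0, 0⟩ 0 0) (.pos 51 .mp ⟨⟨14032577, 0, 0, 0, 0, 10799915, 0, 0, 0, ⟨0, 0⟩, 0⟩, 0, 0⟩ 0 0))) (.pos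 52 .mp ⟨⟨18656129, 0, 0, 0, 0, 5363974, 0, 0, 0, ⟨0, 0⟩, 0⟩, 0, 0⟩ 0 0)) (.pos 49 .mp ⟨⟨14043619, 0, 0, 0, 0, 9733923, 0, 0, 0, ⟨0, 0⟩, 0⟩, 0, 0⟩ 0 0))) (.pos 50 .mp ⟨⟨18316262, 0, 0, 0, 0, 5850398, 0, 0, 0, ⟨0, 0⟩, 0⟩, 0, 0⟩ 0 0)) (.pos 39 .mp ⟨⟨14172981, 0, 0, 0, 0, 9711099, 0, 0, 0, ⟨0, 0⟩, 0⟩, 0, 0⟩ 0 0)) (.pos 40 .mp ⟨⟨22439997, 0, 0, 0, 0, 0, 0, 0, 0, ⟨0, 0⟩, 0⟩, 0, 0⟩ 0 0))) (.cut .d (-32768) (.cut .d (-49152) (.pos 37 .mp ⟨⟨14412843, 0, 0, 0, 0, 12702000, 0, 0, 0, ⟨0, 0⟩, 0⟩, 0, 0⟩ 0 0) (.cut .s 8421376 (.cut .s 8404992 (.pos 37 .mp ⟨⟨14237016, 0, 0, 0, 0, 11691802, 0, 0, 0, ⟨0, 0⟩, 0⟩, 0, 0⟩ 0 0) (.pos 37 .mp ⟨⟨14431396,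 0, 0, 0, 0, 11788513, 0, 0, 0, ⟨0, 0⟩, 0⟩, 0, 0⟩ 0 0)) (.pos 37 .mp ⟨⟨14635261, 0, 0, 0, 0, 12175390, 0, 0, 0, ⟨0, 0⟩, 0⟩, 0, 0⟩ 0 0))) (.cut .v 16842752 (.cut .l 141961 (.cut .v 16809984 (.cut .d (-16384) (.pos 49 .mp ⟨⟨13937759, 0, 0, 0, 0, 12628932, 0, 0, 0, ⟨0, 0⟩, 0⟩, 0, 0⟩ 0 0) (.cut .l 70980 (.cut .v 16793600 (.cut .d (-8192) (.pos 51 .mp ⟨⟨13926706, 0, 0, 0, 0, 12609486, 0, 0, 0, ⟨0, 0⟩, 0⟩, 0, 0⟩ 0 0) (.cut .s 8421376 (.pos 51 .mp ⟨⟨14408732, 0, 0, 0, 0, 10991442, 0, 0, 0, ⟨0, 0⟩, 0⟩, 0, 0⟩ 0 0) (.pos 51 .mp ⟨⟨14792860, 0, 0, 0, 0, 11188599, 0, 0, 0, ⟨0, 0⟩, 0⟩, 0, 0⟩ 0 0))) (.pos 52 .mp ⟨⟨19632372, 0, 0, 0, 0, 5468260,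 0, 0, 0, ⟨0, 0⟩, 0⟩, 0, 0⟩ 0 0)) (.pos 49 .mp ⟨⟨14804694, 0, 0, 0, 0, 10083459, 0, 0, 0, ⟨0, 0⟩, 0⟩, 0, 0⟩ 0 0))) (.pos 50 .mp ⟨⟨19289668, 0, 0, 0, 0, 5962728, 0, 0, 0, ⟨0, 0⟩, 0⟩, 0, 0⟩ 0 0)) (.pos 39 .mp ⟨⟨14940571, 0, 0, 0, 0, 10054032, 0, 0, 0, ⟨0, 0⟩, 0⟩, 0, 0⟩ 0 0)) (.pos 40 .mp ⟨⟨23457737, 0, 0, 0, 0, 0, 0, 0, 0, ⟨0, 0⟩, 0⟩, 0, 0⟩ 0 0)))) (.cut .s 8519680 (.cut .d (-32768) (.cut .s 8486912 (.pos 37 .mp ⟨⟨14929106, 0, 0, 0, 0, 12592001, 0, 0, 0, ⟨0, 0⟩, 0⟩, 0, 0⟩ 0 0) (.pos 37 .mp ⟨⟨15353316, 0, 0, 0, 0, 12778445, 0, 0, 0, ⟨0, 0⟩, 0⟩, 0, 0⟩ 0 0)) (.cut .v 16842752 (.cut .l 141961 (.cut .v 16809984 (.cut .d (-16384) (.pos 49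 .mp ⟨⟨14693931, 0, 0, 0, 0, 13117364, 0, 0, 0, ⟨0, 0⟩, 0⟩, 0, 0⟩ 0 0) (.cut .l 70980 (.cut .d (-8192) (.pos 49 .mp ⟨⟨15421910, 0, 0, 0, 0, 11950467, 0, 0, 0, ⟨0, 0⟩, 0⟩, 0, 0⟩ 0 0) (.cut .s 8486912 (.cut .s 8470528 (.pos 49 .mp ⟨⟨15266667, 0, 0, 0, 0, 11205072, 0, 0, 0, ⟨0, 0⟩, 0⟩, 0, 0⟩ 0 0) (.pos 49 .mp ⟨⟨15470848, 0, 0, 0, 0, 11301736, 0, 0, 0, ⟨0, 0⟩, 0⟩, 0, 0⟩ 0 0)) (.pos 49 .mp ⟨⟨15623737, 0, 0, 0, 0, 11552730, 0, 0, 0, ⟨0, 0⟩, 0⟩, 0, 0⟩ 0 0))) (.pos 49 .mp ⟨⟨15598017, 0, 0, 0, 0, 10440289, 0, 0, 0, ⟨0, 0⟩, 0⟩, 0, 0⟩ 0 0))) (.pos 50 .mp ⟨⟨20371624, 0, 0, 0, 0, 6002037, 0, 0, 0, ⟨0, 0⟩, 0⟩, 0, 0⟩ 0 0)) (.pos 39 .mp ⟨⟨15740762,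 0, 0, 0, 0, 10403798, 0, 0, 0, ⟨0, 0⟩, 0⟩, 0, 0⟩ 0 0)) (.pos 40 .mp ⟨⟨24528292, 0, 0, 0, 0, 0, 0, 0, 0, ⟨0, 0⟩, 0⟩, 0, 0⟩ 0 0))) (.cut .v 16842752 (.cut .d (-32768) (.cut .s 8552448 (.pos 39 .mp ⟨⟨15508817, 0, 0, 0, 0, 13147210, 0, 0, 0, ⟨0, 0⟩, 0⟩, 0, 0⟩ 0 0) (.pos 39 .mp ⟨⟨15915986, 0, 0, 0, 0, 13408514, 0, 0, 0, ⟨0, 0⟩, 0⟩, 0, 0⟩ 0 0)) (.cut .l 141961 (.cut .v 16809984 (.cut .d (-16384) (.pos 49 .mp ⟨⟨15482101, 0, 0, 0, 0, 13639668, 0, 0, 0, ⟨0, 0⟩, 0⟩, 0, 0⟩ 0 0) (.cut .l 70980 (.cut .d (-8192) (.pos 49 .mp ⟨⟨16293384, 0, 0, 0, 0, 12313163, 0, 0, 0, ⟨0, 0⟩, 0⟩, 0, 0⟩ 0 0) (.cut .s 8552448 (.pos 49 .mp ⟨⟨16033101, 0, 0, 0, 0,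 11765059, 0, 0, 0, ⟨0, 0⟩, 0⟩, 0, 0⟩ 0 0) (.pos 49 .mp ⟨⟨16450763, 0, 0, 0, 0, 11982615, 0, 0, 0, ⟨0, 0⟩, 0⟩, 0, 0⟩ 0 0))) (.pos 49 .mp ⟨⟨16424204, 0, 0, 0, 0, 10801852, 0, 0, 0, ⟨0, 0⟩, 0⟩, 0, 0⟩ 0 0))) (.pos 50 .mp ⟨⟨21573622, 0, 0, 0, 0, 5952889, 0, 0, 0, ⟨0, 0⟩, 0⟩, 0, 0⟩ 0 0)) (.pos 39 .mp ⟨⟨16574176, 0, 0, 0, 0, 10757822, 0, 0, 0, ⟨0, 0⟩, 0⟩, 0, 0⟩ 0 0))) (.pos 40 .mp ⟨⟨20876189, 0, 0, 0, 0, 6975385, 0, 0, 0, ⟨0, 0⟩, 0⟩, 0, 0⟩ 0 0)))) (.pos 38 .mp ⟨⟨26091412, 0, 0, 0, 0, 0, 0, 0, 0, ⟨0, 0⟩, 0⟩, 0, 0⟩ 0 0))) (.pos 36 .mp ⟨⟨27074484, 0, 0, 0, 0, 0, 0, 0, 0, ⟨0, 0⟩, 0⟩, 0, 0⟩ 0 0)) (.void 34 ⟨⟨100000, 0, 0, 0, 0, 0, 0, 0, 0, ⟨0,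 0⟩, 0⟩, 0, 0⟩ 0 0)) (.void 32 ⟨⟨100000, 0, 0, 0, 0, 0, 0, 0, 0, ⟨0, 0⟩, 0⟩, 0, 0⟩ 0 0))))) (.void 30 ⟨⟨100000, 0, 0, 0, 0, 0, 0, 0, 0, ⟨0, 0⟩, 0⟩, 0, 0⟩ 0 0))))) (.void 28 ⟨⟨100000, 0, 0, 0, 0, 0, 0, 0, 0, ⟨0, 0⟩, 0⟩, 0, 0⟩ 0 0)))) (.void 26 ⟨⟨100000, 0, 0, 0, 0, 0, 0, 0, 0, ⟨0, 0⟩, 0⟩, 0, 0⟩ 0 0))) (.cut .v 16777216 (.cut .d 5856861 (.cut .d 2928430 (.cut .d 1464215 (.cut .v 8388608 (.cut .v 4194304 (.void 4 ⟨⟨0, 0, 100000, 0, 0, 0, 0, 0, 0, ⟨0, 0⟩, 0⟩, 0, 0⟩ 0 0) (.pos 5 .pm ⟨⟨0, 0, 0, 0, 0, 0, 0, 0, 0, ⟨0, 0⟩, 0⟩, 0, 0⟩ 0 0)) (.cut .v 12582912 (.pos 10 .pm ⟨⟨0, 0, 0, 0, 0, 0, 0, 0, 0, ⟨0, 0⟩, 0⟩, 0, 0⟩ 0 0) (.pos 11 .pm ⟨⟨0, 0,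 0, 0, 0, 0, 0, 0, 0, ⟨0, 0⟩, 0⟩, 0, 0⟩ 0 0))) (.void 1 ⟨⟨0, 0, 0, 0, 0, 0, 0, 0, 0, ⟨0, 0⟩, 0⟩, 0, 100000⟩ 0 0)) (.void 1 ⟨⟨0, 0, 0, 0, 0, 0, 0, 0, 0, ⟨0, 0⟩, 0⟩, 0, 100000⟩ 0 0)) (.void 1 ⟨⟨0, 0, 0, 0, 0, 0, 0, 0, 0, ⟨0, 0⟩, 0⟩, 0, 100000⟩ 0 0)) (.cut .v 25165824 (.cut .d 5856861 (.cut .d 2928430 (.cut .d 1464215 (.cut .v 20971520 (.cut .d 732107 (.cut .v 18874368 (.cut .d 366053 (.cut .v 17825792 (.cut .s 8323072 (.pos 31 .pp ⟨⟨14204553, 0, 0, 0, 0, 0, 0, 0, 0, ⟨0, 0⟩, 0⟩, 316023, 0⟩ 0 0) (.pos 31 .pp ⟨⟨17011943, 0, 0, 0, 0, 0, 0, 0, 0, ⟨0, 0⟩, 0⟩, 424913, 0⟩ 0 0)) (.pos 32 .pp ⟨⟨24369926, 0, 0, 0, 0, 0, 0, 0, 0, ⟨0, 0⟩, 0⟩, 0,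 0⟩ 0 0)) (.pos 29 .pp ⟨⟨11802982, 0, 0, 0, 0, 0, 0, 0, 0, ⟨0, 0⟩, 0⟩, 0, 347261⟩ 0 0)) (.pos 30 .pp ⟨⟨28883750, 0, 0, 0, 0, 0, 0, 0, 0, ⟨0, 0⟩, 0⟩, 0, 0⟩ 0 0)) (.cut .v 18874368 (.pos 29 .pp ⟨⟨0, 0, 0, 0, 0, 0, 0, 0, 0, ⟨0, 0⟩, 0⟩, 0, 794707⟩ 0 0) (.pos 30 .pp ⟨⟨12580799, 0, 0, 0, 0, 0, 0, 0, 0, ⟨0, 0⟩, 0⟩, 0, 444270⟩ 0 0))) (.cut .d 732107 (.void 28 ⟨⟨100000, 0, 0, 0, 0, 0, 0, 0, 0, ⟨0, 0⟩, 0⟩, 0, 0⟩ 0 0) (.cut .l 141961 (.void 28 ⟨⟨0, 0, 0, 0, 0, 0, 16052, 0, 0, ⟨0, 0⟩, 0⟩, 0, 83948⟩ 0 0) (.cut .v 23068672 (.cut .d 1098161 (.pos 59 .pp ⟨⟨29178686, 0, 0, 0, 0, 0, 460812, 0, 0, ⟨0, 0⟩, 0⟩, 0, 0⟩ 0 0) (.pos 59 .pp ⟨⟨14267054, 0, 0,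 0, 0, 0, 10906399, 0, 0, ⟨0, 0⟩, 0⟩, 0, 0⟩ 0 0)) (.cut .d 1098161 (.void 60 ⟨⟨100000, 0, 0, 0, 0, 0, 0, 0, 0, ⟨0, 0⟩, 0⟩, 0, 0⟩ 0 0) (.cut .v 24117248 (.cut .d 1281188 (.cut .v 23592960 (.cut .d 1189674 (.pos 67 .pp ⟨⟨10986970, 0, 0, 0, 0, 0, 8352558, 0, 0, ⟨0, 0⟩, 0⟩, 2131980, 0⟩ 0 0) (.pos 67 .pp ⟨⟨0, 0, 0, 0, 0, 0, 41455958, 0, 0, ⟨0, 0⟩, 0⟩, 0, 0⟩ 0 0)) (.void 68 ⟨⟨0, 0, 0, 0, 0, 0, 100000, 0, 0, ⟨0, 0⟩, 0⟩, 0, 0⟩ 0 0)) (.pos 65 .pp ⟨⟨0, 0, 0, 0, 0, 0, 41621162, 0, 0, ⟨0, 0⟩, 0⟩, 0, 0⟩ 0 0)) (.void 66 ⟨⟨0, 0, 0, 0, 0, 0, 100000, 0, 0, ⟨0, 0⟩, 0⟩, 0, 0⟩ 0 0))))))) (.void 25 ⟨⟨0, 0, 0, 0, 0, 0, 27663, 0, 0, ⟨0, 0⟩, 0⟩, 0, 72337⟩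 0 0)) (.void 25 ⟨⟨0, 0, 0, 0, 0, 0, 0, 0, 0, ⟨0, 0⟩, 0⟩, 0, 100000⟩ 0 0)) (.void 25 ⟨⟨0, 0, 0, 0, 0, 0, 0, 0, 0, ⟨0, 0⟩, 0⟩, 0, 100000⟩ 0 0)) (.void 26 ⟨⟨0, 0, 0, 0, 0, 0, 100000, 0, 0, ⟨0, 0⟩, 0⟩, 0, 0⟩ 0 0)))),
    by decide +kernel⟩

def covers10 : cell.Covers Vale.Agent.P237.Petty.Cor.Grid.N13.table row10.1 :=
  ⟨(.cut .d 0 (.cut .v 16777216 (.cut .d (-8388608) (.void 1 ⟨⟨0, 0, 0, 0, 0, 100000, 0, 0, 0, ⟨0, 0⟩, 0⟩, 0, 0⟩ 0 0) (.cut .d (-4194304) (.void 1 ⟨⟨0, 0, 0, 0, 0, 100000, 0, 0, 0, ⟨0, 0⟩, 0⟩, 0, 0⟩ 0 0) (.cut .d (-2097152) (.void 1 ⟨⟨0, 0, 0, 0, 0, 100000, 0, 0, 0, ⟨0, 0⟩, 0⟩, 0, 0⟩ 0 0) (.cut .d (-1048576) (.void 1 ⟨⟨0,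 0, 0, 0, 0, 100000, 0, 0, 0, ⟨0, 0⟩, 0⟩, 0, 0⟩ 0 0) (.cut .d (-524288) (.void 1 ⟨⟨0, 0, 0, 0, 0, 100000, 0, 0, 0, ⟨0, 0⟩, 0⟩, 0, 0⟩ 0 0) (.cut .d (-262144) (.void 1 ⟨⟨0, 0, 0, 0, 0, 100000, 0, 0, 0, ⟨0, 0⟩, 0⟩, 0, 0⟩ 0 0) (.cut .d (-131072) (.void 1 ⟨⟨0, 0, 0, 0, 0, 100000, 0, 0, 0, ⟨0, 0⟩, 0⟩, 0, 0⟩ 0 0) (.cut .d (-65536) (.void 1 ⟨⟨0, 0, 0, 0, 0, 100000, 0, 0, 0, ⟨0, 0⟩, 0⟩, 0, 0⟩ 0 0) (.cut .v 8388608 (.cut .v 4194304 (.void 4 ⟨⟨0, 0, 100000, 0, 0, 0, 0, 0, 0, ⟨0, 0⟩, 0⟩, 0, 0⟩ 0 0) (.pos 5 .mm ⟨⟨0, 0, 0, 0, 0, 12727138, 0, 0, 0, ⟨0, 0⟩, 0⟩, 0, 0⟩ 0 0)) (.cut .s 8814592 (.pos 3 .mm ⟨⟨0, 0, 0, 0, 0, 34767433, 0, 0, 0, ⟨0, 0⟩, 0⟩,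 0, 0⟩ 0 0) (.pos 3 .mm ⟨⟨0, 0, 0, 0, 0, 41021087, 0, 0, 0, ⟨0, 0⟩, 0⟩, 0, 0⟩ 0 0))))))))))) (.cut .v 25165824 (.cut .d (-8388608) (.void 25 ⟨⟨0, 0, 0, 0, 0, 100000, 0, 0, 0, ⟨0, 0⟩, 0⟩, 0, 0⟩ 0 0) (.cut .v 20971520 (.cut .d (-4194304) (.void 27 ⟨⟨0, 0, 0, 0, 0, 100000, 0, 0, 0, ⟨0, 0⟩, 0⟩, 0, 0⟩ 0 0) (.cut .d (-2097152) (.void 27 ⟨⟨0, 0, 0, 0, 0, 100000, 0, 0, 0, ⟨0, 0⟩, 0⟩, 0, 0⟩ 0 0) (.cut .d (-1048576) (.void 27 ⟨⟨0, 0, 0, 0, 0, 100000, 0, 0, 0, ⟨0, 0⟩, 0⟩, 0, 0⟩ 0 0) (.cut .v 18874368 (.cut .d (-524288) (.void 29 ⟨⟨0, 0, 0, 0, 0, 100000, 0, 0, 0, ⟨0, 0⟩, 0⟩, 0, 0⟩ 0 0) (.cut .d (-262144) (.void 29 ⟨⟨0, 0, 0, 0, 0, 100000, 0,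 0, 0, ⟨0, 0⟩, 0⟩, 0, 0⟩ 0 0) (.cut .d (-131072) (.void 29 ⟨⟨0, 0, 0, 0, 0, 100000, 0, 0, 0, ⟨0, 0⟩, 0⟩, 0, 0⟩ 0 0) (.cut .d (-65536) (.void 29 ⟨⟨0, 0, 0, 0, 0, 100000, 0, 0, 0, ⟨0, 0⟩, 0⟩, 0, 0⟩ 0 0) (.cut .v 17825792 (.cut .v 17301504 (.cut .v 17039360 (.cut .v 16908288 (.cut .s 8814592 (.cut .s 8699904 (.cut .d (-32768) (.cut .d (-49152) (.pos 37 .mp ⟨⟨17485917, 0, 0, 0, 0, 14464181, 0, 0, 0, ⟨0, 0⟩, 0⟩, 0, 0⟩ 0 0) (.cut .v 16842752 (.cut .s 8642560 (.pos 39 .mp ⟨⟨16330782, 0, 0, 0, 0, 14107717, 0, 0, 0, ⟨0, 0⟩, 0⟩, 0, 0⟩ 0 0) (.pos 39 .mp ⟨⟨17082266, 0, 0, 0, 0, 14478304, 0, 0, 0, ⟨0, 0⟩, 0⟩, 0, 0⟩ 0 0)) (.pos 40 .mp ⟨⟨24776866,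 0, 0, 0, 0, 4332904, 0, 0, 0, ⟨0, 0⟩, 0⟩, 0, 0⟩ 0 0))) (.cut .v 16842752 (.cut .s 8642560 (.cut .l 141961 (.cut .d (-16384) (.pos 39 .mp ⟨⟨17063010, 0, 0, 0, 0, 12924820, 0, 0, 0, ⟨0, 0⟩, 0⟩, 0, 0⟩ 0 0) (.cut .s 8613888 (.pos 39 .mp ⟨⟨17002668, 0, 0, 0, 0, 12042779, 0, 0, 0, ⟨0, 0⟩, 0⟩, 0, 0⟩ 0 0) (.pos 39 .mp ⟨⟨17386877, 0, 0, 0, 0, 12192342, 0, 0, 0, ⟨0, 0⟩, 0⟩, 0, 0⟩ 0 0))) (.pos 39 .mp ⟨⟨17333982, 0, 0, 0, 0, 11347456, 0, 0, 0, ⟨0, 0⟩, 0⟩, 0, 0⟩ 0 0)) (.cut .l 141961 (.cut .d (-16384) (.pos 39 .mp ⟨⟨17134732, 0, 0, 0, 0, 14648657, 0, 0, 0, ⟨0, 0⟩, 0⟩, 0, 0⟩ 0 0) (.cut .v 16809984 (.cut .l 70980 (.cut .d (-8192) (.pos 49 .mp ⟨⟨17077728,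 0, 0, 0, 0, 14643541, 0, 0, 0, ⟨0, 0⟩, 0⟩, 0, 0⟩ 0 0) (.cut .s 8671232 (.pos 49 .mp ⟨⟨17592267, 0, 0, 0, 0, 12555497, 0, 0, 0, ⟨0, 0⟩, 0⟩, 0, 0⟩ 0 0) (.pos 49 .mp ⟨⟨17987144, 0, 0, 0, 0, 12723558, 0, 0, 0, ⟨0, 0⟩, 0⟩, 0, 0⟩ 0 0))) (.pos 49 .mp ⟨⟨17960166, 0, 0, 0, 0, 11741612, 0, 0, 0, ⟨0, 0⟩, 0⟩, 0, 0⟩ 0 0)) (.pos 50 .mp ⟨⟨27646967, 0, 0, 0, 0, 0, 0, 0, 0, ⟨0, 0⟩, 0⟩, 0, 0⟩ 0 0))) (.pos 39 .mp ⟨⟨18124916, 0, 0, 0, 0, 11682004, 0, 0, 0, ⟨0, 0⟩, 0⟩, 0, 0⟩ 0 0))) (.pos 40 .mp ⟨⟨27479319, 0, 0, 0, 0, 0, 0, 0, 0, ⟨0, 0⟩, 0⟩, 0, 0⟩ 0 0))) (.cut .d (-32768) (.cut .d (-49152) (.void 37 ⟨⟨0, 0, 0, 0, 0, 100000, 0, 0, 0, ⟨0, 0⟩, 0⟩, 0, 0⟩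 0 0) (.cut .v 16842752 (.cut .s 8757248 (.pos 39 .mp ⟨⟨17863789, 0, 0, 0, 0, 14879497, 0, 0, 0, ⟨0, 0⟩, 0⟩, 0, 0⟩ 0 0) (.cut .s 8785920 (.pos 39 .mp ⟨⟨18675863, 0, 0, 0, 0, 14727511, 0, 0, 0, ⟨0, 0⟩, 0⟩, 0, 0⟩ 0 0) (.pos 39 .mp ⟨⟨19093522, 0, 0, 0, 0, 14940469, 0, 0, 0, ⟨0, 0⟩, 0⟩, 0, 0⟩ 0 0))) (.pos 40 .mp ⟨⟨26667509, 0, 0, 0, 0, 4693382, 0, 0, 0, ⟨0, 0⟩, 0⟩, 0, 0⟩ 0 0))) (.cut .v 16842752 (.cut .s 8757248 (.cut .l 141961 (.cut .v 16809984 (.cut .d (-16384) (.pos 49 .mp ⟨⟨17829668, 0, 0, 0, 0, 14840212, 0, 0, 0, ⟨0, 0⟩, 0⟩, 0, 0⟩ 0 0) (.cut .l 70980 (.cut .d (-8192) (.pos 49 .mp ⟨⟨17856537, 0, 0, 0, 0, 15055518, 0, 0, 0, ⟨0, 0⟩,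 0⟩, 0, 0⟩ 0 0) (.cut .s 8728576 (.pos 49 .mp ⟨⟨18390328, 0, 0, 0, 0, 12897078, 0, 0, 0, ⟨0, 0⟩, 0⟩, 0, 0⟩ 0 0) (.cut .s 8742912 (.pos 49 .mp ⟨⟨18819774, 0, 0, 0, 0, 12953624, 0, 0, 0, ⟨0, 0⟩, 0⟩, 0, 0⟩ 0 0) (.pos 49 .mp ⟨⟨19014119, 0, 0, 0, 0, 13060077, 0, 0, 0, ⟨0, 0⟩, 0⟩, 0, 0⟩ 0 0)))) (.pos 49 .mp ⟨⟨18774091, 0, 0, 0, 0, 12101518, 0, 0, 0, ⟨0, 0⟩, 0⟩, 0, 0⟩ 0 0))) (.pos 50 .mp ⟨⟨23064061, 0, 0, 0, 0, 8040014, 0, 0, 0, ⟨0, 0⟩, 0⟩, 0, 0⟩ 0 0)) (.pos 39 .mp ⟨⟨18946875, 0, 0, 0, 0, 12033296, 0, 0, 0, ⟨0, 0⟩, 0⟩, 0, 0⟩ 0 0)) (.cut .l 141961 (.cut .v 16809984 (.cut .d (-16384) (.pos 49 .mp ⟨⟨18638655, 0, 0, 0, 0, 15273590, 0, 0, 0,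 ⟨0, 0⟩, 0⟩, 0, 0⟩ 0 0) (.cut .l 70980 (.cut .d (-8192) (.pos 49 .mp ⟨⟨18665667, 0, 0, 0, 0, 15499341, 0, 0, 0, ⟨0, 0⟩, 0⟩, 0, 0⟩ 0 0) (.cut .v 16793600 (.cut .l 35490 (.cut .d (-4096) (.pos 51 .mp ⟨⟨18634385, 0, 0, 0, 0, 15497355, 0, 0, 0, ⟨0, 0⟩, 0⟩, 0, 0⟩ 0 0) (.cut .v 16785408 (.cut .s 8785920 (.pos 61 .mp ⟨⟨19095822, 0, 0, 0, 0, 13405206, 0, 0, 0, ⟨0, 0⟩, 0⟩, 0, 0⟩ 0 0) (.cut .s 8800256 (.pos 61 .mp ⟨⟨19808735, 0, 0, 0, 0, 13131179, 0, 0, 0, ⟨0, 0⟩, 0⟩, 0, 0⟩ 0 0) (.pos 61 .mp ⟨⟨20010581, 0, 0, 0, 0, 13244630, 0, 0, 0, ⟨0, 0⟩, 0⟩, 0, 0⟩ 0 0))) (.pos 62 .mp ⟨⟨29690016, 0, 0, 0, 0, 0, 0, 0, 0, ⟨0, 0⟩, 0⟩, 0, 0⟩ 0 0))) (.pos 51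 .mp ⟨⟨19529295, 0, 0, 0, 0, 12514297, 0, 0, 0, ⟨0, 0⟩, 0⟩, 0, 0⟩ 0 0)) (.pos 52 .mp ⟨⟨29707317, 0, 0, 0, 0, 0, 0, 0, 0, ⟨0, 0⟩, 0⟩, 0, 0⟩ 0 0))) (.pos 49 .mp ⟨⟨19619144, 0, 0, 0, 0, 12476357, 0, 0, 0, ⟨0, 0⟩, 0⟩, 0, 0⟩ 0 0))) (.pos 50 .mp ⟨⟨23950374, 0, 0, 0, 0, 8351493, 0, 0, 0, ⟨0, 0⟩, 0⟩, 0, 0⟩ 0 0)) (.pos 39 .mp ⟨⟨19800397, 0, 0, 0, 0, 12398976, 0, 0, 0, ⟨0, 0⟩, 0⟩, 0, 0⟩ 0 0))) (.pos 40 .mp ⟨⟨29557115, 0, 0, 0, 0, 0, 0, 0, 0, ⟨0, 0⟩, 0⟩, 0, 0⟩ 0 0)))) (.cut .s 8929280 (.cut .d (-32768) (.cut .l 141961 (.void 37 ⟨⟨0, 0, 0, 0, 0, 100000, 0, 0, 0, ⟨0, 0⟩, 0⟩, 0, 0⟩ 0 0) (.cut .d (-49152) (.void 37 ⟨⟨0, 0, 0, 0, 0, 100000, 0, 0,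 0, ⟨0, 0⟩, 0⟩, 0, 0⟩ 0 0) (.cut .v 16842752 (.cut .s 8871936 (.pos 39 .mp ⟨⟨19519019, 0, 0, 0, 0, 15509375, 0, 0, 0, ⟨0, 0⟩, 0⟩, 0, 0⟩ 0 0) (.pos 39 .mp ⟨⟨20393801, 0, 0, 0, 0, 15994006, 0, 0, 0, ⟨0, 0⟩, 0⟩, 0, 0⟩ 0 0)) (.pos 40 .mp ⟨⟨28962125, 0, 0, 0, 0, 4791043, 0, 0, 0, ⟨0, 0⟩, 0⟩, 0, 0⟩ 0 0)))) (.cut .v 16842752 (.cut .s 8871936 (.cut .s 8843264 (.cut .l 141961 (.cut .d (-16384) (.pos 39 .mp ⟨⟨19572298, 0, 0, 0, 0, 15224514, 0, 0, 0, ⟨0, 0⟩, 0⟩, 0, 0⟩ 0 0) (.cut .s 8828928 (.pos 39 .mp ⟨⟨20072561, 0, 0, 0, 0, 13548218, 0, 0, 0, ⟨0, 0⟩, 0⟩, 0, 0⟩ 0 0) (.pos 39 .mp ⟨⟨20292986, 0, 0, 0, 0, 13647536, 0, 0, 0, ⟨0, 0⟩, 0⟩, 0, 0⟩ 0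 0))) (.pos 39 .mp ⟨⟨20239166, 0, 0, 0, 0, 13149535, 0, 0, 0, ⟨0, 0⟩, 0⟩, 0, 0⟩ 0 0)) (.cut .l 141961 (.cut .d (-16384) (.pos 39 .mp ⟨⟨20005764, 0, 0, 0, 0, 15456324, 0, 0, 0, ⟨0, 0⟩, 0⟩, 0, 0⟩ 0 0) (.cut .s 8857600 (.pos 39 .mp ⟨⟨20515431, 0, 0, 0, 0, 13748292, 0, 0, 0, ⟨0, 0⟩, 0⟩, 0, 0⟩ 0 0) (.pos 39 .mp ⟨⟨20739905, 0, 0, 0, 0, 13850476, 0, 0, 0, ⟨0, 0⟩, 0⟩, 0, 0⟩ 0 0))) (.pos 39 .mp ⟨⟨20686035, 0, 0, 0, 0, 13349722, 0, 0, 0, ⟨0, 0⟩, 0⟩, 0, 0⟩ 0 0))) (.cut .s 8900608 (.cut .l 141961 (.cut .d (-16384) (.pos 39 .mp ⟨⟨20447185, 0, 0, 0, 0, 15696503, 0, 0, 0, ⟨0, 0⟩, 0⟩, 0, 0⟩ 0 0) (.cut .s 8886272 (.pos 39 .mp ⟨⟨20966416, 0, 0, 0,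 0, 13954077, 0, 0, 0, ⟨0, 0⟩, 0⟩, 0, 0⟩ 0 0) (.pos 39 .mp ⟨⟨21194973, 0, 0, 0, 0, 14059082, 0, 0, 0, ⟨0, 0⟩, 0⟩, 0, 0⟩ 0 0))) (.pos 39 .mp ⟨⟨21141076, 0, 0, 0, 0, 13552292, 0, 0, 0, ⟨0, 0⟩, 0⟩, 0, 0⟩ 0 0)) (.cut .l 141961 (.cut .d (-16384) (.pos 39 .mp ⟨⟨20896631, 0, 0, 0, 0, 15945162, 0, 0, 0, ⟨0, 0⟩, 0⟩, 0, 0⟩ 0 0) (.cut .s 8914944 (.pos 39 .mp ⟨⟨21425587, 0, 0, 0, 0, 14165480, 0, 0, 0, ⟨0, 0⟩, 0⟩, 0, 0⟩ 0 0) (.pos 39 .mp ⟨⟨21658265, 0, 0, 0, 0, 14273259, 0, 0, 0, ⟨0, 0⟩, 0⟩, 0, 0⟩ 0 0))) (.pos 39 .mp ⟨⟨21604360, 0, 0, 0, 0, 13756951, 0, 0, 0, ⟨0, 0⟩, 0⟩, 0, 0⟩ 0 0)))) (.pos 40 .mp ⟨⟨31839292, 0, 0, 0, 0, 0, 0, 0, 0, ⟨0, 0⟩, 0⟩,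 0, 0⟩ 0 0))) (.cut .d (-32768) (.cut .d (-49152) (.void 37 ⟨⟨0, 0, 0, 0, 0, 100000, 0, 0, 0, ⟨0, 0⟩, 0⟩, 0, 0⟩ 0 0) (.cut .v 16842752 (.cut .s 8986624 (.cut .s 8957952 (.pos 39 .mp ⟨⟨21300772, 0, 0, 0, 0, 16128770, 0, 0, 0, ⟨0, 0⟩, 0⟩, 0, 0⟩ 0 0) (.pos 39 .mp ⟨⟨21766509, 0, 0, 0, 0, 16391907, 0, 0, 0, ⟨0, 0⟩, 0⟩, 0, 0⟩ 0 0)) (.pos 39 .mp ⟨⟨22240512, 0, 0, 0, 0, 17373756, 0, 0, 0, ⟨0, 0⟩, 0⟩, 0, 0⟩ 0 0)) (.pos 40 .mp ⟨⟨31743955, 0, 0, 0, 0, 4511712, 0, 0, 0, ⟨0, 0⟩, 0⟩, 0, 0⟩ 0 0))) (.cut .v 16842752 (.cut .s 8986624 (.cut .s 8957952 (.cut .l 141961 (.cut .d (-16384) (.pos 39 .mp ⟨⟨21354175, 0, 0, 0, 0, 16202415, 0, 0, 0, ⟨0, 0⟩,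 0⟩, 0, 0⟩ 0 0) (.cut .s 8943616 (.pos 39 .mp ⟨⟨21893018, 0, 0, 0, 0, 14382406, 0, 0, 0, ⟨0, 0⟩, 0⟩, 0, 0⟩ 0 0) (.pos 39 .mp ⟨⟨22129854, 0, 0, 0, 0, 14492910, 0, 0, 0, ⟨0, 0⟩, 0⟩, 0, 0⟩ 0 0))) (.pos 39 .mp ⟨⟨22075964, 0, 0, 0, 0, 13963400, 0, 0, 0, ⟨0, 0⟩, 0⟩, 0, 0⟩ 0 0)) (.cut .l 141961 (.cut .d (-16384) (.pos 39 .mp ⟨⟨21819889, 0, 0, 0, 0, 16468377, 0, 0, 0, ⟨0, 0⟩, 0⟩, 0, 0⟩ 0 0) (.cut .s 8972288 (.pos 39 .mp ⟨⟨22368784, 0, 0, 0, 0, 14604759, 0, 0, 0, ⟨0, 0⟩, 0⟩, 0, 0⟩ 0 0) (.pos 39 .mp ⟨⟨22609816, 0, 0, 0, 0, 14717938, 0, 0, 0, ⟨0, 0⟩, 0⟩, 0, 0⟩ 0 0))) (.pos 39 .mp ⟨⟨22555962, 0, 0, 0, 0, 14171343, 0, 0, 0, ⟨0, 0⟩, 0⟩, 0, 0⟩ 0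 0))) (.cut .s 9015296 (.cut .l 141961 (.cut .d (-16384) (.pos 39 .mp ⟨⟨22293848, 0, 0, 0, 0, 16743163, 0, 0, 0, ⟨0, 0⟩, 0⟩, 0, 0⟩ 0 0) (.cut .s 9000960 (.pos 39 .mp ⟨⟨22852960, 0, 0, 0, 0, 14832437, 0, 0, 0, ⟨0, 0⟩, 0⟩, 0, 0⟩ 0 0) (.pos 39 .mp ⟨⟨23098226, 0, 0, 0, 0, 14948241, 0, 0, 0, ⟨0, 0⟩, 0⟩, 0, 0⟩ 0 0))) (.pos 39 .mp ⟨⟨23044430, 0, 0, 0, 0, 14380481, 0, 0, 0, ⟨0, 0⟩, 0⟩, 0, 0⟩ 0 0)) (.cut .s 9029632 (.cut .s 9022464 (.pos 39 .mp ⟨⟨23561131, 0, 0, 0, 0, 14762802, 0, 0, 0, ⟨0, 0⟩, 0⟩, 0, 0⟩ 0 0) (.pos 39 .mp ⟨⟨23698429, 0, 0, 0, 0, 14805212, 0, 0, 0, ⟨0, 0⟩, 0⟩, 0, 0⟩ 0 0)) (.pos 39 .mp ⟨⟨23870196, 0, 0, 0, 0, 14885295, 0, 0,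 0, ⟨0, 0⟩, 0⟩, 0, 0⟩ 0 0)))) (.pos 40 .mp ⟨⟨34332674, 0, 0, 0, 0, 0, 0, 0, 0, ⟨0, 0⟩, 0⟩, 0, 0⟩ 0 0))))) (.pos 38 .mp ⟨⟨34133832, 0, 0, 0, 0, 0, 0, 0, 0, ⟨0, 0⟩, 0⟩, 0, 0⟩ 0 0)) (.pos 36 .mp ⟨⟨36821061, 0, 0, 0, 0, 0, 0, 0, 0, ⟨0, 0⟩, 0⟩, 0, 0⟩ 0 0)) (.void 34 ⟨⟨100000, 0, 0, 0, 0, 0, 0, 0, 0, ⟨0, 0⟩, 0⟩, 0, 0⟩ 0 0)) (.void 32 ⟨⟨100000, 0, 0, 0, 0, 0, 0, 0, 0, ⟨0, 0⟩, 0⟩, 0, 0⟩ 0 0)))))) (.void 30 ⟨⟨100000, 0, 0, 0, 0, 0, 0, 0, 0, ⟨0, 0⟩, 0⟩, 0, 0⟩ 0 0))))) (.void 28 ⟨⟨100000, 0, 0, 0, 0, 0, 0, 0, 0, ⟨0, 0⟩, 0⟩, 0, 0⟩ 0 0))) (.void 26 ⟨⟨100000, 0, 0, 0, 0, 0, 0, 0, 0, ⟨0, 0⟩, 0⟩, 0, 0⟩ 0 0))) (.cut .v 16777216 (.cut .d 6785020 (.cut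 .d 3392510 (.cut .v 8388608 (.cut .v 4194304 (.void 4 ⟨⟨0, 0, 66667, 0, 0, 0, 0, 0, 0, ⟨0, 0⟩, 0⟩, 0, 33333⟩ 0 0) (.pos 5 .pm ⟨⟨0, 0, 0, 0, 0, 0, 0, 0, 0, ⟨0, 0⟩, 0⟩, 0, 0⟩ 0 0)) (.pos 3 .pm ⟨⟨0, 0, 0, 0, 0, 0, 0, 0, 0, ⟨0, 0⟩, 0⟩, 0, 0⟩ 0 0)) (.void 1 ⟨⟨0, 0, 0, 0, 0, 0, 0, 0, 0, ⟨0, 0⟩, 0⟩, 0, 100000⟩ 0 0)) (.void 1 ⟨⟨0, 0, 0, 0, 0, 0, 0, 0, 0, ⟨0, 0⟩, 0⟩, 0, 100000⟩ 0 0)) (.cut .d 6785020 (.cut .d 3392510 (.cut .v 25165824 (.cut .d 1696255 (.cut .v 20971520 (.cut .d 848127 (.cut .v 18874368 (.cut .d 424063 (.cut .v 17825792 (.cut .s 8814592 (.pos 31 .pp ⟨⟨20142884, 0, 0, 0, 0, 0, 0, 0, 0, ⟨0, 0⟩, 0⟩, 521650, 0⟩ 0 0) (.pos 31 .pp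 ⟨⟨23460826, 0, 0, 0, 0, 0, 0, 0, 0, ⟨0, 0⟩, 0⟩, 650533, 0⟩ 0 0)) (.pos 32 .pp ⟨⟨32674227, 0, 0, 0, 0, 0, 0, 0, 0, ⟨0, 0⟩, 0⟩, 0, 0⟩ 0 0)) (.pos 29 .pp ⟨⟨16913141, 0, 0, 0, 0, 0, 0, 0, 0, ⟨0, 0⟩, 0⟩, 0, 357804⟩ 0 0)) (.cut .d 424063 (.pos 30 .pp ⟨⟨43951081, 0, 0, 0, 0, 0, 0, 0, 0, ⟨0, 0⟩, 0⟩, 0, 0⟩ 0 0) (.pos 30 .pp ⟨⟨29774688, 0, 0, 0, 0, 0, 0, 0, 0, ⟨0, 0⟩, 0⟩, 0, 298000⟩ 0 0))) (.pos 27 .pp ⟨⟨0, 0, 0, 0, 0, 0, 0, 0, 0, ⟨0, 0⟩, 0⟩, 0, 871075⟩ 0 0)) (.cut .d 848127 (.pos 28 .pp ⟨⟨62779157, 0, 0, 0, 0, 0, 0, 0, 0, ⟨0, 0⟩, 0⟩, 0, 0⟩ 0 0) (.cut .l 141961 (.void 28 ⟨⟨0, 0, 0, 0, 0, 0, 20965, 0, 0, ⟨0, 0⟩, 0⟩, 0, 79035⟩ 0 0) (.cut .v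 23068672 (.cut .d 1272191 (.pos 59 .pp ⟨⟨31314999, 0, 0, 0, 0, 0, 562223, 0, 0, ⟨0, 0⟩, 0⟩, 0, 0⟩ 0 0) (.pos 59 .pp ⟨⟨0, 0, 0, 0, 0, 0, 0, 0, 0, ⟨0, 0⟩, 0⟩, 0, 907751⟩ 0 0)) (.cut .d 1272191 (.cut .d 1060159 (.pos 60 .pp ⟨⟨57132389, 0, 0, 0, 0, 0, 0, 0, 0, ⟨0, 0⟩, 0⟩, 1026329, 0⟩ 0 0) (.cut .l 212942 (.pos 60 .pp ⟨⟨0, 0, 0, 0, 0, 0, 18325833, 0, 0, ⟨0, 0⟩, 0⟩, 4093552, 0⟩ 0 0) (.cut .v 24117248 (.cut .d 1166175 (.pos 65 .pp ⟨⟨6422396, 0, 0, 0, 0, 0, 260585, 0, 0, ⟨0, 0⟩, 0⟩, 3646264, 0⟩ 0 0) (.cut .s 8814592 (.cut .v 23592960 (.pos 67 .pp ⟨⟨0, 0, 0, 0, 0, 0, 5945868, 0, 0, ⟨0, 0⟩, 0⟩, 3238217, 0⟩ 0 0) (.cut .s 8699904 (.cut .d 1219183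 (.pos 68 .pp ⟨⟨0, 0, 0, 0, 0, 0, 6208738, 0, 0, ⟨0, 0⟩, 0⟩, 3699084, 0⟩ 0 0) (.pos 68 .pp ⟨⟨0, 0, 0, 0, 0, 0, 9074398, 0, 0, ⟨0, 0⟩, 0⟩, 3409863, 0⟩ 0 0)) (.pos 68 .pp ⟨⟨0, 0, 0, 0, 0, 0, 3980703, 0, 0, ⟨0, 0⟩, 0⟩, 3879616, 0⟩ 0 0))) (.pos 65 .pp ⟨⟨0, 0, 0, 0, 0, 0, 295938, 0, 0, ⟨0, 0⟩, 0⟩, 4316357, 0⟩ 0 0))) (.cut .s 8814592 (.pos 66 .pp ⟨⟨0, 0, 0, 0, 0, 0, 10651318, 0, 0, ⟨0, 0⟩, 0⟩, 4424839, 0⟩ 0 0) (.pos 66 .pp ⟨⟨0, 0, 0, 0, 0, 0, 0, 0, 0, ⟨0, 0⟩, 0⟩, 5093152, 0⟩ 0 0))))) (.cut .v 24117248 (.pos 65 .pp ⟨⟨0, 0, 0, 0, 0, 0, 19867749, 0, 0, ⟨0, 0⟩, 0⟩, 0, 0⟩ 0 0) (.cut .d 1484223 (.cut .s 8814592 (.pos 66 .pp ⟨⟨0, 0, 0, 0, 0, 0,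 15046478, 0, 0, ⟨0, 0⟩, 0⟩, 3605614, 0⟩ 0 0) (.pos 66 .pp ⟨⟨0, 0, 0, 0, 0, 0, 5998526, 0, 0, ⟨0, 0⟩, 0⟩, 4197249, 0⟩ 0 0)) (.pos 66 .pp ⟨⟨0, 0, 0, 0, 0, 0, 38397519, 0, 0, ⟨0, 0⟩, 0⟩, 0, 0⟩ 0 0)))))))) (.cut .v 20971520 (.void 27 ⟨⟨0, 0, 0, 0, 0, 0, 0, 0, 0, ⟨0, 0⟩, 0⟩, 0, 100000⟩ 0 0) (.pos 28 .pp ⟨⟨0, 0, 0, 0, 0, 0, 0, 0, 0, ⟨0, 0⟩, 0⟩, 0, 31657329⟩ 0 0))) (.cut .d 1696255 (.cut .d 848127 (.void 26 ⟨⟨0, 0, 0, 0, 0, 0, 0, 0, 0, ⟨0, 0⟩, 0⟩, 100000, 0⟩ 0 0) (.cut .v 29360128 (.cut .d 1272191 (.void 77 ⟨⟨0, 0, 0, 0, 0, 0, 0, 0, 0, ⟨0, 0⟩, 0⟩, 100000, 0⟩ 0 0) (.cut .d 1484223 (.cut .v 27262976 (.pos 79 .pp ⟨⟨0, 0, 0, 0, 0, 0, 18334064,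 0, 0, ⟨0, 0⟩, 0⟩, 5440689, 0⟩ 0 0) (.void 80 ⟨⟨0, 0, 0, 0, 0, 0, 0, 0, 0, ⟨0, 0⟩, 0⟩, 100000, 0⟩ 0 0)) (.pos 77 .pp ⟨⟨0, 0, 0, 0, 0, 0, 26996325, 0, 0, ⟨0, 0⟩, 0⟩, 4407338, 0⟩ 0 0))) (.void 78 ⟨⟨0, 0, 0, 0, 0, 0, 0, 0, 0, ⟨0, 0⟩, 0⟩, 100000, 0⟩ 0 0))) (.pos 26 .pp ⟨⟨0, 0, 0, 0, 0, 0, 95174306, 0, 0, ⟨0, 0⟩, 0⟩, 0, 0⟩ 0 0))) (.void 24 ⟨⟨0, 0, 0, 0, 0, 0, 0, 0, 0, ⟨0, 0⟩, 0⟩, 0, 100000⟩ 0 0)) (.void 24 ⟨⟨0, 0, 0, 0, 0, 0, 0, 0, 0, ⟨0, 0⟩, 0⟩, 0, 100000⟩ 0 0)))),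
    by decide +kernel⟩

def covers11 : cell.Covers Vale.Agent.P237.Petty.Cor.Grid.N13.table row11.1 :=
  ⟨(.cut .d 0 (.cut .v 16777216 (.cut .d (-8388608) (.void 1 ⟨⟨0, 0, 0, 0, 0, 100000, 0, 0, 0, ⟨0, 0⟩, 0⟩, 0, 0⟩ 0 0) (.cut .d (-4194304) (.void 1 ⟨⟨0, 0, 0, 0, 0, 100000, 0, 0, 0, ⟨0, 0⟩, 0⟩, 0, 0⟩ 0 0) (.cut .d (-2097152) (.void 1 ⟨⟨0, 0, 0, 0, 0, 100000, 0, 0, 0, ⟨0, 0⟩, 0⟩, 0, 0⟩ 0 0) (.cut .d (-1048576) (.void 1 ⟨⟨0, 0, 0, 0, 0, 100000, 0, 0, 0, ⟨0, 0⟩, 0⟩, 0, 0⟩ 0 0) (.cut .d (-524288) (.void 1 ⟨⟨0, 0, 0, 0, 0, 100000, 0, 0, 0, ⟨0, 0⟩, 0⟩, 0, 0⟩ 0 0) (.cut .d (-262144) (.void 1 ⟨⟨0, 0, 0, 0, 0, 100000, 0, 0, 0, ⟨0, 0⟩, 0⟩,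 0, 0⟩ 0 0) (.cut .d (-131072) (.void 1 ⟨⟨0, 0, 0, 0, 0, 100000, 0, 0, 0, ⟨0, 0⟩, 0⟩, 0, 0⟩ 0 0) (.cut .d (-65536) (.void 1 ⟨⟨0, 0, 0, 0, 0, 100000, 0, 0, 0, ⟨0, 0⟩, 0⟩, 0, 0⟩ 0 0) (.cut .v 8388608 (.cut .v 4194304 (.void 4 ⟨⟨0, 0, 100000, 0, 0, 0, 0, 0, 0, ⟨0, 0⟩, 0⟩, 0, 0⟩ 0 0) (.pos 5 .mm ⟨⟨0, 0, 0, 0, 0, 17947419, 0, 0, 0, ⟨0, 0⟩, 0⟩, 0, 0⟩ 0 0)) (.cut .d (-32768) (.pos 3 .mm ⟨⟨0, 0, 0, 0, 0, 62611314, 0, 0, 0, ⟨0, 0⟩, 0⟩, 0, 0⟩ 0 0) (.cut .l 141961 (.cut .d (-16384) (.pos 3 .mm ⟨⟨0, 0, 0, 0, 0, 62603062, 0, 0, 0, ⟨0, 0⟩, 0⟩, 0, 0⟩ 0 0) (.cut .l 70980 (.cut .d (-8192) (.pos 3 .mm ⟨⟨0, 0, 0, 0, 0, 62599005, 0, 0, 0, ⟨0, 0⟩, 0⟩,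 0, 0⟩ 0 0) (.cut .v 12582912 (.pos 10 .mm ⟨⟨0, 0, 0, 0, 0, 27135807, 0, 0, 0, ⟨0, 0⟩, 0⟩, 0, 0⟩ 0 0) (.cut .v 14680064 (.pos 14 .mm ⟨⟨0, 0, 0, 0, 0, 33297564, 0, 0, 0, ⟨0, 0⟩, 0⟩, 0, 0⟩ 0 0) (.cut .v 15728640 (.pos 22 .mm ⟨⟨0, 0, 0, 0, 0, 36750591, 0, 0, 0, ⟨0, 0⟩, 0⟩, 0, 0⟩ 0 0) (.cut .v 16252928 (.pos 43 .mm ⟨⟨0, 0, 0, 0, 0, 38570141, 0, 0, 0, ⟨0, 0⟩, 0⟩, 0, 0⟩ 0 0) (.cut .v 16515072 (.pos 45 .mm ⟨⟨0, 0, 0, 0, 0, 39503176, 0, 0, 0, ⟨0, 0⟩, 0⟩, 0, 0⟩ 0 0) (.cut .v 16646144 (.pos 47 .mm ⟨⟨0, 0, 0, 0, 0, 39975508, 0, 0, 0, ⟨0, 0⟩, 0⟩, 0, 0⟩ 0 0) (.cut .v 16711680 (.pos 53 .mm ⟨⟨0, 0, 0, 0, 0, 43942515, 0, 0, 0, ⟨0, 0⟩, 0⟩, 0, 0⟩ 0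 0) (.cut .v 16744448 (.pos 57 .mm ⟨⟨0, 0, 0, 0, 0, 50017551, 0, 0, 0, ⟨0, 0⟩, 0⟩, 0, 0⟩ 0 0) (.cut .v 16760832 (.pos 81 .mm ⟨⟨0, 0, 0, 0, 0, 51712786, 0, 0, 0, ⟨0, 0⟩, 0⟩, 0, 0⟩ 0 0) (.cut .v 16769024 (.pos 83 .mm ⟨⟨0, 0, 0, 0, 0, 52562109, 0, 0, 0, ⟨0, 0⟩, 0⟩, 0, 0⟩ 0 0) (.cut .l 35490 (.cut .d (-4096) (.pos 84 .mm ⟨⟨0, 0, 0, 0, 0, 62596931, 0, 0, 0, ⟨0, 0⟩, 0⟩, 0, 0⟩ 0 0) (.cut .s 9306112 (.pos 84 .mm ⟨⟨0, 0, 0, 0, 0, 48936451, 0, 0, 0, ⟨0, 0⟩, 0⟩, 0, 0⟩ 0 0) (.cut .s 9437184 (.pos 84 .mm ⟨⟨0, 0, 0, 0, 0, 57440336, 0, 0, 0, ⟨0, 0⟩, 0⟩, 0, 0⟩ 0 0) (.pos 84 .mm ⟨⟨0, 0, 0, 0, 0, 63133739, 0, 0, 0, ⟨0, 0⟩, 0⟩, 0, 0⟩ 0 0)))) (.pos 84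 .mm ⟨⟨0, 0, 0, 0, 0, 46164826, 0, 0, 0, ⟨0, 0⟩, 0⟩, 0, 0⟩ 0 0))))))))))))) (.pos 3 .mm ⟨⟨0, 0, 0, 0, 0, 46216985, 0, 0, 0, ⟨0, 0⟩, 0⟩, 0, 0⟩ 0 0))) (.pos 3 .mm ⟨⟨0, 0, 0, 0, 0, 46321217, 0, 0, 0, ⟨0, 0⟩, 0⟩, 0, 0⟩ 0 0)))))))))))) (.cut .v 25165824 (.cut .d (-8388608) (.void 25 ⟨⟨0, 0, 0, 0, 0, 100000, 0, 0, 0, ⟨0, 0⟩, 0⟩, 0, 0⟩ 0 0) (.cut .v 20971520 (.cut .d (-4194304) (.void 27 ⟨⟨0, 0, 0, 0, 0, 100000, 0, 0, 0, ⟨0, 0⟩, 0⟩, 0, 0⟩ 0 0) (.cut .v 18874368 (.cut .d (-2097152) (.void 29 ⟨⟨100000, 0, 0, 0, 0, 0, 0, 0, 0, ⟨0, 0⟩, 0⟩, 0, 0⟩ 0 0) (.cut .d (-1048576) (.void 29 ⟨⟨100000, 0, 0, 0, 0, 0, 0, 0, 0, ⟨0, 0⟩, 0⟩, 0, 0⟩ 0 0) (.cut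 .d (-524288) (.void 29 ⟨⟨100000, 0, 0, 0, 0, 0, 0, 0, 0, ⟨0, 0⟩, 0⟩, 0, 0⟩ 0 0) (.cut .d (-262144) (.void 29 ⟨⟨100000, 0, 0, 0, 0, 0, 0, 0, 0, ⟨0, 0⟩, 0⟩, 0, 0⟩ 0 0) (.cut .d (-131072) (.void 29 ⟨⟨0, 0, 0, 0, 0, 100000, 0, 0, 0, ⟨0, 0⟩, 0⟩, 0, 0⟩ 0 0) (.cut .d (-65536) (.void 29 ⟨⟨0, 0, 0, 0, 0, 100000, 0, 0, 0, ⟨0, 0⟩, 0⟩, 0, 0⟩ 0 0) (.cut .v 17825792 (.cut .v 17301504 (.cut .v 17039360 (.cut .s 9306112 (.cut .v 16908288 (.cut .s 9175040 (.cut .d (-32768) (.cut .l 141961 (.void 37 ⟨⟨0, 0, 0, 0, 0, 100000, 0, 0, 0, ⟨0, 0⟩, 0⟩, 0, 0⟩ 0 0) (.cut .d (-49152) (.void 37 ⟨⟨0, 0, 0, 0, 0, 100000, 0, 0, 0, ⟨0, 0⟩, 0⟩, 0, 0⟩ 0 0) (.cut .v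 16842752 (.cut .s 9109504 (.pos 39 .mp ⟨⟨23215576, 0, 0, 0, 0, 17871417, 0, 0, 0, ⟨0, 0⟩, 0⟩, 0, 0⟩ 0 0) (.pos 39 .mp ⟨⟨24373221, 0, 0, 0, 0, 18477423, 0, 0, 0, ⟨0, 0⟩, 0⟩, 0, 0⟩ 0 0)) (.pos 40 .mp ⟨⟨32540885, 0, 0, 0, 0, 7608963, 0, 0, 0, ⟨0, 0⟩, 0⟩, 0, 0⟩ 0 0)))) (.cut .v 16842752 (.cut .s 9109504 (.cut .s 9076736 (.cut .l 141961 (.cut .d (-16384) (.pos 39 .mp ⟨⟨23268619, 0, 0, 0, 0, 17438074, 0, 0, 0, ⟨0, 0⟩, 0⟩, 0, 0⟩ 0 0) (.cut .s 9060352 (.pos 39 .mp ⟨⟨23884583, 0, 0, 0, 0, 15281346, 0, 0, 0, ⟨0, 0⟩, 0⟩, 0, 0⟩ 0 0) (.pos 39 .mp ⟨⟨24175442, 0, 0, 0, 0, 15392525, 0, 0, 0, ⟨0, 0⟩, 0⟩, 0, 0⟩ 0 0))) (.pos 39 .mp ⟨⟨24122526, 0, 0,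 0, 0, 14811717, 0, 0, 0, ⟨0, 0⟩, 0⟩, 0, 0⟩ 0 0)) (.cut .l 141961 (.cut .d (-16384) (.pos 39 .mp ⟨⟨23840350, 0, 0, 0, 0, 17702943, 0, 0, 0, ⟨0, 0⟩, 0⟩, 0, 0⟩ 0 0) (.cut .s 9093120 (.pos 39 .mp ⟨⟨24469542, 0, 0, 0, 0, 15506596, 0, 0, 0, ⟨0, 0⟩, 0⟩, 0, 0⟩ 0 0) (.pos 39 .mp ⟨⟨24766899, 0, 0, 0, 0, 15623536, 0, 0, 0, ⟨0, 0⟩, 0⟩, 0, 0⟩ 0 0))) (.pos 39 .mp ⟨⟨24714723, 0, 0, 0, 0, 15054366, 0, 0, 0, ⟨0, 0⟩, 0⟩, 0, 0⟩ 0 0))) (.cut .s 9142272 (.cut .l 141961 (.cut .d (-16384) (.pos 39 .mp ⟨⟨24424845, 0, 0, 0, 0, 17981527, 0, 0, 0, ⟨0, 0⟩, 0⟩, 0, 0⟩ 0 0) (.cut .s 9125888 (.pos 39 .mp ⟨⟨25067532, 0, 0, 0, 0, 15743325, 0, 0, 0, ⟨0, 0⟩, 0⟩, 0,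 0⟩ 0 0) (.pos 39 .mp ⟨⟨25371458, 0, 0, 0, 0, 15865943, 0, 0, 0, ⟨0, 0⟩, 0⟩, 0, 0⟩ 0 0))) (.pos 39 .mp ⟨⟨25320097, 0, 0, 0, 0, 15305878, 0, 0, 0, ⟨0, 0⟩, 0⟩, 0, 0⟩ 0 0)) (.cut .l 141961 (.cut .d (-16384) (.pos 39 .mp ⟨⟨25022238, 0, 0, 0, 0, 18274044, 0, 0, 0, ⟨0, 0⟩, 0⟩, 0, 0⟩ 0 0) (.cut .s 9158656 (.pos 39 .mp ⟨⟨25678693, 0, 0, 0, 0, 15991368, 0, 0, 0, ⟨0, 0⟩, 0⟩, 0, 0⟩ 0 0) (.cut .s 9166848 (.pos 39 .mp ⟨⟨25847350, 0, 0, 0, 0, 16206715, 0, 0, 0, ⟨0, 0⟩, 0⟩, 0, 0⟩ 0 0) (.pos 39 .mp ⟨⟨25995044, 0, 0, 0, 0, 16281685, 0, 0, 0, ⟨0, 0⟩, 0⟩, 0, 0⟩ 0 0)))) (.pos 39 .mp ⟨⟨25938788, 0, 0, 0, 0, 15565652, 0, 0, 0, ⟨0, 0⟩, 0⟩, 0, 0⟩ 0 0))))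 (.pos 40 .mp ⟨⟨37381451, 0, 0, 0, 0, 0, 0, 0, 0, ⟨0, 0⟩, 0⟩, 0, 0⟩ 0 0))) (.cut .d (-32768) (.cut .d (-49152) (.void 37 ⟨⟨0, 0, 0, 0, 0, 100000, 0, 0, 0, ⟨0, 0⟩, 0⟩, 0, 0⟩ 0 0) (.cut .v 16842752 (.cut .d (-40960) (.pos 39 .mp ⟨⟨25736028, 0, 0, 0, 0, 22016397, 0, 0, 0, ⟨0, 0⟩, 0⟩, 0, 0⟩ 0 0) (.cut .v 16809984 (.pos 49 .mp ⟨⟨0, 0, 0, 0, 0, 57445250, 0, 0, 0, ⟨0, 0⟩, 0⟩, 0, 0⟩ 0 0) (.cut .l 141961 (.void 50 ⟨⟨100000, 0, 0, 0, 0, 0, 0, 0, 0, ⟨0, 0⟩, 0⟩, 0, 0⟩ 0 0) (.cut .s 9240576 (.pos 50 .mp ⟨⟨25700386, 0, 0, 0, 0, 18907216, 0, 0, 0, ⟨0, 0⟩, 0⟩, 0, 0⟩ 0 0) (.pos 50 .mp ⟨⟨26967987, 0, 0, 0, 0, 19592293, 0, 0, 0, ⟨0, 0⟩, 0⟩, 0, 0⟩ 0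 0))))) (.pos 40 .mp ⟨⟨42908522, 0, 0, 0, 0, 0, 0, 0, 0, ⟨0, 0⟩, 0⟩, 0, 0⟩ 0 0))) (.cut .v 16842752 (.cut .s 9240576 (.cut .s 9207808 (.cut .l 141961 (.cut .d (-16384) (.pos 39 .mp ⟨⟨25632666, 0, 0, 0, 0, 18580714, 0, 0, 0, ⟨0, 0⟩, 0⟩, 0, 0⟩ 0 0) (.cut .v 16809984 (.cut .s 9191424 (.pos 49 .mp ⟨⟨26183067, 0, 0, 0, 0, 16404243, 0, 0, 0, ⟨0, 0⟩, 0⟩, 0, 0⟩ 0 0) (.cut .s 9199616 (.pos 49 .mp ⟨⟨26667972, 0, 0, 0, 0, 16216280, 0, 0, 0, ⟨0, 0⟩, 0⟩, 0, 0⟩ 0 0) (.pos 49 .mp ⟨⟨26816163, 0, 0, 0, 0, 16298324, 0, 0, 0, ⟨0, 0⟩, 0⟩, 0, 0⟩ 0 0))) (.pos 50 .mp ⟨⟨38470944, 0, 0, 0, 0, 0, 0, 0, 0, ⟨0, 0⟩, 0⟩, 0, 0⟩ 0 0))) (.pos 39 .mp ⟨⟨26570938, 0,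 0, 0, 0, 15833084, 0, 0, 0, ⟨0, 0⟩, 0⟩, 0, 0⟩ 0 0)) (.cut .s 9224192 (.cut .s 9216000 (.pos 39 .mp ⟨⟨27097635, 0, 0, 0, 0, 16263915, 0, 0, 0, ⟨0, 0⟩, 0⟩, 0, 0⟩ 0 0) (.pos 39 .mp ⟨⟨27260587, 0, 0, 0, 0, 16330625, 0, 0, 0, ⟨0, 0⟩, 0⟩, 0, 0⟩ 0 0)) (.cut .s 9232384 (.pos 39 .mp ⟨⟨27424408, 0, 0, 0, 0, 16397985, 0, 0, 0, ⟨0, 0⟩, 0⟩, 0, 0⟩ 0 0) (.cut .s 9236480 (.pos 39 .mp ⟨⟨27506645, 0, 0, 0, 0, 16516647, 0, 0, 0, ⟨0, 0⟩, 0⟩, 0, 0⟩ 0 0) (.pos 39 .mp ⟨⟨27589099, 0, 0, 0, 0, 16551002, 0, 0, 0, ⟨0, 0⟩, 0⟩, 0, 0⟩ 0 0))))) (.cut .s 9273344 (.cut .s 9256960 (.cut .v 16809984 (.cut .s 9248768 (.pos 49 .mp ⟨⟨27396553, 0, 0, 0, 0, 17016398, 0,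 0, 0, ⟨0, 0⟩, 0⟩, 0, 0⟩ 0 0) (.pos 49 .mp ⟨⟨27545264, 0, 0, 0, 0, 17110327, 0, 0, 0, ⟨0, 0⟩, 0⟩, 0, 0⟩ 0 0)) (.pos 50 .mp ⟨⟨29842055, 0, 0, 0, 0, 14122623, 0, 0, 0, ⟨0, 0⟩, 0⟩, 0, 0⟩ 0 0)) (.cut .v 16809984 (.cut .s 9265152 (.pos 49 .mp ⟨⟨27696857, 0, 0, 0, 0, 17202155, 0, 0, 0, ⟨0, 0⟩, 0⟩, 0, 0⟩ 0 0) (.pos 49 .mp ⟨⟨27851382, 0, 0, 0, 0, 17291809, 0, 0, 0, ⟨0, 0⟩, 0⟩, 0, 0⟩ 0 0)) (.pos 50 .mp ⟨⟨30185495, 0, 0, 0, 0, 14249569, 0, 0, 0, ⟨0, 0⟩, 0⟩, 0, 0⟩ 0 0))) (.cut .s 9289728 (.cut .v 16809984 (.cut .s 9281536 (.pos 49 .mp ⟨⟨28008889, 0, 0, 0, 0, 17379215, 0, 0, 0, ⟨0, 0⟩, 0⟩, 0, 0⟩ 0 0) (.pos 49 .mp ⟨⟨28169428, 0, 0, 0, 0, 17464299,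 0, 0, 0, ⟨0, 0⟩, 0⟩, 0, 0⟩ 0 0)) (.pos 50 .mp ⟨⟨30538493, 0, 0, 0, 0, 14371258, 0, 0, 0, ⟨0, 0⟩, 0⟩, 0, 0⟩ 0 0)) (.cut .v 16809984 (.cut .s 9297920 (.pos 49 .mp ⟨⟨28333049, 0, 0, 0, 0, 17546988, 0, 0, 0, ⟨0, 0⟩, 0⟩, 0, 0⟩ 0 0) (.pos 49 .mp ⟨⟨28499802, 0, 0, 0, 0, 17627207, 0, 0, 0, ⟨0, 0⟩, 0⟩, 0, 0⟩ 0 0)) (.pos 50 .mp ⟨⟨30901393, 0, 0, 0, 0, 14487223, 0, 0, 0, ⟨0, 0⟩, 0⟩, 0, 0⟩ 0 0))))) (.pos 40 .mp ⟨⟨40640716, 0, 0, 0, 0, 0, 0, 0, 0, ⟨0, 0⟩, 0⟩, 0, 0⟩ 0 0)))) (.pos 38 .mp ⟨⟨41850378, 0, 0, 0, 0, 0, 0, 0, 0, ⟨0, 0⟩, 0⟩, 0, 0⟩ 0 0)) (.cut .v 16908288 (.cut .d (-32768) (.cut .d (-49152) (.void 37 ⟨⟨0, 0, 0, 0, 0, 100000, 0, 0, 0, ⟨0,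 0⟩, 0⟩, 0, 0⟩ 0 0) (.cut .d (-40960) (.pos 37 .mp ⟨⟨28593490, 0, 0, 0, 0, 47469996, 0, 0, 0, ⟨0, 0⟩, 0⟩, 0, 0⟩ 0 0) (.cut .l 141961 (.void 37 ⟨⟨0, 0, 0, 0, 0, 100000, 0, 0, 0, ⟨0, 0⟩, 0⟩, 0, 0⟩ 0 0) (.cut .l 212942 (.void 37 ⟨⟨0, 0, 0, 0, 0, 100000, 0, 0, 0, ⟨0, 0⟩, 0⟩, 0, 0⟩ 0 0) (.cut .v 16842752 (.cut .v 16809984 (.pos 49 .mp ⟨⟨0, 0, 0, 0, 0, 59246255, 0, 0, 0, ⟨0, 0⟩, 0⟩, 0, 0⟩ 0 0) (.cut .v 16826368 (.pos 87 .mp ⟨⟨0, 0, 0, 0, 0, 60317793, 0, 0, 0, ⟨0, 0⟩, 0⟩, 0, 0⟩ 0 0) (.cut .s 9437184 (.cut .s 9371648 (.pos 88 .mp ⟨⟨28354357, 0, 0, 0, 0, 19769998, 0, 0, 0, ⟨0, 0⟩, 0⟩, 0, 0⟩ 0 0) (.pos 88 .mp ⟨⟨29734597, 0, 0, 0, 0, 20515405,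 0, 0, 0, ⟨0, 0⟩, 0⟩, 0, 0⟩ 0 0)) (.cut .s 9502720 (.pos 88 .mp ⟨⟨31171741, 0, 0, 0, 0, 21297604, 0, 0, 0, ⟨0, 0⟩, 0⟩, 0, 0⟩ 0 0) (.pos 88 .mp ⟨⟨32667085, 0, 0, 0, 0, 22114737, 0, 0, 0, ⟨0, 0⟩, 0⟩, 0, 0⟩ 0 0))))) (.cut .s 9437184 (.pos 40 .mp ⟨⟨44754600, 0, 0, 0, 0, 0, 0, 0, 0, ⟨0, 0⟩, 0⟩, 0, 0⟩ 0 0) (.pos 40 .mp ⟨⟨48725864, 0, 0, 0, 0, 0, 0, 0, 0, ⟨0, 0⟩, 0⟩, 0, 0⟩ 0 0))))))) (.cut .s 9437184 (.cut .v 16842752 (.cut .s 9371648 (.cut .s 9338880 (.cut .s 9322496 (.cut .v 16809984 (.cut .s 9314304 (.pos 49 .mp ⟨⟨28669738, 0, 0, 0, 0, 17704883, 0, 0, 0, ⟨0, 0⟩, 0⟩, 0, 0⟩ 0 0) (.pos 49 .mp ⟨⟨28842906, 0, 0, 0, 0, 17779941, 0, 0, 0, ⟨0,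 0⟩, 0⟩, 0, 0⟩ 0 0)) (.pos 50 .mp ⟨⟨31274536, 0, 0, 0, 0, 14596990, 0, 0, 0, ⟨0, 0⟩, 0⟩, 0, 0⟩ 0 0)) (.cut .v 16809984 (.cut .s 9330688 (.pos 49 .mp ⟨⟨29019356, 0, 0, 0, 0, 17852308, 0, 0, 0, ⟨0, 0⟩, 0⟩, 0, 0⟩ 0 0) (.pos 49 .mp ⟨⟨29199137, 0, 0, 0, 0, 17921910, 0, 0, 0, ⟨0, 0⟩, 0⟩, 0, 0⟩ 0 0)) (.pos 50 .mp ⟨⟨31658268, 0, 0, 0, 0, 14700081, 0, 0, 0, ⟨0, 0⟩, 0⟩, 0, 0⟩ 0 0))) (.cut .s 9355264 (.cut .d (-16384) (.pos 39 .mp ⟨⟨28978496, 0, 0, 0, 0, 19032483, 0, 0, 0, ⟨0, 0⟩, 0⟩, 0, 0⟩ 0 0) (.cut .s 9347072 (.pos 39 .mp ⟨⟨29436368, 0, 0, 0, 0, 17879952, 0, 0, 0, ⟨0, 0⟩, 0⟩, 0, 0⟩ 0 0) (.pos 39 .mp ⟨⟨29613198, 0, 0, 0, 0, 17958035, 0, 0,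 0, ⟨0, 0⟩, 0⟩, 0, 0⟩ 0 0))) (.cut .d (-16384) (.pos 39 .mp ⟨⟨29337163, 0, 0, 0, 0, 19187171, 0, 0, 0, ⟨0, 0⟩, 0⟩, 0, 0⟩ 0 0) (.cut .s 9363456 (.pos 39 .mp ⟨⟨29791571, 0, 0, 0, 0, 18036016, 0, 0, 0, ⟨0, 0⟩, 0⟩, 0, 0⟩ 0 0) (.pos 39 .mp ⟨⟨29971502, 0, 0, 0, 0, 18113871, 0, 0, 0, ⟨0, 0⟩, 0⟩, 0, 0⟩ 0 0))))) (.cut .s 9404416 (.cut .s 9388032 (.cut .s 9379840 (.cut .s 9375744 (.pos 39 .mp ⟨⟨30434286, 0, 0, 0, 0, 17772752, 0, 0, 0, ⟨0, 0⟩, 0⟩, 0, 0⟩ 0 0) (.pos 39 .mp ⟨⟨30524328, 0, 0, 0, 0, 17812359, 0, 0, 0, ⟨0, 0⟩, 0⟩, 0, 0⟩ 0 0)) (.pos 39 .mp ⟨⟨30705098, 0, 0, 0, 0, 17797059, 0, 0, 0, ⟨0, 0⟩, 0⟩, 0, 0⟩ 0 0)) (.cut .s 9396224 (.pos 39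 .mp ⟨⟨30886785, 0, 0, 0, 0, 17876738, 0, 0, 0, ⟨0, 0⟩, 0⟩, 0, 0⟩ 0 0) (.pos 39 .mp ⟨⟨31069392, 0, 0, 0, 0, 17956998, 0, 0, 0, ⟨0, 0⟩, 0⟩, 0, 0⟩ 0 0))) (.cut .s 9420800 (.cut .s 9412608 (.pos 39 .mp ⟨⟨31252920, 0, 0, 0, 0, 18037834, 0, 0, 0, ⟨0, 0⟩, 0⟩, 0, 0⟩ 0 0) (.pos 39 .mp ⟨⟨31437374, 0, 0, 0, 0, 18119244, 0, 0, 0, ⟨0, 0⟩, 0⟩, 0, 0⟩ 0 0)) (.cut .s 9428992 (.pos 39 .mp ⟨⟨31622754, 0, 0, 0, 0, 18201223, 0, 0, 0, ⟨0, 0⟩, 0⟩, 0, 0⟩ 0 0) (.pos 39 .mp ⟨⟨31809065, 0, 0, 0, 0, 18283767, 0, 0, 0, ⟨0, 0⟩, 0⟩, 0, 0⟩ 0 0))))) (.pos 40 .mp ⟨⟨44257358, 0, 0, 0, 0, 0, 0, 0, 0, ⟨0, 0⟩, 0⟩, 0, 0⟩ 0 0)) (.cut .v 16842752 (.cut .s 9502720 (.cut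 .s 9469952 (.cut .l 141961 (.cut .d (-16384) (.pos 39 .mp ⟨⟨31002629, 0, 0, 0, 0, 21571319, 0, 0, 0, ⟨0, 0⟩, 0⟩, 0, 0⟩ 0 0) (.cut .v 16809984 (.cut .s 9453568 (.pos 49 .mp ⟨⟨31654100, 0, 0, 0, 0, 18887002, 0, 0, 0, ⟨0, 0⟩, 0⟩, 0, 0⟩ 0 0) (.pos 49 .mp ⟨⟨32026302, 0, 0, 0, 0, 19063285, 0, 0, 0, ⟨0, 0⟩, 0⟩, 0, 0⟩ 0 0)) (.pos 50 .mp ⟨⟨45590830, 0, 0, 0, 0, 0, 0, 0, 0, ⟨0, 0⟩, 0⟩, 0, 0⟩ 0 0))) (.pos 39 .mp ⟨⟨32130630, 0, 0, 0, 0, 18175283, 0, 0, 0, ⟨0, 0⟩, 0⟩, 0, 0⟩ 0 0)) (.cut .l 141961 (.cut .d (-16384) (.pos 39 .mp ⟨⟨31736964, 0, 0, 0, 0, 22015921, 0, 0, 0, ⟨0, 0⟩, 0⟩, 0, 0⟩ 0 0) (.cut .s 9486336 (.pos 39 .mp ⟨⟨32546792, 0, 0, 0, 0,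 19052842, 0, 0, 0, ⟨0, 0⟩, 0⟩, 0, 0⟩ 0 0) (.pos 39 .mp ⟨⟨32927861, 0, 0, 0, 0, 19231566, 0, 0, 0, ⟨0, 0⟩, 0⟩, 0, 0⟩ 0 0))) (.pos 39 .mp ⟨⟨32890764, 0, 0, 0, 0, 18484217, 0, 0, 0, ⟨0, 0⟩, 0⟩, 0, 0⟩ 0 0))) (.cut .s 9535488 (.cut .l 141961 (.cut .d (-16384) (.pos 39 .mp ⟨⟨32485850, 0, 0, 0, 0, 22477092, 0, 0, 0, ⟨0, 0⟩, 0⟩, 0, 0⟩ 0 0) (.cut .s 9519104 (.pos 39 .mp ⟨⟨33312667, 0, 0, 0, 0, 19412526, 0, 0, 0, ⟨0, 0⟩, 0⟩, 0, 0⟩ 0 0) (.pos 39 .mp ⟨⟨33701232, 0, 0, 0, 0, 19595690, 0, 0, 0, ⟨0, 0⟩, 0⟩, 0, 0⟩ 0 0))) (.pos 39 .mp ⟨⟨33665934, 0, 0, 0, 0, 18794680, 0, 0, 0, ⟨0, 0⟩, 0⟩, 0, 0⟩ 0 0)) (.cut .l 141961 (.cut .d (-16384) (.pos 39 .mp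 ⟨⟨33249454, 0, 0, 0, 0, 22955096, 0, 0, 0, ⟨0, 0⟩, 0⟩, 0, 0⟩ 0 0) (.cut .s 9551872 (.pos 39 .mp ⟨⟨34093578, 0, 0, 0, 0, 19781027, 0, 0, 0, ⟨0, 0⟩, 0⟩, 0, 0⟩ 0 0) (.pos 39 .mp ⟨⟨34489726, 0, 0, 0, 0, 19968504, 0, 0, 0, ⟨0, 0⟩, 0⟩, 0, 0⟩ 0 0))) (.pos 39 .mp ⟨⟨34456314, 0, 0, 0, 0, 19106048, 0, 0, 0, ⟨0, 0⟩, 0⟩, 0, 0⟩ 0 0)))) (.pos 40 .mp ⟨⟨48246369, 0, 0, 0, 0, 0, 0, 0, 0, ⟨0, 0⟩, 0⟩, 0, 0⟩ 0 0)))) (.pos 38 .mp ⟨⟨49121609, 0, 0, 0, 0, 0, 0, 0, 0, ⟨0, 0⟩, 0⟩, 0, 0⟩ 0 0))) (.pos 36 .mp ⟨⟨50749788, 0, 0, 0, 0, 0, 0, 0, 0, ⟨0, 0⟩, 0⟩, 0, 0⟩ 0 0)) (.void 34 ⟨⟨100000, 0, 0, 0, 0, 0, 0, 0, 0, ⟨0, 0⟩, 0⟩, 0, 0⟩ 0 0)) (.void 32 ⟨⟨100000, 0,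 0, 0, 0, 0, 0, 0, 0, ⟨0, 0⟩, 0⟩, 0, 0⟩ 0 0)))))))) (.void 30 ⟨⟨100000, 0, 0, 0, 0, 0, 0, 0, 0, ⟨0, 0⟩, 0⟩, 0, 0⟩ 0 0))) (.void 28 ⟨⟨100000, 0, 0, 0, 0, 0, 0, 0, 0, ⟨0, 0⟩, 0⟩, 0, 0⟩ 0 0))) (.void 26 ⟨⟨100000, 0, 0, 0, 0, 0, 0, 0, 0, ⟨0, 0⟩, 0⟩, 0, 0⟩ 0 0))) (.cut .v 16777216 (.cut .d 7172869 (.cut .d 3586434 (.cut .v 8388608 (.cut .v 4194304 (.void 4 ⟨⟨0, 0, 66667, 0, 0, 0, 0, 0, 0, ⟨0, 0⟩, 0⟩, 0, 33333⟩ 0 0) (.pos 5 .pm ⟨⟨0, 0, 0, 0, 0, 0, 0, 0, 0, ⟨0, 0⟩, 0⟩, 0, 0⟩ 0 0)) (.pos 3 .pm ⟨⟨0, 0, 0, 0, 0, 0, 0, 0, 0, ⟨0, 0⟩, 0⟩, 0, 0⟩ 0 0)) (.void 1 ⟨⟨0, 0, 0, 0, 0, 0, 0, 0, 0, ⟨0, 0⟩, 0⟩, 0, 100000⟩ 0 0)) (.void 1 ⟨⟨0, 0, 0, 0, 0, 0,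 0, 0, 0, ⟨0, 0⟩, 0⟩, 0, 100000⟩ 0 0)) (.cut .d 7172869 (.cut .d 3586434 (.cut .v 25165824 (.cut .d 1793217 (.cut .v 20971520 (.cut .d 896608 (.cut .v 18874368 (.cut .d 448304 (.cut .v 17825792 (.cut .s 9306112 (.pos 31 .pp ⟨⟨30026477, 0, 0, 0, 0, 0, 0, 0, 0, ⟨0, 0⟩, 0⟩, 465189, 0⟩ 0 0) (.pos 31 .pp ⟨⟨35961173, 0, 0, 0, 0, 0, 0, 0, 0, ⟨0, 0⟩, 0⟩, 547201, 0⟩ 0 0)) (.pos 32 .pp ⟨⟨44582592, 0, 0, 0, 0, 0, 0, 0, 0, ⟨0, 0⟩, 0⟩, 0, 0⟩ 0 0)) (.pos 29 .pp ⟨⟨0, 0, 0, 0, 0, 0, 0, 0, 0, ⟨0, 0⟩, 0⟩, 0, 833816⟩ 0 0)) (.cut .d 448304 (.pos 30 .pp ⟨⟨59378450, 0, 0, 0, 0, 0, 0, 0, 0, ⟨0, 0⟩, 0⟩, 0, 0⟩ 0 0) (.pos 30 .pp ⟨⟨37986437, 0, 0, 0, 0, 0,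 0, 0, 0, ⟨0, 0⟩, 0⟩, 0, 283541⟩ 0 0))) (.pos 27 .pp ⟨⟨0, 0, 0, 0, 0, 0, 0, 0, 0, ⟨0, 0⟩, 0⟩, 0, 874992⟩ 0 0)) (.cut .d 896608 (.cut .v 23068672 (.cut .d 448304 (.void 59 ⟨⟨0, 0, 0, 0, 0, 0, 0, 0, 0, ⟨0, 0⟩, 0⟩, 100000, 0⟩ 0 0) (.pos 59 .pp ⟨⟨61527301, 0, 0, 0, 0, 0, 0, 0, 0, ⟨0, 0⟩, 0⟩, 0, 0⟩ 0 0)) (.pos 60 .pp ⟨⟨0, 0, 0, 0, 0, 0, 0, 0, 0, ⟨0, 0⟩, 0⟩, 12633113, 0⟩ 0 0)) (.cut .v 23068672 (.pos 59 .pp ⟨⟨34880902, 0, 0, 0, 0, 0, 647324, 0, 0, ⟨0, 0⟩, 0⟩, 0, 0⟩ 0 0) (.cut .d 1344912 (.cut .d 1120760 (.pos 60 .pp ⟨⟨0, 0, 0, 0, 0, 0, 0, 0, 0, ⟨0, 0⟩, 0⟩, 6364466, 0⟩ 0 0) (.pos 60 .pp ⟨⟨0, 0, 0, 0, 0, 0, 301087, 0, 0, ⟨0, 0⟩, 0⟩, 5261219,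 0⟩ 0 0)) (.pos 60 .pp ⟨⟨0, 0, 0, 0, 0, 0, 502203, 0, 0, ⟨0, 0⟩, 0⟩, 4532554, 0⟩ 0 0))))) (.pos 25 .pp ⟨⟨0, 0, 0, 0, 0, 0, 0, 0, 0, ⟨0, 0⟩, 0⟩, 0, 34786337⟩ 0 0)) (.cut .l 141961 (.void 26 ⟨⟨0, 0, 0, 0, 0, 0, 100000, 0, 0, ⟨0, 0⟩, 0⟩, 0, 0⟩ 0 0) (.cut .d 1793217 (.cut .v 29360128 (.cut .d 896608 (.void 77 ⟨⟨0, 0, 0, 0, 0, 0, 0, 0, 0, ⟨0, 0⟩, 0⟩, 100000, 0⟩ 0 0) (.cut .d 1344912 (.pos 77 .pp ⟨⟨0, 0, 0, 0, 0, 0, 0, 0, 0, ⟨0, 0⟩, 0⟩, 9331008, 0⟩ 0 0) (.cut .v 27262976 (.pos 79 .pp ⟨⟨0, 0, 0, 0, 0, 0, 407345, 0, 0, ⟨0, 0⟩, 0⟩, 5637427, 0⟩ 0 0) (.pos 80 .pp ⟨⟨0, 0, 0, 0, 0, 0, 12570986, 0, 0, ⟨0, 0⟩, 0⟩, 7760588, 0⟩ 0 0)))) (.void 78 ⟨⟨0,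 0, 0, 0, 0, 0, 0, 0, 0, ⟨0, 0⟩, 0⟩, 100000, 0⟩ 0 0)) (.cut .v 29360128 (.pos 77 .pp ⟨⟨0, 0, 0, 0, 0, 0, 52236648, 0, 0, ⟨0, 0⟩, 0⟩, 2305749, 0⟩ 0 0) (.pos 78 .pp ⟨⟨0, 0, 0, 0, 0, 0, 60936559, 0, 0, ⟨0, 0⟩, 0⟩, 5555098, 0⟩ 0 0))))) (.void 24 ⟨⟨0, 0, 0, 0, 0, 0, 0, 0, 0, ⟨0, 0⟩, 0⟩, 0, 100000⟩ 0 0)) (.void 24 ⟨⟨0, 0, 0, 0, 0, 0, 0, 0, 0, ⟨0, 0⟩, 0⟩, 0, 100000⟩ 0 0)))),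
    by decide +kernel⟩

def covers12 : cell.Covers Vale.Agent.P237.Petty.Cor.Grid.N13.table row12.1 :=
  ⟨(.cut .d 0 (.cut .v 16777216 (.cut .d (-8388608) (.void 1 ⟨⟨0, 0, 0, 0, 0, 100000, 0, 0, 0, ⟨0, 0⟩, 0⟩, 0, 0⟩ 0 0) (.cut .d (-4194304) (.void 1 ⟨⟨0, 0, 0, 0, 0, 100000, 0, 0, 0, ⟨0, 0⟩, 0⟩, 0, 0⟩ 0 0) (.cut .d (-2097152) (.void 1 ⟨⟨0, 0, 0, 0, 0, 100000, 0, 0, 0, ⟨0, 0⟩, 0⟩, 0, 0⟩ 0 0) (.cut .d (-1048576) (.void 1 ⟨⟨0, 0, 0, 0, 0, 100000, 0, 0, 0, ⟨0, 0⟩, 0⟩, 0, 0⟩ 0 0) (.cut .d (-524288) (.void 1 ⟨⟨0, 0, 0, 0, 0, 100000, 0, 0, 0, ⟨0, 0⟩, 0⟩, 0, 0⟩ 0 0) (.cut .d (-262144) (.void 1 ⟨⟨0, 0, 0, 0, 0, 100000, 0, 0, 0, ⟨0, 0⟩, 0⟩,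 0, 0⟩ 0 0) (.cut .d (-131072) (.void 1 ⟨⟨0, 0, 0, 0, 0, 100000, 0, 0, 0, ⟨0, 0⟩, 0⟩, 0, 0⟩ 0 0) (.cut .d (-65536) (.void 1 ⟨⟨0, 0, 0, 0, 0, 100000, 0, 0, 0, ⟨0, 0⟩, 0⟩, 0, 0⟩ 0 0) (.cut .v 8388608 (.cut .v 4194304 (.void 4 ⟨⟨0, 0, 100000, 0, 0, 0, 0, 0, 0, ⟨0, 0⟩, 0⟩, 0, 0⟩ 0 0) (.pos 5 .mm ⟨⟨0, 0, 292041, 0, 0, 25657460, 0, 0, 0, ⟨0, 0⟩, 0⟩, 0, 0⟩ 0 0)) (.cut .d (-32768) (.pos 3 .mm ⟨⟨0, 0, 0, 0, 0, 93955975, 0, 0, 0, ⟨0, 0⟩, 0⟩, 0, 0⟩ 0 0) (.cut .l 141961 (.cut .d (-16384) (.pos 3 .mm ⟨⟨0, 0, 0, 0, 0, 93940435, 0, 0, 0, ⟨0, 0⟩, 0⟩, 0, 0⟩ 0 0) (.cut .s 9830400 (.pos 3 .mm ⟨⟨0, 0, 0, 0, 0, 71395768, 0, 0, 0, ⟨0, 0⟩, 0⟩, 0, 0⟩ 0 0)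 (.cut .s 9961472 (.pos 3 .mm ⟨⟨0, 0, 0, 0, 0, 83059150, 0, 0, 0, ⟨0, 0⟩, 0⟩, 0, 0⟩ 0 0) (.pos 3 .mm ⟨⟨0, 0, 0, 0, 0, 91036508, 0, 0, 0, ⟨0, 0⟩, 0⟩, 0, 0⟩ 0 0)))) (.pos 3 .mm ⟨⟨0, 0, 0, 0, 0, 70315554, 0, 0, 0, ⟨0, 0⟩, 0⟩, 0, 0⟩ 0 0)))))))))))) (.cut .v 33554432 (.cut .v 25165824 (.cut .d (-8388608) (.void 25 ⟨⟨0, 0, 0, 0, 0, 100000, 0, 0, 0, ⟨0, 0⟩, 0⟩, 0, 0⟩ 0 0) (.cut .v 20971520 (.cut .d (-4194304) (.void 27 ⟨⟨0, 0, 0, 0, 0, 100000, 0, 0, 0, ⟨0, 0⟩, 0⟩, 0, 0⟩ 0 0) (.cut .v 18874368 (.cut .d (-2097152) (.void 29 ⟨⟨100000, 0, 0, 0, 0, 0, 0, 0, 0, ⟨0, 0⟩, 0⟩, 0, 0⟩ 0 0) (.cut .v 17825792 (.cut .d (-1048576) (.void 31 ⟨⟨100000, 0,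 0, 0, 0, 0, 0, 0, 0, ⟨0, 0⟩, 0⟩, 0, 0⟩ 0 0) (.cut .d (-524288) (.void 31 ⟨⟨100000, 0, 0, 0, 0, 0, 0, 0, 0, ⟨0, 0⟩, 0⟩, 0, 0⟩ 0 0) (.cut .d (-262144) (.void 31 ⟨⟨100000, 0, 0, 0, 0, 0, 0, 0, 0, ⟨0, 0⟩, 0⟩, 0, 0⟩ 0 0) (.cut .d (-131072) (.void 31 ⟨⟨100000, 0, 0, 0, 0, 0, 0, 0, 0, ⟨0, 0⟩, 0⟩, 0, 0⟩ 0 0) (.cut .d (-65536) (.void 31 ⟨⟨0, 0, 0, 0, 0, 100000, 0, 0, 0, ⟨0, 0⟩, 0⟩, 0, 0⟩ 0 0) (.cut .v 17301504 (.cut .v 17039360 (.cut .s 9830400 (.cut .v 16908288 (.cut .d (-32768) (.cut .d (-49152) (.void 37 ⟨⟨0, 0, 0, 0, 0, 100000, 0, 0, 0, ⟨0, 0⟩, 0⟩, 0, 0⟩ 0 0) (.cut .d (-40960) (.void 37 ⟨⟨0, 0, 0, 0, 0, 100000, 0, 0, 0, ⟨0, 0⟩, 0⟩, 0,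 0⟩ 0 0) (.cut .v 16842752 (.cut .s 9699328 (.pos 39 .mp ⟨⟨33996220, 0, 0, 0, 0, 27482064, 0, 0, 0, ⟨0, 0⟩, 0⟩, 0, 0⟩ 0 0) (.cut .s 9764864 (.pos 39 .mp ⟨⟨37296561, 0, 0, 0, 0, 26161396, 0, 0, 0, ⟨0, 0⟩, 0⟩, 0, 0⟩ 0 0) (.pos 39 .mp ⟨⟨39054787, 0, 0, 0, 0, 27057494, 0, 0, 0, ⟨0, 0⟩, 0⟩, 0, 0⟩ 0 0))) (.pos 40 .mp ⟨⟨58523585, 0, 0, 0, 0, 0, 0, 0, 0, ⟨0, 0⟩, 0⟩, 0, 0⟩ 0 0)))) (.cut .s 9699328 (.cut .v 16842752 (.cut .s 9633792 (.cut .s 9601024 (.cut .l 141961 (.cut .d (-16384) (.pos 39 .mp ⟨⟨34286092, 0, 0, 0, 0, 22896351, 0, 0, 0, ⟨0, 0⟩, 0⟩, 0, 0⟩ 0 0) (.cut .s 9584640 (.pos 39 .mp ⟨⟨34890625, 0, 0, 0, 0, 20160500, 0, 0, 0, ⟨0, 0⟩,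 0⟩, 0, 0⟩ 0 0) (.pos 39 .mp ⟨⟨35295053, 0, 0, 0, 0, 20297578, 0, 0, 0, ⟨0, 0⟩, 0⟩, 0, 0⟩ 0 0))) (.pos 39 .mp ⟨⟨35264924, 0, 0, 0, 0, 19547486, 0, 0, 0, ⟨0, 0⟩, 0⟩, 0, 0⟩ 0 0)) (.cut .l 141961 (.cut .d (-16384) (.pos 39 .mp ⟨⟨35092489, 0, 0, 0, 0, 23192317, 0, 0, 0, ⟨0, 0⟩, 0⟩, 0, 0⟩ 0 0) (.cut .s 9617408 (.pos 39 .mp ⟨⟨35703888, 0, 0, 0, 0, 20438718, 0, 0, 0, ⟨0, 0⟩, 0⟩, 0, 0⟩ 0 0) (.pos 39 .mp ⟨⟨36117154, 0, 0, 0, 0, 20583886, 0, 0, 0, ⟨0, 0⟩, 0⟩, 0, 0⟩ 0 0))) (.pos 39 .mp ⟨⟨36090364, 0, 0, 0, 0, 19867382, 0, 0, 0, ⟨0, 0⟩, 0⟩, 0, 0⟩ 0 0))) (.cut .s 9666560 (.cut .s 9650176 (.cut .s 9641984 (.pos 39 .mp ⟨⟨36782692, 0, 0, 0, 0, 20313508,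 0, 0, 0, ⟨0, 0⟩, 0⟩, 0, 0⟩ 0 0) (.pos 39 .mp ⟨⟨36995383, 0, 0, 0, 0, 20385498, 0, 0, 0, ⟨0, 0⟩, 0⟩, 0, 0⟩ 0 0)) (.cut .s 9658368 (.pos 39 .mp ⟨⟨37209223, 0, 0, 0, 0, 20458442, 0, 0, 0, ⟨0, 0⟩, 0⟩, 0, 0⟩ 0 0) (.pos 39 .mp ⟨⟨37424216, 0, 0, 0, 0, 20532333, 0, 0, 0, ⟨0, 0⟩, 0⟩, 0, 0⟩ 0 0))) (.cut .s 9682944 (.cut .s 9674752 (.pos 39 .mp ⟨⟨37640365, 0, 0, 0, 0, 20607167, 0, 0, 0, ⟨0, 0⟩, 0⟩, 0, 0⟩ 0 0) (.pos 39 .mp ⟨⟨37857673, 0, 0, 0, 0, 20682941, 0, 0, 0, ⟨0, 0⟩, 0⟩, 0, 0⟩ 0 0)) (.cut .s 9691136 (.pos 39 .mp ⟨⟨38076144, 0, 0, 0, 0, 20759648, 0, 0, 0, ⟨0, 0⟩, 0⟩, 0, 0⟩ 0 0) (.cut .s 9695232 (.pos 39 .mp ⟨⟨38185816, 0, 0, 0, 0, 20902657,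 0, 0, 0, ⟨0, 0⟩, 0⟩, 0, 0⟩ 0 0) (.pos 39 .mp ⟨⟨38295781, 0, 0, 0, 0, 20941942, 0, 0, 0, ⟨0, 0⟩, 0⟩, 0, 0⟩ 0 0)))))) (.pos 40 .mp ⟨⟨52549276, 0, 0, 0, 0, 0, 0, 0, 0, ⟨0, 0⟩, 0⟩, 0, 0⟩ 0 0)) (.cut .v 16842752 (.cut .s 9764864 (.cut .s 9732096 (.cut .s 9715712 (.cut .d (-16384) (.pos 39 .mp ⟨⟨37501807, 0, 0, 0, 0, 22963068, 0, 0, 0, ⟨0, 0⟩, 0⟩, 0, 0⟩ 0 0) (.cut .s 9707520 (.pos 39 .mp ⟨⟨37993913, 0, 0, 0, 0, 21599269, 0, 0, 0, ⟨0, 0⟩, 0⟩, 0, 0⟩ 0 0) (.pos 39 .mp ⟨⟨38224486, 0, 0, 0, 0, 21661084, 0, 0, 0, ⟨0, 0⟩, 0⟩, 0, 0⟩ 0 0))) (.cut .d (-16384) (.pos 39 .mp ⟨⟨37881193, 0, 0, 0, 0, 23230567, 0, 0, 0, ⟨0, 0⟩, 0⟩, 0, 0⟩ 0 0) (.cut .s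 9723904 (.pos 39 .mp ⟨⟨38455896, 0, 0, 0, 0, 21724424, 0, 0, 0, ⟨0, 0⟩, 0⟩, 0, 0⟩ 0 0) (.pos 39 .mp ⟨⟨38688133, 0, 0, 0, 0, 21789312, 0, 0, 0, ⟨0, 0⟩, 0⟩, 0, 0⟩ 0 0)))) (.cut .s 9748480 (.cut .l 141961 (.cut .d (-16384) (.pos 39 .mp ⟨⟨38337035, 0, 0, 0, 0, 23961798, 0, 0, 0, ⟨0, 0⟩, 0⟩, 0, 0⟩ 0 0) (.cut .s 9740288 (.pos 39 .mp ⟨⟨38913210, 0, 0, 0, 0, 21838720, 0, 0, 0, ⟨0, 0⟩, 0⟩, 0, 0⟩ 0 0) (.pos 39 .mp ⟨⟨39136301, 0, 0, 0, 0, 21926809, 0, 0, 0, ⟨0, 0⟩, 0⟩, 0, 0⟩ 0 0))) (.pos 39 .mp ⟨⟨39122583, 0, 0, 0, 0, 21531454, 0, 0, 0, ⟨0, 0⟩, 0⟩, 0, 0⟩ 0 0)) (.cut .l 141961 (.cut .d (-16384) (.pos 39 .mp ⟨⟨38779088, 0, 0, 0, 0, 24149970,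 0, 0, 0, ⟨0, 0⟩, 0⟩, 0, 0⟩ 0 0) (.cut .s 9756672 (.pos 39 .mp ⟨⟨39360553, 0, 0, 0, 0, 22015836, 0, 0, 0, ⟨0, 0⟩, 0⟩, 0, 0⟩ 0 0) (.pos 39 .mp ⟨⟨39585970, 0, 0, 0, 0, 22105797, 0, 0, 0, ⟨0, 0⟩, 0⟩, 0, 0⟩ 0 0))) (.pos 39 .mp ⟨⟨39574298, 0, 0, 0, 0, 21719736, 0, 0, 0, ⟨0, 0⟩, 0⟩, 0, 0⟩ 0 0)))) (.cut .s 9797632 (.cut .s 9781248 (.cut .l 141961 (.cut .d (-16384) (.pos 39 .mp ⟨⟨39225646, 0, 0, 0, 0, 24343417, 0, 0, 0, ⟨0, 0⟩, 0⟩, 0, 0⟩ 0 0) (.cut .s 9773056 (.pos 39 .mp ⟨⟨39812555, 0, 0, 0, 0, 22196687, 0, 0, 0, ⟨0, 0⟩, 0⟩, 0, 0⟩ 0 0) (.pos 39 .mp ⟨⟨40040312, 0, 0, 0, 0, 22288501, 0, 0, 0, ⟨0, 0⟩, 0⟩, 0, 0⟩ 0 0))) (.pos 39 .mp ⟨⟨40030732,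 0, 0, 0, 0, 21910260, 0, 0, 0, ⟨0, 0⟩, 0⟩, 0, 0⟩ 0 0)) (.cut .d (-16384) (.cut .s 9789440 (.pos 39 .mp ⟨⟨39668832, 0, 0, 0, 0, 23695115, 0, 0, 0, ⟨0, 0⟩, 0⟩, 0, 0⟩ 0 0) (.pos 39 .mp ⟨⟨39879019, 0, 0, 0, 0, 23821727, 0, 0, 0, ⟨0, 0⟩, 0⟩, 0, 0⟩ 0 0)) (.cut .s 9789440 (.pos 39 .mp ⟨⟨40269244, 0, 0, 0, 0, 22397243, 0, 0, 0, ⟨0, 0⟩, 0⟩, 0, 0⟩ 0 0) (.pos 39 .mp ⟨⟨40499355, 0, 0, 0, 0, 22488945, 0, 0, 0, ⟨0, 0⟩, 0⟩, 0, 0⟩ 0 0)))) (.cut .s 9814016 (.cut .d (-16384) (.cut .s 9805824 (.pos 39 .mp ⟨⟨40091458, 0, 0, 0, 0, 23947667, 0, 0, 0, ⟨0, 0⟩, 0⟩, 0, 0⟩ 0 0) (.pos 39 .mp ⟨⟨40306179, 0, 0, 0, 0, 24072887, 0, 0, 0, ⟨0, 0⟩, 0⟩, 0, 0⟩ 0 0))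 (.cut .s 9805824 (.pos 39 .mp ⟨⟨40730648, 0, 0, 0, 0, 22581673, 0, 0, 0, ⟨0, 0⟩, 0⟩, 0, 0⟩ 0 0) (.pos 39 .mp ⟨⟨40963128, 0, 0, 0, 0, 22675426, 0, 0, 0, ⟨0, 0⟩, 0⟩, 0, 0⟩ 0 0))) (.cut .d (-16384) (.cut .s 9822208 (.pos 39 .mp ⟨⟨40523214, 0, 0, 0, 0, 24197337, 0, 0, 0, ⟨0, 0⟩, 0⟩, 0, 0⟩ 0 0) (.pos 39 .mp ⟨⟨40742594, 0, 0, 0, 0, 24320970, 0, 0, 0, ⟨0, 0⟩, 0⟩, 0, 0⟩ 0 0)) (.cut .s 9822208 (.pos 39 .mp ⟨⟨41196797, 0, 0, 0, 0, 22770203, 0, 0, 0, ⟨0, 0⟩, 0⟩, 0, 0⟩ 0 0) (.pos 39 .mp ⟨⟨41431659, 0, 0, 0, 0, 22866002, 0, 0, 0, ⟨0, 0⟩, 0⟩, 0, 0⟩ 0 0)))))) (.pos 40 .mp ⟨⟨56923940, 0, 0, 0, 0, 0, 0, 0, 0, ⟨0, 0⟩, 0⟩, 0, 0⟩ 0 0)))) (.pos 38 .mp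 ⟨⟨58419823, 0, 0, 0, 0, 0, 0, 0, 0, ⟨0, 0⟩, 0⟩, 0, 0⟩ 0 0)) (.cut .v 16908288 (.cut .d (-32768) (.cut .v 16842752 (.cut .s 9961472 (.cut .s 9895936 (.pos 39 .mp ⟨⟨40887358, 0, 0, 0, 0, 28037324, 0, 0, 0, ⟨0, 0⟩, 0⟩, 0, 0⟩ 0 0) (.pos 39 .mp ⟨⟨42796094, 0, 0, 0, 0, 29103678, 0, 0, 0, ⟨0, 0⟩, 0⟩, 0, 0⟩ 0 0)) (.pos 39 .mp ⟨⟨44782883, 0, 0, 0, 0, 34344738, 0, 0, 0, ⟨0, 0⟩, 0⟩, 0, 0⟩ 0 0)) (.pos 40 .mp ⟨⟨71432785, 0, 0, 0, 0, 0, 0, 0, 0, ⟨0, 0⟩, 0⟩, 0, 0⟩ 0 0)) (.cut .s 9961472 (.cut .v 16842752 (.cut .s 9895936 (.cut .s 9863168 (.cut .s 9846784 (.cut .d (-16384) (.cut .s 9838592 (.pos 39 .mp ⟨⟨40964349, 0, 0, 0, 0, 24443734, 0, 0, 0,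 ⟨0, 0⟩, 0⟩, 0, 0⟩ 0 0) (.pos 39 .mp ⟨⟨41188511, 0, 0, 0, 0, 24565583, 0, 0, 0, ⟨0, 0⟩, 0⟩, 0, 0⟩ 0 0)) (.cut .s 9838592 (.pos 39 .mp ⟨⟨41667718, 0, 0, 0, 0, 22962820, 0, 0, 0, ⟨0, 0⟩, 0⟩, 0, 0⟩ 0 0) (.pos 39 .mp ⟨⟨41904977, 0, 0, 0, 0, 23060656, 0, 0, 0, ⟨0, 0⟩, 0⟩, 0, 0⟩ 0 0))) (.cut .d (-16384) (.cut .s 9854976 (.pos 39 .mp ⟨⟨41415111, 0, 0, 0, 0, 24686465, 0, 0, 0, ⟨0, 0⟩, 0⟩, 0, 0⟩ 0 0) (.pos 39 .mp ⟨⟨41644180, 0, 0, 0, 0, 24806332, 0, 0, 0, ⟨0, 0⟩, 0⟩, 0, 0⟩ 0 0)) (.cut .s 9854976 (.pos 39 .mp ⟨⟨42143441, 0, 0, 0, 0, 23159509, 0, 0, 0, ⟨0, 0⟩, 0⟩, 0, 0⟩ 0 0) (.pos 39 .mp ⟨⟨42383112, 0, 0, 0, 0, 23259375, 0, 0, 0, ⟨0, 0⟩, 0⟩,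 0, 0⟩ 0 0)))) (.cut .s 9879552 (.cut .d (-16384) (.cut .s 9871360 (.pos 39 .mp ⟨⟨41875749, 0, 0, 0, 0, 24925133, 0, 0, 0, ⟨0, 0⟩, 0⟩, 0, 0⟩ 0 0) (.pos 39 .mp ⟨⟨42109850, 0, 0, 0, 0, 25042820, 0, 0, 0, ⟨0, 0⟩, 0⟩, 0, 0⟩ 0 0)) (.cut .s 9871360 (.pos 39 .mp ⟨⟨42623995, 0, 0, 0, 0, 23360254, 0, 0, 0, ⟨0, 0⟩, 0⟩, 0, 0⟩ 0 0) (.pos 39 .mp ⟨⟨42866093, 0, 0, 0, 0, 23462144, 0, 0, 0, ⟨0, 0⟩, 0⟩, 0, 0⟩ 0 0))) (.cut .d (-16384) (.cut .s 9887744 (.pos 39 .mp ⟨⟨42346515, 0, 0, 0, 0, 25159341, 0, 0, 0, ⟨0, 0⟩, 0⟩, 0, 0⟩ 0 0) (.pos 39 .mp ⟨⟨42585773, 0, 0, 0, 0, 25274646, 0, 0, 0, ⟨0, 0⟩, 0⟩, 0, 0⟩ 0 0)) (.cut .s 9887744 (.pos 39 .mp ⟨⟨43109410,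 0, 0, 0, 0, 23565042, 0, 0, 0, ⟨0, 0⟩, 0⟩, 0, 0⟩ 0 0) (.pos 39 .mp ⟨⟨43353950, 0, 0, 0, 0, 23668946, 0, 0, 0, ⟨0, 0⟩, 0⟩, 0, 0⟩ 0 0))))) (.cut .s 9928704 (.cut .s 9912320 (.cut .d (-16384) (.cut .s 9904128 (.pos 39 .mp ⟨⟨42827658, 0, 0, 0, 0, 25388686, 0, 0, 0, ⟨0, 0⟩, 0⟩, 0, 0⟩ 0 0) (.pos 39 .mp ⟨⟨43072200, 0, 0, 0, 0, 25501409, 0, 0, 0, ⟨0, 0⟩, 0⟩, 0, 0⟩ 0 0)) (.cut .s 9904128 (.pos 39 .mp ⟨⟨43599717, 0, 0, 0, 0, 23773855, 0, 0, 0, ⟨0, 0⟩, 0⟩, 0, 0⟩ 0 0) (.pos 39 .mp ⟨⟨43846713, 0, 0, 0, 0, 23879766, 0, 0, 0, ⟨0, 0⟩, 0⟩, 0, 0⟩ 0 0))) (.cut .d (-16384) (.cut .s 9920512 (.pos 39 .mp ⟨⟨43319431, 0, 0, 0, 0, 25612765, 0, 0, 0, ⟨0,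 0⟩, 0⟩, 0, 0⟩ 0 0) (.pos 39 .mp ⟨⟨43569382, 0, 0, 0, 0, 25722703, 0, 0, 0, ⟨0, 0⟩, 0⟩, 0, 0⟩ 0 0)) (.cut .s 9920512 (.pos 39 .mp ⟨⟨44094944, 0, 0, 0, 0, 23986677, 0, 0, 0, ⟨0, 0⟩, 0⟩, 0, 0⟩ 0 0) (.pos 39 .mp ⟨⟨44344413, 0, 0, 0, 0, 24094587, 0, 0, 0, ⟨0, 0⟩, 0⟩, 0, 0⟩ 0 0)))) (.cut .s 9945088 (.cut .d (-16384) (.cut .s 9936896 (.pos 39 .mp ⟨⟨43822086, 0, 0, 0, 0, 25831172, 0, 0, 0, ⟨0, 0⟩, 0⟩, 0, 0⟩ 0 0) (.pos 39 .mp ⟨⟨44077574, 0, 0, 0, 0, 25938121, 0, 0, 0, ⟨0, 0⟩, 0⟩, 0, 0⟩ 0 0)) (.cut .s 9936896 (.pos 39 .mp ⟨⟨44595124, 0, 0, 0, 0, 24203492, 0, 0, 0, ⟨0, 0⟩, 0⟩, 0, 0⟩ 0 0) (.pos 39 .mp ⟨⟨44847080, 0, 0, 0, 0, 24313391, 0, 0,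 0, ⟨0, 0⟩, 0⟩, 0, 0⟩ 0 0))) (.cut .d (-16384) (.cut .s 9953280 (.pos 39 .mp ⟨⟨44335877, 0, 0, 0, 0, 26043498, 0, 0, 0, ⟨0, 0⟩, 0⟩, 0, 0⟩ 0 0) (.pos 39 .mp ⟨⟨44597028, 0, 0, 0, 0, 26147252, 0, 0, 0, ⟨0, 0⟩, 0⟩, 0, 0⟩ 0 0)) (.cut .s 9953280 (.pos 39 .mp ⟨⟨45100286, 0, 0, 0, 0, 24424282, 0, 0, 0, ⟨0, 0⟩, 0⟩, 0, 0⟩ 0 0) (.pos 39 .mp ⟨⟨45354746, 0, 0, 0, 0, 24536161, 0, 0, 0, ⟨0, 0⟩, 0⟩, 0, 0⟩ 0 0)))))) (.pos 40 .mp ⟨⟨61757079, 0, 0, 0, 0, 0, 0, 0, 0, ⟨0, 0⟩, 0⟩, 0, 0⟩ 0 0)) (.cut .v 16842752 (.cut .s 10027008 (.cut .s 9994240 (.cut .s 9977856 (.cut .d (-16384) (.cut .s 9969664 (.pos 39 .mp ⟨⟨44861059, 0, 0, 0, 0, 26249330, 0, 0, 0, ⟨0,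 0⟩, 0⟩, 0, 0⟩ 0 0) (.pos 39 .mp ⟨⟨45128001, 0, 0, 0, 0, 26349682, 0, 0, 0, ⟨0, 0⟩, 0⟩, 0, 0⟩ 0 0)) (.cut .s 9969664 (.pos 39 .mp ⟨⟨45610463, 0, 0, 0, 0, 24649028, 0, 0, 0, ⟨0, 0⟩, 0⟩, 0, 0⟩ 0 0) (.pos 39 .mp ⟨⟨45867441, 0, 0, 0, 0, 24762879, 0, 0, 0, ⟨0, 0⟩, 0⟩, 0, 0⟩ 0 0))) (.cut .d (-16384) (.cut .s 9986048 (.pos 39 .mp ⟨⟨45397886, 0, 0, 0, 0, 26448255, 0, 0, 0, ⟨0, 0⟩, 0⟩, 0, 0⟩ 0 0) (.pos 39 .mp ⟨⟨45670747, 0, 0, 0, 0, 26544996, 0, 0, 0, ⟨0, 0⟩, 0⟩, 0, 0⟩ 0 0)) (.cut .s 9986048 (.pos 39 .mp ⟨⟨46125685, 0, 0, 0, 0, 24877713, 0, 0, 0, ⟨0, 0⟩, 0⟩, 0, 0⟩ 0 0) (.pos 39 .mp ⟨⟨46385198, 0, 0, 0, 0, 24993527, 0, 0, 0, ⟨0, 0⟩, 0⟩, 0,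 0⟩ 0 0)))) (.cut .s 10010624 (.cut .d (-16384) (.cut .s 10002432 (.pos 39 .mp ⟨⟨45946616, 0, 0, 0, 0, 26639854, 0, 0, 0, ⟨0, 0⟩, 0⟩, 0, 0⟩ 0 0) (.pos 39 .mp ⟨⟨46225524, 0, 0, 0, 0, 26732776, 0, 0, 0, ⟨0, 0⟩, 0⟩, 0, 0⟩ 0 0)) (.cut .s 10002432 (.pos 39 .mp ⟨⟨46645984, 0, 0, 0, 0, 25110318, 0, 0, 0, ⟨0, 0⟩, 0⟩, 0, 0⟩ 0 0) (.pos 39 .mp ⟨⟨46908048, 0, 0, 0, 0, 25228084, 0, 0, 0, ⟨0, 0⟩, 0⟩, 0, 0⟩ 0 0))) (.cut .d (-16384) (.cut .s 10018816 (.pos 39 .mp ⟨⟨46507504, 0, 0, 0, 0, 26823708, 0, 0, 0, ⟨0, 0⟩, 0⟩, 0, 0⟩ 0 0) (.pos 39 .mp ⟨⟨46792589, 0, 0, 0, 0, 26912598, 0, 0, 0, ⟨0, 0⟩, 0⟩, 0, 0⟩ 0 0)) (.cut .s 10018816 (.pos 39 .mp ⟨⟨47171394,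 0, 0, 0, 0, 25346822, 0, 0, 0, ⟨0, 0⟩, 0⟩, 0, 0⟩ 0 0) (.pos 39 .mp ⟨⟨47436024, 0, 0, 0, 0, 25466531, 0, 0, 0, ⟨0, 0⟩, 0⟩, 0, 0⟩ 0 0))))) (.cut .s 10059776 (.cut .s 10043392 (.cut .l 141961 (.cut .d (-16384) (.pos 39 .mp ⟨⟨47005927, 0, 0, 0, 0, 28194642, 0, 0, 0, ⟨0, 0⟩, 0⟩, 0, 0⟩ 0 0) (.cut .s 10035200 (.pos 39 .mp ⟨⟨47701945, 0, 0, 0, 0, 25565116, 0, 0, 0, ⟨0, 0⟩, 0⟩, 0, 0⟩ 0 0) (.pos 39 .mp ⟨⟨47969159, 0, 0, 0, 0, 25683725, 0, 0, 0, ⟨0, 0⟩, 0⟩, 0, 0⟩ 0 0))) (.pos 39 .mp ⟨⟨47999444, 0, 0, 0, 0, 25174282, 0, 0, 0, ⟨0, 0⟩, 0⟩, 0, 0⟩ 0 0)) (.cut .d (-16384) (.pos 39 .mp ⟨⟨47472994, 0, 0, 0, 0, 27835375, 0, 0, 0, ⟨0, 0⟩, 0⟩, 0, 0⟩ 0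 0) (.cut .s 10051584 (.pos 39 .mp ⟨⟨48237671, 0, 0, 0, 0, 25831450, 0, 0, 0, ⟨0, 0⟩, 0⟩, 0, 0⟩ 0 0) (.pos 39 .mp ⟨⟨48507485, 0, 0, 0, 0, 25955012, 0, 0, 0, ⟨0, 0⟩, 0⟩, 0, 0⟩ 0 0)))) (.cut .s 10076160 (.cut .d (-16384) (.pos 39 .mp ⟨⟨48072176, 0, 0, 0, 0, 27997287, 0, 0, 0, ⟨0, 0⟩, 0⟩, 0, 0⟩ 0 0) (.cut .s 10067968 (.pos 39 .mp ⟨⟨48778606, 0, 0, 0, 0, 26079532, 0, 0, 0, ⟨0, 0⟩, 0⟩, 0, 0⟩ 0 0) (.pos 39 .mp ⟨⟨49042699, 0, 0, 0, 0, 26218767, 0, 0, 0, ⟨0, 0⟩, 0⟩, 0, 0⟩ 0 0))) (.cut .d (-16384) (.pos 39 .mp ⟨⟨48684632, 0, 0, 0, 0, 28149618, 0, 0, 0, ⟨0, 0⟩, 0⟩, 0, 0⟩ 0 0) (.cut .s 10084352 (.pos 39 .mp ⟨⟨49299708, 0, 0, 0, 0, 26372839,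 0, 0, 0, ⟨0, 0⟩, 0⟩, 0, 0⟩ 0 0) (.pos 39 .mp ⟨⟨49557009, 0, 0, 0, 0, 26529580, 0, 0, 0, ⟨0, 0⟩, 0⟩, 0, 0⟩ 0 0)))))) (.pos 40 .mp ⟨⟨67043756, 0, 0, 0, 0, 0, 0, 0, 0, ⟨0, 0⟩, 0⟩, 0, 0⟩ 0 0)))) (.pos 38 .mp ⟨⟨68398433, 0, 0, 0, 0, 0, 0, 0, 0, ⟨0, 0⟩, 0⟩, 0, 0⟩ 0 0))) (.pos 36 .mp ⟨⟨70658809, 0, 0, 0, 0, 0, 0, 0, 0, ⟨0, 0⟩, 0⟩, 0, 0⟩ 0 0)) (.void 34 ⟨⟨100000, 0, 0, 0, 0, 0, 0, 0, 0, ⟨0, 0⟩, 0⟩, 0, 0⟩ 0 0))))))) (.void 32 ⟨⟨100000, 0, 0, 0, 0, 0, 0, 0, 0, ⟨0, 0⟩, 0⟩, 0, 0⟩ 0 0))) (.void 30 ⟨⟨100000, 0, 0, 0, 0, 0, 0, 0, 0, ⟨0, 0⟩, 0⟩, 0, 0⟩ 0 0))) (.void 28 ⟨⟨100000, 0, 0, 0, 0, 0, 0, 0, 0, ⟨0, 0⟩, 0⟩, 0, 0⟩ 0 0))) (.void 26 ⟨⟨100000,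 0, 0, 0, 0, 0, 0, 0, 0, ⟨0, 0⟩, 0⟩, 0, 0⟩ 0 0)) (.void 95 ⟨⟨100000, 0, 0, 0, 0, 0, 0, 0, 0, ⟨0, 0⟩, 0⟩, 0, 0⟩ 0 0))) (.cut .v 16777216 (.cut .d 6320185 (.cut .v 8388608 (.cut .v 4194304 (.void 4 ⟨⟨0, 0, 66667, 0, 0, 0, 0, 0, 0, ⟨0, 0⟩, 0⟩, 0, 33333⟩ 0 0) (.pos 5 .pm ⟨⟨0, 0, 277472, 0, 0, 0, 0, 0, 0, ⟨0, 0⟩, 0⟩, 0, 0⟩ 0 0)) (.pos 3 .pm ⟨⟨0, 0, 0, 0, 0, 0, 0, 0, 0, ⟨0, 0⟩, 0⟩, 0, 0⟩ 0 0)) (.void 1 ⟨⟨0, 0, 0, 0, 0, 0, 0, 0, 0, ⟨0, 0⟩, 0⟩, 0, 100000⟩ 0 0)) (.cut .d 6320185 (.cut .v 33554432 (.cut .d 3160092 (.cut .v 25165824 (.cut .d 1580046 (.cut .v 20971520 (.cut .d 790023 (.cut .v 18874368 (.cut .d 395011 (.cut .d 197505 (.cut .v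 17825792 (.cut .s 9830400 (.pos 31 .pp ⟨⟨39327038, 0, 0, 0, 0, 0, 0, 0, 0, ⟨0, 0⟩, 0⟩, 1227989, 0⟩ 0 0) (.pos 31 .pp ⟨⟨47125865, 0, 0, 0, 0, 0, 0, 0, 0, ⟨0, 0⟩, 0⟩, 1391460, 0⟩ 0 0)) (.pos 32 .pp ⟨⟨68258693, 0, 0, 0, 0, 0, 0, 0, 0, ⟨0, 0⟩, 0⟩, 0, 0⟩ 0 0)) (.pos 29 .pp ⟨⟨40875201, 0, 0, 0, 0, 0, 0, 0, 0, ⟨0, 0⟩, 0⟩, 0, 123590⟩ 0 0)) (.pos 29 .pp ⟨⟨0, 0, 0, 0, 0, 0, 0, 0, 0, ⟨0, 0⟩, 0⟩, 0, 813443⟩ 0 0)) (.cut .d 395011 (.pos 30 .pp ⟨⟨82537329, 0, 0, 0, 0, 0, 0, 0, 0, ⟨0, 0⟩, 0⟩, 0, 0⟩ 0 0) (.pos 30 .pp ⟨⟨55765630, 0, 0, 0, 0, 0, 0, 0, 0, ⟨0, 0⟩, 0⟩, 0, 1763⟩ 0 0))) (.pos 27 .pp ⟨⟨0, 0, 0, 0, 0, 0, 0, 0, 0, ⟨0, 0⟩, 0⟩, 0, 853613⟩ 0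 0)) (.cut .d 790023 (.cut .v 23068672 (.cut .d 395011 (.void 59 ⟨⟨0, 0, 0, 0, 0, 0, 0, 0, 0, ⟨0, 0⟩, 0⟩, 100000, 0⟩ 0 0) (.pos 59 .pp ⟨⟨86015317, 0, 0, 0, 0, 0, 0, 0, 0, ⟨0, 0⟩, 0⟩, 0, 0⟩ 0 0)) (.pos 60 .pp ⟨⟨0, 0, 0, 0, 0, 0, 0, 0, 0, ⟨0, 0⟩, 0⟩, 13440327, 0⟩ 0 0)) (.cut .v 23068672 (.pos 59 .pp ⟨⟨0, 0, 0, 0, 0, 0, 424858, 0, 0, ⟨0, 0⟩, 0⟩, 6459950, 0⟩ 0 0) (.pos 60 .pp ⟨⟨0, 0, 0, 0, 0, 0, 319461, 0, 0, ⟨0, 0⟩, 0⟩, 8026054, 0⟩ 0 0)))) (.pos 25 .pp ⟨⟨0, 0, 0, 0, 0, 0, 0, 0, 0, ⟨0, 0⟩, 0⟩, 0, 921902⟩ 0 0)) (.cut .d 1580046 (.cut .v 29360128 (.cut .d 790023 (.void 77 ⟨⟨0, 0, 0, 0, 0, 0, 0, 0, 0, ⟨0, 0⟩, 0⟩, 100000, 0⟩ 0 0) (.cut .d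 1185034 (.pos 77 .pp ⟨⟨0, 0, 0, 0, 0, 0, 0, 0, 0, ⟨0, 0⟩, 0⟩, 12720029, 0⟩ 0 0) (.pos 77 .pp ⟨⟨0, 0, 0, 0, 0, 0, 31465, 0, 0, ⟨0, 0⟩, 0⟩, 9276116, 0⟩ 0 0))) (.void 78 ⟨⟨0, 0, 0, 0, 0, 0, 0, 0, 0, ⟨0, 0⟩, 0⟩, 100000, 0⟩ 0 0)) (.cut .v 29360128 (.pos 77 .pp ⟨⟨0, 0, 0, 0, 0, 0, 452392, 0, 0, ⟨0, 0⟩, 0⟩, 6732787, 0⟩ 0 0) (.pos 78 .pp ⟨⟨0, 0, 0, 0, 0, 0, 0, 0, 0, ⟨0, 0⟩, 0⟩, 9580232, 0⟩ 0 0)))) (.pos 24 .pp ⟨⟨0, 0, 0, 0, 0, 0, 0, 0, 0, ⟨0, 0⟩, 0⟩, 0, 84466476⟩ 0 0)) (.cut .d 3160092 (.cut .v 50331648 (.cut .d 1580046 (.void 96 ⟨⟨0, 0, 0, 0, 0, 0, 0, 0, 0, ⟨0, 0⟩, 0⟩, 100000, 0⟩ 0 0) (.pos 96 .pp ⟨⟨0, 0, 0, 0, 0, 0, 85493672, 0, 0, ⟨0,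 0⟩, 0⟩, 17000371, 0⟩ 0 0)) (.void 97 ⟨⟨0, 0, 0, 0, 0, 0, 0, 0, 0, ⟨0, 0⟩, 0⟩, 100000, 0⟩ 0 0)) (.pos 95 .pp ⟨⟨0, 0, 0, 0, 0, 0, 304287474, 0, 0, ⟨0, 0⟩, 0⟩, 0, 0⟩ 0 0))) (.void 94 ⟨⟨0, 0, 0, 0, 0, 0, 55162, 0, 0, ⟨0, 0⟩, 0⟩, 0, 44838⟩ 0 0)))),
    by decide +kernel⟩

def covers13 : cell.Covers Vale.Agent.P237.Petty.Cor.Grid.N13.table row13.1 :=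
  ⟨(.cut .d 0 (.cut .v 16777216 (.cut .d (-8388608) (.void 1 ⟨⟨0, 0, 0, 0, 0, 100000, 0, 0, 0, ⟨0, 0⟩, 0⟩, 0, 0⟩ 0 0) (.cut .d (-4194304) (.void 1 ⟨⟨0, 0, 0, 0, 0, 100000, 0, 0, 0, ⟨0, 0⟩, 0⟩, 0, 0⟩ 0 0) (.cut .d (-2097152) (.void 1 ⟨⟨0, 0, 0, 0, 0, 100000, 0, 0, 0, ⟨0, 0⟩, 0⟩, 0, 0⟩ 0 0) (.cut .d (-1048576) (.void 1 ⟨⟨0, 0, 0, 0, 0, 100000, 0, 0, 0, ⟨0, 0⟩, 0⟩, 0, 0⟩ 0 0) (.cut .d (-524288) (.void 1 ⟨⟨0, 0, 0, 0, 0, 100000, 0, 0, 0, ⟨0, 0⟩, 0⟩, 0, 0⟩ 0 0) (.cut .d (-262144) (.void 1 ⟨⟨0, 0, 0, 0, 0, 100000, 0, 0, 0, ⟨0, 0⟩, 0⟩, 0, 0⟩ 0 0) (.cut .d (-131072) (.void 1 ⟨⟨0, 0, 0, 0, 0, 100000, 0, 0, 0, ⟨0, 0⟩, 0⟩, 0, 0⟩ 0 0) (.cut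 .d (-65536) (.void 1 ⟨⟨0, 0, 0, 0, 0, 100000, 0, 0, 0, ⟨0, 0⟩, 0⟩, 0, 0⟩ 0 0) (.cut .v 8388608 (.cut .v 4194304 (.void 4 ⟨⟨0, 0, 100000, 0, 0, 0, 0, 0, 0, ⟨0, 0⟩, 0⟩, 0, 0⟩ 0 0) (.pos 5 .mm ⟨⟨0, 0, 1008074, 0, 0, 35999950, 0, 0, 0, ⟨0, 0⟩, 0⟩, 0, 0⟩ 0 0)) (.cut .s 10289152 (.pos 3 .mm ⟨⟨0, 0, 0, 0, 0, 100653738, 0, 0, 0, ⟨0, 0⟩, 0⟩, 0, 0⟩ 0 0) (.pos 3 .mm ⟨⟨0, 0, 0, 0, 0, 115190081, 0, 0, 0, ⟨0, 0⟩, 0⟩, 0, 0⟩ 0 0))))))))))) (.cut .v 33554432 (.cut .v 25165824 (.cut .d (-8388608) (.void 25 ⟨⟨0, 0, 0, 0, 0, 100000, 0, 0, 0, ⟨0, 0⟩, 0⟩, 0, 0⟩ 0 0) (.cut .v 20971520 (.cut .d (-4194304) (.void 27 ⟨⟨100000, 0, 0, 0, 0, 0, 0, 0, 0, ⟨0,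 0⟩, 0⟩, 0, 0⟩ 0 0) (.cut .v 18874368 (.cut .d (-2097152) (.void 29 ⟨⟨100000, 0, 0, 0, 0, 0, 0, 0, 0, ⟨0, 0⟩, 0⟩, 0, 0⟩ 0 0) (.cut .v 17825792 (.cut .d (-1048576) (.void 31 ⟨⟨100000, 0, 0, 0, 0, 0, 0, 0, 0, ⟨0, 0⟩, 0⟩, 0, 0⟩ 0 0) (.cut .v 17301504 (.cut .d (-524288) (.void 33 ⟨⟨100000, 0, 0, 0, 0, 0, 0, 0, 0, ⟨0, 0⟩, 0⟩, 0, 0⟩ 0 0) (.cut .v 17039360 (.cut .d (-262144) (.void 35 ⟨⟨100000, 0, 0, 0, 0, 0, 0, 0, 0, ⟨0, 0⟩, 0⟩, 0, 0⟩ 0 0) (.cut .d (-131072) (.void 35 ⟨⟨100000, 0, 0, 0, 0, 0, 0, 0, 0, ⟨0, 0⟩, 0⟩, 0, 0⟩ 0 0) (.cut .d (-65536) (.void 35 ⟨⟨0, 0, 0, 0, 0, 100000, 0, 0, 0, ⟨0, 0⟩, 0⟩, 0, 0⟩ 0 0) (.cut .d (-32768) (.cut .v 16908288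 (.pos 37 .mp ⟨⟨49416672, 0, 0, 0, 0, 102373804, 0, 0, 0, ⟨0, 0⟩, 0⟩, 0, 0⟩ 0 0) (.void 38 ⟨⟨100000, 0, 0, 0, 0, 0, 0, 0, 0, ⟨0, 0⟩, 0⟩, 0, 0⟩ 0 0)) (.cut .v 16908288 (.cut .s 10289152 (.cut .s 10190848 (.cut .v 16842752 (.cut .s 10141696 (.cut .s 10117120 (.cut .d (-16384) (.cut .s 10104832 (.pos 39 .mp ⟨⟨49441757, 0, 0, 0, 0, 27896982, 0, 0, 0, ⟨0, 0⟩, 0⟩, 0, 0⟩ 0 0) (.pos 39 .mp ⟨⟨49794568, 0, 0, 0, 0, 28153528, 0, 0, 0, ⟨0, 0⟩, 0⟩, 0, 0⟩ 0 0)) (.cut .s 10104832 (.pos 39 .mp ⟨⟨50012794, 0, 0, 0, 0, 26469028, 0, 0, 0, ⟨0, 0⟩, 0⟩, 0, 0⟩ 0 0) (.pos 39 .mp ⟨⟨50431813, 0, 0, 0, 0, 26610130, 0, 0, 0, ⟨0, 0⟩, 0⟩, 0, 0⟩ 0 0))) (.cut .d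 (-16384) (.cut .s 10129408 (.pos 39 .mp ⟨⟨50152636, 0, 0, 0, 0, 28410313, 0, 0, 0, ⟨0, 0⟩, 0⟩, 0, 0⟩ 0 0) (.pos 39 .mp ⟨⟨50516104, 0, 0, 0, 0, 28667116, 0, 0, 0, ⟨0, 0⟩, 0⟩, 0, 0⟩ 0 0)) (.cut .v 16809984 (.cut .s 10129408 (.pos 49 .mp ⟨⟨50639639, 0, 0, 0, 0, 27059402, 0, 0, 0, ⟨0, 0⟩, 0⟩, 0, 0⟩ 0 0) (.pos 49 .mp ⟨⟨51063749, 0, 0, 0, 0, 27209495, 0, 0, 0, ⟨0, 0⟩, 0⟩, 0, 0⟩ 0 0)) (.pos 50 .mp ⟨⟨69044437, 0, 0, 0, 0, 0, 0, 0, 0, ⟨0, 0⟩, 0⟩, 0, 0⟩ 0 0)))) (.cut .s 10166272 (.cut .d (-16384) (.cut .s 10153984 (.pos 39 .mp ⟨⟨50885112, 0, 0, 0, 0, 28923714, 0, 0, 0, ⟨0, 0⟩, 0⟩, 0, 0⟩ 0 0) (.pos 39 .mp ⟨⟨51259802, 0, 0, 0, 0, 29179885, 0,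 0, 0, ⟨0, 0⟩, 0⟩, 0, 0⟩ 0 0)) (.cut .v 16809984 (.cut .l 141961 (.cut .d (-8192) (.pos 49 .mp ⟨⟨51002696, 0, 0, 0, 0, 29004521, 0, 0, 0, ⟨0, 0⟩, 0⟩, 0, 0⟩ 0 0) (.cut .s 10153984 (.pos 49 .mp ⟨⟨51096770, 0, 0, 0, 0, 27906823, 0, 0, 0, ⟨0, 0⟩, 0⟩, 0, 0⟩ 0 0) (.pos 49 .mp ⟨⟨51549413, 0, 0, 0, 0, 28026565, 0, 0, 0, ⟨0, 0⟩, 0⟩, 0, 0⟩ 0 0))) (.pos 49 .mp ⟨⟨50708283, 0, 0, 0, 0, 27629626, 0, 0, 0, ⟨0, 0⟩, 0⟩, 0, 0⟩ 0 0)) (.pos 50 .mp ⟨⟨70059223, 0, 0, 0, 0, 0, 0, 0, 0, ⟨0, 0⟩, 0⟩, 0, 0⟩ 0 0))) (.cut .d (-16384) (.cut .s 10178560 (.pos 39 .mp ⟨⟨51640316, 0, 0, 0, 0, 29435405, 0, 0, 0, ⟨0, 0⟩, 0⟩, 0, 0⟩ 0 0) (.pos 39 .mp ⟨⟨52026797, 0, 0,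 0, 0, 29690047, 0, 0, 0, ⟨0, 0⟩, 0⟩, 0, 0⟩ 0 0)) (.cut .v 16809984 (.cut .l 141961 (.cut .s 10178560 (.cut .s 10172416 (.pos 49 .mp ⟨⟨52352400, 0, 0, 0, 0, 27521684, 0, 0, 0, ⟨0, 0⟩, 0⟩, 0, 0⟩ 0 0) (.pos 49 .mp ⟨⟨52540528, 0, 0, 0, 0, 27646224, 0, 0, 0, ⟨0, 0⟩, 0⟩, 0, 0⟩ 0 0)) (.cut .s 10184704 (.pos 49 .mp ⟨⟨52730287, 0, 0, 0, 0, 27770460, 0, 0, 0, ⟨0, 0⟩, 0⟩, 0, 0⟩ 0 0) (.pos 49 .mp ⟨⟨52921700, 0, 0, 0, 0, 27894362, 0, 0, 0, ⟨0, 0⟩, 0⟩, 0, 0⟩ 0 0))) (.pos 49 .mp ⟨⟨51569004, 0, 0, 0, 0, 27988718, 0, 0, 0, ⟨0, 0⟩, 0⟩, 0, 0⟩ 0 0)) (.pos 50 .mp ⟨⟨71096685, 0, 0, 0, 0, 0, 0, 0, 0, ⟨0, 0⟩, 0⟩, 0, 0⟩ 0 0))))) (.pos 40 .mp ⟨⟨72300404,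 0, 0, 0, 0, 0, 0, 0, 0, ⟨0, 0⟩, 0⟩, 0, 0⟩ 0 0)) (.cut .v 16842752 (.cut .s 10240000 (.cut .s 10215424 (.cut .d (-16384) (.cut .s 10203136 (.pos 39 .mp ⟨⟨52419386, 0, 0, 0, 0, 29943586, 0, 0, 0, ⟨0, 0⟩, 0⟩, 0, 0⟩ 0 0) (.pos 39 .mp ⟨⟨52818228, 0, 0, 0, 0, 30195793, 0, 0, 0, ⟨0, 0⟩, 0⟩, 0, 0⟩ 0 0)) (.cut .v 16809984 (.cut .l 141961 (.cut .s 10203136 (.cut .s 10196992 (.pos 49 .mp ⟨⟨53114789, 0, 0, 0, 0, 28017896, 0, 0, 0, ⟨0, 0⟩, 0⟩, 0, 0⟩ 0 0) (.pos 49 .mp ⟨⟨53309577, 0, 0, 0, 0, 28141030, 0, 0, 0, ⟨0, 0⟩, 0⟩, 0, 0⟩ 0 0)) (.cut .s 10209280 (.pos 49 .mp ⟨⟨53506087, 0, 0, 0, 0, 28263733, 0, 0, 0, ⟨0, 0⟩, 0⟩, 0, 0⟩ 0 0) (.pos 49 .mp ⟨⟨53704340,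 0, 0, 0, 0, 28385972, 0, 0, 0, ⟨0, 0⟩, 0⟩, 0, 0⟩ 0 0))) (.pos 49 .mp ⟨⟨52442540, 0, 0, 0, 0, 28356945, 0, 0, 0, ⟨0, 0⟩, 0⟩, 0, 0⟩ 0 0)) (.pos 50 .mp ⟨⟨72157034, 0, 0, 0, 0, 0, 0, 0, 0, ⟨0, 0⟩, 0⟩, 0, 0⟩ 0 0))) (.cut .d (-16384) (.cut .s 10227712 (.pos 39 .mp ⟨⟨53223466, 0, 0, 0, 0, 30446440, 0, 0, 0, ⟨0, 0⟩, 0⟩, 0, 0⟩ 0 0) (.pos 39 .mp ⟨⟨53635244, 0, 0, 0, 0, 30695297, 0, 0, 0, ⟨0, 0⟩, 0⟩, 0, 0⟩ 0 0)) (.cut .v 16809984 (.cut .l 141961 (.cut .s 10227712 (.cut .s 10221568 (.pos 49 .mp ⟨⟨53904359, 0, 0, 0, 0, 28507713, 0, 0, 0, ⟨0, 0⟩, 0⟩, 0, 0⟩ 0 0) (.pos 49 .mp ⟨⟨54127493, 0, 0, 0, 0, 28599554, 0, 0, 0, ⟨0, 0⟩, 0⟩, 0, 0⟩ 0 0)) (.cut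 .s 10233856 (.pos 49 .mp ⟨⟨54352780, 0, 0, 0, 0, 28690337, 0, 0, 0, ⟨0, 0⟩, 0⟩, 0, 0⟩ 0 0) (.pos 49 .mp ⟨⟨54578938, 0, 0, 0, 0, 28781827, 0, 0, 0, ⟨0, 0⟩, 0⟩, 0, 0⟩ 0 0))) (.pos 49 .mp ⟨⟨53329021, 0, 0, 0, 0, 28733820, 0, 0, 0, ⟨0, 0⟩, 0⟩, 0, 0⟩ 0 0)) (.pos 50 .mp ⟨⟨73240487, 0, 0, 0, 0, 0, 0, 0, 0, ⟨0, 0⟩, 0⟩, 0, 0⟩ 0 0)))) (.cut .s 10264576 (.cut .d (-16384) (.cut .s 10252288 (.pos 39 .mp ⟨⟨54053705, 0, 0, 0, 0, 30942132, 0, 0, 0, ⟨0, 0⟩, 0⟩, 0, 0⟩ 0 0) (.pos 39 .mp ⟨⟨54478995, 0, 0, 0, 0, 31186714, 0, 0, 0, ⟨0, 0⟩, 0⟩, 0, 0⟩ 0 0)) (.cut .v 16809984 (.cut .l 141961 (.cut .s 10252288 (.cut .s 10246144 (.pos 49 .mp ⟨⟨54805969, 0,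 0, 0, 0, 28874021, 0, 0, 0, ⟨0, 0⟩, 0⟩, 0, 0⟩ 0 0) (.pos 49 .mp ⟨⟨55033876, 0, 0, 0, 0, 28966915, 0, 0, 0, ⟨0, 0⟩, 0⟩, 0, 0⟩ 0 0)) (.cut .s 10258432 (.pos 49 .mp ⟨⟨55262660, 0, 0, 0, 0, 29060506, 0, 0, 0, ⟨0, 0⟩, 0⟩, 0, 0⟩ 0 0) (.pos 49 .mp ⟨⟨55492324, 0, 0, 0, 0, 29154791, 0, 0, 0, ⟨0, 0⟩, 0⟩, 0, 0⟩ 0 0))) (.pos 49 .mp ⟨⟨54228582, 0, 0, 0, 0, 29118855, 0, 0, 0, ⟨0, 0⟩, 0⟩, 0, 0⟩ 0 0)) (.pos 50 .mp ⟨⟨74347261, 0, 0, 0, 0, 0, 0, 0, 0, ⟨0, 0⟩, 0⟩, 0, 0⟩ 0 0))) (.cut .d (-16384) (.cut .s 10276864 (.pos 39 .mp ⟨⟨54911258, 0, 0, 0, 0, 31428808, 0, 0, 0, ⟨0, 0⟩, 0⟩, 0, 0⟩ 0 0) (.cut .s 10283008 (.pos 39 .mp ⟨⟨54755886, 0, 0, 0, 0, 32514729,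 0, 0, 0, ⟨0, 0⟩, 0⟩, 0, 0⟩ 0 0) (.pos 39 .mp ⟨⟨54983583, 0, 0, 0, 0, 32622197, 0, 0, 0, ⟨0, 0⟩, 0⟩, 0, 0⟩ 0 0))) (.cut .v 16809984 (.cut .l 141961 (.cut .s 10276864 (.cut .s 10270720 (.pos 49 .mp ⟨⟨55722869, 0, 0, 0, 0, 29249767, 0, 0, 0, ⟨0, 0⟩, 0⟩, 0, 0⟩ 0 0) (.pos 49 .mp ⟨⟨55954299, 0, 0, 0, 0, 29345431, 0, 0, 0, ⟨0, 0⟩, 0⟩, 0, 0⟩ 0 0)) (.cut .s 10283008 (.pos 49 .mp ⟨⟨56186615, 0, 0, 0, 0, 29441779, 0, 0, 0, ⟨0, 0⟩, 0⟩, 0, 0⟩ 0 0) (.pos 49 .mp ⟨⟨56419819, 0, 0, 0, 0, 29538809, 0, 0, 0, ⟨0, 0⟩, 0⟩, 0, 0⟩ 0 0))) (.pos 49 .mp ⟨⟨55141355, 0, 0, 0, 0, 29511559, 0, 0, 0, ⟨0, 0⟩, 0⟩, 0, 0⟩ 0 0)) (.pos 50 .mp ⟨⟨75477578, 0, 0, 0, 0,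 0, 0, 0, 0, ⟨0, 0⟩, 0⟩, 0, 0⟩ 0 0))))) (.pos 40 .mp ⟨⟨76736300, 0, 0, 0, 0, 0, 0, 0, 0, ⟨0, 0⟩, 0⟩, 0, 0⟩ 0 0))) (.cut .s 10387456 (.cut .v 16842752 (.cut .s 10338304 (.cut .s 10313728 (.cut .d (-16384) (.cut .d (-24576) (.pos 39 .mp ⟨⟨55617166, 0, 0, 0, 0, 33385979, 0, 0, 0, ⟨0, 0⟩, 0⟩, 0, 0⟩ 0 0) (.cut .l 141961 (.void 39 ⟨⟨0, 0, 0, 0, 0, 100000, 0, 0, 0, ⟨0, 0⟩, 0⟩, 0, 0⟩ 0 0) (.cut .s 10301440 (.pos 39 .mp ⟨⟨55336169, 0, 0, 0, 0, 32387422, 0, 0, 0, ⟨0, 0⟩, 0⟩, 0, 0⟩ 0 0) (.pos 39 .mp ⟨⟨55788808, 0, 0, 0, 0, 32622582, 0, 0, 0, ⟨0, 0⟩, 0⟩, 0, 0⟩ 0 0)))) (.cut .v 16809984 (.cut .l 141961 (.cut .s 10301440 (.cut .s 10295296 (.pos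 49 .mp ⟨⟨56653915, 0, 0, 0, 0, 29636517, 0, 0, 0, ⟨0, 0⟩, 0⟩, 0, 0⟩ 0 0) (.pos 49 .mp ⟨⟨56888903, 0, 0, 0, 0, 29734899, 0, 0, 0, ⟨0, 0⟩, 0⟩, 0, 0⟩ 0 0)) (.cut .s 10307584 (.pos 49 .mp ⟨⟨57124786, 0, 0, 0, 0, 29833952, 0, 0, 0, ⟨0, 0⟩, 0⟩, 0, 0⟩ 0 0) (.pos 49 .mp ⟨⟨57361567, 0, 0, 0, 0, 29933674, 0, 0, 0, ⟨0, 0⟩, 0⟩, 0, 0⟩ 0 0))) (.pos 49 .mp ⟨⟨56067480, 0, 0, 0, 0, 29911440, 0, 0, 0, ⟨0, 0⟩, 0⟩, 0, 0⟩ 0 0)) (.pos 50 .mp ⟨⟨76631664, 0, 0, 0, 0, 0, 0, 0, 0, ⟨0, 0⟩, 0⟩, 0, 0⟩ 0 0))) (.cut .d (-16384) (.cut .d (-24576) (.pos 39 .mp ⟨⟨56549194, 0, 0, 0, 0, 33844349, 0, 0, 0, ⟨0, 0⟩, 0⟩, 0, 0⟩ 0 0) (.cut .l 141961 (.void 39 ⟨⟨0, 0, 0,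 0, 0, 100000, 0, 0, 0, ⟨0, 0⟩, 0⟩, 0, 0⟩ 0 0) (.cut .s 10326016 (.pos 39 .mp ⟨⟨56247578, 0, 0, 0, 0, 32856059, 0, 0, 0, ⟨0, 0⟩, 0⟩, 0, 0⟩ 0 0) (.pos 39 .mp ⟨⟨56712578, 0, 0, 0, 0, 33087675, 0, 0, 0, ⟨0, 0⟩, 0⟩, 0, 0⟩ 0 0)))) (.cut .v 16809984 (.cut .l 141961 (.cut .s 10326016 (.cut .s 10319872 (.pos 49 .mp ⟨⟨57599247, 0, 0, 0, 0, 30034061, 0, 0, 0, ⟨0, 0⟩, 0⟩, 0, 0⟩ 0 0) (.pos 49 .mp ⟨⟨57837830, 0, 0, 0, 0, 30135109, 0, 0, 0, ⟨0, 0⟩, 0⟩, 0, 0⟩ 0 0)) (.cut .s 10332160 (.pos 49 .mp ⟨⟨58077317, 0, 0, 0, 0, 30236815, 0, 0, 0, ⟨0, 0⟩, 0⟩, 0, 0⟩ 0 0) (.pos 49 .mp ⟨⟨58317710, 0, 0, 0, 0, 30339176, 0, 0, 0, ⟨0, 0⟩, 0⟩, 0, 0⟩ 0 0))) (.pos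 49 .mp ⟨⟨57007093, 0, 0, 0, 0, 30318004, 0, 0, 0, ⟨0, 0⟩, 0⟩, 0, 0⟩ 0 0)) (.pos 50 .mp ⟨⟨77809747, 0, 0, 0, 0, 0, 0, 0, 0, ⟨0, 0⟩, 0⟩, 0, 0⟩ 0 0)))) (.cut .s 10362880 (.cut .d (-16384) (.cut .d (-24576) (.pos 39 .mp ⟨⟨57495426, 0, 0, 0, 0, 34319890, 0, 0, 0, ⟨0, 0⟩, 0⟩, 0, 0⟩ 0 0) (.cut .l 141961 (.void 39 ⟨⟨0, 0, 0, 0, 0, 100000, 0, 0, 0, ⟨0, 0⟩, 0⟩, 0, 0⟩ 0 0) (.cut .s 10350592 (.pos 39 .mp ⟨⟨57183912, 0, 0, 0, 0, 33317252, 0, 0, 0, ⟨0, 0⟩, 0⟩, 0, 0⟩ 0 0) (.pos 39 .mp ⟨⟨57661680, 0, 0, 0, 0, 33544613, 0, 0, 0, ⟨0, 0⟩, 0⟩, 0, 0⟩ 0 0)))) (.cut .v 16809984 (.cut .l 141961 (.cut .s 10350592 (.cut .s 10344448 (.pos 49 .mp ⟨⟨58559012,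 0, 0, 0, 0, 30442187, 0, 0, 0, ⟨0, 0⟩, 0⟩, 0, 0⟩ 0 0) (.pos 49 .mp ⟨⟨58801225, 0, 0, 0, 0, 30545847, 0, 0, 0, ⟨0, 0⟩, 0⟩, 0, 0⟩ 0 0)) (.cut .s 10356736 (.pos 49 .mp ⟨⟨59044351, 0, 0, 0, 0, 30650151, 0, 0, 0, ⟨0, 0⟩, 0⟩, 0, 0⟩ 0 0) (.pos 49 .mp ⟨⟨59288393, 0, 0, 0, 0, 30755096, 0, 0, 0, ⟨0, 0⟩, 0⟩, 0, 0⟩ 0 0))) (.pos 49 .mp ⟨⟨57960337, 0, 0, 0, 0, 30730754, 0, 0, 0, ⟨0, 0⟩, 0⟩, 0, 0⟩ 0 0)) (.pos 50 .mp ⟨⟨79012060, 0, 0, 0, 0, 0, 0, 0, 0, ⟨0, 0⟩, 0⟩, 0, 0⟩ 0 0))) (.cut .d (-16384) (.cut .s 10375168 (.pos 39 .mp ⟨⟨58023048, 0, 0, 0, 0, 34425198, 0, 0, 0, ⟨0, 0⟩, 0⟩, 0, 0⟩ 0 0) (.pos 39 .mp ⟨⟨58503923, 0, 0, 0, 0, 34675023, 0, 0, 0,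 ⟨0, 0⟩, 0⟩, 0, 0⟩ 0 0)) (.cut .v 16809984 (.cut .l 141961 (.cut .s 10375168 (.cut .s 10369024 (.pos 49 .mp ⟨⟨59533354, 0, 0, 0, 0, 30860679, 0, 0, 0, ⟨0, 0⟩, 0⟩, 0, 0⟩ 0 0) (.pos 49 .mp ⟨⟨59779234, 0, 0, 0, 0, 30966895, 0, 0, 0, ⟨0, 0⟩, 0⟩, 0, 0⟩ 0 0)) (.cut .s 10381312 (.pos 49 .mp ⟨⟨60026038, 0, 0, 0, 0, 31073742, 0, 0, 0, ⟨0, 0⟩, 0⟩, 0, 0⟩ 0 0) (.pos 49 .mp ⟨⟨60273766, 0, 0, 0, 0, 31181215, 0, 0, 0, ⟨0, 0⟩, 0⟩, 0, 0⟩ 0 0))) (.pos 49 .mp ⟨⟨58927355, 0, 0, 0, 0, 31149190, 0, 0, 0, ⟨0, 0⟩, 0⟩, 0, 0⟩ 0 0)) (.pos 50 .mp ⟨⟨80238839, 0, 0, 0, 0, 0, 0, 0, 0, ⟨0, 0⟩, 0⟩, 0, 0⟩ 0 0))))) (.pos 40 .mp ⟨⟨81463700, 0, 0, 0, 0, 0, 0, 0, 0, ⟨0,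 0⟩, 0⟩, 0, 0⟩ 0 0)) (.cut .v 16842752 (.cut .s 10436608 (.cut .s 10412032 (.cut .d (-16384) (.cut .s 10399744 (.pos 39 .mp ⟨⟨58988388, 0, 0, 0, 0, 34929349, 0, 0, 0, ⟨0, 0⟩, 0⟩, 0, 0⟩ 0 0) (.pos 39 .mp ⟨⟨59476459, 0, 0, 0, 0, 35188207, 0, 0, 0, ⟨0, 0⟩, 0⟩, 0, 0⟩ 0 0)) (.cut .v 16809984 (.cut .l 141961 (.cut .s 10399744 (.cut .s 10393600 (.pos 49 .mp ⟨⟨60522422, 0, 0, 0, 0, 31289312, 0, 0, 0, ⟨0, 0⟩, 0⟩, 0, 0⟩ 0 0) (.pos 49 .mp ⟨⟨60772008, 0, 0, 0, 0, 31398029, 0, 0, 0, ⟨0, 0⟩, 0⟩, 0, 0⟩ 0 0)) (.cut .s 10405888 (.pos 49 .mp ⟨⟨61022526, 0, 0, 0, 0, 31507361, 0, 0, 0, ⟨0, 0⟩, 0⟩, 0, 0⟩ 0 0) (.pos 49 .mp ⟨⟨61273979, 0, 0, 0, 0, 31617306,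 0, 0, 0, ⟨0, 0⟩, 0⟩, 0, 0⟩ 0 0))) (.pos 49 .mp ⟨⟨59908292, 0, 0, 0, 0, 31572811, 0, 0, 0, ⟨0, 0⟩, 0⟩, 0, 0⟩ 0 0)) (.pos 50 .mp ⟨⟨81490325, 0, 0, 0, 0, 0, 0, 0, 0, ⟨0, 0⟩, 0⟩, 0, 0⟩ 0 0))) (.cut .d (-16384) (.cut .s 10424320 (.pos 39 .mp ⟨⟨59968156, 0, 0, 0, 0, 35451628, 0, 0, 0, ⟨0, 0⟩, 0⟩, 0, 0⟩ 0 0) (.pos 39 .mp ⟨⟨60463497, 0, 0, 0, 0, 35719642, 0, 0, 0, ⟨0, 0⟩, 0⟩, 0, 0⟩ 0 0)) (.cut .v 16809984 (.cut .l 141961 (.cut .s 10424320 (.cut .s 10418176 (.pos 49 .mp ⟨⟨61526368, 0, 0, 0, 0, 31727860, 0, 0, 0, ⟨0, 0⟩, 0⟩, 0, 0⟩ 0 0) (.pos 49 .mp ⟨⟨61779698, 0, 0, 0, 0, 31839018, 0, 0, 0, ⟨0, 0⟩, 0⟩, 0, 0⟩ 0 0)) (.cut .s 10430464 (.pos 49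 .mp ⟨⟨62033968, 0, 0, 0, 0, 31950778, 0, 0, 0, ⟨0, 0⟩, 0⟩, 0, 0⟩ 0 0) (.pos 49 .mp ⟨⟨62289184, 0, 0, 0, 0, 32063136, 0, 0, 0, ⟨0, 0⟩, 0⟩, 0, 0⟩ 0 0))) (.pos 49 .mp ⟨⟨60903295, 0, 0, 0, 0, 32001112, 0, 0, 0, ⟨0, 0⟩, 0⟩, 0, 0⟩ 0 0)) (.pos 50 .mp ⟨⟨82766761, 0, 0, 0, 0, 0, 0, 0, 0, ⟨0, 0⟩, 0⟩, 0, 0⟩ 0 0)))) (.cut .s 10461184 (.cut .d (-16384) (.cut .s 10448896 (.pos 39 .mp ⟨⟨60962501, 0, 0, 0, 0, 35992280, 0, 0, 0, ⟨0, 0⟩, 0⟩, 0, 0⟩ 0 0) (.pos 39 .mp ⟨⟨61465188, 0, 0, 0, 0, 36269573, 0, 0, 0, ⟨0, 0⟩, 0⟩, 0, 0⟩ 0 0)) (.cut .v 16809984 (.cut .l 141961 (.cut .s 10448896 (.cut .s 10442752 (.pos 49 .mp ⟨⟨62545346, 0, 0, 0, 0, 32176087, 0,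 0, 0, ⟨0, 0⟩, 0⟩, 0, 0⟩ 0 0) (.pos 49 .mp ⟨⟨62802457, 0, 0, 0, 0, 32289629, 0, 0, 0, ⟨0, 0⟩, 0⟩, 0, 0⟩ 0 0)) (.cut .s 10455040 (.pos 49 .mp ⟨⟨63060520, 0, 0, 0, 0, 32403757, 0, 0, 0, ⟨0, 0⟩, 0⟩, 0, 0⟩ 0 0) (.pos 49 .mp ⟨⟨63329874, 0, 0, 0, 0, 32504005, 0, 0, 0, ⟨0, 0⟩, 0⟩, 0, 0⟩ 0 0))) (.pos 49 .mp ⟨⟨61912514, 0, 0, 0, 0, 32433589, 0, 0, 0, ⟨0, 0⟩, 0⟩, 0, 0⟩ 0 0)) (.pos 50 .mp ⟨⟨84068395, 0, 0, 0, 0, 0, 0, 0, 0, ⟨0, 0⟩, 0⟩, 0, 0⟩ 0 0))) (.cut .d (-16384) (.cut .s 10473472 (.pos 39 .mp ⟨⟨61971575, 0, 0, 0, 0, 36551553, 0, 0, 0, ⟨0, 0⟩, 0⟩, 0, 0⟩ 0 0) (.pos 39 .mp ⟨⟨62481683, 0, 0, 0, 0, 36838251, 0, 0, 0, ⟨0, 0⟩, 0⟩, 0, 0⟩ 0 0)) (.cut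 .v 16809984 (.cut .l 141961 (.cut .s 10473472 (.cut .s 10467328 (.pos 49 .mp ⟨⟨63619740, 0, 0, 0, 0, 32577448, 0, 0, 0, ⟨0, 0⟩, 0⟩, 0, 0⟩ 0 0) (.pos 49 .mp ⟨⟨63912352, 0, 0, 0, 0, 32648930, 0, 0, 0, ⟨0, 0⟩, 0⟩, 0, 0⟩ 0 0)) (.cut .s 10479616 (.pos 49 .mp ⟨⟨64207735, 0, 0, 0, 0, 32718412, 0, 0, 0, ⟨0, 0⟩, 0⟩, 0, 0⟩ 0 0) (.pos 49 .mp ⟨⟨64505913, 0, 0, 0, 0, 32785855, 0, 0, 0, ⟨0, 0⟩, 0⟩, 0, 0⟩ 0 0))) (.pos 49 .mp ⟨⟨62936102, 0, 0, 0, 0, 32869730, 0, 0, 0, ⟨0, 0⟩, 0⟩, 0, 0⟩ 0 0)) (.pos 50 .mp ⟨⟨85395479, 0, 0, 0, 0, 0, 0, 0, 0, ⟨0, 0⟩, 0⟩, 0, 0⟩ 0 0))))) (.pos 40 .mp ⟨⟨86464051, 0, 0, 0, 0, 0, 0, 0, 0, ⟨0, 0⟩, 0⟩, 0, 0⟩ 0 0)))) (.pos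 38 .mp ⟨⟨82811123, 0, 0, 0, 0, 0, 0, 0, 0, ⟨0, 0⟩, 0⟩, 0, 0⟩ 0 0)))))) (.pos 36 .mp ⟨⟨97641696, 0, 0, 0, 0, 0, 0, 0, 0, ⟨0, 0⟩, 0⟩, 0, 0⟩ 0 0))) (.void 34 ⟨⟨100000, 0, 0, 0, 0, 0, 0, 0, 0, ⟨0, 0⟩, 0⟩, 0, 0⟩ 0 0))) (.void 32 ⟨⟨100000, 0, 0, 0, 0, 0, 0, 0, 0, ⟨0, 0⟩, 0⟩, 0, 0⟩ 0 0))) (.void 30 ⟨⟨100000, 0, 0, 0, 0, 0, 0, 0, 0, ⟨0, 0⟩, 0⟩, 0, 0⟩ 0 0))) (.void 28 ⟨⟨100000, 0, 0, 0, 0, 0, 0, 0, 0, ⟨0, 0⟩, 0⟩, 0, 0⟩ 0 0))) (.void 26 ⟨⟨100000, 0, 0, 0, 0, 0, 0, 0, 0, ⟨0, 0⟩, 0⟩, 0, 0⟩ 0 0)) (.void 95 ⟨⟨100000, 0, 0, 0, 0, 0, 0, 0, 0, ⟨0, 0⟩, 0⟩, 0, 0⟩ 0 0))) (.cut .v 16777216 (.cut .v 8388608 (.cut .v 4194304 (.void 4 ⟨⟨0, 0, 66667, 0,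 0, 0, 0, 0, 0, ⟨0, 0⟩, 0⟩, 0, 33333⟩ 0 0) (.pos 5 .pm ⟨⟨0, 0, 994475, 0, 0, 0, 0, 0, 0, ⟨0, 0⟩, 0⟩, 0, 138263⟩ 0 0)) (.pos 3 .pm ⟨⟨0, 0, 0, 0, 0, 0, 0, 0, 0, ⟨0, 0⟩, 0⟩, 0, 528928⟩ 0 0)) (.cut .d 5556092 (.cut .v 33554432 (.cut .d 2778046 (.cut .v 25165824 (.cut .d 1389023 (.cut .v 20971520 (.cut .d 694511 (.cut .d 347255 (.cut .v 18874368 (.cut .v 17825792 (.cut .s 10289152 (.pos 31 .pp ⟨⟨52465555, 0, 0, 0, 0, 0, 0, 0, 0, ⟨0, 0⟩, 0⟩, 1863315, 0⟩ 0 0) (.pos 31 .pp ⟨⟨60121927, 0, 0, 0, 0, 0, 0, 0, 0, ⟨0, 0⟩, 0⟩, 2023529, 0⟩ 0 0)) (.pos 32 .pp ⟨⟨83466545, 0, 0, 0, 0, 0, 0, 0, 0, ⟨0, 0⟩, 0⟩, 0, 0⟩ 0 0)) (.pos 30 .pp ⟨⟨106578580, 0,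 0, 0, 0, 0, 0, 0, 0, ⟨0, 0⟩, 0⟩, 0, 0⟩ 0 0)) (.pos 27 .pp ⟨⟨65185354, 0, 0, 0, 0, 0, 0, 0, 0, ⟨0, 0⟩, 0⟩, 0, 23171⟩ 0 0)) (.pos 27 .pp ⟨⟨0, 0, 0, 0, 0, 0, 0, 0, 0, ⟨0, 0⟩, 0⟩, 0, 793185⟩ 0 0)) (.cut .d 694511 (.cut .v 23068672 (.cut .d 347255 (.void 59 ⟨⟨0, 0, 0, 0, 0, 0, 0, 0, 0, ⟨0, 0⟩, 0⟩, 100000, 0⟩ 0 0) (.pos 59 .pp ⟨⟨113538926, 0, 0, 0, 0, 0, 0, 0, 0, ⟨0, 0⟩, 0⟩, 0, 0⟩ 0 0)) (.pos 60 .pp ⟨⟨0, 0, 0, 0, 0, 0, 0, 0, 0, ⟨0, 0⟩, 0⟩, 17367267, 0⟩ 0 0)) (.pos 28 .pp ⟨⟨0, 0, 0, 0, 0, 0, 404779, 0, 0, ⟨0, 0⟩, 0⟩, 10072450, 0⟩ 0 0))) (.pos 25 .pp ⟨⟨0, 0, 0, 0, 0, 0, 0, 0, 0, ⟨0, 0⟩, 0⟩, 0, 856640⟩ 0 0)) (.cut .d 1389023 (.cut .d 694511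 (.void 26 ⟨⟨0, 0, 0, 0, 0, 0, 0, 0, 0, ⟨0, 0⟩, 0⟩, 100000, 0⟩ 0 0) (.cut .v 29360128 (.pos 77 .pp ⟨⟨0, 0, 0, 0, 0, 0, 0, 0, 0, ⟨0, 0⟩, 0⟩, 15408853, 0⟩ 0 0) (.void 78 ⟨⟨0, 0, 0, 0, 0, 0, 0, 0, 0, ⟨0, 0⟩, 0⟩, 100000, 0⟩ 0 0))) (.pos 26 .pp ⟨⟨0, 0, 0, 0, 0, 0, 0, 0, 0, ⟨0, 0⟩, 0⟩, 11437733, 0⟩ 0 0))) (.pos 24 .pp ⟨⟨0, 0, 0, 0, 0, 0, 2816355, 0, 0, ⟨0, 0⟩, 0⟩, 0, 0⟩ 0 0)) (.cut .d 2778046 (.cut .v 50331648 (.pos 96 .pp ⟨⟨0, 0, 0, 0, 0, 0, 0, 0, 0, ⟨0, 0⟩, 0⟩, 34069843, 0⟩ 0 0) (.void 97 ⟨⟨0, 0, 0, 0, 0, 0, 0, 0, 0, ⟨0, 0⟩, 0⟩, 100000, 0⟩ 0 0)) (.pos 95 .pp ⟨⟨0, 0, 0, 0, 0, 0, 135355686, 0, 0, ⟨0, 0⟩, 0⟩, 12852523, 0⟩ 0 0))) (.void 94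 ⟨⟨0, 59383, 0, 0, 0, 0, 4331, 0, 0, ⟨0, 0⟩, 0⟩, 0, 36287⟩ 0 0)))),
    by decide +kernel⟩

def covers14 : cell.Covers Vale.Agent.P237.Petty.Cor.Grid.N13.table row14.1 :=
  ⟨(.cut .d 0 (.cut .v 16777216 (.cut .d (-8388608) (.void 1 ⟨⟨0, 0, 0, 0, 0, 100000, 0, 0, 0, ⟨0, 0⟩, 0⟩, 0, 0⟩ 0 0) (.cut .d (-4194304) (.void 1 ⟨⟨0, 0, 0, 0, 0, 100000, 0, 0, 0, ⟨0, 0⟩, 0⟩, 0, 0⟩ 0 0) (.cut .d (-2097152) (.void 1 ⟨⟨0, 0, 0, 0, 0, 100000, 0, 0, 0, ⟨0, 0⟩, 0⟩, 0, 0⟩ 0 0) (.cut .d (-1048576) (.void 1 ⟨⟨0, 0, 0, 0, 0, 100000, 0, 0, 0, ⟨0, 0⟩, 0⟩, 0, 0⟩ 0 0) (.cut .d (-524288) (.void 1 ⟨⟨0, 0, 0, 0, 0, 100000, 0, 0, 0, ⟨0, 0⟩, 0⟩, 0, 0⟩ 0 0) (.cut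 .d (-262144) (.void 1 ⟨⟨0, 0, 0, 0, 0, 100000, 0, 0, 0, ⟨0, 0⟩, 0⟩, 0, 0⟩ 0 0) (.cut .d (-131072) (.void 1 ⟨⟨0, 0, 0, 0, 0, 100000, 0, 0, 0, ⟨0, 0⟩, 0⟩, 0, 0⟩ 0 0) (.cut .d (-65536) (.void 1 ⟨⟨0, 0, 0, 0, 0, 100000, 0, 0, 0, ⟨0, 0⟩, 0⟩, 0, 0⟩ 0 0) (.cut .d (-32768) (.void 1 ⟨⟨0, 0, 0, 0, 0, 100000, 0, 0, 0, ⟨0, 0⟩, 0⟩, 0, 0⟩ 0 0) (.cut .v 8388608 (.cut .v 4194304 (.void 4 ⟨⟨0, 0, 100000, 0, 0, 0, 0, 0, 0, ⟨0, 0⟩, 0⟩, 0, 0⟩ 0 0) (.pos 5 .mm ⟨⟨0, 0, 1705194, 0, 0, 46327462, 0, 0, 0, ⟨0, 0⟩, 0⟩, 0, 0⟩ 0 0)) (.cut .s 10682368 (.pos 3 .mm ⟨⟨0, 0, 0, 0, 0, 133012053, 0, 0, 0, ⟨0, 0⟩, 0⟩, 0, 0⟩ 0 0) (.pos 3 .mm ⟨⟨0, 0, 0, 0, 0, 152130322,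 0, 0, 0, ⟨0, 0⟩, 0⟩, 0, 0⟩ 0 0)))))))))))) (.cut .v 33554432 (.cut .v 25165824 (.cut .d (-8388608) (.void 25 ⟨⟨0, 0, 0, 0, 0, 100000, 0, 0, 0, ⟨0, 0⟩, 0⟩, 0, 0⟩ 0 0) (.cut .v 20971520 (.cut .d (-4194304) (.void 27 ⟨⟨100000, 0, 0, 0, 0, 0, 0, 0, 0, ⟨0, 0⟩, 0⟩, 0, 0⟩ 0 0) (.cut .v 18874368 (.cut .d (-2097152) (.void 29 ⟨⟨100000, 0, 0, 0, 0, 0, 0, 0, 0, ⟨0, 0⟩, 0⟩, 0, 0⟩ 0 0) (.cut .v 17825792 (.cut .d (-1048576) (.void 31 ⟨⟨100000, 0, 0, 0, 0, 0, 0, 0, 0, ⟨0, 0⟩, 0⟩, 0, 0⟩ 0 0) (.cut .v 17301504 (.cut .d (-524288) (.void 33 ⟨⟨100000, 0, 0, 0, 0, 0, 0, 0, 0, ⟨0, 0⟩, 0⟩, 0, 0⟩ 0 0) (.cut .v 17039360 (.cut .d (-262144) (.void 35 ⟨⟨100000,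 0, 0, 0, 0, 0, 0, 0, 0, ⟨0, 0⟩, 0⟩, 0, 0⟩ 0 0) (.cut .d (-131072) (.void 35 ⟨⟨100000, 0, 0, 0, 0, 0, 0, 0, 0, ⟨0, 0⟩, 0⟩, 0, 0⟩ 0 0) (.cut .d (-65536) (.void 35 ⟨⟨0, 0, 0, 0, 0, 100000, 0, 0, 0, ⟨0, 0⟩, 0⟩, 0, 0⟩ 0 0) (.cut .d (-32768) (.void 35 ⟨⟨0, 0, 0, 0, 0, 100000, 0, 0, 0, ⟨0, 0⟩, 0⟩, 0, 0⟩ 0 0) (.cut .v 16908288 (.cut .s 10682368 (.cut .s 10584064 (.cut .v 16842752 (.cut .s 10534912 (.cut .s 10510336 (.cut .d (-16384) (.cut .s 10498048 (.pos 39 .mp ⟨⟨62996025, 0, 0, 0, 0, 37125720, 0, 0, 0, ⟨0, 0⟩, 0⟩, 0, 0⟩ 0 0) (.pos 39 .mp ⟨⟨63514639, 0, 0, 0, 0, 37334977, 0, 0, 0, ⟨0, 0⟩, 0⟩, 0, 0⟩ 0 0)) (.cut .v 16809984 (.cut .l 141961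 (.cut .d (-8192) (.pos 49 .mp ⟨⟨63064797, 0, 0, 0, 0, 37403263, 0, 0, 0, ⟨0, 0⟩, 0⟩, 0, 0⟩ 0 0) (.cut .s 10498048 (.pos 49 .mp ⟨⟨64405143, 0, 0, 0, 0, 33614020, 0, 0, 0, ⟨0, 0⟩, 0⟩, 0, 0⟩ 0 0) (.pos 49 .mp ⟨⟨64932606, 0, 0, 0, 0, 33809840, 0, 0, 0, ⟨0, 0⟩, 0⟩, 0, 0⟩ 0 0))) (.pos 49 .mp ⟨⟨64457282, 0, 0, 0, 0, 32714312, 0, 0, 0, ⟨0, 0⟩, 0⟩, 0, 0⟩ 0 0)) (.pos 50 .mp ⟨⟨86747269, 0, 0, 0, 0, 0, 0, 0, 0, ⟨0, 0⟩, 0⟩, 0, 0⟩ 0 0))) (.cut .d (-16384) (.cut .s 10522624 (.pos 39 .mp ⟨⟨64037365, 0, 0, 0, 0, 37549517, 0, 0, 0, ⟨0, 0⟩, 0⟩, 0, 0⟩ 0 0) (.pos 39 .mp ⟨⟨64564226, 0, 0, 0, 0, 37769377, 0, 0, 0, ⟨0, 0⟩, 0⟩, 0, 0⟩ 0 0)) (.cut .v 16809984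 (.cut .l 141961 (.cut .s 10522624 (.cut .s 10516480 (.pos 49 .mp ⟨⟨65695321, 0, 0, 0, 0, 33498969, 0, 0, 0, ⟨0, 0⟩, 0⟩, 0, 0⟩ 0 0) (.pos 49 .mp ⟨⟨65964442, 0, 0, 0, 0, 33600499, 0, 0, 0, ⟨0, 0⟩, 0⟩, 0, 0⟩ 0 0)) (.cut .s 10528768 (.pos 49 .mp ⟨⟨66234632, 0, 0, 0, 0, 33703026, 0, 0, 0, ⟨0, 0⟩, 0⟩, 0, 0⟩ 0 0) (.pos 49 .mp ⟨⟨66505894, 0, 0, 0, 0, 33806547, 0, 0, 0, ⟨0, 0⟩, 0⟩, 0, 0⟩ 0 0))) (.pos 49 .mp ⟨⟨65538518, 0, 0, 0, 0, 33121502, 0, 0, 0, ⟨0, 0⟩, 0⟩, 0, 0⟩ 0 0)) (.pos 50 .mp ⟨⟨88020748, 0, 0, 0, 0, 0, 0, 0, 0, ⟨0, 0⟩, 0⟩, 0, 0⟩ 0 0)))) (.cut .d (-16384) (.cut .d (-24576) (.pos 39 .mp ⟨⟨65601035, 0, 0, 0, 0, 40431153, 0, 0, 0, ⟨0,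 0⟩, 0⟩, 0, 0⟩ 0 0) (.cut .l 141961 (.void 39 ⟨⟨0, 0, 0, 0, 0, 100000, 0, 0, 0, ⟨0, 0⟩, 0⟩, 0, 0⟩ 0 0) (.cut .s 10559488 (.pos 39 .mp ⟨⟨65095243, 0, 0, 0, 0, 38099584, 0, 0, 0, ⟨0, 0⟩, 0⟩, 0, 0⟩ 0 0) (.pos 39 .mp ⟨⟨66169832, 0, 0, 0, 0, 38593210, 0, 0, 0, ⟨0, 0⟩, 0⟩, 0, 0⟩ 0 0)))) (.cut .l 141961 (.cut .v 16809984 (.cut .s 10559488 (.cut .s 10547200 (.cut .s 10541056 (.pos 49 .mp ⟨⟨66430414, 0, 0, 0, 0, 34459510, 0, 0, 0, ⟨0, 0⟩, 0⟩, 0, 0⟩ 0 0) (.pos 49 .mp ⟨⟨66623695, 0, 0, 0, 0, 34691575, 0, 0, 0, ⟨0, 0⟩, 0⟩, 0, 0⟩ 0 0)) (.cut .s 10553344 (.pos 49 .mp ⟨⟨66820736, 0, 0, 0, 0, 34920471, 0, 0, 0, ⟨0, 0⟩, 0⟩, 0, 0⟩ 0 0) (.pos 49 .mp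 ⟨⟨67021593, 0, 0, 0, 0, 35146108, 0, 0, 0, ⟨0, 0⟩, 0⟩, 0, 0⟩ 0 0))) (.cut .s 10571776 (.cut .s 10565632 (.pos 49 .mp ⟨⟨67226322, 0, 0, 0, 0, 35368394, 0, 0, 0, ⟨0, 0⟩, 0⟩, 0, 0⟩ 0 0) (.pos 49 .mp ⟨⟨67434977, 0, 0, 0, 0, 35587237, 0, 0, 0, ⟨0, 0⟩, 0⟩, 0, 0⟩ 0 0)) (.cut .s 10577920 (.pos 49 .mp ⟨⟨67647615, 0, 0, 0, 0, 35802548, 0, 0, 0, ⟨0, 0⟩, 0⟩, 0, 0⟩ 0 0) (.pos 49 .mp ⟨⟨67864289, 0, 0, 0, 0, 36014235, 0, 0, 0, ⟨0, 0⟩, 0⟩, 0, 0⟩ 0 0)))) (.pos 50 .mp ⟨⟨94084234, 0, 0, 0, 0, 0, 0, 0, 0, ⟨0, 0⟩, 0⟩, 0, 0⟩ 0 0)) (.pos 39 .mp ⟨⟨68037377, 0, 0, 0, 0, 31782642, 0, 0, 0, ⟨0, 0⟩, 0⟩, 0, 0⟩ 0 0)))) (.pos 40 .mp ⟨⟨92256749, 0, 0, 0, 0, 0,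 0, 0, 0, ⟨0, 0⟩, 0⟩, 0, 0⟩ 0 0)) (.cut .v 16842752 (.cut .s 10633216 (.cut .d (-16384) (.cut .d (-24576) (.pos 39 .mp ⟨⟨67790184, 0, 0, 0, 0, 41508978, 0, 0, 0, ⟨0, 0⟩, 0⟩, 0, 0⟩ 0 0) (.cut .l 141961 (.void 39 ⟨⟨0, 0, 0, 0, 0, 100000, 0, 0, 0, ⟨0, 0⟩, 0⟩, 0, 0⟩ 0 0) (.cut .v 16809984 (.pos 49 .mp ⟨⟨0, 0, 0, 0, 0, 144863920, 0, 0, 0, ⟨0, 0⟩, 0⟩, 0, 0⟩ 0 0) (.cut .s 10608640 (.pos 50 .mp ⟨⟨70076427, 0, 0, 0, 0, 34398251, 0, 0, 0, ⟨0, 0⟩, 0⟩, 0, 0⟩ 0 0) (.pos 50 .mp ⟨⟨71232211, 0, 0, 0, 0, 34842858, 0, 0, 0, ⟨0, 0⟩, 0⟩, 0, 0⟩ 0 0))))) (.cut .l 141961 (.cut .v 16809984 (.cut .s 10608640 (.cut .s 10596352 (.cut .s 10590208 (.pos 49 .mp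 ⟨⟨68085055, 0, 0, 0, 0, 36222207, 0, 0, 0, ⟨0, 0⟩, 0⟩, 0, 0⟩ 0 0) (.pos 49 .mp ⟨⟨68312388, 0, 0, 0, 0, 36422546, 0, 0, 0, ⟨0, 0⟩, 0⟩, 0, 0⟩ 0 0)) (.cut .s 10602496 (.pos 49 .mp ⟨⟨68573626, 0, 0, 0, 0, 36572002, 0, 0, 0, ⟨0, 0⟩, 0⟩, 0, 0⟩ 0 0) (.pos 49 .mp ⟨⟨68836975, 0, 0, 0, 0, 36720835, 0, 0, 0, ⟨0, 0⟩, 0⟩, 0, 0⟩ 0 0))) (.cut .s 10620928 (.cut .s 10614784 (.pos 49 .mp ⟨⟨69102457, 0, 0, 0, 0, 36869007, 0, 0, 0, ⟨0, 0⟩, 0⟩, 0, 0⟩ 0 0) (.pos 49 .mp ⟨⟨69370096, 0, 0, 0, 0, 37016477, 0, 0, 0, ⟨0, 0⟩, 0⟩, 0, 0⟩ 0 0)) (.cut .s 10627072 (.pos 49 .mp ⟨⟨69639918, 0, 0, 0, 0, 37163207, 0, 0, 0, ⟨0, 0⟩, 0⟩, 0, 0⟩ 0 0) (.pos 49 .mp ⟨⟨69911946,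 0, 0, 0, 0, 37309156, 0, 0, 0, ⟨0, 0⟩, 0⟩, 0, 0⟩ 0 0)))) (.pos 50 .mp ⟨⟨96928269, 0, 0, 0, 0, 0, 0, 0, 0, ⟨0, 0⟩, 0⟩, 0, 0⟩ 0 0)) (.pos 39 .mp ⟨⟨70323974, 0, 0, 0, 0, 32598152, 0, 0, 0, ⟨0, 0⟩, 0⟩, 0, 0⟩ 0 0))) (.cut .d (-16384) (.cut .l 141961 (.void 39 ⟨⟨0, 0, 0, 0, 0, 100000, 0, 0, 0, ⟨0, 0⟩, 0⟩, 0, 0⟩ 0 0) (.cut .d (-24576) (.pos 39 .mp ⟨⟨70048752, 0, 0, 0, 0, 42264718, 0, 0, 0, ⟨0, 0⟩, 0⟩, 0, 0⟩ 0 0) (.cut .v 16809984 (.pos 49 .mp ⟨⟨0, 0, 0, 0, 0, 149831913, 0, 0, 0, ⟨0, 0⟩, 0⟩, 0, 0⟩ 0 0) (.cut .s 10657792 (.pos 50 .mp ⟨⟨72406069, 0, 0, 0, 0, 35303888, 0, 0, 0, ⟨0, 0⟩, 0⟩, 0, 0⟩ 0 0) (.pos 50 .mp ⟨⟨73598194, 0, 0, 0, 0, 35781213,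 0, 0, 0, ⟨0, 0⟩, 0⟩, 0, 0⟩ 0 0))))) (.cut .l 141961 (.cut .v 16809984 (.cut .s 10657792 (.cut .s 10645504 (.cut .s 10639360 (.pos 49 .mp ⟨⟨70186205, 0, 0, 0, 0, 37454284, 0, 0, 0, ⟨0, 0⟩, 0⟩, 0, 0⟩ 0 0) (.pos 49 .mp ⟨⟨70462718, 0, 0, 0, 0, 37598553, 0, 0, 0, ⟨0, 0⟩, 0⟩, 0, 0⟩ 0 0)) (.cut .d (-8192) (.pos 49 .mp ⟨⟨70115294, 0, 0, 0, 0, 39856976, 0, 0, 0, ⟨0, 0⟩, 0⟩, 0, 0⟩ 0 0) (.cut .s 10651648 (.pos 49 .mp ⟨⟨71247103, 0, 0, 0, 0, 36849850, 0, 0, 0, ⟨0, 0⟩, 0⟩, 0, 0⟩ 0 0) (.pos 49 .mp ⟨⟨71531956, 0, 0, 0, 0, 36983920, 0, 0, 0, ⟨0, 0⟩, 0⟩, 0, 0⟩ 0 0)))) (.cut .s 10670080 (.cut .d (-8192) (.pos 49 .mp ⟨⟨70687551, 0, 0, 0, 0, 40137389,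 0, 0, 0, ⟨0, 0⟩, 0⟩, 0, 0⟩ 0 0) (.cut .s 10663936 (.pos 49 .mp ⟨⟨71818898, 0, 0, 0, 0, 37117710, 0, 0, 0, ⟨0, 0⟩, 0⟩, 0, 0⟩ 0 0) (.pos 49 .mp ⟨⟨72107954, 0, 0, 0, 0, 37251188, 0, 0, 0, ⟨0, 0⟩, 0⟩, 0, 0⟩ 0 0))) (.cut .d (-8192) (.pos 49 .mp ⟨⟨71264196, 0, 0, 0, 0, 40423586, 0, 0, 0, ⟨0, 0⟩, 0⟩, 0, 0⟩ 0 0) (.cut .s 10676224 (.pos 49 .mp ⟨⟨72399146, 0, 0, 0, 0, 37384324, 0, 0, 0, ⟨0, 0⟩, 0⟩, 0, 0⟩ 0 0) (.pos 49 .mp ⟨⟨72692497, 0, 0, 0, 0, 37517086, 0, 0, 0, ⟨0, 0⟩, 0⟩, 0, 0⟩ 0 0))))) (.pos 50 .mp ⟨⟨99867276, 0, 0, 0, 0, 0, 0, 0, 0, ⟨0, 0⟩, 0⟩, 0, 0⟩ 0 0)) (.pos 39 .mp ⟨⟨72678081, 0, 0, 0, 0, 33457038, 0, 0, 0, ⟨0, 0⟩, 0⟩, 0, 0⟩ 0 0))))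 (.pos 40 .mp ⟨⟨97911469, 0, 0, 0, 0, 0, 0, 0, 0, ⟨0, 0⟩, 0⟩, 0, 0⟩ 0 0))) (.cut .s 10780672 (.cut .v 16842752 (.cut .s 10731520 (.cut .d (-16384) (.cut .l 141961 (.void 39 ⟨⟨0, 0, 0, 0, 0, 100000, 0, 0, 0, ⟨0, 0⟩, 0⟩, 0, 0⟩ 0 0) (.cut .d (-24576) (.pos 39 .mp ⟨⟨72378231, 0, 0, 0, 0, 43505458, 0, 0, 0, ⟨0, 0⟩, 0⟩, 0, 0⟩ 0 0) (.cut .v 16809984 (.pos 49 .mp ⟨⟨0, 0, 0, 0, 0, 155024621, 0, 0, 0, ⟨0, 0⟩, 0⟩, 0, 0⟩ 0 0) (.cut .s 10706944 (.pos 50 .mp ⟨⟨74808787, 0, 0, 0, 0, 36274702, 0, 0, 0, ⟨0, 0⟩, 0⟩, 0, 0⟩ 0 0) (.pos 50 .mp ⟨⟨76038047, 0, 0, 0, 0, 36784217, 0, 0, 0, ⟨0, 0⟩, 0⟩, 0, 0⟩ 0 0))))) (.cut .l 141961 (.cut .v 16809984 (.cut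 .s 10706944 (.cut .s 10694656 (.cut .d (-8192) (.pos 49 .mp ⟨⟨71845253, 0, 0, 0, 0, 40715607, 0, 0, 0, ⟨0, 0⟩, 0⟩, 0, 0⟩ 0 0) (.cut .s 10688512 (.pos 49 .mp ⟨⟨72988028, 0, 0, 0, 0, 37649442, 0, 0, 0, ⟨0, 0⟩, 0⟩, 0, 0⟩ 0 0) (.pos 49 .mp ⟨⟨73285764, 0, 0, 0, 0, 37781360, 0, 0, 0, ⟨0, 0⟩, 0⟩, 0, 0⟩ 0 0))) (.cut .d (-8192) (.pos 49 .mp ⟨⟨72430745, 0, 0, 0, 0, 41013494, 0, 0, 0, ⟨0, 0⟩, 0⟩, 0, 0⟩ 0 0) (.cut .s 10700800 (.pos 49 .mp ⟨⟨73585728, 0, 0, 0, 0, 37912810, 0, 0, 0, ⟨0, 0⟩, 0⟩, 0, 0⟩ 0 0) (.pos 49 .mp ⟨⟨73887943, 0, 0, 0, 0, 38043758, 0, 0, 0, ⟨0, 0⟩, 0⟩, 0, 0⟩ 0 0)))) (.cut .s 10719232 (.cut .s 10713088 (.cut .s 10710016 (.pos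 49 .mp ⟨⟨74590297, 0, 0, 0, 0, 37471918, 0, 0, 0, ⟨0, 0⟩, 0⟩, 0, 0⟩ 0 0) (.pos 49 .mp ⟨⟨74750698, 0, 0, 0, 0, 37524176, 0, 0, 0, ⟨0, 0⟩, 0⟩, 0, 0⟩ 0 0)) (.pos 49 .mp ⟨⟨73965649, 0, 0, 0, 0, 39248020, 0, 0, 0, ⟨0, 0⟩, 0⟩, 0, 0⟩ 0 0)) (.cut .s 10725376 (.pos 49 .mp ⟨⟨74273704, 0, 0, 0, 0, 39377426, 0, 0, 0, ⟨0, 0⟩, 0⟩, 0, 0⟩ 0 0) (.pos 49 .mp ⟨⟨74584359, 0, 0, 0, 0, 39505402, 0, 0, 0, ⟨0, 0⟩, 0⟩, 0, 0⟩ 0 0)))) (.pos 50 .mp ⟨⟨102898300, 0, 0, 0, 0, 0, 0, 0, 0, ⟨0, 0⟩, 0⟩, 0, 0⟩ 0 0)) (.pos 39 .mp ⟨⟨75101214, 0, 0, 0, 0, 34354034, 0, 0, 0, ⟨0, 0⟩, 0⟩, 0, 0⟩ 0 0))) (.cut .d (-16384) (.cut .l 141961 (.void 39 ⟨⟨0, 0, 0, 0, 0, 100000, 0,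 0, 0, ⟨0, 0⟩, 0⟩, 0, 0⟩ 0 0) (.cut .d (-24576) (.pos 39 .mp ⟨⟨74780164, 0, 0, 0, 0, 44836798, 0, 0, 0, ⟨0, 0⟩, 0⟩, 0, 0⟩ 0 0) (.cut .s 10756096 (.cut .s 10743808 (.pos 39 .mp ⟨⟨74325181, 0, 0, 0, 0, 41585958, 0, 0, 0, ⟨0, 0⟩, 0⟩, 0, 0⟩ 0 0) (.pos 39 .mp ⟨⟨74949442, 0, 0, 0, 0, 41858313, 0, 0, 0, ⟨0, 0⟩, 0⟩, 0, 0⟩ 0 0)) (.pos 39 .mp ⟨⟨75389939, 0, 0, 0, 0, 43188643, 0, 0, 0, ⟨0, 0⟩, 0⟩, 0, 0⟩ 0 0)))) (.cut .l 141961 (.cut .v 16809984 (.cut .s 10756096 (.cut .s 10743808 (.cut .s 10737664 (.pos 49 .mp ⟨⟨74897637, 0, 0, 0, 0, 39631905, 0, 0, 0, ⟨0, 0⟩, 0⟩, 0, 0⟩ 0 0) (.pos 49 .mp ⟨⟨75213565, 0, 0, 0, 0, 39756895, 0, 0, 0, ⟨0, 0⟩, 0⟩,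 0, 0⟩ 0 0)) (.cut .s 10749952 (.pos 49 .mp ⟨⟨75532168, 0, 0, 0, 0, 39880328, 0, 0, 0, ⟨0, 0⟩, 0⟩, 0, 0⟩ 0 0) (.pos 49 .mp ⟨⟨75853470, 0, 0, 0, 0, 40002163, 0, 0, 0, ⟨0, 0⟩, 0⟩, 0, 0⟩ 0 0))) (.cut .s 10768384 (.cut .s 10762240 (.pos 49 .mp ⟨⟨76177496, 0, 0, 0, 0, 40122359, 0, 0, 0, ⟨0, 0⟩, 0⟩, 0, 0⟩ 0 0) (.pos 49 .mp ⟨⟨76509665, 0, 0, 0, 0, 40232270, 0, 0, 0, ⟨0, 0⟩, 0⟩, 0, 0⟩ 0 0)) (.cut .s 10774528 (.pos 49 .mp ⟨⟨76878148, 0, 0, 0, 0, 40286943, 0, 0, 0, ⟨0, 0⟩, 0⟩, 0, 0⟩ 0 0) (.pos 49 .mp ⟨⟨77252373, 0, 0, 0, 0, 40335117, 0, 0, 0, ⟨0, 0⟩, 0⟩, 0, 0⟩ 0 0)))) (.pos 50 .mp ⟨⟨106018471, 0, 0, 0, 0, 0, 0, 0, 0, ⟨0, 0⟩, 0⟩, 0, 0⟩ 0 0))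 (.pos 39 .mp ⟨⟨77594940, 0, 0, 0, 0, 35283814, 0, 0, 0, ⟨0, 0⟩, 0⟩, 0, 0⟩ 0 0)))) (.pos 40 .mp ⟨⟨103939937, 0, 0, 0, 0, 0, 0, 0, 0, ⟨0, 0⟩, 0⟩, 0, 0⟩ 0 0)) (.cut .v 16842752 (.cut .s 10829824 (.cut .d (-16384) (.cut .d (-24576) (.pos 39 .mp ⟨⟨77256147, 0, 0, 0, 0, 46733244, 0, 0, 0, ⟨0, 0⟩, 0⟩, 0, 0⟩ 0 0) (.cut .v 16809984 (.pos 49 .mp ⟨⟨0, 0, 0, 0, 0, 168653511, 0, 0, 0, ⟨0, 0⟩, 0⟩, 0, 0⟩ 0 0) (.cut .v 16826368 (.cut .s 10805248 (.cut .s 10792960 (.pos 87 .mp ⟨⟨78264667, 0, 0, 0, 0, 40672079, 0, 0, 0, ⟨0, 0⟩, 0⟩, 0, 0⟩ 0 0) (.pos 87 .mp ⟨⟨78992620, 0, 0, 0, 0, 40837174, 0, 0, 0, ⟨0, 0⟩, 0⟩, 0, 0⟩ 0 0)) (.pos 87 .mp ⟨⟨79108411, 0,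 0, 0, 0, 42916577, 0, 0, 0, ⟨0, 0⟩, 0⟩, 0, 0⟩ 0 0)) (.pos 88 .mp ⟨⟨94087891, 0, 0, 0, 0, 19269216, 0, 0, 0, ⟨0, 0⟩, 0⟩, 0, 0⟩ 0 0)))) (.cut .l 141961 (.cut .v 16809984 (.cut .s 10805248 (.cut .s 10792960 (.cut .s 10786816 (.pos 49 .mp ⟨⟨77632390, 0, 0, 0, 0, 40376704, 0, 0, 0, ⟨0, 0⟩, 0⟩, 0, 0⟩ 0 0) (.pos 49 .mp ⟨⟨78018252, 0, 0, 0, 0, 40411613, 0, 0, 0, ⟨0, 0⟩, 0⟩, 0, 0⟩ 0 0)) (.cut .s 10799104 (.pos 49 .mp ⟨⟨78410012, 0, 0, 0, 0, 40439755, 0, 0, 0, ⟨0, 0⟩, 0⟩, 0, 0⟩ 0 0) (.pos 49 .mp ⟨⟨78807720, 0, 0, 0, 0, 40461040, 0, 0, 0, ⟨0, 0⟩, 0⟩, 0, 0⟩ 0 0))) (.cut .d (-8192) (.pos 49 .mp ⟨⟨77903823, 0, 0, 0, 0, 44881971, 0, 0, 0, ⟨0, 0⟩,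 0⟩, 0, 0⟩ 0 0) (.cut .v 16793600 (.cut .l 70980 (.cut .d (-4096) (.pos 51 .mp ⟨⟨77918981, 0, 0, 0, 0, 44670242, 0, 0, 0, ⟨0, 0⟩, 0⟩, 0, 0⟩ 0 0) (.cut .s 10817536 (.pos 51 .mp ⟨⟨79051024, 0, 0, 0, 0, 40818795, 0, 0, 0, ⟨0, 0⟩, 0⟩, 0, 0⟩ 0 0) (.pos 51 .mp ⟨⟨79676487, 0, 0, 0, 0, 41156420, 0, 0, 0, ⟨0, 0⟩, 0⟩, 0, 0⟩ 0 0))) (.pos 51 .mp ⟨⟨77596220, 0, 0, 0, 0, 42183732, 0, 0, 0, ⟨0, 0⟩, 0⟩, 0, 0⟩ 0 0)) (.pos 52 .mp ⟨⟨87421601, 0, 0, 0, 0, 29150724, 0, 0, 0, ⟨0, 0⟩, 0⟩, 0, 0⟩ 0 0)))) (.pos 50 .mp ⟨⟨109225002, 0, 0, 0, 0, 0, 0, 0, 0, ⟨0, 0⟩, 0⟩, 0, 0⟩ 0 0)) (.pos 39 .mp ⟨⟨80157298, 0, 0, 0, 0, 36247735, 0, 0, 0, ⟨0, 0⟩, 0⟩, 0, 0⟩ 0 0)))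 (.cut .d (-16384) (.cut .d (-24576) (.pos 39 .mp ⟨⟨79807829, 0, 0, 0, 0, 48280470, 0, 0, 0, ⟨0, 0⟩, 0⟩, 0, 0⟩ 0 0) (.cut .v 16809984 (.pos 49 .mp ⟨⟨0, 0, 0, 0, 0, 174665932, 0, 0, 0, ⟨0, 0⟩, 0⟩, 0, 0⟩ 0 0) (.cut .s 10854400 (.pos 50 .mp ⟨⟨83504598, 0, 0, 0, 0, 38615917, 0, 0, 0, ⟨0, 0⟩, 0⟩, 0, 0⟩ 0 0) (.pos 50 .mp ⟨⟨84866822, 0, 0, 0, 0, 39220697, 0, 0, 0, ⟨0, 0⟩, 0⟩, 0, 0⟩ 0 0)))) (.cut .l 141961 (.cut .v 16809984 (.cut .s 10854400 (.cut .d (-8192) (.pos 49 .mp ⟨⟨79170953, 0, 0, 0, 0, 45624886, 0, 0, 0, ⟨0, 0⟩, 0⟩, 0, 0⟩ 0 0) (.cut .v 16793600 (.cut .s 10842112 (.pos 51 .mp ⟨⟨80015702, 0, 0, 0, 0, 42021575, 0, 0, 0, ⟨0, 0⟩, 0⟩,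 0, 0⟩ 0 0) (.pos 51 .mp ⟨⟨80888166, 0, 0, 0, 0, 41985807, 0, 0, 0, ⟨0, 0⟩, 0⟩, 0, 0⟩ 0 0)) (.pos 52 .mp ⟨⟨89163783, 0, 0, 0, 0, 29093799, 0, 0, 0, ⟨0, 0⟩, 0⟩, 0, 0⟩ 0 0))) (.cut .d (-8192) (.pos 49 .mp ⟨⟨80457039, 0, 0, 0, 0, 46393459, 0, 0, 0, ⟨0, 0⟩, 0⟩, 0, 0⟩ 0 0) (.cut .s 10866688 (.pos 49 .mp ⟨⟨82143454, 0, 0, 0, 0, 41365517, 0, 0, 0, ⟨0, 0⟩, 0⟩, 0, 0⟩ 0 0) (.pos 49 .mp ⟨⟨82806752, 0, 0, 0, 0, 41688353, 0, 0, 0, ⟨0, 0⟩, 0⟩, 0, 0⟩ 0 0)))) (.pos 50 .mp ⟨⟨112515182, 0, 0, 0, 0, 0, 0, 0, 0, ⟨0, 0⟩, 0⟩, 0, 0⟩ 0 0)) (.pos 39 .mp ⟨⟨82788619, 0, 0, 0, 0, 37242858, 0, 0, 0, ⟨0, 0⟩, 0⟩, 0, 0⟩ 0 0)))) (.pos 40 .mp ⟨⟨110319338, 0, 0, 0,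 0, 0, 0, 0, 0, ⟨0, 0⟩, 0⟩, 0, 0⟩ 0 0)))) (.cut .s 10682368 (.pos 38 .mp ⟨⟨96915426, 0, 0, 0, 0, 0, 0, 0, 0, ⟨0, 0⟩, 0⟩, 0, 0⟩ 0 0) (.pos 38 .mp ⟨⟨109387946, 0, 0, 0, 0, 0, 0, 0, 0, ⟨0, 0⟩, 0⟩, 0, 0⟩ 0 0))))))) (.pos 36 .mp ⟨⟨124038283, 0, 0, 0, 0, 0, 0, 0, 0, ⟨0, 0⟩, 0⟩, 0, 0⟩ 0 0))) (.void 34 ⟨⟨100000, 0, 0, 0, 0, 0, 0, 0, 0, ⟨0, 0⟩, 0⟩, 0, 0⟩ 0 0))) (.void 32 ⟨⟨100000, 0, 0, 0, 0, 0, 0, 0, 0, ⟨0, 0⟩, 0⟩, 0, 0⟩ 0 0))) (.void 30 ⟨⟨100000, 0, 0, 0, 0, 0, 0, 0, 0, ⟨0, 0⟩, 0⟩, 0, 0⟩ 0 0))) (.void 28 ⟨⟨100000, 0, 0, 0, 0, 0, 0, 0, 0, ⟨0, 0⟩, 0⟩, 0, 0⟩ 0 0))) (.void 26 ⟨⟨100000, 0, 0, 0, 0, 0, 0, 0, 0, ⟨0, 0⟩, 0⟩, 0, 0⟩ 0 0)) (.void 95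 ⟨⟨100000, 0, 0, 0, 0, 0, 0, 0, 0, ⟨0, 0⟩, 0⟩, 0, 0⟩ 0 0))) (.cut .v 16777216 (.cut .v 8388608 (.cut .v 4194304 (.void 4 ⟨⟨0, 0, 66667, 0, 0, 0, 0, 0, 0, ⟨0, 0⟩, 0⟩, 0, 33333⟩ 0 0) (.pos 5 .pm ⟨⟨0, 0, 1694326, 0, 0, 0, 0, 0, 0, ⟨0, 0⟩, 0⟩, 0, 0⟩ 0 0)) (.pos 3 .pm ⟨⟨0, 0, 0, 0, 0, 0, 0, 0, 0, ⟨0, 0⟩, 0⟩, 0, 0⟩ 0 0)) (.cut .d 5033166 (.cut .v 33554432 (.cut .d 2516583 (.cut .v 25165824 (.cut .d 1258291 (.cut .v 20971520 (.cut .d 629145 (.cut .d 314572 (.cut .v 18874368 (.cut .v 17825792 (.cut .s 10682368 (.pos 31 .pp ⟨⟨68738582, 0, 0, 0, 0, 0, 0, 0, 0, ⟨0, 0⟩, 0⟩, 2222981, 0⟩ 0 0) (.pos 31 .pp ⟨⟨78975466, 0, 0, 0, 0, 0, 0, 0, 0, ⟨0,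 0⟩, 0⟩, 2351661, 0⟩ 0 0)) (.pos 32 .pp ⟨⟨106556295, 0, 0, 0, 0, 0, 0, 0, 0, ⟨0, 0⟩, 0⟩, 0, 0⟩ 0 0)) (.pos 30 .pp ⟨⟨135468695, 0, 0, 0, 0, 0, 0, 0, 0, ⟨0, 0⟩, 0⟩, 0, 0⟩ 0 0)) (.pos 27 .pp ⟨⟨83353159, 0, 0, 0, 0, 0, 0, 0, 0, ⟨0, 0⟩, 0⟩, 0, 18812⟩ 0 0)) (.pos 27 .pp ⟨⟨0, 0, 0, 0, 0, 0, 0, 0, 0, ⟨0, 0⟩, 0⟩, 0, 728597⟩ 0 0)) (.cut .d 629145 (.cut .v 23068672 (.cut .d 314572 (.void 59 ⟨⟨0, 0, 0, 0, 0, 0, 0, 0, 0, ⟨0, 0⟩, 0⟩, 100000, 0⟩ 0 0) (.pos 59 .pp ⟨⟨143922392, 0, 0, 0, 0, 0, 0, 0, 0, ⟨0, 0⟩, 0⟩, 0, 0⟩ 0 0)) (.pos 60 .pp ⟨⟨0, 0, 0, 0, 0, 0, 0, 0, 0, ⟨0, 0⟩, 0⟩, 22150442, 0⟩ 0 0)) (.pos 28 .pp ⟨⟨0, 0, 0, 0, 0, 0, 150132, 0, 0, ⟨0,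 0⟩, 0⟩, 12998276, 0⟩ 0 0))) (.pos 25 .pp ⟨⟨0, 0, 0, 0, 0, 0, 0, 0, 0, ⟨0, 0⟩, 0⟩, 0, 786884⟩ 0 0)) (.cut .d 1258291 (.cut .d 629145 (.void 26 ⟨⟨0, 0, 0, 0, 0, 0, 0, 0, 0, ⟨0, 0⟩, 0⟩, 100000, 0⟩ 0 0) (.pos 26 .pp ⟨⟨0, 0, 0, 0, 0, 0, 0, 0, 0, ⟨0, 0⟩, 0⟩, 22143884, 0⟩ 0 0)) (.pos 26 .pp ⟨⟨0, 0, 0, 0, 0, 0, 0, 0, 0, ⟨0, 0⟩, 0⟩, 14424481, 0⟩ 0 0))) (.pos 24 .pp ⟨⟨0, 0, 0, 0, 0, 0, 2597672, 0, 0, ⟨0, 0⟩, 0⟩, 0, 0⟩ 0 0)) (.cut .d 2516583 (.cut .v 50331648 (.pos 96 .pp ⟨⟨0, 0, 0, 0, 0, 0, 0, 0, 0, ⟨0, 0⟩, 0⟩, 42516369, 0⟩ 0 0) (.void 97 ⟨⟨0, 0, 0, 0, 0, 0, 0, 0, 0, ⟨0, 0⟩, 0⟩, 100000, 0⟩ 0 0)) (.pos 95 .pp ⟨⟨0, 0, 0, 0, 0, 0, 0, 0, 0, ⟨0,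 0⟩, 0⟩, 21777065, 0⟩ 0 0))) (.pos 94 .pp ⟨⟨0, 0, 0, 0, 0, 0, 0, 0, 0, ⟨0, 0⟩, 0⟩, 0, 63805008⟩ 0 0)))),
    by decide +kernel⟩

def covers15 : cell.Covers Vale.Agent.P237.Petty.Cor.Grid.N13.table row15.1 :=
  ⟨(.cut .d 0 (.cut .v 16777216 (.cut .d (-8388608) (.void 1 ⟨⟨0, 0, 0, 0, 0, 100000, 0, 0, 0, ⟨0, 0⟩, 0⟩, 0, 0⟩ 0 0) (.cut .d (-4194304) (.void 1 ⟨⟨0, 0, 0, 0, 0, 100000, 0, 0, 0, ⟨0, 0⟩, 0⟩, 0, 0⟩ 0 0) (.cut .d (-2097152) (.void 1 ⟨⟨0, 0, 0, 0, 0, 100000, 0, 0, 0, ⟨0, 0⟩, 0⟩, 0, 0⟩ 0 0) (.cut .d (-1048576) (.void 1 ⟨⟨0, 0, 0, 0, 0, 100000, 0, 0, 0, ⟨0, 0⟩, 0⟩, 0, 0⟩ 0 0) (.cut .d (-524288) (.void 1 ⟨⟨0, 0, 0, 0, 0, 100000, 0,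 0, 0, ⟨0, 0⟩, 0⟩, 0, 0⟩ 0 0) (.cut .d (-262144) (.void 1 ⟨⟨0, 0, 0, 0, 0, 100000, 0, 0, 0, ⟨0, 0⟩, 0⟩, 0, 0⟩ 0 0) (.cut .d (-131072) (.void 1 ⟨⟨0, 0, 0, 0, 0, 100000, 0, 0, 0, ⟨0, 0⟩, 0⟩, 0, 0⟩ 0 0) (.cut .d (-65536) (.void 1 ⟨⟨0, 0, 0, 0, 0, 100000, 0, 0, 0, ⟨0, 0⟩, 0⟩, 0, 0⟩ 0 0) (.cut .d (-32768) (.void 1 ⟨⟨0, 0, 0, 0, 0, 100000, 0, 0, 0, ⟨0, 0⟩, 0⟩, 0, 0⟩ 0 0) (.cut .v 8388608 (.cut .v 4194304 (.void 4 ⟨⟨0, 0, 100000, 0, 0, 0, 0, 0, 0, ⟨0, 0⟩, 0⟩, 0, 0⟩ 0 0) (.pos 5 .mm ⟨⟨0, 0, 2582057, 0, 0, 59950786, 0, 0, 0, ⟨0, 0⟩, 0⟩, 0, 0⟩ 0 0)) (.cut .s 11108352 (.pos 3 .mm ⟨⟨0, 0, 0, 0, 0, 176143115, 0, 0, 0, ⟨0, 0⟩, 0⟩, 0, 0⟩ 0 0) (.pos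 3 .mm ⟨⟨0, 0, 0, 0, 0, 205973258, 0, 0, 0, ⟨0, 0⟩, 0⟩, 0, 0⟩ 0 0)))))))))))) (.cut .v 67108864 (.cut .v 33554432 (.cut .v 25165824 (.cut .d (-8388608) (.void 25 ⟨⟨0, 0, 0, 0, 0, 100000, 0, 0, 0, ⟨0, 0⟩, 0⟩, 0, 0⟩ 0 0) (.cut .v 20971520 (.cut .d (-4194304) (.void 27 ⟨⟨100000, 0, 0, 0, 0, 0, 0, 0, 0, ⟨0, 0⟩, 0⟩, 0, 0⟩ 0 0) (.cut .v 18874368 (.cut .d (-2097152) (.void 29 ⟨⟨100000, 0, 0, 0, 0, 0, 0, 0, 0, ⟨0, 0⟩, 0⟩, 0, 0⟩ 0 0) (.cut .v 17825792 (.cut .d (-1048576) (.void 31 ⟨⟨100000, 0, 0, 0, 0, 0, 0, 0, 0, ⟨0, 0⟩, 0⟩, 0, 0⟩ 0 0) (.cut .v 17301504 (.cut .d (-524288) (.void 33 ⟨⟨100000, 0, 0, 0, 0, 0, 0, 0, 0, ⟨0, 0⟩, 0⟩, 0, 0⟩ 0 0)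 (.cut .v 17039360 (.cut .d (-262144) (.void 35 ⟨⟨100000, 0, 0, 0, 0, 0, 0, 0, 0, ⟨0, 0⟩, 0⟩, 0, 0⟩ 0 0) (.cut .d (-131072) (.void 35 ⟨⟨100000, 0, 0, 0, 0, 0, 0, 0, 0, ⟨0, 0⟩, 0⟩, 0, 0⟩ 0 0) (.cut .d (-65536) (.void 35 ⟨⟨100000, 0, 0, 0, 0, 0, 0, 0, 0, ⟨0, 0⟩, 0⟩, 0, 0⟩ 0 0) (.cut .d (-32768) (.void 35 ⟨⟨0, 0, 0, 0, 0, 100000, 0, 0, 0, ⟨0, 0⟩, 0⟩, 0, 0⟩ 0 0) (.cut .s 11108352 (.cut .v 16908288 (.cut .s 10993664 (.cut .v 16842752 (.cut .s 10936320 (.cut .d (-16384) (.cut .d (-24576) (.pos 39 .mp ⟨⟨82619939, 0, 0, 0, 0, 50476672, 0, 0, 0, ⟨0, 0⟩, 0⟩, 0, 0⟩ 0 0) (.cut .v 16809984 (.pos 49 .mp ⟨⟨0, 0, 0, 0, 0, 181527854, 0, 0, 0, ⟨0,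 0⟩, 0⟩, 0, 0⟩ 0 0) (.cut .s 10907648 (.pos 50 .mp ⟨⟨86485182, 0, 0, 0, 0, 39783059, 0, 0, 0, ⟨0, 0⟩, 0⟩, 0, 0⟩ 0 0) (.cut .s 10921984 (.pos 50 .mp ⟨⟨87304285, 0, 0, 0, 0, 40440885, 0, 0, 0, ⟨0, 0⟩, 0⟩, 0, 0⟩ 0 0) (.pos 50 .mp ⟨⟨88131174, 0, 0, 0, 0, 40697391, 0, 0, 0, ⟨0, 0⟩, 0⟩, 0, 0⟩ 0 0))))) (.cut .l 141961 (.cut .v 16809984 (.cut .s 10907648 (.cut .d (-8192) (.pos 49 .mp ⟨⟨81765329, 0, 0, 0, 0, 47489519, 0, 0, 0, ⟨0, 0⟩, 0⟩, 0, 0⟩ 0 0) (.cut .v 16793600 (.cut .l 70980 (.cut .d (-4096) (.pos 51 .mp ⟨⟨81774895, 0, 0, 0, 0, 47276002, 0, 0, 0, ⟨0, 0⟩, 0⟩, 0, 0⟩ 0 0) (.cut .s 10893312 (.pos 51 .mp ⟨⟨83035023, 0, 0, 0, 0, 42735498,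 0, 0, 0, ⟨0, 0⟩, 0⟩, 0, 0⟩ 0 0) (.pos 51 .mp ⟨⟨83851630, 0, 0, 0, 0, 42960359, 0, 0, 0, ⟨0, 0⟩, 0⟩, 0, 0⟩ 0 0))) (.pos 51 .mp ⟨⟨81429593, 0, 0, 0, 0, 44377067, 0, 0, 0, ⟨0, 0⟩, 0⟩, 0, 0⟩ 0 0)) (.pos 52 .mp ⟨⟨93602954, 0, 0, 0, 0, 27860402, 0, 0, 0, ⟨0, 0⟩, 0⟩, 0, 0⟩ 0 0))) (.cut .d (-8192) (.pos 49 .mp ⟨⟨83314401, 0, 0, 0, 0, 48119660, 0, 0, 0, ⟨0, 0⟩, 0⟩, 0, 0⟩ 0 0) (.cut .v 16793600 (.cut .l 70980 (.cut .d (-4096) (.pos 51 .mp ⟨⟨83320839, 0, 0, 0, 0, 47907342, 0, 0, 0, ⟨0, 0⟩, 0⟩, 0, 0⟩ 0 0) (.cut .v 16785408 (.cut .s 10921984 (.pos 61 .mp ⟨⟨84204303, 0, 0, 0, 0, 43947124, 0, 0, 0, ⟨0, 0⟩, 0⟩, 0, 0⟩ 0 0) (.cut .s 10929152 (.pos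 61 .mp ⟨⟨86145935, 0, 0, 0, 0, 42262610, 0, 0, 0, ⟨0, 0⟩, 0⟩, 0, 0⟩ 0 0) (.pos 61 .mp ⟨⟨86486497, 0, 0, 0, 0, 42502605, 0, 0, 0, ⟨0, 0⟩, 0⟩, 0, 0⟩ 0 0))) (.pos 62 .mp ⟨⟨95143694, 0, 0, 0, 0, 28352003, 0, 0, 0, ⟨0, 0⟩, 0⟩, 0, 0⟩ 0 0))) (.pos 51 .mp ⟨⟨82966422, 0, 0, 0, 0, 45103045, 0, 0, 0, ⟨0, 0⟩, 0⟩, 0, 0⟩ 0 0)) (.pos 52 .mp ⟨⟨94948596, 0, 0, 0, 0, 28771148, 0, 0, 0, ⟨0, 0⟩, 0⟩, 0, 0⟩ 0 0)))) (.pos 50 .mp ⟨⟨116446615, 0, 0, 0, 0, 0, 0, 0, 0, ⟨0, 0⟩, 0⟩, 0, 0⟩ 0 0)) (.cut .s 10907648 (.pos 39 .mp ⟨⟨84364929, 0, 0, 0, 0, 40019901, 0, 0, 0, ⟨0, 0⟩, 0⟩, 0, 0⟩ 0 0) (.pos 39 .mp ⟨⟨85967815, 0, 0, 0, 0, 40642490, 0, 0, 0, ⟨0, 0⟩, 0⟩, 0,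 0⟩ 0 0)))) (.cut .d (-16384) (.cut .l 141961 (.void 39 ⟨⟨0, 0, 0, 0, 0, 100000, 0, 0, 0, ⟨0, 0⟩, 0⟩, 0, 0⟩ 0 0) (.cut .d (-24576) (.pos 39 .mp ⟨⟨85865223, 0, 0, 0, 0, 51828393, 0, 0, 0, ⟨0, 0⟩, 0⟩, 0, 0⟩ 0 0) (.cut .s 10964992 (.pos 39 .mp ⟨⟨84887904, 0, 0, 0, 0, 48458957, 0, 0, 0, ⟨0, 0⟩, 0⟩, 0, 0⟩ 0 0) (.cut .s 10979328 (.pos 39 .mp ⟨⟨86784220, 0, 0, 0, 0, 47573370, 0, 0, 0, ⟨0, 0⟩, 0⟩, 0, 0⟩ 0 0) (.pos 39 .mp ⟨⟨87550526, 0, 0, 0, 0, 48042262, 0, 0, 0, ⟨0, 0⟩, 0⟩, 0, 0⟩ 0 0))))) (.cut .l 141961 (.cut .v 16809984 (.cut .s 10964992 (.cut .d (-8192) (.cut .s 10950656 (.pos 49 .mp ⟨⟨84892598, 0, 0, 0, 0, 47581274, 0, 0, 0, ⟨0, 0⟩,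 0⟩, 0, 0⟩ 0 0) (.pos 49 .mp ⟨⟨85692738, 0, 0, 0, 0, 47913937, 0, 0, 0, ⟨0, 0⟩, 0⟩, 0, 0⟩ 0 0)) (.cut .l 70980 (.cut .v 16793600 (.cut .d (-4096) (.pos 51 .mp ⟨⟨84895818, 0, 0, 0, 0, 48578960, 0, 0, 0, ⟨0, 0⟩, 0⟩, 0, 0⟩ 0 0) (.cut .l 35490 (.cut .v 16785408 (.cut .d (-2048) (.pos 61 .mp ⟨⟨84897666, 0, 0, 0, 0, 48473026, 0, 0, 0, ⟨0, 0⟩, 0⟩, 0, 0⟩ 0 0) (.cut .l 17745 (.cut .d (-1024) (.pos 61 .mp ⟨⟨86638131, 0, 0, 0, 0, 44978652, 0, 0, 0, ⟨0, 0⟩, 0⟩, 0, 0⟩ 0 0) (.cut .v 16781312 (.cut .l 8872 (.cut .d (-512) (.pos 71 .mp ⟨⟨86591127, 0, 0, 0, 0, 45022714, 0, 0, 0, ⟨0, 0⟩, 0⟩, 0, 0⟩ 0 0) (.cut .s 10950656 (.pos 71 .mp ⟨⟨85785903, 0,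 0, 0, 0, 44528261, 0, 0, 0, ⟨0, 0⟩, 0⟩, 0, 0⟩ 0 0) (.cut .s 10957824 (.pos 71 .mp ⟨⟨86713650, 0, 0, 0, 0, 44483609, 0, 0, 0, ⟨0, 0⟩, 0⟩, 0, 0⟩ 0 0) (.pos 71 .mp ⟨⟨87096317, 0, 0, 0, 0, 44679870, 0, 0, 0, ⟨0, 0⟩, 0⟩, 0, 0⟩ 0 0)))) (.pos 71 .mp ⟨⟨86569175, 0, 0, 0, 0, 42407198, 0, 0, 0, ⟨0, 0⟩, 0⟩, 0, 0⟩ 0 0)) (.pos 72 .mp ⟨⟨114722732, 0, 0, 0, 0, 0, 0, 0, 0, ⟨0, 0⟩, 0⟩, 0, 0⟩ 0 0))) (.pos 61 .mp ⟨⟨86637671, 0, 0, 0, 0, 42332807, 0, 0, 0, ⟨0, 0⟩, 0⟩, 0, 0⟩ 0 0))) (.pos 62 .mp ⟨⟨119547143, 0, 0, 0, 0, 0, 0, 0, 0, ⟨0, 0⟩, 0⟩, 0, 0⟩ 0 0)) (.pos 51 .mp ⟨⟨86774746, 0, 0, 0, 0, 42184215, 0, 0, 0, ⟨0, 0⟩, 0⟩, 0, 0⟩ 0 0))) (.pos 52 .mp ⟨⟨119680938,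 0, 0, 0, 0, 0, 0, 0, 0, ⟨0, 0⟩, 0⟩, 0, 0⟩ 0 0)) (.pos 49 .mp ⟨⟨87049450, 0, 0, 0, 0, 41886372, 0, 0, 0, ⟨0, 0⟩, 0⟩, 0, 0⟩ 0 0))) (.cut .d (-8192) (.cut .s 10979328 (.pos 49 .mp ⟨⟨86500305, 0, 0, 0, 0, 48256835, 0, 0, 0, ⟨0, 0⟩, 0⟩, 0, 0⟩ 0 0) (.pos 49 .mp ⟨⟨87315348, 0, 0, 0, 0, 48610057, 0, 0, 0, ⟨0, 0⟩, 0⟩, 0, 0⟩ 0 0)) (.cut .l 70980 (.cut .v 16793600 (.cut .d (-4096) (.pos 51 .mp ⟨⟨86500219, 0, 0, 0, 0, 49291546, 0, 0, 0, ⟨0, 0⟩, 0⟩, 0, 0⟩ 0 0) (.cut .l 35490 (.cut .v 16785408 (.cut .d (-2048) (.pos 61 .mp ⟨⟨86500418, 0, 0, 0, 0, 49186264, 0, 0, 0, ⟨0, 0⟩, 0⟩, 0, 0⟩ 0 0) (.cut .l 17745 (.cut .v 16781312 (.cut .d (-1024) (.pos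 71 .mp ⟨⟨86500548, 0, 0, 0, 0, 49133571, 0, 0, 0, ⟨0, 0⟩, 0⟩, 0, 0⟩ 0 0) (.cut .l 8872 (.cut .d (-512) (.pos 71 .mp ⟨⟨88171606, 0, 0, 0, 0, 45791313, 0, 0, 0, ⟨0, 0⟩, 0⟩, 0, 0⟩ 0 0) (.cut .v 16779264 (.cut .l 4436 (.cut .s 10979328 (.cut .s 10972160 (.pos 107 .mp ⟨⟨87707113, 0, 0, 0, 0, 44452714, 0, 0, 0, ⟨0, 0⟩, 0⟩, 0, 0⟩ 0 0) (.pos 107 .mp ⟨⟨88087203, 0, 0, 0, 0, 44665754, 0, 0, 0, ⟨0, 0⟩, 0⟩, 0, 0⟩ 0 0)) (.cut .s 10986496 (.pos 107 .mp ⟨⟨88470363, 0, 0, 0, 0, 44879157, 0, 0, 0, ⟨0, 0⟩, 0⟩, 0, 0⟩ 0 0) (.pos 107 .mp ⟨⟨88856636, 0, 0, 0, 0, 45092862, 0, 0, 0, ⟨0, 0⟩, 0⟩, 0, 0⟩ 0 0))) (.pos 107 .mp ⟨⟨88166825, 0, 0, 0, 0, 43152173,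 0, 0, 0, ⟨0, 0⟩, 0⟩, 0, 0⟩ 0 0)) (.pos 108 .mp ⟨⟨116683729, 0, 0, 0, 0, 0, 0, 0, 0, ⟨0, 0⟩, 0⟩, 0, 0⟩ 0 0))) (.pos 71 .mp ⟨⟨88202051, 0, 0, 0, 0, 43113809, 0, 0, 0, ⟨0, 0⟩, 0⟩, 0, 0⟩ 0 0))) (.pos 72 .mp ⟨⟨121571813, 0, 0, 0, 0, 0, 0, 0, 0, ⟨0, 0⟩, 0⟩, 0, 0⟩ 0 0)) (.pos 61 .mp ⟨⟨88272592, 0, 0, 0, 0, 43036822, 0, 0, 0, ⟨0, 0⟩, 0⟩, 0, 0⟩ 0 0))) (.pos 62 .mp ⟨⟨121640343, 0, 0, 0, 0, 0, 0, 0, 0, ⟨0, 0⟩, 0⟩, 0, 0⟩ 0 0)) (.pos 51 .mp ⟨⟨88413760, 0, 0, 0, 0, 42883042, 0, 0, 0, ⟨0, 0⟩, 0⟩, 0, 0⟩ 0 0))) (.pos 52 .mp ⟨⟨121776492, 0, 0, 0, 0, 0, 0, 0, 0, ⟨0, 0⟩, 0⟩, 0, 0⟩ 0 0)) (.pos 49 .mp ⟨⟨88696663, 0, 0, 0, 0, 42574808, 0, 0, 0, ⟨0, 0⟩,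 0⟩, 0, 0⟩ 0 0)))) (.pos 50 .mp ⟨⟨120539180, 0, 0, 0, 0, 0, 0, 0, 0, ⟨0, 0⟩, 0⟩, 0, 0⟩ 0 0)) (.cut .s 10964992 (.pos 39 .mp ⟨⟨87600882, 0, 0, 0, 0, 41288289, 0, 0, 0, ⟨0, 0⟩, 0⟩, 0, 0⟩ 0 0) (.pos 39 .mp ⟨⟨89264535, 0, 0, 0, 0, 41955889, 0, 0, 0, ⟨0, 0⟩, 0⟩, 0, 0⟩ 0 0))))) (.pos 40 .mp ⟨⟨118177000, 0, 0, 0, 0, 0, 0, 0, 0, ⟨0, 0⟩, 0⟩, 0, 0⟩ 0 0)) (.cut .v 16842752 (.cut .s 11051008 (.cut .d (-16384) (.cut .d (-24576) (.pos 39 .mp ⟨⟨89215687, 0, 0, 0, 0, 53374041, 0, 0, 0, ⟨0, 0⟩, 0⟩, 0, 0⟩ 0 0) (.cut .l 141961 (.void 39 ⟨⟨0, 0, 0, 0, 0, 100000, 0, 0, 0, ⟨0, 0⟩, 0⟩, 0, 0⟩ 0 0) (.cut .v 16809984 (.pos 49 .mp ⟨⟨0, 0, 0, 0, 0, 193215356,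 0, 0, 0, ⟨0, 0⟩, 0⟩, 0, 0⟩ 0 0) (.cut .v 16826368 (.cut .s 11022336 (.pos 87 .mp ⟨⟨88324293, 0, 0, 0, 0, 49294684, 0, 0, 0, ⟨0, 0⟩, 0⟩, 0, 0⟩ 0 0) (.cut .s 11036672 (.pos 87 .mp ⟨⟨90002308, 0, 0, 0, 0, 49055394, 0, 0, 0, ⟨0, 0⟩, 0⟩, 0, 0⟩ 0 0) (.pos 87 .mp ⟨⟨90852900, 0, 0, 0, 0, 49450897, 0, 0, 0, ⟨0, 0⟩, 0⟩, 0, 0⟩ 0 0))) (.pos 88 .mp ⟨⟨111506494, 0, 0, 0, 0, 16461611, 0, 0, 0, ⟨0, 0⟩, 0⟩, 0, 0⟩ 0 0))))) (.cut .l 141961 (.cut .v 16809984 (.cut .s 11022336 (.cut .d (-8192) (.cut .s 11008000 (.pos 49 .mp ⟨⟨88137919, 0, 0, 0, 0, 48973690, 0, 0, 0, ⟨0, 0⟩, 0⟩, 0, 0⟩ 0 0) (.pos 49 .mp ⟨⟨88968066, 0, 0, 0, 0, 49347825, 0, 0, 0, ⟨0, 0⟩,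 0⟩, 0, 0⟩ 0 0)) (.cut .l 70980 (.cut .v 16793600 (.cut .s 11008000 (.cut .s 11000832 (.pos 51 .mp ⟨⟨89565039, 0, 0, 0, 0, 44839283, 0, 0, 0, ⟨0, 0⟩, 0⟩, 0, 0⟩ 0 0) (.pos 51 .mp ⟨⟨89939420, 0, 0, 0, 0, 45082519, 0, 0, 0, ⟨0, 0⟩, 0⟩, 0, 0⟩ 0 0)) (.cut .s 11015168 (.pos 51 .mp ⟨⟨90295596, 0, 0, 0, 0, 45363749, 0, 0, 0, ⟨0, 0⟩, 0⟩, 0, 0⟩ 0 0) (.pos 51 .mp ⟨⟨90631758, 0, 0, 0, 0, 45686229, 0, 0, 0, ⟨0, 0⟩, 0⟩, 0, 0⟩ 0 0))) (.pos 52 .mp ⟨⟨123916328, 0, 0, 0, 0, 0, 0, 0, 0, ⟨0, 0⟩, 0⟩, 0, 0⟩ 0 0)) (.pos 49 .mp ⟨⟨90374437, 0, 0, 0, 0, 43284202, 0, 0, 0, ⟨0, 0⟩, 0⟩, 0, 0⟩ 0 0))) (.cut .d (-8192) (.cut .s 11036672 (.pos 49 .mp ⟨⟨89805843,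 0, 0, 0, 0, 49732553, 0, 0, 0, ⟨0, 0⟩, 0⟩, 0, 0⟩ 0 0) (.pos 49 .mp ⟨⟨90651299, 0, 0, 0, 0, 50127963, 0, 0, 0, ⟨0, 0⟩, 0⟩, 0, 0⟩ 0 0)) (.cut .l 70980 (.cut .v 16793600 (.cut .s 11036672 (.cut .s 11029504 (.pos 51 .mp ⟨⟨90975462, 0, 0, 0, 0, 46001583, 0, 0, 0, ⟨0, 0⟩, 0⟩, 0, 0⟩ 0 0) (.pos 51 .mp ⟨⟨91326823, 0, 0, 0, 0, 46309616, 0, 0, 0, ⟨0, 0⟩, 0⟩, 0, 0⟩ 0 0)) (.cut .s 11043840 (.pos 51 .mp ⟨⟨91685955, 0, 0, 0, 0, 46610132, 0, 0, 0, ⟨0, 0⟩, 0⟩, 0, 0⟩ 0 0) (.pos 51 .mp ⟨⟨92052975, 0, 0, 0, 0, 46902937, 0, 0, 0, ⟨0, 0⟩, 0⟩, 0, 0⟩ 0 0))) (.pos 52 .mp ⟨⟨126099674, 0, 0, 0, 0, 0, 0, 0, 0, ⟨0, 0⟩, 0⟩, 0, 0⟩ 0 0)) (.pos 49 .mp ⟨⟨92083189,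 0, 0, 0, 0, 44013135, 0, 0, 0, ⟨0, 0⟩, 0⟩, 0, 0⟩ 0 0)))) (.pos 50 .mp ⟨⟨124810167, 0, 0, 0, 0, 0, 0, 0, 0, ⟨0, 0⟩, 0⟩, 0, 0⟩ 0 0)) (.cut .s 11022336 (.pos 39 .mp ⟨⟨90959185, 0, 0, 0, 0, 42643868, 0, 0, 0, ⟨0, 0⟩, 0⟩, 0, 0⟩ 0 0) (.cut .s 11036672 (.pos 39 .mp ⟨⟨91818266, 0, 0, 0, 0, 44312427, 0, 0, 0, ⟨0, 0⟩, 0⟩, 0, 0⟩ 0 0) (.pos 39 .mp ⟨⟨92685254, 0, 0, 0, 0, 44681216, 0, 0, 0, ⟨0, 0⟩, 0⟩, 0, 0⟩ 0 0))))) (.cut .d (-16384) (.cut .d (-24576) (.pos 39 .mp ⟨⟨92338142, 0, 0, 0, 0, 62986200, 0, 0, 0, ⟨0, 0⟩, 0⟩, 0, 0⟩ 0 0) (.cut .l 141961 (.void 39 ⟨⟨0, 0, 0, 0, 0, 100000, 0, 0, 0, ⟨0, 0⟩, 0⟩, 0, 0⟩ 0 0) (.cut .v 16809984 (.pos 49 .mp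 ⟨⟨0, 0, 0, 0, 0, 200931919, 0, 0, 0, ⟨0, 0⟩, 0⟩, 0, 0⟩ 0 0) (.cut .s 11079680 (.cut .s 11065344 (.pos 50 .mp ⟨⟨94757933, 0, 0, 0, 0, 44933142, 0, 0, 0, ⟨0, 0⟩, 0⟩, 0, 0⟩ 0 0) (.pos 50 .mp ⟨⟨95655103, 0, 0, 0, 0, 45291363, 0, 0, 0, ⟨0, 0⟩, 0⟩, 0, 0⟩ 0 0)) (.cut .s 11094016 (.pos 50 .mp ⟨⟨96560523, 0, 0, 0, 0, 45657220, 0, 0, 0, ⟨0, 0⟩, 0⟩, 0, 0⟩ 0 0) (.pos 50 .mp ⟨⟨97474252, 0, 0, 0, 0, 46030674, 0, 0, 0, ⟨0, 0⟩, 0⟩, 0, 0⟩ 0 0)))))) (.cut .l 141961 (.cut .v 16809984 (.cut .s 11079680 (.cut .d (-8192) (.cut .s 11065344 (.pos 49 .mp ⟨⟨91504489, 0, 0, 0, 0, 50534150, 0, 0, 0, ⟨0, 0⟩, 0⟩, 0, 0⟩ 0 0) (.pos 49 .mp ⟨⟨92365464, 0, 0, 0, 0,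 50951205, 0, 0, 0, ⟨0, 0⟩, 0⟩, 0, 0⟩ 0 0)) (.cut .l 70980 (.cut .v 16793600 (.cut .s 11065344 (.cut .s 11058176 (.pos 51 .mp ⟨⟨92427996, 0, 0, 0, 0, 47187834, 0, 0, 0, ⟨0, 0⟩, 0⟩, 0, 0⟩ 0 0) (.pos 51 .mp ⟨⟨92811134, 0, 0, 0, 0, 47464629, 0, 0, 0, ⟨0, 0⟩, 0⟩, 0, 0⟩ 0 0)) (.cut .s 11072512 (.pos 51 .mp ⟨⟨93202504, 0, 0, 0, 0, 47733125, 0, 0, 0, ⟨0, 0⟩, 0⟩, 0, 0⟩ 0 0) (.pos 51 .mp ⟨⟨93602220, 0, 0, 0, 0, 47993128, 0, 0, 0, ⟨0, 0⟩, 0⟩, 0, 0⟩ 0 0))) (.pos 52 .mp ⟨⟨128325772, 0, 0, 0, 0, 0, 0, 0, 0, ⟨0, 0⟩, 0⟩, 0, 0⟩ 0 0)) (.pos 49 .mp ⟨⟨93823340, 0, 0, 0, 0, 44760175, 0, 0, 0, ⟨0, 0⟩, 0⟩, 0, 0⟩ 0 0))) (.cut .d (-8192) (.cut .s 11094016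 (.pos 49 .mp ⟨⟨93234277, 0, 0, 0, 0, 51379224, 0, 0, 0, ⟨0, 0⟩, 0⟩, 0, 0⟩ 0 0) (.pos 49 .mp ⟨⟨94110984, 0, 0, 0, 0, 51818300, 0, 0, 0, ⟨0, 0⟩, 0⟩, 0, 0⟩ 0 0)) (.cut .l 70980 (.cut .v 16793600 (.cut .s 11094016 (.cut .s 11086848 (.pos 51 .mp ⟨⟨94010396, 0, 0, 0, 0, 48244442, 0, 0, 0, ⟨0, 0⟩, 0⟩, 0, 0⟩ 0 0) (.pos 51 .mp ⟨⟨94427147, 0, 0, 0, 0, 48486871, 0, 0, 0, ⟨0, 0⟩, 0⟩, 0, 0⟩ 0 0)) (.cut .s 11101184 (.pos 51 .mp ⟨⟨94852587, 0, 0, 0, 0, 48720220, 0, 0, 0, ⟨0, 0⟩, 0⟩, 0, 0⟩ 0 0) (.pos 51 .mp ⟨⟨95286829, 0, 0, 0, 0, 48944293, 0, 0, 0, ⟨0, 0⟩, 0⟩, 0, 0⟩ 0 0))) (.pos 52 .mp ⟨⟨130593873, 0, 0, 0, 0, 0, 0, 0, 0, ⟨0, 0⟩, 0⟩, 0, 0⟩ 0 0))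 (.pos 49 .mp ⟨⟨95595324, 0, 0, 0, 0, 45523880, 0, 0, 0, ⟨0, 0⟩, 0⟩, 0, 0⟩ 0 0)))) (.pos 50 .mp ⟨⟨129253429, 0, 0, 0, 0, 0, 0, 0, 0, ⟨0, 0⟩, 0⟩, 0, 0⟩ 0 0)) (.cut .d (-8192) (.cut .d (-12288) (.cut .l 212942 (.cut .s 11079680 (.pos 39 .mp ⟨⟨94443171, 0, 0, 0, 0, 44501339, 0, 0, 0, ⟨0, 0⟩, 0⟩, 0, 0⟩ 0 0) (.cut .s 11094016 (.pos 39 .mp ⟨⟨95334209, 0, 0, 0, 0, 46290397, 0, 0, 0, ⟨0, 0⟩, 0⟩, 0, 0⟩ 0 0) (.pos 39 .mp ⟨⟨96233375, 0, 0, 0, 0, 46674861, 0, 0, 0, ⟨0, 0⟩, 0⟩, 0, 0⟩ 0 0))) (.pos 39 .mp ⟨⟨93614895, 0, 0, 0, 0, 0, 0, 0, 0, ⟨0, 0⟩, 0⟩, 0, 0⟩ 0 0)) (.pos 39 .mp ⟨⟨95351304, 0, 0, 0, 0, 0, 0, 0, 0, ⟨0, 0⟩, 0⟩, 0, 0⟩ 0 0)) (.pos 39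 .mp ⟨⟨92155432, 0, 0, 0, 0, 0, 0, 0, 0, ⟨0, 0⟩, 0⟩, 0, 0⟩ 0 0))))) (.cut .s 11051008 (.pos 40 .mp ⟨⟨125370350, 0, 0, 0, 0, 0, 0, 0, 0, ⟨0, 0⟩, 0⟩, 0, 0⟩ 0 0) (.pos 40 .mp ⟨⟨129834132, 0, 0, 0, 0, 0, 0, 0, 0, ⟨0, 0⟩, 0⟩, 0, 0⟩ 0 0)))) (.pos 38 .mp ⟨⟨125660717, 0, 0, 0, 0, 0, 0, 0, 0, ⟨0, 0⟩, 0⟩, 0, 0⟩ 0 0)) (.cut .v 16908288 (.cut .s 11223040 (.cut .v 16842752 (.cut .s 11165696 (.cut .d (-16384) (.cut .d (-24576) (.void 39 ⟨⟨0, 0, 0, 0, 0, 100000, 0, 0, 0, ⟨0, 0⟩, 0⟩, 0, 0⟩ 0 0) (.cut .l 141961 (.void 39 ⟨⟨0, 0, 0, 0, 0, 100000, 0, 0, 0, ⟨0, 0⟩, 0⟩, 0, 0⟩ 0 0) (.cut .v 16809984 (.pos 49 .mp ⟨⟨0, 0, 0, 0, 0, 209066977, 0, 0, 0, ⟨0,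 0⟩, 0⟩, 0, 0⟩ 0 0) (.cut .l 212942 (.pos 50 .mp ⟨⟨97153410, 0, 0, 0, 0, 54329544, 0, 0, 0, ⟨0, 0⟩, 0⟩, 0, 0⟩ 0 0) (.cut .s 11137024 (.pos 50 .mp ⟨⟨98714127, 0, 0, 0, 0, 46249436, 0, 0, 0, ⟨0, 0⟩, 0⟩, 0, 0⟩ 0 0) (.pos 50 .mp ⟨⟨100589458, 0, 0, 0, 0, 47029586, 0, 0, 0, ⟨0, 0⟩, 0⟩, 0, 0⟩ 0 0)))))) (.cut .s 11137024 (.cut .l 141961 (.cut .v 16809984 (.cut .d (-8192) (.cut .s 11122688 (.pos 49 .mp ⟨⟨94995637, 0, 0, 0, 0, 52268530, 0, 0, 0, ⟨0, 0⟩, 0⟩, 0, 0⟩ 0 0) (.pos 49 .mp ⟨⟨95888293, 0, 0, 0, 0, 52730011, 0, 0, 0, ⟨0, 0⟩, 0⟩, 0, 0⟩ 0 0)) (.cut .l 70980 (.cut .v 16793600 (.cut .s 11122688 (.cut .s 11115520 (.pos 51 .mp ⟨⟨95729989, 0,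 0, 0, 0, 49158894, 0, 0, 0, ⟨0, 0⟩, 0⟩, 0, 0⟩ 0 0) (.pos 51 .mp ⟨⟨96182179, 0, 0, 0, 0, 49363827, 0, 0, 0, ⟨0, 0⟩, 0⟩, 0, 0⟩ 0 0)) (.cut .s 11129856 (.pos 51 .mp ⟨⟨96643514, 0, 0, 0, 0, 49558896, 0, 0, 0, ⟨0, 0⟩, 0⟩, 0, 0⟩ 0 0) (.pos 51 .mp ⟨⟨97114107, 0, 0, 0, 0, 49743906, 0, 0, 0, ⟨0, 0⟩, 0⟩, 0, 0⟩ 0 0))) (.pos 52 .mp ⟨⟨132903242, 0, 0, 0, 0, 0, 0, 0, 0, ⟨0, 0⟩, 0⟩, 0, 0⟩ 0 0)) (.pos 49 .mp ⟨⟨97399582, 0, 0, 0, 0, 46302797, 0, 0, 0, ⟨0, 0⟩, 0⟩, 0, 0⟩ 0 0))) (.pos 50 .mp ⟨⟨133200748, 0, 0, 0, 0, 0, 0, 0, 0, ⟨0, 0⟩, 0⟩, 0, 0⟩ 0 0)) (.cut .s 11122688 (.pos 39 .mp ⟨⟨97140723, 0, 0, 0, 0, 46587154, 0, 0, 0, ⟨0, 0⟩, 0⟩, 0, 0⟩ 0 0) (.pos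 39 .mp ⟨⟨98056312, 0, 0, 0, 0, 46979457, 0, 0, 0, ⟨0, 0⟩, 0⟩, 0, 0⟩ 0 0))) (.cut .l 141961 (.cut .v 16809984 (.cut .d (-8192) (.cut .s 11151360 (.pos 49 .mp ⟨⟨96789007, 0, 0, 0, 0, 53202840, 0, 0, 0, ⟨0, 0⟩, 0⟩, 0, 0⟩ 0 0) (.pos 49 .mp ⟨⟨97697834, 0, 0, 0, 0, 53687117, 0, 0, 0, ⟨0, 0⟩, 0⟩, 0, 0⟩ 0 0)) (.cut .l 70980 (.cut .v 16793600 (.cut .s 11151360 (.cut .s 11144192 (.pos 51 .mp ⟨⟨97594072, 0, 0, 0, 0, 49918659, 0, 0, 0, ⟨0, 0⟩, 0⟩, 0, 0⟩ 0 0) (.pos 51 .mp ⟨⟨98083523, 0, 0, 0, 0, 50082960, 0, 0, 0, ⟨0, 0⟩, 0⟩, 0, 0⟩ 0 0)) (.cut .s 11158528 (.pos 51 .mp ⟨⟨98582571, 0, 0, 0, 0, 50236613, 0, 0, 0, ⟨0, 0⟩, 0⟩, 0, 0⟩ 0 0) (.pos 51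 .mp ⟨⟨99091333, 0, 0, 0, 0, 50379420, 0, 0, 0, ⟨0, 0⟩, 0⟩, 0, 0⟩ 0 0))) (.pos 52 .mp ⟨⟨135253155, 0, 0, 0, 0, 0, 0, 0, 0, ⟨0, 0⟩, 0⟩, 0, 0⟩ 0 0)) (.pos 49 .mp ⟨⟨99236565, 0, 0, 0, 0, 47095456, 0, 0, 0, ⟨0, 0⟩, 0⟩, 0, 0⟩ 0 0))) (.pos 50 .mp ⟨⟨135556141, 0, 0, 0, 0, 0, 0, 0, 0, ⟨0, 0⟩, 0⟩, 0, 0⟩ 0 0)) (.cut .s 11151360 (.pos 39 .mp ⟨⟨98980198, 0, 0, 0, 0, 47375033, 0, 0, 0, ⟨0, 0⟩, 0⟩, 0, 0⟩ 0 0) (.pos 39 .mp ⟨⟨99912440, 0, 0, 0, 0, 47773696, 0, 0, 0, ⟨0, 0⟩, 0⟩, 0, 0⟩ 0 0))))) (.cut .d (-16384) (.cut .d (-24576) (.void 39 ⟨⟨0, 0, 0, 0, 0, 100000, 0, 0, 0, ⟨0, 0⟩, 0⟩, 0, 0⟩ 0 0) (.cut .l 141961 (.void 39 ⟨⟨0, 0, 0, 0, 0, 100000, 0,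 0, 0, ⟨0, 0⟩, 0⟩, 0, 0⟩ 0 0) (.cut .v 16809984 (.pos 49 .mp ⟨⟨0, 0, 0, 0, 0, 217634419, 0, 0, 0, ⟨0, 0⟩, 0⟩, 0, 0⟩ 0 0) (.cut .l 212942 (.pos 50 .mp ⟨⟨100988812, 0, 0, 0, 0, 56054394, 0, 0, 0, ⟨0, 0⟩, 0⟩, 0, 0⟩ 0 0) (.cut .s 11194368 (.pos 50 .mp ⟨⟨102498921, 0, 0, 0, 0, 47833441, 0, 0, 0, ⟨0, 0⟩, 0⟩, 0, 0⟩ 0 0) (.pos 50 .mp ⟨⟨104442998, 0, 0, 0, 0, 48660226, 0, 0, 0, ⟨0, 0⟩, 0⟩, 0, 0⟩ 0 0)))))) (.cut .s 11194368 (.cut .l 141961 (.cut .v 16809984 (.cut .d (-8192) (.cut .s 11180032 (.pos 49 .mp ⟨⟨98614832, 0, 0, 0, 0, 54182940, 0, 0, 0, ⟨0, 0⟩, 0⟩, 0, 0⟩ 0 0) (.pos 49 .mp ⟨⟨99540058, 0, 0, 0, 0, 54690411, 0, 0, 0, ⟨0, 0⟩, 0⟩, 0, 0⟩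 0 0)) (.cut .l 70980 (.cut .v 16793600 (.cut .s 11180032 (.cut .s 11172864 (.pos 51 .mp ⟨⟨99609919, 0, 0, 0, 0, 50511184, 0, 0, 0, ⟨0, 0⟩, 0⟩, 0, 0⟩ 0 0) (.pos 51 .mp ⟨⟨100138444, 0, 0, 0, 0, 50631710, 0, 0, 0, ⟨0, 0⟩, 0⟩, 0, 0⟩ 0 0)) (.cut .s 11187200 (.pos 51 .mp ⟨⟨100677022, 0, 0, 0, 0, 50740800, 0, 0, 0, ⟨0, 0⟩, 0⟩, 0, 0⟩ 0 0) (.pos 51 .mp ⟨⟨101225764, 0, 0, 0, 0, 50838256, 0, 0, 0, ⟨0, 0⟩, 0⟩, 0, 0⟩ 0 0))) (.pos 52 .mp ⟨⟨137642902, 0, 0, 0, 0, 0, 0, 0, 0, ⟨0, 0⟩, 0⟩, 0, 0⟩ 0 0)) (.pos 49 .mp ⟨⟨101106733, 0, 0, 0, 0, 47900379, 0, 0, 0, ⟨0, 0⟩, 0⟩, 0, 0⟩ 0 0))) (.pos 50 .mp ⟨⟨137951488, 0, 0, 0, 0, 0, 0, 0, 0, ⟨0, 0⟩, 0⟩, 0, 0⟩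 0 0)) (.cut .s 11180032 (.pos 39 .mp ⟨⟨100853096, 0, 0, 0, 0, 48175259, 0, 0, 0, ⟨0, 0⟩, 0⟩, 0, 0⟩ 0 0) (.pos 39 .mp ⟨⟨101802225, 0, 0, 0, 0, 48579534, 0, 0, 0, ⟨0, 0⟩, 0⟩, 0, 0⟩ 0 0))) (.cut .l 141961 (.cut .v 16809984 (.cut .d (-8192) (.cut .s 11208704 (.pos 49 .mp ⟨⟨100473570, 0, 0, 0, 0, 55209632, 0, 0, 0, ⟨0, 0⟩, 0⟩, 0, 0⟩ 0 0) (.pos 49 .mp ⟨⟨101415427, 0, 0, 0, 0, 55740704, 0, 0, 0, ⟨0, 0⟩, 0⟩, 0, 0⟩ 0 0)) (.cut .l 70980 (.cut .v 16793600 (.cut .d (-4096) (.pos 51 .mp ⟨⟨100443672, 0, 0, 0, 0, 56554506, 0, 0, 0, ⟨0, 0⟩, 0⟩, 0, 0⟩ 0 0) (.cut .l 35490 (.cut .v 16785408 (.cut .d (-2048) (.pos 61 .mp ⟨⟨100429004, 0, 0, 0, 0, 56455559,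 0, 0, 0, ⟨0, 0⟩, 0⟩, 0, 0⟩ 0 0) (.cut .l 17745 (.cut .v 16781312 (.cut .d (-1024) (.pos 71 .mp ⟨⟨100421705, 0, 0, 0, 0, 56406027, 0, 0, 0, ⟨0, 0⟩, 0⟩, 0, 0⟩ 0 0) (.cut .l 8872 (.cut .v 16779264 (.cut .d (-512) (.pos 107 .mp ⟨⟨100418113, 0, 0, 0, 0, 56381336, 0, 0, 0, ⟨0, 0⟩, 0⟩, 0, 0⟩ 0 0) (.cut .l 4436 (.cut .s 11208704 (.cut .s 11201536 (.pos 107 .mp ⟨⟨101612941, 0, 0, 0, 0, 51131941, 0, 0, 0, ⟨0, 0⟩, 0⟩, 0, 0⟩ 0 0) (.pos 107 .mp ⟨⟨102113589, 0, 0, 0, 0, 51324178, 0, 0, 0, ⟨0, 0⟩, 0⟩, 0, 0⟩ 0 0)) (.cut .s 11215872 (.pos 107 .mp ⟨⟨102618785, 0, 0, 0, 0, 51514606, 0, 0, 0, ⟨0, 0⟩, 0⟩, 0, 0⟩ 0 0) (.pos 107 .mp ⟨⟨103128580, 0, 0, 0,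 0, 51703151, 0, 0, 0, ⟨0, 0⟩, 0⟩, 0, 0⟩ 0 0))) (.pos 107 .mp ⟨⟨102342719, 0, 0, 0, 0, 49469627, 0, 0, 0, ⟨0, 0⟩, 0⟩, 0, 0⟩ 0 0))) (.pos 108 .mp ⟨⟨139793935, 0, 0, 0, 0, 0, 0, 0, 0, ⟨0, 0⟩, 0⟩, 0, 0⟩ 0 0)) (.pos 71 .mp ⟨⟨102387126, 0, 0, 0, 0, 49419542, 0, 0, 0, ⟨0, 0⟩, 0⟩, 0, 0⟩ 0 0))) (.pos 72 .mp ⟨⟨139835292, 0, 0, 0, 0, 0, 0, 0, 0, ⟨0, 0⟩, 0⟩, 0, 0⟩ 0 0)) (.pos 61 .mp ⟨⟨102476047, 0, 0, 0, 0, 49319068, 0, 0, 0, ⟨0, 0⟩, 0⟩, 0, 0⟩ 0 0))) (.pos 62 .mp ⟨⟨139914467, 0, 0, 0, 0, 0, 0, 0, 0, ⟨0, 0⟩, 0⟩, 0, 0⟩ 0 0)) (.pos 51 .mp ⟨⟨102653992, 0, 0, 0, 0, 49118339, 0, 0, 0, ⟨0, 0⟩, 0⟩, 0, 0⟩ 0 0))) (.pos 52 .mp ⟨⟨140071780, 0, 0, 0, 0,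 0, 0, 0, 0, ⟨0, 0⟩, 0⟩, 0, 0⟩ 0 0)) (.pos 49 .mp ⟨⟨103010555, 0, 0, 0, 0, 48716069, 0, 0, 0, ⟨0, 0⟩, 0⟩, 0, 0⟩ 0 0))) (.pos 50 .mp ⟨⟨140386087, 0, 0, 0, 0, 0, 0, 0, 0, ⟨0, 0⟩, 0⟩, 0, 0⟩ 0 0)) (.cut .s 11208704 (.pos 39 .mp ⟨⟨102759887, 0, 0, 0, 0, 48986330, 0, 0, 0, ⟨0, 0⟩, 0⟩, 0, 0⟩ 0 0) (.pos 39 .mp ⟨⟨103726143, 0, 0, 0, 0, 49395458, 0, 0, 0, ⟨0, 0⟩, 0⟩, 0, 0⟩ 0 0)))))) (.cut .s 11165696 (.pos 40 .mp ⟨⟨134465249, 0, 0, 0, 0, 0, 0, 0, 0, ⟨0, 0⟩, 0⟩, 0, 0⟩ 0 0) (.pos 40 .mp ⟨⟨139257901, 0, 0, 0, 0, 0, 0, 0, 0, ⟨0, 0⟩, 0⟩, 0, 0⟩ 0 0))) (.cut .s 11280384 (.cut .v 16842752 (.cut .d (-16384) (.cut .l 141961 (.void 39 ⟨⟨0, 0, 0, 0, 0,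 100000, 0, 0, 0, ⟨0, 0⟩, 0⟩, 0, 0⟩ 0 0) (.cut .s 11251712 (.cut .s 11237376 (.pos 39 .mp ⟨⟨102522922, 0, 0, 0, 0, 55902023, 0, 0, 0, ⟨0, 0⟩, 0⟩, 0, 0⟩ 0 0) (.pos 39 .mp ⟨⟨103550220, 0, 0, 0, 0, 56291149, 0, 0, 0, ⟨0, 0⟩, 0⟩, 0, 0⟩ 0 0)) (.pos 39 .mp ⟨⟨104370465, 0, 0, 0, 0, 58556010, 0, 0, 0, ⟨0, 0⟩, 0⟩, 0, 0⟩ 0 0))) (.cut .s 11251712 (.cut .l 141961 (.cut .v 16809984 (.cut .d (-8192) (.pos 49 .mp ⟨⟨102365687, 0, 0, 0, 0, 57864217, 0, 0, 0, ⟨0, 0⟩, 0⟩, 0, 0⟩ 0 0) (.cut .l 70980 (.cut .v 16793600 (.cut .d (-4096) (.pos 51 .mp ⟨⟨102331624, 0, 0, 0, 0, 57669181, 0, 0, 0, ⟨0, 0⟩, 0⟩, 0, 0⟩ 0 0) (.cut .l 35490 (.cut .v 16785408 (.cut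 .d (-2048) (.pos 61 .mp ⟨⟨102314878, 0, 0, 0, 0, 57571175, 0, 0, 0, ⟨0, 0⟩, 0⟩, 0, 0⟩ 0 0) (.cut .l 17745 (.cut .d (-1024) (.pos 61 .mp ⟨⟨104337622, 0, 0, 0, 0, 53442062, 0, 0, 0, ⟨0, 0⟩, 0⟩, 0, 0⟩ 0 0) (.cut .v 16781312 (.cut .l 8872 (.cut .d (-512) (.pos 71 .mp ⟨⟨104328403, 0, 0, 0, 0, 53378764, 0, 0, 0, ⟨0, 0⟩, 0⟩, 0, 0⟩ 0 0) (.cut .v 16779264 (.cut .l 4436 (.cut .s 11237376 (.cut .s 11230208 (.pos 107 .mp ⟨⟨103643025, 0, 0, 0, 0, 51889734, 0, 0, 0, ⟨0, 0⟩, 0⟩, 0, 0⟩ 0 0) (.pos 107 .mp ⟨⟨104162170, 0, 0, 0, 0, 52074281, 0, 0, 0, ⟨0, 0⟩, 0⟩, 0, 0⟩ 0 0)) (.cut .s 11244544 (.pos 107 .mp ⟨⟨104686066, 0, 0, 0, 0, 52256713, 0, 0, 0,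 ⟨0, 0⟩, 0⟩, 0, 0⟩ 0 0) (.pos 107 .mp ⟨⟨105214764, 0, 0, 0, 0, 52436953, 0, 0, 0, ⟨0, 0⟩, 0⟩, 0, 0⟩ 0 0))) (.pos 107 .mp ⟨⟨104261449, 0, 0, 0, 0, 50319342, 0, 0, 0, ⟨0, 0⟩, 0⟩, 0, 0⟩ 0 0)) (.pos 108 .mp ⟨⟨137003707, 0, 0, 0, 0, 0, 0, 0, 0, ⟨0, 0⟩, 0⟩, 0, 0⟩ 0 0))) (.pos 71 .mp ⟨⟨104307135, 0, 0, 0, 0, 50267610, 0, 0, 0, ⟨0, 0⟩, 0⟩, 0, 0⟩ 0 0)) (.pos 72 .mp ⟨⟨137025819, 0, 0, 0, 0, 0, 0, 0, 0, ⟨0, 0⟩, 0⟩, 0, 0⟩ 0 0))) (.pos 61 .mp ⟨⟨104398617, 0, 0, 0, 0, 50163835, 0, 0, 0, ⟨0, 0⟩, 0⟩, 0, 0⟩ 0 0))) (.pos 62 .mp ⟨⟨142378866, 0, 0, 0, 0, 0, 0, 0, 0, ⟨0, 0⟩, 0⟩, 0, 0⟩ 0 0)) (.pos 51 .mp ⟨⟨104581686, 0, 0, 0, 0, 49956507, 0, 0, 0, ⟨0,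 0⟩, 0⟩, 0, 0⟩ 0 0))) (.pos 52 .mp ⟨⟨142539100, 0, 0, 0, 0, 0, 0, 0, 0, ⟨0, 0⟩, 0⟩, 0, 0⟩ 0 0)) (.pos 49 .mp ⟨⟨104948512, 0, 0, 0, 0, 49541019, 0, 0, 0, ⟨0, 0⟩, 0⟩, 0, 0⟩ 0 0))) (.pos 50 .mp ⟨⟨142859247, 0, 0, 0, 0, 0, 0, 0, 0, ⟨0, 0⟩, 0⟩, 0, 0⟩ 0 0)) (.pos 39 .mp ⟨⟨105684681, 0, 0, 0, 0, 48707006, 0, 0, 0, ⟨0, 0⟩, 0⟩, 0, 0⟩ 0 0)) (.cut .l 141961 (.cut .v 16809984 (.cut .d (-8192) (.pos 49 .mp ⟨⟨104291659, 0, 0, 0, 0, 59025577, 0, 0, 0, ⟨0, 0⟩, 0⟩, 0, 0⟩ 0 0) (.cut .l 70980 (.cut .v 16793600 (.cut .d (-4096) (.pos 51 .mp ⟨⟨104253327, 0, 0, 0, 0, 58832513, 0, 0, 0, ⟨0, 0⟩, 0⟩, 0, 0⟩ 0 0) (.cut .l 35490 (.cut .d (-2048) (.pos 51 .mp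 ⟨⟨106434941, 0, 0, 0, 0, 54356060, 0, 0, 0, ⟨0, 0⟩, 0⟩, 0, 0⟩ 0 0) (.cut .v 16785408 (.cut .l 17745 (.cut .d (-1024) (.pos 61 .mp ⟨⟨106397794, 0, 0, 0, 0, 54270383, 0, 0, 0, ⟨0, 0⟩, 0⟩, 0, 0⟩ 0 0) (.cut .v 16781312 (.cut .l 8872 (.cut .d (-512) (.pos 71 .mp ⟨⟨106282511, 0, 0, 0, 0, 54461936, 0, 0, 0, ⟨0, 0⟩, 0⟩, 0, 0⟩ 0 0) (.cut .v 16779264 (.cut .l 4436 (.cut .s 11266048 (.cut .s 11258880 (.pos 107 .mp ⟨⟨105748316, 0, 0, 0, 0, 52614923, 0, 0, 0, ⟨0, 0⟩, 0⟩, 0, 0⟩ 0 0) (.pos 107 .mp ⟨⟨106286772, 0, 0, 0, 0, 52790544, 0, 0, 0, ⟨0, 0⟩, 0⟩, 0, 0⟩ 0 0)) (.cut .s 11273216 (.pos 107 .mp ⟨⟨106830185, 0, 0, 0, 0, 52963737, 0, 0, 0, ⟨0, 0⟩,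 0⟩, 0, 0⟩ 0 0) (.pos 107 .mp ⟨⟨107378607, 0, 0, 0, 0, 53134422, 0, 0, 0, ⟨0, 0⟩, 0⟩, 0, 0⟩ 0 0))) (.pos 107 .mp ⟨⟨106214343, 0, 0, 0, 0, 51177445, 0, 0, 0, ⟨0, 0⟩, 0⟩, 0, 0⟩ 0 0)) (.pos 108 .mp ⟨⟨139553767, 0, 0, 0, 0, 0, 0, 0, 0, ⟨0, 0⟩, 0⟩, 0, 0⟩ 0 0))) (.pos 71 .mp ⟨⟨106261340, 0, 0, 0, 0, 51124022, 0, 0, 0, ⟨0, 0⟩, 0⟩, 0, 0⟩ 0 0)) (.pos 72 .mp ⟨⟨139576310, 0, 0, 0, 0, 0, 0, 0, 0, ⟨0, 0⟩, 0⟩, 0, 0⟩ 0 0))) (.pos 61 .mp ⟨⟨106355443, 0, 0, 0, 0, 51016859, 0, 0, 0, ⟨0, 0⟩, 0⟩, 0, 0⟩ 0 0)) (.pos 62 .mp ⟨⟨139617279, 0, 0, 0, 0, 0, 0, 0, 0, ⟨0, 0⟩, 0⟩, 0, 0⟩ 0 0))) (.pos 51 .mp ⟨⟨106543758, 0, 0, 0, 0, 50802758, 0, 0, 0, ⟨0, 0⟩, 0⟩,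 0, 0⟩ 0 0))) (.pos 52 .mp ⟨⟨145044184, 0, 0, 0, 0, 0, 0, 0, 0, ⟨0, 0⟩, 0⟩, 0, 0⟩ 0 0)) (.pos 49 .mp ⟨⟨106921092, 0, 0, 0, 0, 50373703, 0, 0, 0, ⟨0, 0⟩, 0⟩, 0, 0⟩ 0 0))) (.pos 50 .mp ⟨⟨145370285, 0, 0, 0, 0, 0, 0, 0, 0, ⟨0, 0⟩, 0⟩, 0, 0⟩ 0 0)) (.pos 39 .mp ⟨⟨107678335, 0, 0, 0, 0, 49512482, 0, 0, 0, ⟨0, 0⟩, 0⟩, 0, 0⟩ 0 0)))) (.pos 40 .mp ⟨⟨144206475, 0, 0, 0, 0, 0, 0, 0, 0, ⟨0, 0⟩, 0⟩, 0, 0⟩ 0 0)) (.cut .v 16842752 (.cut .d (-16384) (.cut .s 11309056 (.pos 39 .mp ⟨⟨106339562, 0, 0, 0, 0, 60614803, 0, 0, 0, ⟨0, 0⟩, 0⟩, 0, 0⟩ 0 0) (.pos 39 .mp ⟨⟨108343707, 0, 0, 0, 0, 61871604, 0, 0, 0, ⟨0, 0⟩, 0⟩, 0, 0⟩ 0 0)) (.cut .s 11309056 (.cut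 .l 141961 (.cut .v 16809984 (.cut .d (-8192) (.pos 49 .mp ⟨⟨106251970, 0, 0, 0, 0, 60236377, 0, 0, 0, ⟨0, 0⟩, 0⟩, 0, 0⟩ 0 0) (.cut .l 70980 (.cut .d (-4096) (.pos 49 .mp ⟨⟨106420758, 0, 0, 0, 0, 60713020, 0, 0, 0, ⟨0, 0⟩, 0⟩, 0, 0⟩ 0 0) (.cut .v 16793600 (.cut .l 35490 (.cut .d (-2048) (.pos 51 .mp ⟨⟨106293816, 0, 0, 0, 0, 60661829, 0, 0, 0, ⟨0, 0⟩, 0⟩, 0, 0⟩ 0 0) (.cut .s 11294720 (.cut .s 11287552 (.pos 51 .mp ⟨⟨107616899, 0, 0, 0, 0, 53919915, 0, 0, 0, ⟨0, 0⟩, 0⟩, 0, 0⟩ 0 0) (.pos 51 .mp ⟨⟨108158378, 0, 0, 0, 0, 54118575, 0, 0, 0, ⟨0, 0⟩, 0⟩, 0, 0⟩ 0 0)) (.pos 51 .mp ⟨⟨108624992, 0, 0, 0, 0, 54680425, 0, 0, 0, ⟨0, 0⟩, 0⟩, 0, 0⟩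 0 0))) (.pos 51 .mp ⟨⟨108540706, 0, 0, 0, 0, 51655561, 0, 0, 0, ⟨0, 0⟩, 0⟩, 0, 0⟩ 0 0)) (.pos 52 .mp ⟨⟨142312167, 0, 0, 0, 0, 0, 0, 0, 0, ⟨0, 0⟩, 0⟩, 0, 0⟩ 0 0))) (.pos 49 .mp ⟨⟨108928796, 0, 0, 0, 0, 51212583, 0, 0, 0, ⟨0, 0⟩, 0⟩, 0, 0⟩ 0 0))) (.pos 50 .mp ⟨⟨147918533, 0, 0, 0, 0, 0, 0, 0, 0, ⟨0, 0⟩, 0⟩, 0, 0⟩ 0 0)) (.pos 39 .mp ⟨⟨109707612, 0, 0, 0, 0, 50323440, 0, 0, 0, ⟨0, 0⟩, 0⟩, 0, 0⟩ 0 0)) (.cut .l 141961 (.cut .d (-8192) (.pos 39 .mp ⟨⟨108678324, 0, 0, 0, 0, 62086829, 0, 0, 0, ⟨0, 0⟩, 0⟩, 0, 0⟩ 0 0) (.cut .v 16809984 (.cut .v 16793600 (.cut .l 70980 (.cut .d (-4096) (.pos 51 .mp ⟨⟨108199941, 0, 0, 0, 0, 61308583, 0, 0, 0,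 ⟨0, 0⟩, 0⟩, 0, 0⟩ 0 0) (.cut .s 11323392 (.pos 51 .mp ⟨⟨109896617, 0, 0, 0, 0, 54821856, 0, 0, 0, ⟨0, 0⟩, 0⟩, 0, 0⟩ 0 0) (.pos 51 .mp ⟨⟨110888458, 0, 0, 0, 0, 55403967, 0, 0, 0, ⟨0, 0⟩, 0⟩, 0, 0⟩ 0 0))) (.pos 51 .mp ⟨⟨107686924, 0, 0, 0, 0, 57310296, 0, 0, 0, ⟨0, 0⟩, 0⟩, 0, 0⟩ 0 0)) (.pos 52 .mp ⟨⟨124798581, 0, 0, 0, 0, 33248429, 0, 0, 0, ⟨0, 0⟩, 0⟩, 0, 0⟩ 0 0)) (.pos 50 .mp ⟨⟨145155452, 0, 0, 0, 0, 0, 0, 0, 0, ⟨0, 0⟩, 0⟩, 0, 0⟩ 0 0))) (.pos 39 .mp ⟨⟨111773031, 0, 0, 0, 0, 51138308, 0, 0, 0, ⟨0, 0⟩, 0⟩, 0, 0⟩ 0 0)))) (.pos 40 .mp ⟨⟨149305532, 0, 0, 0, 0, 0, 0, 0, 0, ⟨0, 0⟩, 0⟩, 0, 0⟩ 0 0)))) (.pos 38 .mp ⟨⟨144743103, 0, 0, 0, 0,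 0, 0, 0, 0, ⟨0, 0⟩, 0⟩, 0, 0⟩ 0 0))))))) (.pos 36 .mp ⟨⟨164588566, 0, 0, 0, 0, 0, 0, 0, 0, ⟨0, 0⟩, 0⟩, 0, 0⟩ 0 0))) (.void 34 ⟨⟨100000, 0, 0, 0, 0, 0, 0, 0, 0, ⟨0, 0⟩, 0⟩, 0, 0⟩ 0 0))) (.void 32 ⟨⟨100000, 0, 0, 0, 0, 0, 0, 0, 0, ⟨0, 0⟩, 0⟩, 0, 0⟩ 0 0))) (.void 30 ⟨⟨100000, 0, 0, 0, 0, 0, 0, 0, 0, ⟨0, 0⟩, 0⟩, 0, 0⟩ 0 0))) (.void 28 ⟨⟨100000, 0, 0, 0, 0, 0, 0, 0, 0, ⟨0, 0⟩, 0⟩, 0, 0⟩ 0 0))) (.void 26 ⟨⟨100000, 0, 0, 0, 0, 0, 0, 0, 0, ⟨0, 0⟩, 0⟩, 0, 0⟩ 0 0)) (.void 95 ⟨⟨100000, 0, 0, 0, 0, 0, 0, 0, 0, ⟨0, 0⟩, 0⟩, 0, 0⟩ 0 0)) (.void 106 ⟨⟨100000, 0, 0, 0, 0, 0, 0, 0, 0, ⟨0, 0⟩, 0⟩, 0, 0⟩ 0 0))) (.cut .v 16777216 (.cut .v 8388608 (.cut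 .v 4194304 (.void 4 ⟨⟨0, 0, 66667, 0, 0, 0, 0, 0, 0, ⟨0, 0⟩, 0⟩, 0, 33333⟩ 0 0) (.pos 5 .pm ⟨⟨0, 0, 2574637, 0, 0, 0, 0, 0, 0, ⟨0, 0⟩, 0⟩, 0, 0⟩ 0 0)) (.pos 3 .pm ⟨⟨0, 0, 0, 0, 0, 0, 0, 0, 0, ⟨0, 0⟩, 0⟩, 0, 0⟩ 0 0)) (.cut .v 67108864 (.cut .d 4548041 (.cut .v 33554432 (.cut .d 2274020 (.cut .v 25165824 (.cut .d 1137010 (.cut .v 20971520 (.cut .d 568505 (.cut .d 284252 (.cut .v 18874368 (.cut .d 142126 (.cut .v 17825792 (.cut .s 11108352 (.pos 31 .pp ⟨⟨93152072, 0, 0, 0, 0, 0, 0, 0, 0, ⟨0, 0⟩, 0⟩, 2379666, 0⟩ 0 0) (.pos 31 .pp ⟨⟨108932078, 0, 0, 0, 0, 0, 0, 0, 0, ⟨0, 0⟩, 0⟩, 2550603, 0⟩ 0 0)) (.pos 32 .pp ⟨⟨148770541, 0, 0, 0, 0,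 0, 0, 0, 0, ⟨0, 0⟩, 0⟩, 0, 0⟩ 0 0)) (.pos 29 .pp ⟨⟨94479898, 0, 0, 0, 0, 0, 0, 0, 0, ⟨0, 0⟩, 0⟩, 0, 80458⟩ 0 0)) (.pos 30 .pp ⟨⟨177641179, 0, 0, 0, 0, 0, 0, 0, 0, ⟨0, 0⟩, 0⟩, 0, 0⟩ 0 0)) (.pos 27 .pp ⟨⟨106310762, 0, 0, 0, 0, 0, 0, 0, 0, ⟨0, 0⟩, 0⟩, 0, 17083⟩ 0 0)) (.pos 27 .pp ⟨⟨0, 0, 0, 0, 0, 0, 0, 0, 0, ⟨0, 0⟩, 0⟩, 0, 651734⟩ 0 0)) (.cut .d 568505 (.cut .v 23068672 (.cut .d 284252 (.void 59 ⟨⟨0, 0, 0, 0, 0, 0, 0, 0, 0, ⟨0, 0⟩, 0⟩, 100000, 0⟩ 0 0) (.pos 59 .pp ⟨⟨185455236, 0, 0, 0, 0, 0, 0, 0, 0, ⟨0, 0⟩, 0⟩, 0, 0⟩ 0 0)) (.pos 60 .pp ⟨⟨0, 0, 0, 0, 0, 0, 0, 0, 0, ⟨0, 0⟩, 0⟩, 29214823, 0⟩ 0 0)) (.pos 28 .pp ⟨⟨0, 0, 0, 0, 0, 0, 167152,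 0, 0, ⟨0, 0⟩, 0⟩, 16178718, 0⟩ 0 0))) (.pos 25 .pp ⟨⟨0, 0, 0, 0, 0, 0, 0, 0, 0, ⟨0, 0⟩, 0⟩, 0, 703873⟩ 0 0)) (.cut .d 1137010 (.cut .d 568505 (.void 26 ⟨⟨0, 0, 0, 0, 0, 0, 0, 0, 0, ⟨0, 0⟩, 0⟩, 100000, 0⟩ 0 0) (.pos 26 .pp ⟨⟨0, 0, 0, 0, 0, 0, 0, 0, 0, ⟨0, 0⟩, 0⟩, 28180060, 0⟩ 0 0)) (.pos 26 .pp ⟨⟨0, 0, 0, 0, 0, 0, 80749, 0, 0, ⟨0, 0⟩, 0⟩, 17431538, 0⟩ 0 0))) (.pos 24 .pp ⟨⟨0, 0, 0, 0, 0, 0, 2330781, 0, 0, ⟨0, 0⟩, 0⟩, 0, 0⟩ 0 0)) (.cut .d 2274020 (.cut .v 50331648 (.pos 96 .pp ⟨⟨0, 0, 0, 0, 0, 0, 0, 0, 0, ⟨0, 0⟩, 0⟩, 54741965, 0⟩ 0 0) (.void 97 ⟨⟨0, 0, 0, 0, 0, 0, 0, 0, 0, ⟨0, 0⟩, 0⟩, 100000, 0⟩ 0 0)) (.pos 95 .pp ⟨⟨0, 0, 0, 0, 0,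 0, 0, 0, 0, ⟨0, 0⟩, 0⟩, 26278903, 0⟩ 0 0))) (.pos 94 .pp ⟨⟨0, 0, 0, 0, 0, 0, 0, 0, 0, ⟨0, 0⟩, 0⟩, 0, 54897510⟩ 0 0)) (.void 106 ⟨⟨0, 0, 0, 43791, 0, 0, 0, 0, 0, ⟨0, 0⟩, 0⟩, 56209, 0⟩ 0 0)))),
    by decide +kernel⟩

def covers16 : cell.Covers Vale.Agent.P237.Petty.Cor.Grid.N13.table row16.1 :=
  ⟨(.cut .d 0 (.cut .v 16777216 (.cut .d (-8388608) (.void 1 ⟨⟨0, 0, 0, 0, 0, 100000, 0, 0, 0, ⟨0, 0⟩, 0⟩, 0, 0⟩ 0 0) (.cut .d (-4194304) (.void 1 ⟨⟨0, 0, 0, 0, 0, 100000, 0, 0, 0, ⟨0, 0⟩, 0⟩, 0, 0⟩ 0 0) (.cut .d (-2097152) (.void 1 ⟨⟨0, 0, 0, 0, 0, 100000, 0, 0, 0, ⟨0, 0⟩, 0⟩, 0, 0⟩ 0 0) (.cut .d (-1048576) (.void 1 ⟨⟨0, 0, 0, 0, 0, 100000,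 0, 0, 0, ⟨0, 0⟩, 0⟩, 0, 0⟩ 0 0) (.cut .d (-524288) (.void 1 ⟨⟨0, 0, 0, 0, 0, 100000, 0, 0, 0, ⟨0, 0⟩, 0⟩, 0, 0⟩ 0 0) (.cut .d (-262144) (.void 1 ⟨⟨0, 0, 0, 0, 0, 100000, 0, 0, 0, ⟨0, 0⟩, 0⟩, 0, 0⟩ 0 0) (.cut .d (-131072) (.void 1 ⟨⟨0, 0, 0, 0, 0, 100000, 0, 0, 0, ⟨0, 0⟩, 0⟩, 0, 0⟩ 0 0) (.cut .d (-65536) (.void 1 ⟨⟨0, 0, 0, 0, 0, 100000, 0, 0, 0, ⟨0, 0⟩, 0⟩, 0, 0⟩ 0 0) (.cut .d (-32768) (.void 1 ⟨⟨0, 0, 0, 0, 0, 100000, 0, 0, 0, ⟨0, 0⟩, 0⟩, 0, 0⟩ 0 0) (.cut .v 8388608 (.cut .v 4194304 (.void 4 ⟨⟨0, 0, 100000, 0, 0, 0, 0, 0, 0, ⟨0, 0⟩, 0⟩, 0, 0⟩ 0 0) (.pos 5 .mm ⟨⟨0, 0, 3901616, 0, 0, 81358683, 0, 0, 0, ⟨0, 0⟩, 0⟩, 0, 0⟩ 0 0)) (.cut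 .s 11534336 (.pos 3 .mm ⟨⟨0, 0, 0, 0, 0, 239710275, 0, 0, 0, ⟨0, 0⟩, 0⟩, 0, 0⟩ 0 0) (.pos 3 .mm ⟨⟨0, 0, 0, 0, 0, 273843348, 0, 0, 0, ⟨0, 0⟩, 0⟩, 0, 0⟩ 0 0)))))))))))) (.cut .v 67108864 (.cut .v 33554432 (.cut .v 25165824 (.cut .d (-8388608) (.void 25 ⟨⟨100000, 0, 0, 0, 0, 0, 0, 0, 0, ⟨0, 0⟩, 0⟩, 0, 0⟩ 0 0) (.cut .v 20971520 (.cut .d (-4194304) (.void 27 ⟨⟨100000, 0, 0, 0, 0, 0, 0, 0, 0, ⟨0, 0⟩, 0⟩, 0, 0⟩ 0 0) (.cut .v 18874368 (.cut .d (-2097152) (.void 29 ⟨⟨100000, 0, 0, 0, 0, 0, 0, 0, 0, ⟨0, 0⟩, 0⟩, 0, 0⟩ 0 0) (.cut .v 17825792 (.cut .d (-1048576) (.void 31 ⟨⟨100000, 0, 0, 0, 0, 0, 0, 0, 0, ⟨0, 0⟩, 0⟩, 0, 0⟩ 0 0) (.cut .v 17301504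 (.cut .d (-524288) (.void 33 ⟨⟨100000, 0, 0, 0, 0, 0, 0, 0, 0, ⟨0, 0⟩, 0⟩, 0, 0⟩ 0 0) (.cut .v 17039360 (.cut .d (-262144) (.void 35 ⟨⟨100000, 0, 0, 0, 0, 0, 0, 0, 0, ⟨0, 0⟩, 0⟩, 0, 0⟩ 0 0) (.cut .d (-131072) (.void 35 ⟨⟨100000, 0, 0, 0, 0, 0, 0, 0, 0, ⟨0, 0⟩, 0⟩, 0, 0⟩ 0 0) (.cut .d (-65536) (.void 35 ⟨⟨100000, 0, 0, 0, 0, 0, 0, 0, 0, ⟨0, 0⟩, 0⟩, 0, 0⟩ 0 0) (.cut .d (-32768) (.void 35 ⟨⟨0, 0, 0, 0, 0, 100000, 0, 0, 0, ⟨0, 0⟩, 0⟩, 0, 0⟩ 0 0) (.cut .s 11534336 (.cut .v 16908288 (.cut .s 11436032 (.cut .v 16842752 (.cut .d (-16384) (.cut .d (-24576) (.void 39 ⟨⟨0, 0, 0, 0, 0, 100000, 0, 0, 0, ⟨0, 0⟩, 0⟩, 0, 0⟩ 0 0) (.cut .d (-20480)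 (.pos 39 .mp ⟨⟨110909707, 0, 0, 0, 0, 73513894, 0, 0, 0, ⟨0, 0⟩, 0⟩, 0, 0⟩ 0 0) (.cut .v 16809984 (.pos 49 .mp ⟨⟨0, 0, 0, 0, 0, 254751435, 0, 0, 0, ⟨0, 0⟩, 0⟩, 0, 0⟩ 0 0) (.cut .v 16826368 (.cut .l 141961 (.void 87 ⟨⟨100000, 0, 0, 0, 0, 0, 0, 0, 0, ⟨0, 0⟩, 0⟩, 0, 0⟩ 0 0) (.cut .s 11386880 (.pos 87 .mp ⟨⟨110600007, 0, 0, 0, 0, 63367519, 0, 0, 0, ⟨0, 0⟩, 0⟩, 0, 0⟩ 0 0) (.pos 87 .mp ⟨⟨114203066, 0, 0, 0, 0, 64934434, 0, 0, 0, ⟨0, 0⟩, 0⟩, 0, 0⟩ 0 0))) (.pos 88 .mp ⟨⟨154107255, 0, 0, 0, 0, 0, 0, 0, 0, ⟨0, 0⟩, 0⟩, 0, 0⟩ 0 0))))) (.cut .s 11386880 (.cut .s 11362304 (.cut .v 16809984 (.cut .l 141961 (.cut .d (-8192) (.pos 49 .mp ⟨⟨110275981,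 0, 0, 0, 0, 62330984, 0, 0, 0, ⟨0, 0⟩, 0⟩, 0, 0⟩ 0 0) (.cut .s 11350016 (.pos 49 .mp ⟨⟨112531297, 0, 0, 0, 0, 54924653, 0, 0, 0, ⟨0, 0⟩, 0⟩, 0, 0⟩ 0 0) (.pos 49 .mp ⟨⟨113459152, 0, 0, 0, 0, 55188095, 0, 0, 0, ⟨0, 0⟩, 0⟩, 0, 0⟩ 0 0))) (.pos 49 .mp ⟨⟨109222129, 0, 0, 0, 0, 59563717, 0, 0, 0, ⟨0, 0⟩, 0⟩, 0, 0⟩ 0 0)) (.pos 50 .mp ⟨⟨126170221, 0, 0, 0, 0, 35448367, 0, 0, 0, ⟨0, 0⟩, 0⟩, 0, 0⟩ 0 0)) (.cut .v 16809984 (.cut .l 141961 (.cut .d (-8192) (.pos 49 .mp ⟨⟨112049056, 0, 0, 0, 0, 63013523, 0, 0, 0, ⟨0, 0⟩, 0⟩, 0, 0⟩ 0 0) (.cut .s 11374592 (.pos 49 .mp ⟨⟨114366719, 0, 0, 0, 0, 55508660, 0, 0, 0, ⟨0, 0⟩, 0⟩, 0, 0⟩ 0 0) (.cut .s 11380736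 (.pos 49 .mp ⟨⟨115325820, 0, 0, 0, 0, 55495817, 0, 0, 0, ⟨0, 0⟩, 0⟩, 0, 0⟩ 0 0) (.pos 49 .mp ⟨⟨115716540, 0, 0, 0, 0, 55763457, 0, 0, 0, ⟨0, 0⟩, 0⟩, 0, 0⟩ 0 0)))) (.pos 49 .mp ⟨⟨110971091, 0, 0, 0, 0, 60435081, 0, 0, 0, ⟨0, 0⟩, 0⟩, 0, 0⟩ 0 0)) (.pos 50 .mp ⟨⟨127532483, 0, 0, 0, 0, 36766777, 0, 0, 0, ⟨0, 0⟩, 0⟩, 0, 0⟩ 0 0))) (.cut .s 11411456 (.cut .v 16809984 (.cut .l 141961 (.cut .d (-8192) (.pos 49 .mp ⟨⟨113851054, 0, 0, 0, 0, 63738098, 0, 0, 0, ⟨0, 0⟩, 0⟩, 0, 0⟩ 0 0) (.cut .v 16793600 (.cut .l 70980 (.cut .d (-4096) (.pos 51 .mp ⟨⟨113788644, 0, 0, 0, 0, 63561298, 0, 0, 0, ⟨0, 0⟩, 0⟩, 0, 0⟩ 0 0) (.cut .s 11399168 (.pos 51 .mp ⟨⟨115395859,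 0, 0, 0, 0, 57389671, 0, 0, 0, ⟨0, 0⟩, 0⟩, 0, 0⟩ 0 0) (.pos 51 .mp ⟨⟨116339812, 0, 0, 0, 0, 57709293, 0, 0, 0, ⟨0, 0⟩, 0⟩, 0, 0⟩ 0 0))) (.pos 51 .mp ⟨⟨113237529, 0, 0, 0, 0, 60199440, 0, 0, 0, ⟨0, 0⟩, 0⟩, 0, 0⟩ 0 0)) (.pos 52 .mp ⟨⟨129546297, 0, 0, 0, 0, 36799223, 0, 0, 0, ⟨0, 0⟩, 0⟩, 0, 0⟩ 0 0))) (.pos 49 .mp ⟨⟨112748349, 0, 0, 0, 0, 61331791, 0, 0, 0, ⟨0, 0⟩, 0⟩, 0, 0⟩ 0 0)) (.pos 50 .mp ⟨⟨128976750, 0, 0, 0, 0, 38040509, 0, 0, 0, ⟨0, 0⟩, 0⟩, 0, 0⟩ 0 0)) (.cut .l 141961 (.cut .d (-8192) (.pos 39 .mp ⟨⟨116242320, 0, 0, 0, 0, 64772076, 0, 0, 0, ⟨0, 0⟩, 0⟩, 0, 0⟩ 0 0) (.cut .v 16809984 (.cut .v 16793600 (.cut .l 70980 (.cut .d (-4096)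 (.pos 51 .mp ⟨⟨115614404, 0, 0, 0, 0, 64333331, 0, 0, 0, ⟨0, 0⟩, 0⟩, 0, 0⟩ 0 0) (.cut .l 35490 (.cut .d (-2048) (.pos 51 .mp ⟨⟨115788680, 0, 0, 0, 0, 64680498, 0, 0, 0, ⟨0, 0⟩, 0⟩, 0, 0⟩ 0 0) (.cut .s 11423744 (.pos 51 .mp ⟨⟨116973136, 0, 0, 0, 0, 58519466, 0, 0, 0, ⟨0, 0⟩, 0⟩, 0, 0⟩ 0 0) (.pos 51 .mp ⟨⟨117917218, 0, 0, 0, 0, 58879162, 0, 0, 0, ⟨0, 0⟩, 0⟩, 0, 0⟩ 0 0))) (.pos 51 .mp ⟨⟨117837647, 0, 0, 0, 0, 56433406, 0, 0, 0, ⟨0, 0⟩, 0⟩, 0, 0⟩ 0 0))) (.pos 51 .mp ⟨⟨115050606, 0, 0, 0, 0, 61100325, 0, 0, 0, ⟨0, 0⟩, 0⟩, 0, 0⟩ 0 0)) (.pos 52 .mp ⟨⟨131091141, 0, 0, 0, 0, 37991608, 0, 0, 0, ⟨0, 0⟩, 0⟩, 0, 0⟩ 0 0)) (.pos 50 .mp ⟨⟨154122267,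 0, 0, 0, 0, 0, 0, 0, 0, ⟨0, 0⟩, 0⟩, 0, 0⟩ 0 0))) (.cut .s 11423744 (.pos 39 .mp ⟨⟨118214971, 0, 0, 0, 0, 55779303, 0, 0, 0, ⟨0, 0⟩, 0⟩, 0, 0⟩ 0 0) (.pos 39 .mp ⟨⟨119165706, 0, 0, 0, 0, 56180141, 0, 0, 0, ⟨0, 0⟩, 0⟩, 0, 0⟩ 0 0)))))) (.cut .d (-16384) (.pos 40 .mp ⟨⟨160429423, 0, 0, 0, 0, 0, 0, 0, 0, ⟨0, 0⟩, 0⟩, 0, 0⟩ 0 0) (.pos 40 .mp ⟨⟨153264926, 0, 0, 0, 0, 0, 0, 0, 0, ⟨0, 0⟩, 0⟩, 0, 0⟩ 0 0))) (.cut .v 16842752 (.cut .d (-16384) (.cut .d (-24576) (.void 39 ⟨⟨0, 0, 0, 0, 0, 100000, 0, 0, 0, ⟨0, 0⟩, 0⟩, 0, 0⟩ 0 0) (.cut .d (-20480) (.pos 39 .mp ⟨⟨118271135, 0, 0, 0, 0, 77621125, 0, 0, 0, ⟨0, 0⟩, 0⟩, 0, 0⟩ 0 0) (.cut .v 16809984 (.pos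 49 .mp ⟨⟨0, 0, 0, 0, 0, 272126911, 0, 0, 0, ⟨0, 0⟩, 0⟩, 0, 0⟩ 0 0) (.cut .l 141961 (.void 50 ⟨⟨100000, 0, 0, 0, 0, 0, 0, 0, 0, ⟨0, 0⟩, 0⟩, 0, 0⟩ 0 0) (.cut .l 212942 (.pos 50 .mp ⟨⟨125483263, 0, 0, 0, 0, 65656128, 0, 0, 0, ⟨0, 0⟩, 0⟩, 0, 0⟩ 0 0) (.cut .s 11485184 (.pos 50 .mp ⟨⟨123373091, 0, 0, 0, 0, 55430638, 0, 0, 0, ⟨0, 0⟩, 0⟩, 0, 0⟩ 0 0) (.cut .s 11509760 (.pos 50 .mp ⟨⟨125370145, 0, 0, 0, 0, 58479217, 0, 0, 0, ⟨0, 0⟩, 0⟩, 0, 0⟩ 0 0) (.pos 50 .mp ⟨⟨127399386, 0, 0, 0, 0, 59282768, 0, 0, 0, ⟨0, 0⟩, 0⟩, 0, 0⟩ 0 0)))))))) (.cut .s 11485184 (.cut .s 11460608 (.cut .l 141961 (.cut .v 16809984 (.cut .d (-8192) (.pos 49 .mp ⟨⟨117543284,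 0, 0, 0, 0, 65316010, 0, 0, 0, ⟨0, 0⟩, 0⟩, 0, 0⟩ 0 0) (.cut .l 70980 (.cut .d (-4096) (.pos 49 .mp ⟨⟨117791942, 0, 0, 0, 0, 65553133, 0, 0, 0, ⟨0, 0⟩, 0⟩, 0, 0⟩ 0 0) (.cut .v 16793600 (.cut .l 35490 (.cut .d (-2048) (.pos 51 .mp ⟨⟨117636587, 0, 0, 0, 0, 65525317, 0, 0, 0, ⟨0, 0⟩, 0⟩, 0, 0⟩ 0 0) (.cut .v 16785408 (.cut .l 17745 (.cut .d (-1024) (.pos 61 .mp ⟨⟨117559116, 0, 0, 0, 0, 65511080, 0, 0, 0, ⟨0, 0⟩, 0⟩, 0, 0⟩ 0 0) (.cut .s 11448320 (.pos 61 .mp ⟨⟨118595464, 0, 0, 0, 0, 59665170, 0, 0, 0, ⟨0, 0⟩, 0⟩, 0, 0⟩ 0 0) (.cut .s 11454464 (.pos 61 .mp ⟨⟨119673451, 0, 0, 0, 0, 59605442, 0, 0, 0, ⟨0, 0⟩, 0⟩, 0, 0⟩ 0 0) (.pos 61 .mp ⟨⟨120120645,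 0, 0, 0, 0, 59847698, 0, 0, 0, ⟨0, 0⟩, 0⟩, 0, 0⟩ 0 0)))) (.pos 61 .mp ⟨⟨119502259, 0, 0, 0, 0, 57533763, 0, 0, 0, ⟨0, 0⟩, 0⟩, 0, 0⟩ 0 0)) (.pos 62 .mp ⟨⟨156130436, 0, 0, 0, 0, 0, 0, 0, 0, ⟨0, 0⟩, 0⟩, 0, 0⟩ 0 0))) (.pos 51 .mp ⟨⟨119728350, 0, 0, 0, 0, 57270451, 0, 0, 0, ⟨0, 0⟩, 0⟩, 0, 0⟩ 0 0)) (.pos 52 .mp ⟨⟨156220568, 0, 0, 0, 0, 0, 0, 0, 0, ⟨0, 0⟩, 0⟩, 0, 0⟩ 0 0))) (.pos 49 .mp ⟨⟨120181345, 0, 0, 0, 0, 56742829, 0, 0, 0, ⟨0, 0⟩, 0⟩, 0, 0⟩ 0 0))) (.pos 50 .mp ⟨⟨162726980, 0, 0, 0, 0, 0, 0, 0, 0, ⟨0, 0⟩, 0⟩, 0, 0⟩ 0 0)) (.cut .s 11448320 (.pos 39 .mp ⟨⟨120124140, 0, 0, 0, 0, 56585925, 0, 0, 0, ⟨0, 0⟩, 0⟩, 0, 0⟩ 0 0) (.pos 39 .mp ⟨⟨121090320,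 0, 0, 0, 0, 56996497, 0, 0, 0, ⟨0, 0⟩, 0⟩, 0, 0⟩ 0 0))) (.cut .s 11472896 (.cut .v 16809984 (.cut .l 141961 (.cut .d (-8192) (.pos 49 .mp ⟨⟨119434264, 0, 0, 0, 0, 64471861, 0, 0, 0, ⟨0, 0⟩, 0⟩, 0, 0⟩ 0 0) (.cut .s 11466752 (.pos 49 .mp ⟨⟨121412539, 0, 0, 0, 0, 58748898, 0, 0, 0, ⟨0, 0⟩, 0⟩, 0, 0⟩ 0 0) (.pos 49 .mp ⟨⟨121897548, 0, 0, 0, 0, 58946621, 0, 0, 0, ⟨0, 0⟩, 0⟩, 0, 0⟩ 0 0))) (.pos 49 .mp ⟨⟨118253499, 0, 0, 0, 0, 63483263, 0, 0, 0, ⟨0, 0⟩, 0⟩, 0, 0⟩ 0 0)) (.pos 50 .mp ⟨⟨129129209, 0, 0, 0, 0, 47961958, 0, 0, 0, ⟨0, 0⟩, 0⟩, 0, 0⟩ 0 0)) (.cut .v 16809984 (.cut .l 141961 (.cut .d (-8192) (.pos 49 .mp ⟨⟨120391138, 0, 0, 0, 0, 64895147,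 0, 0, 0, ⟨0, 0⟩, 0⟩, 0, 0⟩ 0 0) (.cut .s 11479040 (.pos 49 .mp ⟨⟨122384502, 0, 0, 0, 0, 59146390, 0, 0, 0, ⟨0, 0⟩, 0⟩, 0, 0⟩ 0 0) (.pos 49 .mp ⟨⟨122873408, 0, 0, 0, 0, 59348203, 0, 0, 0, ⟨0, 0⟩, 0⟩, 0, 0⟩ 0 0))) (.pos 49 .mp ⟨⟨119196792, 0, 0, 0, 0, 63967727, 0, 0, 0, ⟨0, 0⟩, 0⟩, 0, 0⟩ 0 0)) (.pos 50 .mp ⟨⟨129972719, 0, 0, 0, 0, 48560842, 0, 0, 0, ⟨0, 0⟩, 0⟩, 0, 0⟩ 0 0)))) (.cut .s 11509760 (.cut .s 11497472 (.cut .v 16809984 (.cut .l 141961 (.cut .d (-8192) (.pos 49 .mp ⟨⟨121355666, 0, 0, 0, 0, 65329622, 0, 0, 0, ⟨0, 0⟩, 0⟩, 0, 0⟩ 0 0) (.cut .s 11491328 (.pos 49 .mp ⟨⟨123364272, 0, 0, 0, 0, 59552054, 0, 0, 0, ⟨0, 0⟩, 0⟩, 0, 0⟩ 0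 0) (.pos 49 .mp ⟨⟨123857100, 0, 0, 0, 0, 59757938, 0, 0, 0, ⟨0, 0⟩, 0⟩, 0, 0⟩ 0 0))) (.pos 49 .mp ⟨⟨120147573, 0, 0, 0, 0, 64457219, 0, 0, 0, ⟨0, 0⟩, 0⟩, 0, 0⟩ 0 0)) (.pos 50 .mp ⟨⟨130843785, 0, 0, 0, 0, 49137652, 0, 0, 0, ⟨0, 0⟩, 0⟩, 0, 0⟩ 0 0)) (.cut .v 16809984 (.cut .l 141961 (.cut .d (-8192) (.pos 49 .mp ⟨⟨122327896, 0, 0, 0, 0, 65775375, 0, 0, 0, ⟨0, 0⟩, 0⟩, 0, 0⟩ 0 0) (.cut .s 11503616 (.pos 49 .mp ⟨⟨124351899, 0, 0, 0, 0, 59965850, 0, 0, 0, ⟨0, 0⟩, 0⟩, 0, 0⟩ 0 0) (.pos 49 .mp ⟨⟨124848676, 0, 0, 0, 0, 60175786, 0, 0, 0, ⟨0, 0⟩, 0⟩, 0, 0⟩ 0 0))) (.pos 49 .mp ⟨⟨121105891, 0, 0, 0, 0, 64951581, 0, 0, 0, ⟨0, 0⟩, 0⟩, 0, 0⟩ 0 0))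 (.pos 50 .mp ⟨⟨131743241, 0, 0, 0, 0, 49691066, 0, 0, 0, ⟨0, 0⟩, 0⟩, 0, 0⟩ 0 0))) (.cut .s 11522048 (.cut .v 16809984 (.cut .l 141961 (.cut .d (-8192) (.pos 49 .mp ⟨⟨123307880, 0, 0, 0, 0, 66232495, 0, 0, 0, ⟨0, 0⟩, 0⟩, 0, 0⟩ 0 0) (.cut .s 11515904 (.pos 49 .mp ⟨⟨125347435, 0, 0, 0, 0, 60387741, 0, 0, 0, ⟨0, 0⟩, 0⟩, 0, 0⟩ 0 0) (.pos 49 .mp ⟨⟨125848184, 0, 0, 0, 0, 60601710, 0, 0, 0, ⟨0, 0⟩, 0⟩, 0, 0⟩ 0 0))) (.pos 49 .mp ⟨⟨122071794, 0, 0, 0, 0, 65450657, 0, 0, 0, ⟨0, 0⟩, 0⟩, 0, 0⟩ 0 0)) (.pos 50 .mp ⟨⟨132671927, 0, 0, 0, 0, 50219752, 0, 0, 0, ⟨0, 0⟩, 0⟩, 0, 0⟩ 0 0)) (.cut .v 16809984 (.cut .l 141961 (.cut .d (-8192) (.pos 49 .mp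 ⟨⟨124295666, 0, 0, 0, 0, 66701072, 0, 0, 0, ⟨0, 0⟩, 0⟩, 0, 0⟩ 0 0) (.cut .s 11528192 (.pos 49 .mp ⟨⟨126350930, 0, 0, 0, 0, 60817688, 0, 0, 0, ⟨0, 0⟩, 0⟩, 0, 0⟩ 0 0) (.pos 49 .mp ⟨⟨126855679, 0, 0, 0, 0, 61035669, 0, 0, 0, ⟨0, 0⟩, 0⟩, 0, 0⟩ 0 0))) (.pos 49 .mp ⟨⟨123045331, 0, 0, 0, 0, 65954288, 0, 0, 0, ⟨0, 0⟩, 0⟩, 0, 0⟩ 0 0)) (.pos 50 .mp ⟨⟨133630687, 0, 0, 0, 0, 50722364, 0, 0, 0, ⟨0, 0⟩, 0⟩, 0, 0⟩ 0 0)))))) (.cut .s 11485184 (.pos 40 .mp ⟨⟨164424990, 0, 0, 0, 0, 0, 0, 0, 0, ⟨0, 0⟩, 0⟩, 0, 0⟩ 0 0) (.pos 40 .mp ⟨⟨169463606, 0, 0, 0, 0, 0, 0, 0, 0, ⟨0, 0⟩, 0⟩, 0, 0⟩ 0 0)))) (.pos 38 .mp ⟨⟨164838170, 0, 0, 0, 0, 0, 0, 0, 0, ⟨0, 0⟩,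 0⟩, 0, 0⟩ 0 0)) (.cut .v 16908288 (.cut .s 11632640 (.cut .d (-16384) (.cut .v 16842752 (.cut .d (-24576) (.void 39 ⟨⟨0, 0, 0, 0, 0, 100000, 0, 0, 0, ⟨0, 0⟩, 0⟩, 0, 0⟩ 0 0) (.cut .d (-20480) (.pos 39 .mp ⟨⟨126122568, 0, 0, 0, 0, 82459520, 0, 0, 0, ⟨0, 0⟩, 0⟩, 0, 0⟩ 0 0) (.cut .v 16809984 (.pos 49 .mp ⟨⟨0, 0, 0, 0, 0, 291219693, 0, 0, 0, ⟨0, 0⟩, 0⟩, 0, 0⟩ 0 0) (.cut .l 141961 (.void 50 ⟨⟨100000, 0, 0, 0, 0, 0, 0, 0, 0, ⟨0, 0⟩, 0⟩, 0, 0⟩ 0 0) (.cut .l 212942 (.void 50 ⟨⟨0, 0, 0, 0, 0, 100000, 0, 0, 0, ⟨0, 0⟩, 0⟩, 0, 0⟩ 0 0) (.cut .s 11583488 (.cut .s 11558912 (.pos 50 .mp ⟨⟨129461234, 0, 0, 0, 0, 60116440, 0, 0, 0, ⟨0, 0⟩, 0⟩, 0, 0⟩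 0 0) (.pos 50 .mp ⟨⟨131556115, 0, 0, 0, 0, 60979872, 0, 0, 0, ⟨0, 0⟩, 0⟩, 0, 0⟩ 0 0)) (.cut .s 11608064 (.pos 50 .mp ⟨⟨133684465, 0, 0, 0, 0, 61872686, 0, 0, 0, ⟨0, 0⟩, 0⟩, 0, 0⟩ 0 0) (.pos 50 .mp ⟨⟨135846730, 0, 0, 0, 0, 62794492, 0, 0, 0, ⟨0, 0⟩, 0⟩, 0, 0⟩ 0 0)))))))) (.pos 40 .mp ⟨⟨180971964, 0, 0, 0, 0, 0, 0, 0, 0, ⟨0, 0⟩, 0⟩, 0, 0⟩ 0 0)) (.cut .v 16842752 (.cut .s 11583488 (.cut .s 11558912 (.cut .s 11546624 (.cut .v 16809984 (.cut .l 141961 (.cut .d (-8192) (.pos 49 .mp ⟨⟨125291307, 0, 0, 0, 0, 67181197, 0, 0, 0, ⟨0, 0⟩, 0⟩, 0, 0⟩ 0 0) (.cut .s 11540480 (.pos 49 .mp ⟨⟨127362436, 0, 0, 0, 0, 61255649, 0, 0, 0, ⟨0, 0⟩, 0⟩, 0,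 0⟩ 0 0) (.cut .s 11543552 (.pos 49 .mp ⟨⟨127566372, 0, 0, 0, 0, 61782035, 0, 0, 0, ⟨0, 0⟩, 0⟩, 0, 0⟩ 0 0) (.pos 49 .mp ⟨⟨127813481, 0, 0, 0, 0, 61905268, 0, 0, 0, ⟨0, 0⟩, 0⟩, 0, 0⟩ 0 0)))) (.pos 49 .mp ⟨⟨124026552, 0, 0, 0, 0, 66462316, 0, 0, 0, ⟨0, 0⟩, 0⟩, 0, 0⟩ 0 0)) (.pos 50 .mp ⟨⟨134620370, 0, 0, 0, 0, 51197544, 0, 0, 0, ⟨0, 0⟩, 0⟩, 0, 0⟩ 0 0)) (.cut .v 16809984 (.cut .l 141961 (.cut .d (-8192) (.pos 49 .mp ⟨⟨126294852, 0, 0, 0, 0, 67672963, 0, 0, 0, ⟨0, 0⟩, 0⟩, 0, 0⟩ 0 0) (.cut .v 16793600 (.cut .s 11552768 (.pos 51 .mp ⟨⟨127357759, 0, 0, 0, 0, 63381250, 0, 0, 0, ⟨0, 0⟩, 0⟩, 0, 0⟩ 0 0) (.pos 51 .mp ⟨⟨127822252, 0, 0, 0, 0, 63688233,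 0, 0, 0, ⟨0, 0⟩, 0⟩, 0, 0⟩ 0 0)) (.pos 52 .mp ⟨⟨136309828, 0, 0, 0, 0, 50198172, 0, 0, 0, ⟨0, 0⟩, 0⟩, 0, 0⟩ 0 0))) (.pos 49 .mp ⟨⟨125015507, 0, 0, 0, 0, 66974581, 0, 0, 0, ⟨0, 0⟩, 0⟩, 0, 0⟩ 0 0)) (.pos 50 .mp ⟨⟨135641834, 0, 0, 0, 0, 51643922, 0, 0, 0, ⟨0, 0⟩, 0⟩, 0, 0⟩ 0 0))) (.cut .s 11571200 (.cut .v 16809984 (.cut .l 141961 (.cut .d (-8192) (.pos 49 .mp ⟨⟨127306353, 0, 0, 0, 0, 68176462, 0, 0, 0, ⟨0, 0⟩, 0⟩, 0, 0⟩ 0 0) (.cut .v 16793600 (.cut .s 11565056 (.pos 51 .mp ⟨⟨128298147, 0, 0, 0, 0, 63981621, 0, 0, 0, ⟨0, 0⟩, 0⟩, 0, 0⟩ 0 0) (.pos 51 .mp ⟨⟨128785567, 0, 0, 0, 0, 64261202, 0, 0, 0, ⟨0, 0⟩, 0⟩, 0, 0⟩ 0 0)) (.pos 52 .mp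 ⟨⟨137371288, 0, 0, 0, 0, 50598239, 0, 0, 0, ⟨0, 0⟩, 0⟩, 0, 0⟩ 0 0))) (.pos 49 .mp ⟨⟨126012246, 0, 0, 0, 0, 67490923, 0, 0, 0, ⟨0, 0⟩, 0⟩, 0, 0⟩ 0 0)) (.pos 50 .mp ⟨⟨136695938, 0, 0, 0, 0, 52060115, 0, 0, 0, ⟨0, 0⟩, 0⟩, 0, 0⟩ 0 0)) (.cut .v 16809984 (.cut .l 141961 (.cut .d (-8192) (.pos 49 .mp ⟨⟨128325864, 0, 0, 0, 0, 68691788, 0, 0, 0, ⟨0, 0⟩, 0⟩, 0, 0⟩ 0 0) (.cut .v 16793600 (.cut .s 11577344 (.pos 51 .mp ⟨⟨129284633, 0, 0, 0, 0, 64526761, 0, 0, 0, ⟨0, 0⟩, 0⟩, 0, 0⟩ 0 0) (.pos 51 .mp ⟨⟨129795468, 0, 0, 0, 0, 64778088, 0, 0, 0, ⟨0, 0⟩, 0⟩, 0, 0⟩ 0 0)) (.pos 52 .mp ⟨⟨138466336, 0, 0, 0, 0, 50966533, 0, 0, 0, ⟨0, 0⟩, 0⟩, 0, 0⟩ 0 0)))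 (.pos 49 .mp ⟨⟨127016822, 0, 0, 0, 0, 68011182, 0, 0, 0, ⟨0, 0⟩, 0⟩, 0, 0⟩ 0 0)) (.pos 50 .mp ⟨⟨137783551, 0, 0, 0, 0, 52444728, 0, 0, 0, ⟨0, 0⟩, 0⟩, 0, 0⟩ 0 0)))) (.cut .s 11608064 (.cut .s 11595776 (.cut .v 16809984 (.cut .l 141961 (.cut .d (-8192) (.pos 49 .mp ⟨⟨129353435, 0, 0, 0, 0, 69219034, 0, 0, 0, ⟨0, 0⟩, 0⟩, 0, 0⟩ 0 0) (.cut .v 16793600 (.cut .s 11589632 (.pos 51 .mp ⟨⟨130318193, 0, 0, 0, 0, 65014968, 0, 0, 0, ⟨0, 0⟩, 0⟩, 0, 0⟩ 0 0) (.pos 51 .mp ⟨⟨130852930, 0, 0, 0, 0, 65237188, 0, 0, 0, ⟨0, 0⟩, 0⟩, 0, 0⟩ 0 0)) (.pos 52 .mp ⟨⟨139595842, 0, 0, 0, 0, 51301647, 0, 0, 0, ⟨0, 0⟩, 0⟩, 0, 0⟩ 0 0))) (.pos 49 .mp ⟨⟨128029284, 0,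 0, 0, 0, 68535195, 0, 0, 0, ⟨0, 0⟩, 0⟩, 0, 0⟩ 0 0)) (.pos 50 .mp ⟨⟨138905545, 0, 0, 0, 0, 52796353, 0, 0, 0, ⟨0, 0⟩, 0⟩, 0, 0⟩ 0 0)) (.cut .v 16809984 (.cut .l 141961 (.cut .d (-8192) (.pos 49 .mp ⟨⟨130389121, 0, 0, 0, 0, 69758297, 0, 0, 0, ⟨0, 0⟩, 0⟩, 0, 0⟩ 0 0) (.cut .v 16793600 (.cut .s 11601920 (.pos 51 .mp ⟨⟨131399800, 0, 0, 0, 0, 65444535, 0, 0, 0, ⟨0, 0⟩, 0⟩, 0, 0⟩ 0 0) (.pos 51 .mp ⟨⟨131958926, 0, 0, 0, 0, 65636796, 0, 0, 0, ⟨0, 0⟩, 0⟩, 0, 0⟩ 0 0)) (.pos 52 .mp ⟨⟨140760686, 0, 0, 0, 0, 51602160, 0, 0, 0, ⟨0, 0⟩, 0⟩, 0, 0⟩ 0 0))) (.pos 49 .mp ⟨⟨129049685, 0, 0, 0, 0, 69062802, 0, 0, 0, ⟨0, 0⟩, 0⟩, 0, 0⟩ 0 0)) (.pos 50 .mp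 ⟨⟨140062799, 0, 0, 0, 0, 53113567, 0, 0, 0, ⟨0, 0⟩, 0⟩, 0, 0⟩ 0 0))) (.cut .s 11620352 (.cut .v 16809984 (.cut .l 141961 (.cut .d (-8192) (.pos 49 .mp ⟨⟨131432975, 0, 0, 0, 0, 70309673, 0, 0, 0, ⟨0, 0⟩, 0⟩, 0, 0⟩ 0 0) (.cut .v 16793600 (.cut .s 11614208 (.pos 51 .mp ⟨⟨132530429, 0, 0, 0, 0, 65813756, 0, 0, 0, ⟨0, 0⟩, 0⟩, 0, 0⟩ 0 0) (.pos 51 .mp ⟨⟨133114431, 0, 0, 0, 0, 65975202, 0, 0, 0, ⟨0, 0⟩, 0⟩, 0, 0⟩ 0 0)) (.pos 52 .mp ⟨⟨141961750, 0, 0, 0, 0, 51866638, 0, 0, 0, ⟨0, 0⟩, 0⟩, 0, 0⟩ 0 0))) (.pos 49 .mp ⟨⟨130078078, 0, 0, 0, 0, 69593837, 0, 0, 0, ⟨0, 0⟩, 0⟩, 0, 0⟩ 0 0)) (.pos 50 .mp ⟨⟨141256198, 0, 0, 0, 0, 53394936, 0, 0, 0, ⟨0,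 0⟩, 0⟩, 0, 0⟩ 0 0)) (.cut .v 16809984 (.cut .l 141961 (.cut .d (-8192) (.pos 49 .mp ⟨⟨132485051, 0, 0, 0, 0, 70873258, 0, 0, 0, ⟨0, 0⟩, 0⟩, 0, 0⟩ 0 0) (.cut .s 11626496 (.cut .s 11623424 (.pos 49 .mp ⟨⟨134369187, 0, 0, 0, 0, 64832338, 0, 0, 0, ⟨0, 0⟩, 0⟩, 0, 0⟩ 0 0) (.pos 49 .mp ⟨⟨134647309, 0, 0, 0, 0, 64942114, 0, 0, 0, ⟨0, 0⟩, 0⟩, 0, 0⟩ 0 0)) (.pos 49 .mp ⟨⟨135209443, 0, 0, 0, 0, 64791526, 0, 0, 0, ⟨0, 0⟩, 0⟩, 0, 0⟩ 0 0))) (.pos 49 .mp ⟨⟨131114516, 0, 0, 0, 0, 70128139, 0, 0, 0, ⟨0, 0⟩, 0⟩, 0, 0⟩ 0 0)) (.pos 50 .mp ⟨⟨142486633, 0, 0, 0, 0, 53639013, 0, 0, 0, ⟨0, 0⟩, 0⟩, 0, 0⟩ 0 0))))) (.pos 40 .mp ⟨⟨172817806, 0, 0, 0, 0, 0, 0,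 0, 0, ⟨0, 0⟩, 0⟩, 0, 0⟩ 0 0))) (.cut .d (-16384) (.cut .v 16842752 (.cut .d (-24576) (.void 39 ⟨⟨0, 0, 0, 0, 0, 100000, 0, 0, 0, ⟨0, 0⟩, 0⟩, 0, 0⟩ 0 0) (.cut .d (-20480) (.pos 39 .mp ⟨⟨134489831, 0, 0, 0, 0, 88075250, 0, 0, 0, ⟨0, 0⟩, 0⟩, 0, 0⟩ 0 0) (.cut .v 16809984 (.pos 49 .mp ⟨⟨0, 0, 0, 0, 0, 312136110, 0, 0, 0, ⟨0, 0⟩, 0⟩, 0, 0⟩ 0 0) (.cut .l 141961 (.void 50 ⟨⟨100000, 0, 0, 0, 0, 0, 0, 0, 0, ⟨0, 0⟩, 0⟩, 0, 0⟩ 0 0) (.cut .l 212942 (.void 50 ⟨⟨0, 0, 0, 0, 0, 100000, 0, 0, 0, ⟨0, 0⟩, 0⟩, 0, 0⟩ 0 0) (.cut .s 11681792 (.cut .s 11657216 (.pos 50 .mp ⟨⟨138043362, 0, 0, 0, 0, 63744881, 0, 0, 0, ⟨0, 0⟩, 0⟩, 0, 0⟩ 0 0) (.pos 50 .mp ⟨⟨140274822,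 0, 0, 0, 0, 64723432, 0, 0, 0, ⟨0, 0⟩, 0⟩, 0, 0⟩ 0 0)) (.pos 50 .mp ⟨⟨138686670, 0, 0, 0, 0, 76193039, 0, 0, 0, ⟨0, 0⟩, 0⟩, 0, 0⟩ 0 0))))))) (.pos 40 .mp ⟨⟨192164148, 0, 0, 0, 0, 0, 0, 0, 0, ⟨0, 0⟩, 0⟩, 0, 0⟩ 0 0)) (.cut .v 16842752 (.cut .s 11681792 (.cut .s 11657216 (.cut .s 11644928 (.cut .v 16809984 (.cut .l 141961 (.cut .d (-8192) (.pos 49 .mp ⟨⟨133545404, 0, 0, 0, 0, 71449151, 0, 0, 0, ⟨0, 0⟩, 0⟩, 0, 0⟩ 0 0) (.cut .s 11638784 (.pos 49 .mp ⟨⟨135749261, 0, 0, 0, 0, 65042741, 0, 0, 0, ⟨0, 0⟩, 0⟩, 0, 0⟩ 0 0) (.pos 49 .mp ⟨⟨136291204, 0, 0, 0, 0, 65295858, 0, 0, 0, ⟨0, 0⟩, 0⟩, 0, 0⟩ 0 0))) (.pos 49 .mp ⟨⟨132159052, 0, 0, 0, 0, 70665541,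 0, 0, 0, ⟨0, 0⟩, 0⟩, 0, 0⟩ 0 0)) (.pos 50 .mp ⟨⟨143755001, 0, 0, 0, 0, 53844335, 0, 0, 0, ⟨0, 0⟩, 0⟩, 0, 0⟩ 0 0)) (.cut .v 16809984 (.cut .l 141961 (.cut .d (-8192) (.pos 49 .mp ⟨⟨134614089, 0, 0, 0, 0, 72037451, 0, 0, 0, ⟨0, 0⟩, 0⟩, 0, 0⟩ 0 0) (.cut .s 11651072 (.pos 49 .mp ⟨⟨136835279, 0, 0, 0, 0, 65550872, 0, 0, 0, ⟨0, 0⟩, 0⟩, 0, 0⟩ 0 0) (.pos 49 .mp ⟨⟨137381493, 0, 0, 0, 0, 65807777, 0, 0, 0, ⟨0, 0⟩, 0⟩, 0, 0⟩ 0 0))) (.pos 49 .mp ⟨⟨133211740, 0, 0, 0, 0, 71205879, 0, 0, 0, ⟨0, 0⟩, 0⟩, 0, 0⟩ 0 0)) (.pos 50 .mp ⟨⟨145062206, 0, 0, 0, 0, 54009428, 0, 0, 0, ⟨0, 0⟩, 0⟩, 0, 0⟩ 0 0))) (.cut .s 11669504 (.cut .v 16809984 (.cut .l 141961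 (.cut .d (-8192) (.pos 49 .mp ⟨⟨135691162, 0, 0, 0, 0, 72638256, 0, 0, 0, ⟨0, 0⟩, 0⟩, 0, 0⟩ 0 0) (.cut .s 11663360 (.pos 49 .mp ⟨⟨137929854, 0, 0, 0, 0, 66066566, 0, 0, 0, ⟨0, 0⟩, 0⟩, 0, 0⟩ 0 0) (.pos 49 .mp ⟨⟨138480368, 0, 0, 0, 0, 66327232, 0, 0, 0, ⟨0, 0⟩, 0⟩, 0, 0⟩ 0 0))) (.pos 49 .mp ⟨⟨134272635, 0, 0, 0, 0, 71748987, 0, 0, 0, ⟨0, 0⟩, 0⟩, 0, 0⟩ 0 0)) (.pos 50 .mp ⟨⟨146409158, 0, 0, 0, 0, 54132801, 0, 0, 0, ⟨0, 0⟩, 0⟩, 0, 0⟩ 0 0)) (.cut .v 16809984 (.cut .l 141961 (.cut .d (-8192) (.pos 49 .mp ⟨⟨136776679, 0, 0, 0, 0, 73251669, 0, 0, 0, ⟨0, 0⟩, 0⟩, 0, 0⟩ 0 0) (.cut .s 11675648 (.pos 49 .mp ⟨⟨139033042, 0, 0, 0, 0, 66589770, 0,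 0, 0, ⟨0, 0⟩, 0⟩, 0, 0⟩ 0 0) (.pos 49 .mp ⟨⟨139587885, 0, 0, 0, 0, 66854173, 0, 0, 0, ⟨0, 0⟩, 0⟩, 0, 0⟩ 0 0))) (.pos 49 .mp ⟨⟨135341793, 0, 0, 0, 0, 72294696, 0, 0, 0, ⟨0, 0⟩, 0⟩, 0, 0⟩ 0 0)) (.pos 50 .mp ⟨⟨147796771, 0, 0, 0, 0, 54212953, 0, 0, 0, ⟨0, 0⟩, 0⟩, 0, 0⟩ 0 0)))) (.cut .s 11706368 (.cut .s 11694080 (.cut .v 16809984 (.cut .l 141961 (.cut .d (-8192) (.pos 49 .mp ⟨⟨137870697, 0, 0, 0, 0, 73877791, 0, 0, 0, ⟨0, 0⟩, 0⟩, 0, 0⟩ 0 0) (.cut .s 11687936 (.pos 49 .mp ⟨⟨140144903, 0, 0, 0, 0, 67120434, 0, 0, 0, ⟨0, 0⟩, 0⟩, 0, 0⟩ 0 0) (.pos 49 .mp ⟨⟨140704104, 0, 0, 0, 0, 67388547, 0, 0, 0, ⟨0, 0⟩, 0⟩, 0, 0⟩ 0 0))) (.pos 49 .mp ⟨⟨136419268,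 0, 0, 0, 0, 72842840, 0, 0, 0, ⟨0, 0⟩, 0⟩, 0, 0⟩ 0 0)) (.pos 50 .mp ⟨⟨149225971, 0, 0, 0, 0, 54248364, 0, 0, 0, ⟨0, 0⟩, 0⟩, 0, 0⟩ 0 0)) (.cut .v 16809984 (.cut .d (-8192) (.pos 49 .mp ⟨⟨137247306, 0, 0, 0, 0, 76423020, 0, 0, 0, ⟨0, 0⟩, 0⟩, 0, 0⟩ 0 0) (.cut .s 11700224 (.pos 49 .mp ⟨⟨141218189, 0, 0, 0, 0, 67798838, 0, 0, 0, ⟨0, 0⟩, 0⟩, 0, 0⟩ 0 0) (.pos 49 .mp ⟨⟨141729346, 0, 0, 0, 0, 68170518, 0, 0, 0, ⟨0, 0⟩, 0⟩, 0, 0⟩ 0 0))) (.pos 50 .mp ⟨⟨150697685, 0, 0, 0, 0, 54237504, 0, 0, 0, ⟨0, 0⟩, 0⟩, 0, 0⟩ 0 0))) (.cut .s 11718656 (.cut .v 16809984 (.cut .s 11712512 (.cut .s 11709440 (.pos 49 .mp ⟨⟨142980489, 0, 0, 0, 0, 67223045, 0, 0,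 0, ⟨0, 0⟩, 0⟩, 0, 0⟩ 0 0) (.pos 49 .mp ⟨⟨143376598, 0, 0, 0, 0, 67171706, 0, 0, 0, ⟨0, 0⟩, 0⟩, 0, 0⟩ 0 0)) (.pos 49 .mp ⟨⟨141496400, 0, 0, 0, 0, 71211645, 0, 0, 0, ⟨0, 0⟩, 0⟩, 0, 0⟩ 0 0)) (.pos 50 .mp ⟨⟨152212851, 0, 0, 0, 0, 54178826, 0, 0, 0, ⟨0, 0⟩, 0⟩, 0, 0⟩ 0 0)) (.cut .v 16809984 (.cut .s 11724800 (.pos 49 .mp ⟨⟨142162402, 0, 0, 0, 0, 71330216, 0, 0, 0, ⟨0, 0⟩, 0⟩, 0, 0⟩ 0 0) (.pos 49 .mp ⟨⟨142903446, 0, 0, 0, 0, 71328043, 0, 0, 0, ⟨0, 0⟩, 0⟩, 0, 0⟩ 0 0)) (.pos 50 .mp ⟨⟨153772411, 0, 0, 0, 0, 54070768, 0, 0, 0, ⟨0, 0⟩, 0⟩, 0, 0⟩ 0 0))))) (.pos 40 .mp ⟨⟨183825776, 0, 0, 0, 0, 0, 0, 0, 0, ⟨0, 0⟩, 0⟩, 0, 0⟩ 0 0)))) (.pos 38 .mp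 ⟨⟨186101097, 0, 0, 0, 0, 0, 0, 0, 0, ⟨0, 0⟩, 0⟩, 0, 0⟩ 0 0))))))) (.pos 36 .mp ⟨⟨210709674, 0, 0, 0, 0, 0, 0, 0, 0, ⟨0, 0⟩, 0⟩, 0, 0⟩ 0 0))) (.void 34 ⟨⟨100000, 0, 0, 0, 0, 0, 0, 0, 0, ⟨0, 0⟩, 0⟩, 0, 0⟩ 0 0))) (.void 32 ⟨⟨100000, 0, 0, 0, 0, 0, 0, 0, 0, ⟨0, 0⟩, 0⟩, 0, 0⟩ 0 0))) (.void 30 ⟨⟨100000, 0, 0, 0, 0, 0, 0, 0, 0, ⟨0, 0⟩, 0⟩, 0, 0⟩ 0 0))) (.void 28 ⟨⟨100000, 0, 0, 0, 0, 0, 0, 0, 0, ⟨0, 0⟩, 0⟩, 0, 0⟩ 0 0))) (.void 26 ⟨⟨100000, 0, 0, 0, 0, 0, 0, 0, 0, ⟨0, 0⟩, 0⟩, 0, 0⟩ 0 0)) (.void 95 ⟨⟨100000, 0, 0, 0, 0, 0, 0, 0, 0, ⟨0, 0⟩, 0⟩, 0, 0⟩ 0 0)) (.void 106 ⟨⟨100000, 0, 0, 0, 0, 0, 0, 0, 0, ⟨0, 0⟩, 0⟩, 0, 0⟩ 0 0))) (.cut .v 16777216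 (.cut .v 8388608 (.cut .v 4194304 (.cut .v 2097152 (.void 6 ⟨⟨0, 0, 66667, 0, 0, 0, 0, 0, 0, ⟨0, 0⟩, 0⟩, 0, 33333⟩ 0 0) (.pos 7 .pm ⟨⟨0, 0, 17213914, 0, 0, 0, 0, 0, 0, ⟨0, 0⟩, 0⟩, 0, 198004⟩ 0 0)) (.pos 5 .pm ⟨⟨0, 0, 3898694, 0, 0, 0, 0, 0, 0, ⟨0, 0⟩, 0⟩, 0, 0⟩ 0 0)) (.pos 3 .pm ⟨⟨0, 0, 0, 0, 0, 0, 0, 0, 0, ⟨0, 0⟩, 0⟩, 0, 0⟩ 0 0)) (.cut .v 67108864 (.cut .d 4024593 (.cut .v 33554432 (.cut .d 2012296 (.cut .v 25165824 (.cut .d 1006148 (.cut .d 503074 (.cut .v 20971520 (.cut .d 251537 (.cut .v 18874368 (.cut .v 17825792 (.cut .s 11534336 (.pos 31 .pp ⟨⟨125122432, 0, 0, 0, 0, 0, 0, 0, 0, ⟨0, 0⟩, 0⟩, 2745095, 0⟩ 0 0) (.pos 31 .pp ⟨⟨143277337,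 0, 0, 0, 0, 0, 0, 0, 0, ⟨0, 0⟩, 0⟩, 2840764, 0⟩ 0 0)) (.pos 32 .pp ⟨⟨179985652, 0, 0, 0, 0, 0, 0, 0, 0, ⟨0, 0⟩, 0⟩, 0, 0⟩ 0 0)) (.pos 30 .pp ⟨⟨227334404, 0, 0, 0, 0, 0, 0, 0, 0, ⟨0, 0⟩, 0⟩, 0, 0⟩ 0 0)) (.pos 27 .pp ⟨⟨140200160, 0, 0, 0, 0, 0, 0, 0, 0, ⟨0, 0⟩, 0⟩, 0, 18036⟩ 0 0)) (.cut .d 251537 (.void 28 ⟨⟨0, 0, 0, 0, 0, 0, 0, 0, 0, ⟨0, 0⟩, 0⟩, 100000, 0⟩ 0 0) (.cut .d 377305 (.pos 28 .pp ⟨⟨312775565, 0, 0, 0, 0, 0, 0, 0, 0, ⟨0, 0⟩, 0⟩, 0, 0⟩ 0 0) (.pos 28 .pp ⟨⟨0, 0, 0, 0, 0, 0, 0, 0, 0, ⟨0, 0⟩, 0⟩, 25527582, 0⟩ 0 0)))) (.cut .v 20971520 (.pos 27 .pp ⟨⟨0, 0, 0, 0, 0, 0, 0, 0, 0, ⟨0, 0⟩, 0⟩, 0, 550012⟩ 0 0) (.pos 28 .pp ⟨⟨0, 0, 0,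 0, 0, 0, 179035, 0, 0, ⟨0, 0⟩, 0⟩, 20756882, 0⟩ 0 0))) (.pos 25 .pp ⟨⟨0, 0, 0, 0, 0, 0, 0, 0, 0, ⟨0, 0⟩, 0⟩, 0, 594013⟩ 0 0)) (.cut .d 1006148 (.cut .d 503074 (.void 26 ⟨⟨0, 0, 0, 0, 0, 0, 0, 0, 0, ⟨0, 0⟩, 0⟩, 100000, 0⟩ 0 0) (.pos 26 .pp ⟨⟨0, 0, 0, 0, 0, 0, 0, 0, 0, ⟨0, 0⟩, 0⟩, 35789249, 0⟩ 0 0)) (.pos 26 .pp ⟨⟨0, 0, 0, 0, 0, 0, 148098, 0, 0, ⟨0, 0⟩, 0⟩, 21852795, 0⟩ 0 0))) (.pos 24 .pp ⟨⟨0, 0, 0, 0, 0, 0, 0, 0, 0, ⟨0, 0⟩, 0⟩, 0, 660015⟩ 0 0)) (.cut .d 2012296 (.cut .v 50331648 (.pos 96 .pp ⟨⟨0, 0, 0, 0, 0, 0, 0, 0, 0, ⟨0, 0⟩, 0⟩, 68804422, 0⟩ 0 0) (.void 97 ⟨⟨0, 0, 0, 0, 0, 0, 0, 0, 0, ⟨0, 0⟩, 0⟩, 100000, 0⟩ 0 0)) (.pos 95 .pp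 ⟨⟨0, 0, 0, 0, 0, 0, 0, 0, 0, ⟨0, 0⟩, 0⟩, 31017266, 0⟩ 0 0))) (.pos 94 .pp ⟨⟨0, 0, 0, 0, 0, 0, 0, 0, 0, ⟨0, 0⟩, 0⟩, 0, 495011⟩ 0 0)) (.void 106 ⟨⟨0, 0, 0, 44452, 0, 0, 0, 0, 0, ⟨0, 0⟩, 0⟩, 55548, 0⟩ 0 0)))),
    by decide +kernel⟩

def covers17 : cell.Covers Vale.Agent.P237.Petty.Cor.Grid.N13.table row17.1 :=
  ⟨(.cut .d 0 (.cut .v 16777216 (.cut .d (-8388608) (.void 1 ⟨⟨0, 0, 0, 0, 0, 100000, 0, 0, 0, ⟨0, 0⟩, 0⟩, 0, 0⟩ 0 0) (.cut .d (-4194304) (.void 1 ⟨⟨0, 0, 0, 0, 0, 100000, 0, 0, 0, ⟨0, 0⟩, 0⟩, 0, 0⟩ 0 0) (.cut .d (-2097152) (.void 1 ⟨⟨0, 0, 0, 0, 0, 100000, 0, 0, 0, ⟨0, 0⟩, 0⟩, 0, 0⟩ 0 0) (.cut .d (-1048576) (.void 1 ⟨⟨0, 0,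 0, 0, 0, 100000, 0, 0, 0, ⟨0, 0⟩, 0⟩, 0, 0⟩ 0 0) (.cut .d (-524288) (.void 1 ⟨⟨0, 0, 0, 0, 0, 100000, 0, 0, 0, ⟨0, 0⟩, 0⟩, 0, 0⟩ 0 0) (.cut .d (-262144) (.void 1 ⟨⟨0, 0, 0, 0, 0, 100000, 0, 0, 0, ⟨0, 0⟩, 0⟩, 0, 0⟩ 0 0) (.cut .d (-131072) (.void 1 ⟨⟨0, 0, 0, 0, 0, 100000, 0, 0, 0, ⟨0, 0⟩, 0⟩, 0, 0⟩ 0 0) (.cut .d (-65536) (.void 1 ⟨⟨0, 0, 0, 0, 0, 100000, 0, 0, 0, ⟨0, 0⟩, 0⟩, 0, 0⟩ 0 0) (.cut .d (-32768) (.void 1 ⟨⟨0, 0, 0, 0, 0, 100000, 0, 0, 0, ⟨0, 0⟩, 0⟩, 0, 0⟩ 0 0) (.cut .v 8388608 (.cut .v 4194304 (.void 4 ⟨⟨0, 0, 100000, 0, 0, 0, 0, 0, 0, ⟨0, 0⟩, 0⟩, 0, 0⟩ 0 0) (.pos 5 .mm ⟨⟨0, 0, 5372624, 0, 0, 106328145, 0, 0, 0, ⟨0, 0⟩, 0⟩,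 0, 0⟩ 0 0)) (.cut .s 11862016 (.pos 3 .mm ⟨⟨0, 0, 0, 0, 0, 307993218, 0, 0, 0, ⟨0, 0⟩, 0⟩, 0, 0⟩ 0 0) (.pos 3 .mm ⟨⟨0, 0, 0, 0, 0, 336799743, 0, 0, 0, ⟨0, 0⟩, 0⟩, 0, 0⟩ 0 0)))))))))))) (.cut .v 67108864 (.cut .v 33554432 (.cut .v 25165824 (.cut .d (-8388608) (.void 25 ⟨⟨100000, 0, 0, 0, 0, 0, 0, 0, 0, ⟨0, 0⟩, 0⟩, 0, 0⟩ 0 0) (.cut .v 20971520 (.cut .d (-4194304) (.void 27 ⟨⟨100000, 0, 0, 0, 0, 0, 0, 0, 0, ⟨0, 0⟩, 0⟩, 0, 0⟩ 0 0) (.cut .v 18874368 (.cut .d (-2097152) (.void 29 ⟨⟨100000, 0, 0, 0, 0, 0, 0, 0, 0, ⟨0, 0⟩, 0⟩, 0, 0⟩ 0 0) (.cut .d (-1048576) (.void 29 ⟨⟨100000, 0, 0, 0, 0, 0, 0, 0, 0, ⟨0, 0⟩, 0⟩, 0, 0⟩ 0 0) (.cut .v 17825792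 (.cut .v 17301504 (.cut .d (-524288) (.void 33 ⟨⟨100000, 0, 0, 0, 0, 0, 0, 0, 0, ⟨0, 0⟩, 0⟩, 0, 0⟩ 0 0) (.cut .v 17039360 (.cut .d (-262144) (.void 35 ⟨⟨100000, 0, 0, 0, 0, 0, 0, 0, 0, ⟨0, 0⟩, 0⟩, 0, 0⟩ 0 0) (.cut .d (-131072) (.void 35 ⟨⟨100000, 0, 0, 0, 0, 0, 0, 0, 0, ⟨0, 0⟩, 0⟩, 0, 0⟩ 0 0) (.cut .d (-65536) (.void 35 ⟨⟨100000, 0, 0, 0, 0, 0, 0, 0, 0, ⟨0, 0⟩, 0⟩, 0, 0⟩ 0 0) (.cut .d (-32768) (.void 35 ⟨⟨0, 0, 0, 0, 0, 100000, 0, 0, 0, ⟨0, 0⟩, 0⟩, 0, 0⟩ 0 0) (.cut .v 16908288 (.cut .d (-16384) (.cut .v 16842752 (.cut .d (-24576) (.void 39 ⟨⟨0, 0, 0, 0, 0, 100000, 0, 0, 0, ⟨0, 0⟩, 0⟩, 0, 0⟩ 0 0) (.cut .d (-20480) (.void 39 ⟨⟨0, 0,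 0, 0, 0, 100000, 0, 0, 0, ⟨0, 0⟩, 0⟩, 0, 0⟩ 0 0) (.cut .v 16809984 (.pos 49 .mp ⟨⟨0, 0, 0, 0, 0, 366081003, 0, 0, 0, ⟨0, 0⟩, 0⟩, 0, 0⟩ 0 0) (.cut .l 141961 (.void 50 ⟨⟨100000, 0, 0, 0, 0, 0, 0, 0, 0, ⟨0, 0⟩, 0⟩, 0, 0⟩ 0 0) (.cut .l 212942 (.void 50 ⟨⟨0, 0, 0, 0, 0, 100000, 0, 0, 0, ⟨0, 0⟩, 0⟩, 0, 0⟩ 0 0) (.cut .s 11862016 (.cut .s 11796480 (.cut .s 11763712 (.pos 50 .mp ⟨⟨143190099, 0, 0, 0, 0, 77852778, 0, 0, 0, ⟨0, 0⟩, 0⟩, 0, 0⟩ 0 0) (.pos 50 .mp ⟨⟨146284357, 0, 0, 0, 0, 79264973, 0, 0, 0, ⟨0, 0⟩, 0⟩, 0, 0⟩ 0 0)) (.cut .s 11829248 (.pos 50 .mp ⟨⟨149447169, 0, 0, 0, 0, 80752954, 0, 0, 0, ⟨0, 0⟩, 0⟩, 0, 0⟩ 0 0) (.pos 50 .mp ⟨⟨152679802,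 0, 0, 0, 0, 82315684, 0, 0, 0, ⟨0, 0⟩, 0⟩, 0, 0⟩ 0 0))) (.cut .l 248432 (.pos 50 .mp ⟨⟨158180957, 0, 0, 0, 0, 106181794, 0, 0, 0, ⟨0, 0⟩, 0⟩, 0, 0⟩ 0 0) (.cut .s 11927552 (.cut .s 11894784 (.pos 50 .mp ⟨⟨155983554, 0, 0, 0, 0, 83154793, 0, 0, 0, ⟨0, 0⟩, 0⟩, 0, 0⟩ 0 0) (.pos 50 .mp ⟨⟨159359762, 0, 0, 0, 0, 84833636, 0, 0, 0, ⟨0, 0⟩, 0⟩, 0, 0⟩ 0 0)) (.cut .s 11960320 (.pos 50 .mp ⟨⟨162809798, 0, 0, 0, 0, 86568363, 0, 0, 0, ⟨0, 0⟩, 0⟩, 0, 0⟩ 0 0) (.pos 50 .mp ⟨⟨166335070, 0, 0, 0, 0, 88356606, 0, 0, 0, ⟨0, 0⟩, 0⟩, 0, 0⟩ 0 0)))))))))) (.pos 40 .mp ⟨⟨224299394, 0, 0, 0, 0, 0, 0, 0, 0, ⟨0, 0⟩, 0⟩, 0, 0⟩ 0 0)) (.cut .s 11862016 (.cut .v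 16842752 (.cut .s 11796480 (.cut .s 11763712 (.cut .s 11747328 (.cut .v 16809984 (.cut .l 141961 (.cut .d (-8192) (.pos 49 .mp ⟨⟨142329303, 0, 0, 0, 0, 77276481, 0, 0, 0, ⟨0, 0⟩, 0⟩, 0, 0⟩ 0 0) (.cut .s 11739136 (.pos 49 .mp ⟨⟨144869440, 0, 0, 0, 0, 69173605, 0, 0, 0, ⟨0, 0⟩, 0⟩, 0, 0⟩ 0 0) (.pos 49 .mp ⟨⟨145641100, 0, 0, 0, 0, 69468065, 0, 0, 0, ⟨0, 0⟩, 0⟩, 0, 0⟩ 0 0))) (.pos 49 .mp ⟨⟨140810035, 0, 0, 0, 0, 75494865, 0, 0, 0, ⟨0, 0⟩, 0⟩, 0, 0⟩ 0 0)) (.pos 50 .mp ⟨⟨157642704, 0, 0, 0, 0, 50707355, 0, 0, 0, ⟨0, 0⟩, 0⟩, 0, 0⟩ 0 0)) (.cut .v 16809984 (.cut .l 141961 (.cut .d (-8192) (.pos 49 .mp ⟨⟨143850906, 0, 0, 0, 0, 77907430, 0,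 0, 0, ⟨0, 0⟩, 0⟩, 0, 0⟩ 0 0) (.cut .s 11755520 (.pos 49 .mp ⟨⟨146417018, 0, 0, 0, 0, 69767334, 0, 0, 0, ⟨0, 0⟩, 0⟩, 0, 0⟩ 0 0) (.pos 49 .mp ⟨⟨147197214, 0, 0, 0, 0, 70071398, 0, 0, 0, ⟨0, 0⟩, 0⟩, 0, 0⟩ 0 0))) (.pos 49 .mp ⟨⟨142308204, 0, 0, 0, 0, 76262962, 0, 0, 0, ⟨0, 0⟩, 0⟩, 0, 0⟩ 0 0)) (.pos 50 .mp ⟨⟨158888738, 0, 0, 0, 0, 51778802, 0, 0, 0, ⟨0, 0⟩, 0⟩, 0, 0⟩ 0 0))) (.cut .s 11780096 (.cut .v 16809984 (.cut .l 141961 (.cut .d (-8192) (.pos 49 .mp ⟨⟨145389258, 0, 0, 0, 0, 78564015, 0, 0, 0, ⟨0, 0⟩, 0⟩, 0, 0⟩ 0 0) (.cut .s 11771904 (.pos 49 .mp ⟨⟨147981708, 0, 0, 0, 0, 70380241, 0, 0, 0, ⟨0, 0⟩, 0⟩, 0, 0⟩ 0 0) (.cut .s 11776000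 (.pos 49 .mp ⟨⟨148559082, 0, 0, 0, 0, 70746005, 0, 0, 0, ⟨0, 0⟩, 0⟩, 0, 0⟩ 0 0) (.pos 49 .mp ⟨⟨148912766, 0, 0, 0, 0, 70967136, 0, 0, 0, ⟨0, 0⟩, 0⟩, 0, 0⟩ 0 0)))) (.pos 49 .mp ⟨⟨143822724, 0, 0, 0, 0, 77044202, 0, 0, 0, ⟨0, 0⟩, 0⟩, 0, 0⟩ 0 0)) (.pos 50 .mp ⟨⟨160191989, 0, 0, 0, 0, 52807313, 0, 0, 0, ⟨0, 0⟩, 0⟩, 0, 0⟩ 0 0)) (.cut .v 16809984 (.cut .l 141961 (.cut .d (-8192) (.pos 49 .mp ⟨⟨146944514, 0, 0, 0, 0, 79246521, 0, 0, 0, ⟨0, 0⟩, 0⟩, 0, 0⟩ 0 0) (.cut .v 16793600 (.cut .s 11788288 (.pos 51 .mp ⟨⟨147971038, 0, 0, 0, 0, 73667414, 0, 0, 0, ⟨0, 0⟩, 0⟩, 0, 0⟩ 0 0) (.pos 51 .mp ⟨⟨148528973, 0, 0, 0, 0, 74395745, 0, 0, 0, ⟨0, 0⟩,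 0⟩, 0, 0⟩ 0 0)) (.pos 52 .mp ⟨⟨162372188, 0, 0, 0, 0, 52008979, 0, 0, 0, ⟨0, 0⟩, 0⟩, 0, 0⟩ 0 0))) (.pos 49 .mp ⟨⟨145353744, 0, 0, 0, 0, 77838105, 0, 0, 0, ⟨0, 0⟩, 0⟩, 0, 0⟩ 0 0)) (.pos 50 .mp ⟨⟨161555056, 0, 0, 0, 0, 53788726, 0, 0, 0, ⟨0, 0⟩, 0⟩, 0, 0⟩ 0 0)))) (.cut .s 11829248 (.cut .s 11812864 (.cut .v 16809984 (.cut .l 141961 (.cut .d (-8192) (.pos 49 .mp ⟨⟨148516827, 0, 0, 0, 0, 79955235, 0, 0, 0, ⟨0, 0⟩, 0⟩, 0, 0⟩ 0 0) (.cut .v 16793600 (.cut .l 70980 (.cut .d (-4096) (.pos 51 .mp ⟨⟨148341783, 0, 0, 0, 0, 79885365, 0, 0, 0, ⟨0, 0⟩, 0⟩, 0, 0⟩ 0 0) (.cut .s 11804672 (.pos 51 .mp ⟨⟨150047388, 0, 0, 0, 0, 73371189, 0, 0, 0, ⟨0,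 0⟩, 0⟩, 0, 0⟩ 0 0) (.pos 51 .mp ⟨⟨150856105, 0, 0, 0, 0, 73697956, 0, 0, 0, ⟨0, 0⟩, 0⟩, 0, 0⟩ 0 0))) (.pos 51 .mp ⟨⟨147534432, 0, 0, 0, 0, 77113313, 0, 0, 0, ⟨0, 0⟩, 0⟩, 0, 0⟩ 0 0)) (.pos 52 .mp ⟨⟨163810353, 0, 0, 0, 0, 52911552, 0, 0, 0, ⟨0, 0⟩, 0⟩, 0, 0⟩ 0 0))) (.pos 49 .mp ⟨⟨146901415, 0, 0, 0, 0, 78644189, 0, 0, 0, ⟨0, 0⟩, 0⟩, 0, 0⟩ 0 0)) (.cut .s 11804672 (.pos 50 .mp ⟨⟨158576597, 0, 0, 0, 0, 60908884, 0, 0, 0, ⟨0, 0⟩, 0⟩, 0, 0⟩ 0 0) (.pos 50 .mp ⟨⟨159274948, 0, 0, 0, 0, 61412017, 0, 0, 0, ⟨0, 0⟩, 0⟩, 0, 0⟩ 0 0))) (.cut .v 16809984 (.cut .l 141961 (.cut .d (-8192) (.pos 49 .mp ⟨⟨150106356, 0, 0, 0, 0, 80690450, 0, 0, 0, ⟨0,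 0⟩, 0⟩, 0, 0⟩ 0 0) (.cut .v 16793600 (.cut .l 70980 (.cut .d (-4096) (.pos 51 .mp ⟨⟨149925222, 0, 0, 0, 0, 80627208, 0, 0, 0, ⟨0, 0⟩, 0⟩, 0, 0⟩ 0 0) (.cut .s 11821056 (.pos 51 .mp ⟨⟨151659004, 0, 0, 0, 0, 74047789, 0, 0, 0, ⟨0, 0⟩, 0⟩, 0, 0⟩ 0 0) (.pos 51 .mp ⟨⟨152466282, 0, 0, 0, 0, 74402389, 0, 0, 0, ⟨0, 0⟩, 0⟩, 0, 0⟩ 0 0))) (.pos 51 .mp ⟨⟨149105350, 0, 0, 0, 0, 77912382, 0, 0, 0, ⟨0, 0⟩, 0⟩, 0, 0⟩ 0 0)) (.pos 52 .mp ⟨⟨165313819, 0, 0, 0, 0, 53758051, 0, 0, 0, ⟨0, 0⟩, 0⟩, 0, 0⟩ 0 0))) (.pos 49 .mp ⟨⟨148465891, 0, 0, 0, 0, 79461967, 0, 0, 0, ⟨0, 0⟩, 0⟩, 0, 0⟩ 0 0)) (.cut .s 11821056 (.pos 50 .mp ⟨⟨159989807, 0, 0, 0, 0, 61900929,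 0, 0, 0, ⟨0, 0⟩, 0⟩, 0, 0⟩ 0 0) (.pos 50 .mp ⟨⟨160721510, 0, 0, 0, 0, 62375080, 0, 0, 0, ⟨0, 0⟩, 0⟩, 0, 0⟩ 0 0)))) (.cut .s 11845632 (.cut .v 16809984 (.cut .l 141961 (.cut .d (-8192) (.pos 49 .mp ⟨⟨151713259, 0, 0, 0, 0, 81452461, 0, 0, 0, ⟨0, 0⟩, 0⟩, 0, 0⟩ 0 0) (.cut .v 16793600 (.cut .l 70980 (.cut .d (-4096) (.pos 51 .mp ⟨⟨151525944, 0, 0, 0, 0, 81395958, 0, 0, 0, ⟨0, 0⟩, 0⟩, 0, 0⟩ 0 0) (.cut .s 11837440 (.pos 51 .mp ⟨⟨153277957, 0, 0, 0, 0, 74761741, 0, 0, 0, ⟨0, 0⟩, 0⟩, 0, 0⟩ 0 0) (.pos 51 .mp ⟨⟨154094052, 0, 0, 0, 0, 75125827, 0, 0, 0, ⟨0, 0⟩, 0⟩, 0, 0⟩ 0 0))) (.pos 51 .mp ⟨⟨150693345, 0, 0, 0, 0, 78722335, 0, 0, 0, ⟨0, 0⟩,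 0⟩, 0, 0⟩ 0 0)) (.pos 52 .mp ⟨⟨166885257, 0, 0, 0, 0, 54544158, 0, 0, 0, ⟨0, 0⟩, 0⟩, 0, 0⟩ 0 0))) (.pos 49 .mp ⟨⟨150047327, 0, 0, 0, 0, 80290950, 0, 0, 0, ⟨0, 0⟩, 0⟩, 0, 0⟩ 0 0)) (.cut .s 11837440 (.pos 50 .mp ⟨⟨161470393, 0, 0, 0, 0, 62833922, 0, 0, 0, ⟨0, 0⟩, 0⟩, 0, 0⟩ 0 0) (.pos 50 .mp ⟨⟨162236795, 0, 0, 0, 0, 63276907, 0, 0, 0, ⟨0, 0⟩, 0⟩, 0, 0⟩ 0 0))) (.cut .v 16809984 (.cut .l 141961 (.cut .d (-8192) (.pos 49 .mp ⟨⟨153337697, 0, 0, 0, 0, 82241567, 0, 0, 0, ⟨0, 0⟩, 0⟩, 0, 0⟩ 0 0) (.cut .l 70980 (.cut .d (-4096) (.pos 49 .mp ⟨⟨153828942, 0, 0, 0, 0, 81730693, 0, 0, 0, ⟨0, 0⟩, 0⟩, 0, 0⟩ 0 0) (.cut .v 16793600 (.cut .l 35490 (.cut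 .d (-2048) (.pos 51 .mp ⟨⟨153580804, 0, 0, 0, 0, 81777769, 0, 0, 0, ⟨0, 0⟩, 0⟩, 0, 0⟩ 0 0) (.cut .s 11853824 (.pos 51 .mp ⟨⟨154456049, 0, 0, 0, 0, 76205098, 0, 0, 0, ⟨0, 0⟩, 0⟩, 0, 0⟩ 0 0) (.pos 51 .mp ⟨⟨155288382, 0, 0, 0, 0, 76562435, 0, 0, 0, ⟨0, 0⟩, 0⟩, 0, 0⟩ 0 0))) (.pos 51 .mp ⟨⟨155259564, 0, 0, 0, 0, 74440239, 0, 0, 0, ⟨0, 0⟩, 0⟩, 0, 0⟩ 0 0)) (.pos 52 .mp ⟨⟨200684839, 0, 0, 0, 0, 0, 0, 0, 0, ⟨0, 0⟩, 0⟩, 0, 0⟩ 0 0))) (.pos 49 .mp ⟨⟨155939488, 0, 0, 0, 0, 73611035, 0, 0, 0, ⟨0, 0⟩, 0⟩, 0, 0⟩ 0 0))) (.pos 49 .mp ⟨⟨151645882, 0, 0, 0, 0, 81130646, 0, 0, 0, ⟨0, 0⟩, 0⟩, 0, 0⟩ 0 0)) (.cut .s 11853824 (.pos 50 .mp ⟨⟨163021056, 0,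 0, 0, 0, 63703483, 0, 0, 0, ⟨0, 0⟩, 0⟩, 0, 0⟩ 0 0) (.pos 50 .mp ⟨⟨163823516, 0, 0, 0, 0, 64113094, 0, 0, 0, ⟨0, 0⟩, 0⟩, 0, 0⟩ 0 0)))))) (.pos 40 .mp ⟨⟨197960855, 0, 0, 0, 0, 0, 0, 0, 0, ⟨0, 0⟩, 0⟩, 0, 0⟩ 0 0)) (.cut .v 16842752 (.cut .s 11927552 (.cut .s 11894784 (.cut .s 11878400 (.cut .v 16809984 (.cut .s 11870208 (.cut .d (-8192) (.pos 49 .mp ⟨⟨153064584, 0, 0, 0, 0, 83880935, 0, 0, 0, ⟨0, 0⟩, 0⟩, 0, 0⟩ 0 0) (.cut .s 11866112 (.pos 49 .mp ⟨⟨157318730, 0, 0, 0, 0, 74817982, 0, 0, 0, ⟨0, 0⟩, 0⟩, 0, 0⟩ 0 0) (.pos 49 .mp ⟨⟨157738116, 0, 0, 0, 0, 75001526, 0, 0, 0, ⟨0, 0⟩, 0⟩, 0, 0⟩ 0 0))) (.cut .d (-8192) (.pos 49 .mp ⟨⟨153882494,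 0, 0, 0, 0, 84298331, 0, 0, 0, ⟨0, 0⟩, 0⟩, 0, 0⟩ 0 0) (.cut .s 11874304 (.pos 49 .mp ⟨⟨158158642, 0, 0, 0, 0, 75186397, 0, 0, 0, ⟨0, 0⟩, 0⟩, 0, 0⟩ 0 0) (.pos 49 .mp ⟨⟨158580312, 0, 0, 0, 0, 75372596, 0, 0, 0, ⟨0, 0⟩, 0⟩, 0, 0⟩ 0 0)))) (.cut .s 11870208 (.pos 50 .mp ⟨⟨164644520, 0, 0, 0, 0, 64505180, 0, 0, 0, ⟨0, 0⟩, 0⟩, 0, 0⟩ 0 0) (.pos 50 .mp ⟨⟨165484412, 0, 0, 0, 0, 64879177, 0, 0, 0, ⟨0, 0⟩, 0⟩, 0, 0⟩ 0 0))) (.cut .v 16809984 (.cut .s 11886592 (.cut .d (-8192) (.pos 49 .mp ⟨⟨154704816, 0, 0, 0, 0, 84722783, 0, 0, 0, ⟨0, 0⟩, 0⟩, 0, 0⟩ 0 0) (.cut .s 11882496 (.pos 49 .mp ⟨⟨159003128, 0, 0, 0, 0, 75560121, 0, 0, 0, ⟨0, 0⟩, 0⟩, 0,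 0⟩ 0 0) (.pos 49 .mp ⟨⟨159427093, 0, 0, 0, 0, 75748973, 0, 0, 0, ⟨0, 0⟩, 0⟩, 0, 0⟩ 0 0))) (.cut .d (-8192) (.pos 49 .mp ⟨⟨155531569, 0, 0, 0, 0, 85154331, 0, 0, 0, ⟨0, 0⟩, 0⟩, 0, 0⟩ 0 0) (.cut .s 11890688 (.pos 49 .mp ⟨⟨159852209, 0, 0, 0, 0, 75939152, 0, 0, 0, ⟨0, 0⟩, 0⟩, 0, 0⟩ 0 0) (.pos 49 .mp ⟨⟨160278480, 0, 0, 0, 0, 76130658, 0, 0, 0, ⟨0, 0⟩, 0⟩, 0, 0⟩ 0 0)))) (.cut .s 11886592 (.pos 50 .mp ⟨⟨166343539, 0, 0, 0, 0, 65234520, 0, 0, 0, ⟨0, 0⟩, 0⟩, 0, 0⟩ 0 0) (.pos 50 .mp ⟨⟨167222250, 0, 0, 0, 0, 65570636, 0, 0, 0, ⟨0, 0⟩, 0⟩, 0, 0⟩ 0 0)))) (.cut .s 11911168 (.cut .v 16809984 (.cut .s 11902976 (.cut .d (-8192) (.pos 49 .mp ⟨⟨156362776,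 0, 0, 0, 0, 85593013, 0, 0, 0, ⟨0, 0⟩, 0⟩, 0, 0⟩ 0 0) (.cut .s 11898880 (.pos 49 .mp ⟨⟨160705907, 0, 0, 0, 0, 76323490, 0, 0, 0, ⟨0, 0⟩, 0⟩, 0, 0⟩ 0 0) (.pos 49 .mp ⟨⟨161134495, 0, 0, 0, 0, 76517649, 0, 0, 0, ⟨0, 0⟩, 0⟩, 0, 0⟩ 0 0))) (.cut .d (-8192) (.pos 49 .mp ⟨⟨157198456, 0, 0, 0, 0, 86038871, 0, 0, 0, ⟨0, 0⟩, 0⟩, 0, 0⟩ 0 0) (.cut .s 11907072 (.pos 49 .mp ⟨⟨161564244, 0, 0, 0, 0, 76713134, 0, 0, 0, ⟨0, 0⟩, 0⟩, 0, 0⟩ 0 0) (.pos 49 .mp ⟨⟨161995159, 0, 0, 0, 0, 76909945, 0, 0, 0, ⟨0, 0⟩, 0⟩, 0, 0⟩ 0 0)))) (.cut .s 11902976 (.pos 50 .mp ⟨⟨168120893, 0, 0, 0, 0, 65886951, 0, 0, 0, ⟨0, 0⟩, 0⟩, 0, 0⟩ 0 0) (.pos 50 .mp ⟨⟨169039821, 0,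 0, 0, 0, 66182888, 0, 0, 0, ⟨0, 0⟩, 0⟩, 0, 0⟩ 0 0))) (.cut .v 16809984 (.cut .s 11919360 (.cut .d (-8192) (.pos 49 .mp ⟨⟨158038631, 0, 0, 0, 0, 86491945, 0, 0, 0, ⟨0, 0⟩, 0⟩, 0, 0⟩ 0 0) (.cut .s 11915264 (.pos 49 .mp ⟨⟨162427242, 0, 0, 0, 0, 77108083, 0, 0, 0, ⟨0, 0⟩, 0⟩, 0, 0⟩ 0 0) (.pos 49 .mp ⟨⟨162860496, 0, 0, 0, 0, 77307546, 0, 0, 0, ⟨0, 0⟩, 0⟩, 0, 0⟩ 0 0))) (.cut .d (-8192) (.pos 49 .mp ⟨⟨158883323, 0, 0, 0, 0, 86952276, 0, 0, 0, ⟨0, 0⟩, 0⟩, 0, 0⟩ 0 0) (.cut .s 11923456 (.pos 49 .mp ⟨⟨163294923, 0, 0, 0, 0, 77508334, 0, 0, 0, ⟨0, 0⟩, 0⟩, 0, 0⟩ 0 0) (.pos 49 .mp ⟨⟨163730526, 0, 0, 0, 0, 77710449, 0, 0, 0, ⟨0, 0⟩, 0⟩, 0, 0⟩ 0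 0)))) (.cut .s 11919360 (.pos 50 .mp ⟨⟨169979388, 0, 0, 0, 0, 66457865, 0, 0, 0, ⟨0, 0⟩, 0⟩, 0, 0⟩ 0 0) (.pos 50 .mp ⟨⟨170939948, 0, 0, 0, 0, 66711294, 0, 0, 0, ⟨0, 0⟩, 0⟩, 0, 0⟩ 0 0))))) (.cut .s 11960320 (.cut .s 11943936 (.cut .v 16809984 (.cut .s 11935744 (.cut .d (-8192) (.pos 49 .mp ⟨⟨159732553, 0, 0, 0, 0, 87419903, 0, 0, 0, ⟨0, 0⟩, 0⟩, 0, 0⟩ 0 0) (.cut .s 11931648 (.pos 49 .mp ⟨⟨164167308, 0, 0, 0, 0, 77913888, 0, 0, 0, ⟨0, 0⟩, 0⟩, 0, 0⟩ 0 0) (.pos 49 .mp ⟨⟨164605273, 0, 0, 0, 0, 78118653, 0, 0, 0, ⟨0, 0⟩, 0⟩, 0, 0⟩ 0 0))) (.cut .d (-8192) (.pos 49 .mp ⟨⟨160586342, 0, 0, 0, 0, 87894870, 0, 0, 0, ⟨0, 0⟩, 0⟩, 0, 0⟩ 0 0) (.cut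 .s 11939840 (.pos 49 .mp ⟨⟨165044421, 0, 0, 0, 0, 78324742, 0, 0, 0, ⟨0, 0⟩, 0⟩, 0, 0⟩ 0 0) (.pos 49 .mp ⟨⟨165476130, 0, 0, 0, 0, 78547547, 0, 0, 0, ⟨0, 0⟩, 0⟩, 0, 0⟩ 0 0)))) (.cut .s 11935744 (.pos 50 .mp ⟨⟨171921859, 0, 0, 0, 0, 66942588, 0, 0, 0, ⟨0, 0⟩, 0⟩, 0, 0⟩ 0 0) (.pos 50 .mp ⟨⟨172925479, 0, 0, 0, 0, 67151151, 0, 0, 0, ⟨0, 0⟩, 0⟩, 0, 0⟩ 0 0))) (.cut .v 16809984 (.cut .l 141961 (.cut .d (-8192) (.pos 49 .mp ⟨⟨163461893, 0, 0, 0, 0, 87562451, 0, 0, 0, ⟨0, 0⟩, 0⟩, 0, 0⟩ 0 0) (.cut .l 70980 (.cut .d (-4096) (.pos 49 .mp ⟨⟨163921064, 0, 0, 0, 0, 87155771, 0, 0, 0, ⟨0, 0⟩, 0⟩, 0, 0⟩ 0 0) (.cut .v 16793600 (.cut .s 11952128 (.pos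 51 .mp ⟨⟨165114942, 0, 0, 0, 0, 80281722, 0, 0, 0, ⟨0, 0⟩, 0⟩, 0, 0⟩ 0 0) (.pos 51 .mp ⟨⟨165995124, 0, 0, 0, 0, 80710194, 0, 0, 0, ⟨0, 0⟩, 0⟩, 0, 0⟩ 0 0)) (.pos 52 .mp ⟨⟨213538142, 0, 0, 0, 0, 0, 0, 0, 0, ⟨0, 0⟩, 0⟩, 0, 0⟩ 0 0))) (.pos 49 .mp ⟨⟨166235197, 0, 0, 0, 0, 78219003, 0, 0, 0, ⟨0, 0⟩, 0⟩, 0, 0⟩ 0 0))) (.pos 49 .mp ⟨⟨161605791, 0, 0, 0, 0, 86365793, 0, 0, 0, ⟨0, 0⟩, 0⟩, 0, 0⟩ 0 0)) (.cut .s 11952128 (.pos 50 .mp ⟨⟨173951170, 0, 0, 0, 0, 67336387, 0, 0, 0, ⟨0, 0⟩, 0⟩, 0, 0⟩ 0 0) (.pos 50 .mp ⟨⟨174999294, 0, 0, 0, 0, 67497693, 0, 0, 0, ⟨0, 0⟩, 0⟩, 0, 0⟩ 0 0)))) (.cut .s 11976704 (.cut .v 16809984 (.cut .l 141961 (.cut .d (-8192)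 (.pos 49 .mp ⟨⟨165213787, 0, 0, 0, 0, 88549935, 0, 0, 0, ⟨0, 0⟩, 0⟩, 0, 0⟩ 0 0) (.cut .v 16793600 (.cut .l 70980 (.cut .d (-4096) (.pos 51 .mp ⟨⟨164973692, 0, 0, 0, 0, 88551496, 0, 0, 0, ⟨0, 0⟩, 0⟩, 0, 0⟩ 0 0) (.cut .s 11968512 (.pos 51 .mp ⟨⟨166880049, 0, 0, 0, 0, 81143120, 0, 0, 0, ⟨0, 0⟩, 0⟩, 0, 0⟩ 0 0) (.pos 51 .mp ⟨⟨167769740, 0, 0, 0, 0, 81580477, 0, 0, 0, ⟨0, 0⟩, 0⟩, 0, 0⟩ 0 0))) (.pos 51 .mp ⟨⟨164031604, 0, 0, 0, 0, 85533807, 0, 0, 0, ⟨0, 0⟩, 0⟩, 0, 0⟩ 0 0)) (.pos 52 .mp ⟨⟨182232775, 0, 0, 0, 0, 58121691, 0, 0, 0, ⟨0, 0⟩, 0⟩, 0, 0⟩ 0 0))) (.pos 49 .mp ⟨⟨163328770, 0, 0, 0, 0, 87266404, 0, 0, 0, ⟨0, 0⟩, 0⟩, 0, 0⟩ 0 0)) (.cut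 .s 11968512 (.pos 50 .mp ⟨⟨176070214, 0, 0, 0, 0, 67634465, 0, 0, 0, ⟨0, 0⟩, 0⟩, 0, 0⟩ 0 0) (.pos 50 .mp ⟨⟨177164299, 0, 0, 0, 0, 67746093, 0, 0, 0, ⟨0, 0⟩, 0⟩, 0, 0⟩ 0 0))) (.cut .v 16809984 (.cut .l 141961 (.cut .d (-8192) (.pos 49 .mp ⟨⟨166984589, 0, 0, 0, 0, 89567052, 0, 0, 0, ⟨0, 0⟩, 0⟩, 0, 0⟩ 0 0) (.cut .v 16793600 (.cut .l 70980 (.cut .d (-4096) (.pos 51 .mp ⟨⟨166737466, 0, 0, 0, 0, 89576409, 0, 0, 0, ⟨0, 0⟩, 0⟩, 0, 0⟩ 0 0) (.cut .s 11984896 (.pos 51 .mp ⟨⟨168664218, 0, 0, 0, 0, 82022246, 0, 0, 0, ⟨0, 0⟩, 0⟩, 0, 0⟩ 0 0) (.pos 51 .mp ⟨⟨169563508, 0, 0, 0, 0, 82468404, 0, 0, 0, ⟨0, 0⟩, 0⟩, 0, 0⟩ 0 0))) (.pos 51 .mp ⟨⟨165780704,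 0, 0, 0, 0, 86419073, 0, 0, 0, ⟨0, 0⟩, 0⟩, 0, 0⟩ 0 0)) (.pos 52 .mp ⟨⟨184540476, 0, 0, 0, 0, 58160364, 0, 0, 0, ⟨0, 0⟩, 0⟩, 0, 0⟩ 0 0))) (.pos 49 .mp ⟨⟨165070208, 0, 0, 0, 0, 88173664, 0, 0, 0, ⟨0, 0⟩, 0⟩, 0, 0⟩ 0 0)) (.cut .s 11984896 (.pos 50 .mp ⟨⟨178281915, 0, 0, 0, 0, 67831962, 0, 0, 0, ⟨0, 0⟩, 0⟩, 0, 0⟩ 0 0) (.pos 50 .mp ⟨⟨179423432, 0, 0, 0, 0, 67891456, 0, 0, 0, ⟨0, 0⟩, 0⟩, 0, 0⟩ 0 0)))))) (.pos 40 .mp ⟨⟨214786543, 0, 0, 0, 0, 0, 0, 0, 0, ⟨0, 0⟩, 0⟩, 0, 0⟩ 0 0)))) (.pos 38 .mp ⟨⟨217720775, 0, 0, 0, 0, 0, 0, 0, 0, ⟨0, 0⟩, 0⟩, 0, 0⟩ 0 0)))))) (.pos 36 .mp ⟨⟨249096373, 0, 0, 0, 0, 0, 0, 0, 0, ⟨0, 0⟩, 0⟩, 0, 0⟩ 0 0))) (.void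 34 ⟨⟨100000, 0, 0, 0, 0, 0, 0, 0, 0, ⟨0, 0⟩, 0⟩, 0, 0⟩ 0 0)) (.void 32 ⟨⟨100000, 0, 0, 0, 0, 0, 0, 0, 0, ⟨0, 0⟩, 0⟩, 0, 0⟩ 0 0)))) (.void 30 ⟨⟨100000, 0, 0, 0, 0, 0, 0, 0, 0, ⟨0, 0⟩, 0⟩, 0, 0⟩ 0 0))) (.void 28 ⟨⟨100000, 0, 0, 0, 0, 0, 0, 0, 0, ⟨0, 0⟩, 0⟩, 0, 0⟩ 0 0))) (.void 26 ⟨⟨100000, 0, 0, 0, 0, 0, 0, 0, 0, ⟨0, 0⟩, 0⟩, 0, 0⟩ 0 0)) (.void 95 ⟨⟨100000, 0, 0, 0, 0, 0, 0, 0, 0, ⟨0, 0⟩, 0⟩, 0, 0⟩ 0 0)) (.void 106 ⟨⟨100000, 0, 0, 0, 0, 0, 0, 0, 0, ⟨0, 0⟩, 0⟩, 0, 0⟩ 0 0))) (.cut .v 16777216 (.cut .v 8388608 (.cut .v 4194304 (.cut .v 2097152 (.cut .v 1048576 (.void 111 ⟨⟨0, 0, 66667, 0, 0, 0, 0, 0, 0, ⟨0, 0⟩, 0⟩, 0, 33333⟩ 0 0) (.pos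 112 .pm ⟨⟨0, 0, 18712561, 0, 0, 0, 0, 0, 0, ⟨0, 0⟩, 0⟩, 0, 78735⟩ 0 0)) (.pos 7 .pm ⟨⟨0, 0, 18895650, 0, 0, 0, 0, 0, 0, ⟨0, 0⟩, 0⟩, 0, 164193⟩ 0 0)) (.pos 5 .pm ⟨⟨0, 0, 5369653, 0, 0, 0, 0, 0, 0, ⟨0, 0⟩, 0⟩, 0, 0⟩ 0 0)) (.pos 3 .pm ⟨⟨0, 0, 0, 0, 0, 0, 0, 0, 0, ⟨0, 0⟩, 0⟩, 0, 0⟩ 0 0)) (.cut .v 67108864 (.cut .d 3608508 (.cut .v 33554432 (.cut .d 1804254 (.cut .v 25165824 (.cut .d 902127 (.cut .v 20971520 (.cut .d 451063 (.cut .d 225531 (.cut .v 18874368 (.cut .v 17825792 (.cut .s 11862016 (.pos 31 .pp ⟨⟨138809422, 0, 0, 0, 0, 0, 0, 0, 0, ⟨0, 0⟩, 0⟩, 6043190, 0⟩ 0 0) (.pos 31 .pp ⟨⟨151982084, 0, 0, 0, 0, 0, 0, 0, 0, ⟨0, 0⟩, 0⟩, 6383329,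 0⟩ 0 0)) (.pos 32 .pp ⟨⟨220220759, 0, 0, 0, 0, 0, 0, 0, 0, ⟨0, 0⟩, 0⟩, 0, 0⟩ 0 0)) (.pos 30 .pp ⟨⟨271377290, 0, 0, 0, 0, 0, 0, 0, 0, ⟨0, 0⟩, 0⟩, 0, 0⟩ 0 0)) (.pos 27 .pp ⟨⟨176936807, 0, 0, 0, 0, 0, 0, 0, 0, ⟨0, 0⟩, 0⟩, 0, 18472⟩ 0 0)) (.pos 27 .pp ⟨⟨0, 0, 0, 0, 0, 0, 0, 0, 0, ⟨0, 0⟩, 0⟩, 0, 456091⟩ 0 0)) (.cut .d 451063 (.cut .d 225531 (.void 28 ⟨⟨0, 0, 0, 0, 0, 0, 0, 0, 0, ⟨0, 0⟩, 0⟩, 100000, 0⟩ 0 0) (.pos 28 .pp ⟨⟨0, 0, 0, 0, 0, 0, 0, 0, 0, ⟨0, 0⟩, 0⟩, 35060523, 0⟩ 0 0)) (.pos 28 .pp ⟨⟨0, 0, 0, 0, 0, 0, 168452, 0, 0, ⟨0, 0⟩, 0⟩, 25833574, 0⟩ 0 0))) (.pos 25 .pp ⟨⟨0, 0, 0, 0, 0, 0, 0, 0, 0, ⟨0, 0⟩, 0⟩, 0, 492578⟩ 0 0)) (.cut .d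 902127 (.cut .d 451063 (.void 26 ⟨⟨0, 0, 0, 0, 0, 0, 0, 0, 0, ⟨0, 0⟩, 0⟩, 100000, 0⟩ 0 0) (.pos 26 .pp ⟨⟨0, 0, 0, 0, 0, 0, 0, 0, 0, ⟨0, 0⟩, 0⟩, 43063798, 0⟩ 0 0)) (.pos 26 .pp ⟨⟨0, 0, 0, 0, 0, 0, 166653, 0, 0, ⟨0, 0⟩, 0⟩, 26727054, 0⟩ 0 0))) (.pos 24 .pp ⟨⟨0, 0, 0, 0, 0, 0, 0, 0, 0, ⟨0, 0⟩, 0⟩, 0, 547309⟩ 0 0)) (.cut .d 1804254 (.cut .v 50331648 (.pos 96 .pp ⟨⟨0, 0, 0, 0, 0, 0, 0, 0, 0, ⟨0, 0⟩, 0⟩, 80860531, 0⟩ 0 0) (.void 97 ⟨⟨0, 0, 0, 0, 0, 0, 0, 0, 0, ⟨0, 0⟩, 0⟩, 100000, 0⟩ 0 0)) (.pos 95 .pp ⟨⟨0, 0, 0, 0, 0, 0, 0, 0, 0, ⟨0, 0⟩, 0⟩, 36187075, 0⟩ 0 0))) (.pos 94 .pp ⟨⟨0, 0, 0, 0, 0, 0, 0, 0, 0, ⟨0, 0⟩, 0⟩, 0, 410482⟩ 0 0)) (.void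 106 ⟨⟨0, 0, 0, 44892, 0, 0, 0, 0, 0, ⟨0, 0⟩, 0⟩, 55108, 0⟩ 0 0)))),
    by decide +kernel⟩

def covers18 : cell.Covers Vale.Agent.P237.Petty.Cor.Grid.N13.table row18.1 :=
  ⟨(.cut .d 0 (.cut .v 16777216 (.cut .d (-8388608) (.void 1 ⟨⟨0, 0, 0, 0, 0, 100000, 0, 0, 0, ⟨0, 0⟩, 0⟩, 0, 0⟩ 0 0) (.cut .d (-4194304) (.void 1 ⟨⟨0, 0, 0, 0, 0, 100000, 0, 0, 0, ⟨0, 0⟩, 0⟩, 0, 0⟩ 0 0) (.cut .d (-2097152) (.void 1 ⟨⟨0, 0, 0, 0, 0, 100000, 0, 0, 0, ⟨0, 0⟩, 0⟩, 0, 0⟩ 0 0) (.cut .d (-1048576) (.void 1 ⟨⟨0, 0, 0, 0, 0, 100000, 0, 0, 0, ⟨0, 0⟩, 0⟩, 0, 0⟩ 0 0) (.cut .d (-524288) (.void 1 ⟨⟨0, 0, 0, 0, 0, 100000, 0, 0, 0, ⟨0, 0⟩, 0⟩, 0, 0⟩ 0 0) (.cut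 .d (-262144) (.void 1 ⟨⟨0, 0, 0, 0, 0, 100000, 0, 0, 0, ⟨0, 0⟩, 0⟩, 0, 0⟩ 0 0) (.cut .d (-131072) (.void 1 ⟨⟨0, 0, 0, 0, 0, 100000, 0, 0, 0, ⟨0, 0⟩, 0⟩, 0, 0⟩ 0 0) (.cut .d (-65536) (.void 1 ⟨⟨0, 0, 0, 0, 0, 100000, 0, 0, 0, ⟨0, 0⟩, 0⟩, 0, 0⟩ 0 0) (.cut .d (-32768) (.void 1 ⟨⟨0, 0, 0, 0, 0, 100000, 0, 0, 0, ⟨0, 0⟩, 0⟩, 0, 0⟩ 0 0) (.cut .v 8388608 (.cut .v 4194304 (.void 4 ⟨⟨0, 0, 100000, 0, 0, 0, 0, 0, 0, ⟨0, 0⟩, 0⟩, 0, 0⟩ 0 0) (.pos 5 .mm ⟨⟨0, 0, 6579207, 0, 0, 127614129, 0, 0, 0, ⟨0, 0⟩, 0⟩, 0, 0⟩ 0 0)) (.cut .s 12124160 (.pos 3 .mm ⟨⟨0, 0, 0, 0, 0, 369137733, 0, 0, 0, ⟨0, 0⟩, 0⟩, 0, 0⟩ 0 0) (.pos 3 .mm ⟨⟨0, 0, 0, 0, 0, 404280169,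 0, 0, 0, ⟨0, 0⟩, 0⟩, 0, 0⟩ 0 0)))))))))))) (.cut .v 67108864 (.cut .v 33554432 (.cut .v 25165824 (.cut .d (-8388608) (.void 25 ⟨⟨100000, 0, 0, 0, 0, 0, 0, 0, 0, ⟨0, 0⟩, 0⟩, 0, 0⟩ 0 0) (.cut .v 20971520 (.cut .d (-4194304) (.void 27 ⟨⟨100000, 0, 0, 0, 0, 0, 0, 0, 0, ⟨0, 0⟩, 0⟩, 0, 0⟩ 0 0) (.cut .d (-2097152) (.void 27 ⟨⟨100000, 0, 0, 0, 0, 0, 0, 0, 0, ⟨0, 0⟩, 0⟩, 0, 0⟩ 0 0) (.cut .v 18874368 (.cut .d (-1048576) (.void 29 ⟨⟨100000, 0, 0, 0, 0, 0, 0, 0, 0, ⟨0, 0⟩, 0⟩, 0, 0⟩ 0 0) (.cut .v 17825792 (.cut .d (-524288) (.void 31 ⟨⟨100000, 0, 0, 0, 0, 0, 0, 0, 0, ⟨0, 0⟩, 0⟩, 0, 0⟩ 0 0) (.cut .v 17301504 (.cut .v 17039360 (.cut .d (-262144)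 (.void 35 ⟨⟨100000, 0, 0, 0, 0, 0, 0, 0, 0, ⟨0, 0⟩, 0⟩, 0, 0⟩ 0 0) (.cut .d (-131072) (.void 35 ⟨⟨100000, 0, 0, 0, 0, 0, 0, 0, 0, ⟨0, 0⟩, 0⟩, 0, 0⟩ 0 0) (.cut .d (-65536) (.void 35 ⟨⟨100000, 0, 0, 0, 0, 0, 0, 0, 0, ⟨0, 0⟩, 0⟩, 0, 0⟩ 0 0) (.cut .d (-32768) (.void 35 ⟨⟨100000, 0, 0, 0, 0, 0, 0, 0, 0, ⟨0, 0⟩, 0⟩, 0, 0⟩ 0 0) (.cut .v 16908288 (.cut .d (-16384) (.cut .v 16842752 (.cut .d (-24576) (.void 39 ⟨⟨0, 0, 0, 0, 0, 100000, 0, 0, 0, ⟨0, 0⟩, 0⟩, 0, 0⟩ 0 0) (.cut .d (-20480) (.void 39 ⟨⟨0, 0, 0, 0, 0, 100000, 0, 0, 0, ⟨0, 0⟩, 0⟩, 0, 0⟩ 0 0) (.cut .d (-18432) (.pos 39 .mp ⟨⟨169774295, 0, 0, 0, 0, 164586854, 0, 0, 0, ⟨0, 0⟩, 0⟩, 0,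 0⟩ 0 0) (.cut .v 16809984 (.pos 49 .mp ⟨⟨0, 0, 0, 0, 0, 443718900, 0, 0, 0, ⟨0, 0⟩, 0⟩, 0, 0⟩ 0 0) (.cut .l 141961 (.void 50 ⟨⟨100000, 0, 0, 0, 0, 0, 0, 0, 0, ⟨0, 0⟩, 0⟩, 0, 0⟩ 0 0) (.cut .l 212942 (.void 50 ⟨⟨100000, 0, 0, 0, 0, 0, 0, 0, 0, ⟨0, 0⟩, 0⟩, 0, 0⟩ 0 0) (.cut .l 248432 (.void 50 ⟨⟨0, 0, 0, 0, 0, 100000, 0, 0, 0, ⟨0, 0⟩, 0⟩, 0, 0⟩ 0 0) (.cut .s 12124160 (.cut .s 12058624 (.pos 50 .mp ⟨⟨169937422, 0, 0, 0, 0, 97545111, 0, 0, 0, ⟨0, 0⟩, 0⟩, 0, 0⟩ 0 0) (.pos 50 .mp ⟨⟨177395092, 0, 0, 0, 0, 101494883, 0, 0, 0, ⟨0, 0⟩, 0⟩, 0, 0⟩ 0 0)) (.cut .s 12189696 (.pos 50 .mp ⟨⟨185194264, 0, 0, 0, 0, 105762880, 0, 0, 0, ⟨0, 0⟩, 0⟩, 0,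 0⟩ 0 0) (.pos 50 .mp ⟨⟨193348669, 0, 0, 0, 0, 110334930, 0, 0, 0, ⟨0, 0⟩, 0⟩, 0, 0⟩ 0 0)))))))))) (.pos 40 .mp ⟨⟨267128056, 0, 0, 0, 0, 0, 0, 0, 0, ⟨0, 0⟩, 0⟩, 0, 0⟩ 0 0)) (.cut .s 12124160 (.cut .v 16842752 (.cut .s 12058624 (.cut .s 12025856 (.cut .s 12009472 (.cut .v 16809984 (.cut .l 141961 (.cut .d (-8192) (.pos 49 .mp ⟨⟨168774829, 0, 0, 0, 0, 90613699, 0, 0, 0, ⟨0, 0⟩, 0⟩, 0, 0⟩ 0 0) (.cut .v 16793600 (.cut .s 12001280 (.pos 51 .mp ⟨⟨169497892, 0, 0, 0, 0, 84749446, 0, 0, 0, ⟨0, 0⟩, 0⟩, 0, 0⟩ 0 0) (.cut .s 12005376 (.pos 51 .mp ⟨⟨172898478, 0, 0, 0, 0, 80540453, 0, 0, 0, ⟨0, 0⟩, 0⟩, 0, 0⟩ 0 0) (.pos 51 .mp ⟨⟨173291315, 0, 0,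 0, 0, 80835425, 0, 0, 0, ⟨0, 0⟩, 0⟩, 0, 0⟩ 0 0))) (.pos 52 .mp ⟨⟨186922399, 0, 0, 0, 0, 58130592, 0, 0, 0, ⟨0, 0⟩, 0⟩, 0, 0⟩ 0 0))) (.pos 49 .mp ⟨⟨166830598, 0, 0, 0, 0, 89245784, 0, 0, 0, ⟨0, 0⟩, 0⟩, 0, 0⟩ 0 0)) (.cut .s 12001280 (.pos 50 .mp ⟨⟨180558339, 0, 0, 0, 0, 67975136, 0, 0, 0, ⟨0, 0⟩, 0⟩, 0, 0⟩ 0 0) (.pos 50 .mp ⟨⟨181338607, 0, 0, 0, 0, 68566515, 0, 0, 0, ⟨0, 0⟩, 0⟩, 0, 0⟩ 0 0))) (.cut .v 16809984 (.cut .l 141961 (.cut .d (-8192) (.pos 49 .mp ⟨⟨170585619, 0, 0, 0, 0, 91435171, 0, 0, 0, ⟨0, 0⟩, 0⟩, 0, 0⟩ 0 0) (.cut .v 16793600 (.cut .l 70980 (.cut .d (-4096) (.pos 51 .mp ⟨⟨170323470, 0, 0, 0, 0, 91461897, 0, 0, 0, ⟨0, 0⟩,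 0⟩, 0, 0⟩ 0 0) (.cut .s 12017664 (.pos 51 .mp ⟨⟨172291644, 0, 0, 0, 0, 83697278, 0, 0, 0, ⟨0, 0⟩, 0⟩, 0, 0⟩ 0 0) (.pos 51 .mp ⟨⟨173211165, 0, 0, 0, 0, 84095008, 0, 0, 0, ⟨0, 0⟩, 0⟩, 0, 0⟩ 0 0))) (.pos 51 .mp ⟨⟨169336653, 0, 0, 0, 0, 88375900, 0, 0, 0, ⟨0, 0⟩, 0⟩, 0, 0⟩ 0 0)) (.pos 52 .mp ⟨⟨188618249, 0, 0, 0, 0, 59109002, 0, 0, 0, ⟨0, 0⟩, 0⟩, 0, 0⟩ 0 0))) (.pos 49 .mp ⟨⟨168611096, 0, 0, 0, 0, 90174802, 0, 0, 0, ⟨0, 0⟩, 0⟩, 0, 0⟩ 0 0)) (.cut .s 12017664 (.pos 50 .mp ⟨⟨182136953, 0, 0, 0, 0, 69143560, 0, 0, 0, ⟨0, 0⟩, 0⟩, 0, 0⟩ 0 0) (.pos 50 .mp ⟨⟨182953795, 0, 0, 0, 0, 69705591, 0, 0, 0, ⟨0, 0⟩, 0⟩, 0, 0⟩ 0 0)))) (.cut .s 12042240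 (.cut .v 16809984 (.cut .s 12034048 (.cut .d (-8192) (.pos 49 .mp ⟨⟨170292346, 0, 0, 0, 0, 93080720, 0, 0, 0, ⟨0, 0⟩, 0⟩, 0, 0⟩ 0 0) (.cut .s 12029952 (.pos 49 .mp ⟨⟨174946198, 0, 0, 0, 0, 82955027, 0, 0, 0, ⟨0, 0⟩, 0⟩, 0, 0⟩ 0 0) (.pos 49 .mp ⟨⟨175446001, 0, 0, 0, 0, 83090799, 0, 0, 0, ⟨0, 0⟩, 0⟩, 0, 0⟩ 0 0))) (.cut .d (-8192) (.pos 49 .mp ⟨⟨171204847, 0, 0, 0, 0, 93515582, 0, 0, 0, ⟨0, 0⟩, 0⟩, 0, 0⟩ 0 0) (.cut .s 12038144 (.pos 49 .mp ⟨⟨175945770, 0, 0, 0, 0, 83230639, 0, 0, 0, ⟨0, 0⟩, 0⟩, 0, 0⟩ 0 0) (.pos 49 .mp ⟨⟨176420862, 0, 0, 0, 0, 83418733, 0, 0, 0, ⟨0, 0⟩, 0⟩, 0, 0⟩ 0 0)))) (.cut .s 12034048 (.pos 50 .mp ⟨⟨183789554, 0,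 0, 0, 0, 70251928, 0, 0, 0, ⟨0, 0⟩, 0⟩, 0, 0⟩ 0 0) (.pos 50 .mp ⟨⟨184644650, 0, 0, 0, 0, 70781882, 0, 0, 0, ⟨0, 0⟩, 0⟩, 0, 0⟩ 0 0))) (.cut .v 16809984 (.cut .s 12050432 (.cut .d (-8192) (.pos 49 .mp ⟨⟨172122436, 0, 0, 0, 0, 93958946, 0, 0, 0, ⟨0, 0⟩, 0⟩, 0, 0⟩ 0 0) (.cut .s 12046336 (.pos 49 .mp ⟨⟨176892558, 0, 0, 0, 0, 83616956, 0, 0, 0, ⟨0, 0⟩, 0⟩, 0, 0⟩ 0 0) (.pos 49 .mp ⟨⟨177365580, 0, 0, 0, 0, 83816852, 0, 0, 0, ⟨0, 0⟩, 0⟩, 0, 0⟩ 0 0))) (.cut .d (-8192) (.pos 49 .mp ⟨⟨173045138, 0, 0, 0, 0, 94410862, 0, 0, 0, ⟨0, 0⟩, 0⟩, 0, 0⟩ 0 0) (.cut .s 12054528 (.pos 49 .mp ⟨⟨177839932, 0, 0, 0, 0, 84018418, 0, 0, 0, ⟨0, 0⟩, 0⟩, 0, 0⟩ 0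 0) (.pos 49 .mp ⟨⟨178315616, 0, 0, 0, 0, 84221657, 0, 0, 0, ⟨0, 0⟩, 0⟩, 0, 0⟩ 0 0)))) (.cut .s 12050432 (.pos 50 .mp ⟨⟨185519508, 0, 0, 0, 0, 71294763, 0, 0, 0, ⟨0, 0⟩, 0⟩, 0, 0⟩ 0 0) (.pos 50 .mp ⟨⟨186414554, 0, 0, 0, 0, 71789874, 0, 0, 0, ⟨0, 0⟩, 0⟩, 0, 0⟩ 0 0))))) (.cut .s 12091392 (.cut .s 12075008 (.cut .v 16809984 (.cut .s 12066816 (.cut .d (-8192) (.pos 49 .mp ⟨⟨173972977, 0, 0, 0, 0, 94871378, 0, 0, 0, ⟨0, 0⟩, 0⟩, 0, 0⟩ 0 0) (.cut .s 12062720 (.pos 49 .mp ⟨⟨178792636, 0, 0, 0, 0, 84426566, 0, 0, 0, ⟨0, 0⟩, 0⟩, 0, 0⟩ 0 0) (.pos 49 .mp ⟨⟨179270995, 0, 0, 0, 0, 84633148, 0, 0, 0, ⟨0, 0⟩, 0⟩, 0, 0⟩ 0 0))) (.cut .d (-8192) (.pos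 49 .mp ⟨⟨174905979, 0, 0, 0, 0, 95340545, 0, 0, 0, ⟨0, 0⟩, 0⟩, 0, 0⟩ 0 0) (.cut .s 12070912 (.pos 49 .mp ⟨⟨179750697, 0, 0, 0, 0, 84841400, 0, 0, 0, ⟨0, 0⟩, 0⟩, 0, 0⟩ 0 0) (.pos 49 .mp ⟨⟨180231745, 0, 0, 0, 0, 85051324, 0, 0, 0, ⟨0, 0⟩, 0⟩, 0, 0⟩ 0 0)))) (.cut .s 12066816 (.pos 50 .mp ⟨⟨187330217, 0, 0, 0, 0, 72266514, 0, 0, 0, ⟨0, 0⟩, 0⟩, 0, 0⟩ 0 0) (.pos 50 .mp ⟨⟨188266928, 0, 0, 0, 0, 72723978, 0, 0, 0, ⟨0, 0⟩, 0⟩, 0, 0⟩ 0 0))) (.cut .v 16809984 (.cut .s 12083200 (.cut .d (-8192) (.pos 49 .mp ⟨⟨175844169, 0, 0, 0, 0, 95818414, 0, 0, 0, ⟨0, 0⟩, 0⟩, 0, 0⟩ 0 0) (.cut .s 12079104 (.pos 49 .mp ⟨⟨180714142, 0, 0, 0, 0, 85262919, 0,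 0, 0, ⟨0, 0⟩, 0⟩, 0, 0⟩ 0 0) (.pos 49 .mp ⟨⟨181197891, 0, 0, 0, 0, 85476186, 0, 0, 0, ⟨0, 0⟩, 0⟩, 0, 0⟩ 0 0))) (.cut .d (-8192) (.pos 49 .mp ⟨⟨176787573, 0, 0, 0, 0, 96305036, 0, 0, 0, ⟨0, 0⟩, 0⟩, 0, 0⟩ 0 0) (.cut .s 12087296 (.pos 49 .mp ⟨⟨181682996, 0, 0, 0, 0, 85691123, 0, 0, 0, ⟨0, 0⟩, 0⟩, 0, 0⟩ 0 0) (.pos 49 .mp ⟨⟨182169459, 0, 0, 0, 0, 85907732, 0, 0, 0, ⟨0, 0⟩, 0⟩, 0, 0⟩ 0 0)))) (.cut .s 12083200 (.pos 50 .mp ⟨⟨189225118, 0, 0, 0, 0, 73161554, 0, 0, 0, ⟨0, 0⟩, 0⟩, 0, 0⟩ 0 0) (.pos 50 .mp ⟨⟨190205223, 0, 0, 0, 0, 73578528, 0, 0, 0, ⟨0, 0⟩, 0⟩, 0, 0⟩ 0 0)))) (.cut .s 12107776 (.cut .v 16809984 (.cut .s 12099584 (.cut .d (-8192)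 (.pos 49 .mp ⟨⟨177736216, 0, 0, 0, 0, 96800460, 0, 0, 0, ⟨0, 0⟩, 0⟩, 0, 0⟩ 0 0) (.cut .s 12095488 (.pos 49 .mp ⟨⟨182657286, 0, 0, 0, 0, 86126012, 0, 0, 0, ⟨0, 0⟩, 0⟩, 0, 0⟩ 0 0) (.pos 49 .mp ⟨⟨183146478, 0, 0, 0, 0, 86345962, 0, 0, 0, ⟨0, 0⟩, 0⟩, 0, 0⟩ 0 0))) (.cut .d (-8192) (.pos 49 .mp ⟨⟨178690125, 0, 0, 0, 0, 97304739, 0, 0, 0, ⟨0, 0⟩, 0⟩, 0, 0⟩ 0 0) (.cut .s 12103680 (.pos 49 .mp ⟨⟨183637039, 0, 0, 0, 0, 86567583, 0, 0, 0, ⟨0, 0⟩, 0⟩, 0, 0⟩ 0 0) (.pos 49 .mp ⟨⟨184128973, 0, 0, 0, 0, 86790875, 0, 0, 0, ⟨0, 0⟩, 0⟩, 0, 0⟩ 0 0)))) (.cut .s 12099584 (.pos 50 .mp ⟨⟨191207680, 0, 0, 0, 0, 73974179, 0, 0, 0, ⟨0, 0⟩, 0⟩, 0, 0⟩ 0 0) (.pos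 50 .mp ⟨⟨192232930, 0, 0, 0, 0, 74347783, 0, 0, 0, ⟨0, 0⟩, 0⟩, 0, 0⟩ 0 0))) (.cut .v 16809984 (.cut .s 12115968 (.cut .d (-8192) (.pos 49 .mp ⟨⟨179649325, 0, 0, 0, 0, 97817925, 0, 0, 0, ⟨0, 0⟩, 0⟩, 0, 0⟩ 0 0) (.cut .s 12111872 (.pos 49 .mp ⟨⟨184622282, 0, 0, 0, 0, 87015837, 0, 0, 0, ⟨0, 0⟩, 0⟩, 0, 0⟩ 0 0) (.pos 49 .mp ⟨⟨185116971, 0, 0, 0, 0, 87242469, 0, 0, 0, ⟨0, 0⟩, 0⟩, 0, 0⟩ 0 0))) (.cut .d (-8192) (.pos 49 .mp ⟨⟨180613842, 0, 0, 0, 0, 98340069, 0, 0, 0, ⟨0, 0⟩, 0⟩, 0, 0⟩ 0 0) (.cut .s 12120064 (.pos 49 .mp ⟨⟨185613043, 0, 0, 0, 0, 87470771, 0, 0, 0, ⟨0, 0⟩, 0⟩, 0, 0⟩ 0 0) (.pos 49 .mp ⟨⟨186110501, 0, 0, 0, 0, 87700743, 0, 0,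 0, ⟨0, 0⟩, 0⟩, 0, 0⟩ 0 0)))) (.cut .s 12115968 (.pos 50 .mp ⟨⟨193281413, 0, 0, 0, 0, 74698608, 0, 0, 0, ⟨0, 0⟩, 0⟩, 0, 0⟩ 0 0) (.pos 50 .mp ⟨⟨194353573, 0, 0, 0, 0, 75025921, 0, 0, 0, ⟨0, 0⟩, 0⟩, 0, 0⟩ 0 0)))))) (.pos 40 .mp ⟨⟨233588879, 0, 0, 0, 0, 0, 0, 0, 0, ⟨0, 0⟩, 0⟩, 0, 0⟩ 0 0)) (.cut .s 12189696 (.cut .v 16842752 (.cut .s 12156928 (.cut .s 12140544 (.cut .v 16809984 (.cut .s 12132352 (.cut .d (-8192) (.pos 49 .mp ⟨⟨181583704, 0, 0, 0, 0, 98871225, 0, 0, 0, ⟨0, 0⟩, 0⟩, 0, 0⟩ 0 0) (.cut .s 12128256 (.pos 49 .mp ⟨⟨186609349, 0, 0, 0, 0, 87932384, 0, 0, 0, ⟨0, 0⟩, 0⟩, 0, 0⟩ 0 0) (.pos 49 .mp ⟨⟨187109589, 0, 0, 0, 0, 88165695,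 0, 0, 0, ⟨0, 0⟩, 0⟩, 0, 0⟩ 0 0))) (.cut .d (-8192) (.pos 49 .mp ⟨⟨182558936, 0, 0, 0, 0, 99411444, 0, 0, 0, ⟨0, 0⟩, 0⟩, 0, 0⟩ 0 0) (.cut .s 12136448 (.pos 49 .mp ⟨⟨187611227, 0, 0, 0, 0, 88400675, 0, 0, 0, ⟨0, 0⟩, 0⟩, 0, 0⟩ 0 0) (.pos 49 .mp ⟨⟨188114264, 0, 0, 0, 0, 88637324, 0, 0, 0, ⟨0, 0⟩, 0⟩, 0, 0⟩ 0 0)))) (.cut .s 12132352 (.pos 50 .mp ⟨⟨195449858, 0, 0, 0, 0, 75328980, 0, 0, 0, ⟨0, 0⟩, 0⟩, 0, 0⟩ 0 0) (.pos 50 .mp ⟨⟨196570717, 0, 0, 0, 0, 75607041, 0, 0, 0, ⟨0, 0⟩, 0⟩, 0, 0⟩ 0 0))) (.cut .v 16809984 (.cut .s 12148736 (.cut .d (-8192) (.pos 49 .mp ⟨⟨183539565, 0, 0, 0, 0, 99960781, 0, 0, 0, ⟨0, 0⟩, 0⟩, 0, 0⟩ 0 0) (.cut .s 12144640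 (.pos 49 .mp ⟨⟨188618705, 0, 0, 0, 0, 88875641, 0, 0, 0, ⟨0, 0⟩, 0⟩, 0, 0⟩ 0 0) (.pos 49 .mp ⟨⟨189124552, 0, 0, 0, 0, 89115627, 0, 0, 0, ⟨0, 0⟩, 0⟩, 0, 0⟩ 0 0))) (.cut .d (-8192) (.pos 49 .mp ⟨⟨184525619, 0, 0, 0, 0, 100519289, 0, 0, 0, ⟨0, 0⟩, 0⟩, 0, 0⟩ 0 0) (.cut .s 12152832 (.pos 49 .mp ⟨⟨189631811, 0, 0, 0, 0, 89357281, 0, 0, 0, ⟨0, 0⟩, 0⟩, 0, 0⟩ 0 0) (.pos 49 .mp ⟨⟨190140483, 0, 0, 0, 0, 89600602, 0, 0, 0, ⟨0, 0⟩, 0⟩, 0, 0⟩ 0 0)))) (.cut .s 12148736 (.pos 50 .mp ⟨⟨197716600, 0, 0, 0, 0, 75859354, 0, 0, 0, ⟨0, 0⟩, 0⟩, 0, 0⟩ 0 0) (.pos 50 .mp ⟨⟨198887960, 0, 0, 0, 0, 76085162, 0, 0, 0, ⟨0, 0⟩, 0⟩, 0, 0⟩ 0 0)))) (.cut .s 12173312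 (.cut .v 16809984 (.cut .s 12165120 (.cut .d (-8192) (.pos 49 .mp ⟨⟨185517124, 0, 0, 0, 0, 101087021, 0, 0, 0, ⟨0, 0⟩, 0⟩, 0, 0⟩ 0 0) (.cut .s 12161024 (.pos 49 .mp ⟨⟨190650574, 0, 0, 0, 0, 89845591, 0, 0, 0, ⟨0, 0⟩, 0⟩, 0, 0⟩ 0 0) (.pos 49 .mp ⟨⟨191162085, 0, 0, 0, 0, 90092247, 0, 0, 0, ⟨0, 0⟩, 0⟩, 0, 0⟩ 0 0))) (.cut .d (-8192) (.pos 49 .mp ⟨⟨186514108, 0, 0, 0, 0, 101664033, 0, 0, 0, ⟨0, 0⟩, 0⟩, 0, 0⟩ 0 0) (.cut .s 12169216 (.pos 49 .mp ⟨⟨191675021, 0, 0, 0, 0, 90340569, 0, 0, 0, ⟨0, 0⟩, 0⟩, 0, 0⟩ 0 0) (.pos 49 .mp ⟨⟨192189385, 0, 0, 0, 0, 90590558, 0, 0, 0, ⟨0, 0⟩, 0⟩, 0, 0⟩ 0 0)))) (.cut .s 12165120 (.pos 50 .mp ⟨⟨200085256,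 0, 0, 0, 0, 76283705, 0, 0, 0, ⟨0, 0⟩, 0⟩, 0, 0⟩ 0 0) (.pos 50 .mp ⟨⟨201308944, 0, 0, 0, 0, 76454217, 0, 0, 0, ⟨0, 0⟩, 0⟩, 0, 0⟩ 0 0))) (.cut .v 16809984 (.cut .s 12181504 (.cut .d (-8192) (.pos 49 .mp ⟨⟨187516599, 0, 0, 0, 0, 102250379, 0, 0, 0, ⟨0, 0⟩, 0⟩, 0, 0⟩ 0 0) (.cut .s 12177408 (.pos 49 .mp ⟨⟨192705182, 0, 0, 0, 0, 90842213, 0, 0, 0, ⟨0, 0⟩, 0⟩, 0, 0⟩ 0 0) (.pos 49 .mp ⟨⟨193222414, 0, 0, 0, 0, 91095533, 0, 0, 0, ⟨0, 0⟩, 0⟩, 0, 0⟩ 0 0))) (.cut .d (-8192) (.pos 49 .mp ⟨⟨188524624, 0, 0, 0, 0, 102846113, 0, 0, 0, ⟨0, 0⟩, 0⟩, 0, 0⟩ 0 0) (.cut .s 12185600 (.pos 49 .mp ⟨⟨193723216, 0, 0, 0, 0, 91382785, 0, 0, 0, ⟨0, 0⟩, 0⟩, 0,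 0⟩ 0 0) (.pos 49 .mp ⟨⟨194205398, 0, 0, 0, 0, 91707948, 0, 0, 0, ⟨0, 0⟩, 0⟩, 0, 0⟩ 0 0)))) (.cut .s 12181504 (.pos 50 .mp ⟨⟨202559486, 0, 0, 0, 0, 76595926, 0, 0, 0, ⟨0, 0⟩, 0⟩, 0, 0⟩ 0 0) (.pos 50 .mp ⟨⟨203837345, 0, 0, 0, 0, 76708056, 0, 0, 0, ⟨0, 0⟩, 0⟩, 0, 0⟩ 0 0))))) (.pos 40 .mp ⟨⟨247645227, 0, 0, 0, 0, 0, 0, 0, 0, ⟨0, 0⟩, 0⟩, 0, 0⟩ 0 0)) (.cut .v 16842752 (.cut .s 12222464 (.cut .s 12206080 (.cut .v 16809984 (.cut .s 12197888 (.cut .s 12193792 (.cut .s 12191744 (.pos 49 .mp ⟨⟨194162149, 0, 0, 0, 0, 92988425, 0, 0, 0, ⟨0, 0⟩, 0⟩, 0, 0⟩ 0 0) (.pos 49 .mp ⟨⟨194488671, 0, 0, 0, 0, 93003707, 0, 0, 0, ⟨0, 0⟩, 0⟩, 0, 0⟩ 0 0)) (.pos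 49 .mp ⟨⟨192948797, 0, 0, 0, 0, 96502050, 0, 0, 0, ⟨0, 0⟩, 0⟩, 0, 0⟩ 0 0)) (.cut .s 12201984 (.pos 49 .mp ⟨⟨193530887, 0, 0, 0, 0, 96661024, 0, 0, 0, ⟨0, 0⟩, 0⟩, 0, 0⟩ 0 0) (.pos 49 .mp ⟨⟨194117849, 0, 0, 0, 0, 96815449, 0, 0, 0, ⟨0, 0⟩, 0⟩, 0, 0⟩ 0 0))) (.cut .s 12197888 (.pos 50 .mp ⟨⟨205142988, 0, 0, 0, 0, 76789825, 0, 0, 0, ⟨0, 0⟩, 0⟩, 0, 0⟩ 0 0) (.pos 50 .mp ⟨⟨206476884, 0, 0, 0, 0, 76840444, 0, 0, 0, ⟨0, 0⟩, 0⟩, 0, 0⟩ 0 0))) (.cut .v 16809984 (.cut .l 141961 (.cut .d (-8192) (.pos 49 .mp ⟨⟨193965814, 0, 0, 0, 0, 103983879, 0, 0, 0, ⟨0, 0⟩, 0⟩, 0, 0⟩ 0 0) (.cut .v 16793600 (.cut .s 12214272 (.cut .s 12210176 (.pos 51 .mp ⟨⟨197625100,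 0, 0, 0, 0, 91590292, 0, 0, 0, ⟨0, 0⟩, 0⟩, 0, 0⟩ 0 0) (.pos 51 .mp ⟨⟨198242735, 0, 0, 0, 0, 91706075, 0, 0, 0, ⟨0, 0⟩, 0⟩, 0, 0⟩ 0 0)) (.pos 51 .mp ⟨⟨195731953, 0, 0, 0, 0, 97629747, 0, 0, 0, ⟨0, 0⟩, 0⟩, 0, 0⟩ 0 0)) (.pos 52 .mp ⟨⟨215791321, 0, 0, 0, 0, 64401171, 0, 0, 0, ⟨0, 0⟩, 0⟩, 0, 0⟩ 0 0))) (.pos 49 .mp ⟨⟨191585266, 0, 0, 0, 0, 102427146, 0, 0, 0, ⟨0, 0⟩, 0⟩, 0, 0⟩ 0 0)) (.cut .s 12214272 (.pos 50 .mp ⟨⟨207839503, 0, 0, 0, 0, 76859120, 0, 0, 0, ⟨0, 0⟩, 0⟩, 0, 0⟩ 0 0) (.pos 50 .mp ⟨⟨209231320, 0, 0, 0, 0, 76845055, 0, 0, 0, ⟨0, 0⟩, 0⟩, 0, 0⟩ 0 0)))) (.cut .s 12238848 (.cut .v 16809984 (.cut .l 141961 (.cut .d (-8192) (.pos 49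 .mp ⟨⟨196058228, 0, 0, 0, 0, 105266385, 0, 0, 0, ⟨0, 0⟩, 0⟩, 0, 0⟩ 0 0) (.cut .v 16793600 (.cut .s 12230656 (.pos 51 .mp ⟨⟨197056159, 0, 0, 0, 0, 97714231, 0, 0, 0, ⟨0, 0⟩, 0⟩, 0, 0⟩ 0 0) (.pos 51 .mp ⟨⟨198512949, 0, 0, 0, 0, 97585323, 0, 0, 0, ⟨0, 0⟩, 0⟩, 0, 0⟩ 0 0)) (.pos 52 .mp ⟨⟨218732305, 0, 0, 0, 0, 64125698, 0, 0, 0, ⟨0, 0⟩, 0⟩, 0, 0⟩ 0 0))) (.pos 49 .mp ⟨⟨193640140, 0, 0, 0, 0, 103521067, 0, 0, 0, ⟨0, 0⟩, 0⟩, 0, 0⟩ 0 0)) (.cut .s 12230656 (.pos 50 .mp ⟨⟨210652810, 0, 0, 0, 0, 76797444, 0, 0, 0, ⟨0, 0⟩, 0⟩, 0, 0⟩ 0 0) (.pos 50 .mp ⟨⟨212104454, 0, 0, 0, 0, 76715477, 0, 0, 0, ⟨0, 0⟩, 0⟩, 0, 0⟩ 0 0))) (.cut .v 16809984 (.cut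 .d (-8192) (.pos 49 .mp ⟨⟨195738138, 0, 0, 0, 0, 108495804, 0, 0, 0, ⟨0, 0⟩, 0⟩, 0, 0⟩ 0 0) (.cut .s 12247040 (.cut .s 12242944 (.pos 49 .mp ⟨⟨201861494, 0, 0, 0, 0, 93960497, 0, 0, 0, ⟨0, 0⟩, 0⟩, 0, 0⟩ 0 0) (.pos 49 .mp ⟨⟨202485917, 0, 0, 0, 0, 94103745, 0, 0, 0, ⟨0, 0⟩, 0⟩, 0, 0⟩ 0 0)) (.pos 49 .mp ⟨⟨202782266, 0, 0, 0, 0, 95082502, 0, 0, 0, ⟨0, 0⟩, 0⟩, 0, 0⟩ 0 0))) (.pos 50 .mp ⟨⟨220532527, 0, 0, 0, 0, 66469483, 0, 0, 0, ⟨0, 0⟩, 0⟩, 0, 0⟩ 0 0)))) (.pos 40 .mp ⟨⟨258713848, 0, 0, 0, 0, 0, 0, 0, 0, ⟨0, 0⟩, 0⟩, 0, 0⟩ 0 0))))) (.pos 38 .mp ⟨⟨257331666, 0, 0, 0, 0, 0, 0, 0, 0, ⟨0, 0⟩, 0⟩, 0, 0⟩ 0 0)))))) (.pos 36 .mp ⟨⟨295042686, 0,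 0, 0, 0, 0, 0, 0, 0, ⟨0, 0⟩, 0⟩, 0, 0⟩ 0 0)) (.void 34 ⟨⟨100000, 0, 0, 0, 0, 0, 0, 0, 0, ⟨0, 0⟩, 0⟩, 0, 0⟩ 0 0))) (.void 32 ⟨⟨100000, 0, 0, 0, 0, 0, 0, 0, 0, ⟨0, 0⟩, 0⟩, 0, 0⟩ 0 0))) (.void 30 ⟨⟨100000, 0, 0, 0, 0, 0, 0, 0, 0, ⟨0, 0⟩, 0⟩, 0, 0⟩ 0 0)))) (.void 28 ⟨⟨100000, 0, 0, 0, 0, 0, 0, 0, 0, ⟨0, 0⟩, 0⟩, 0, 0⟩ 0 0))) (.void 26 ⟨⟨100000, 0, 0, 0, 0, 0, 0, 0, 0, ⟨0, 0⟩, 0⟩, 0, 0⟩ 0 0)) (.void 95 ⟨⟨100000, 0, 0, 0, 0, 0, 0, 0, 0, ⟨0, 0⟩, 0⟩, 0, 0⟩ 0 0)) (.void 106 ⟨⟨100000, 0, 0, 0, 0, 0, 0, 0, 0, ⟨0, 0⟩, 0⟩, 0, 0⟩ 0 0))) (.cut .v 16777216 (.cut .v 8388608 (.cut .v 4194304 (.cut .v 2097152 (.cut .v 1048576 (.pos 111 .pm ⟨⟨0, 0, 30220175,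 0, 0, 0, 0, 0, 40155266, ⟨0, 0⟩, 1983364⟩, 0, 0⟩ 0 0) (.pos 112 .pm ⟨⟨0, 0, 18286440, 0, 0, 0, 0, 0, 0, ⟨0, 0⟩, 0⟩, 0, 66806⟩ 0 0)) (.pos 7 .pm ⟨⟨0, 0, 18874790, 0, 0, 0, 0, 0, 0, ⟨0, 0⟩, 0⟩, 0, 103664⟩ 0 0)) (.pos 5 .pm ⟨⟨0, 0, 6573644, 0, 0, 0, 0, 0, 0, ⟨0, 0⟩, 0⟩, 0, 0⟩ 0 0)) (.pos 3 .pm ⟨⟨0, 0, 0, 0, 0, 0, 0, 0, 0, ⟨0, 0⟩, 0⟩, 0, 0⟩ 0 0)) (.cut .v 67108864 (.cut .d 3346276 (.cut .v 33554432 (.cut .d 1673138 (.cut .v 25165824 (.cut .d 836569 (.cut .d 418284 (.cut .v 20971520 (.cut .d 209142 (.cut .v 18874368 (.cut .v 17825792 (.cut .s 12124160 (.pos 31 .pp ⟨⟨166288564, 0, 0, 0, 0, 0, 0, 0, 0, ⟨0, 0⟩, 0⟩, 6789469, 0⟩ 0 0) (.pos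 31 .pp ⟨⟨182615358, 0, 0, 0, 0, 0, 0, 0, 0, ⟨0, 0⟩, 0⟩, 7104938, 0⟩ 0 0)) (.pos 32 .pp ⟨⟨259293863, 0, 0, 0, 0, 0, 0, 0, 0, ⟨0, 0⟩, 0⟩, 0, 0⟩ 0 0)) (.pos 30 .pp ⟨⟨319147932, 0, 0, 0, 0, 0, 0, 0, 0, ⟨0, 0⟩, 0⟩, 0, 0⟩ 0 0)) (.pos 27 .pp ⟨⟨207495067, 0, 0, 0, 0, 0, 0, 0, 0, ⟨0, 0⟩, 0⟩, 0, 17122⟩ 0 0)) (.cut .d 209142 (.void 28 ⟨⟨0, 0, 0, 0, 0, 0, 0, 0, 0, ⟨0, 0⟩, 0⟩, 100000, 0⟩ 0 0) (.pos 28 .pp ⟨⟨0, 0, 0, 0, 0, 0, 0, 0, 0, ⟨0, 0⟩, 0⟩, 41125628, 0⟩ 0 0))) (.cut .v 20971520 (.pos 27 .pp ⟨⟨0, 0, 0, 0, 0, 0, 0, 0, 0, ⟨0, 0⟩, 0⟩, 0, 393610⟩ 0 0) (.pos 28 .pp ⟨⟨0, 0, 0, 0, 0, 0, 153234, 0, 0, ⟨0, 0⟩, 0⟩, 30082086, 0⟩ 0 0))) (.pos 25 .pp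 ⟨⟨0, 0, 0, 0, 0, 0, 0, 0, 0, ⟨0, 0⟩, 0⟩, 0, 425099⟩ 0 0)) (.cut .d 836569 (.pos 26 .pp ⟨⟨0, 0, 0, 0, 0, 0, 0, 0, 0, ⟨0, 0⟩, 0⟩, 62024684, 0⟩ 0 0) (.pos 26 .pp ⟨⟨0, 0, 0, 0, 0, 0, 164914, 0, 0, ⟨0, 0⟩, 0⟩, 30732741, 0⟩ 0 0))) (.pos 24 .pp ⟨⟨0, 0, 0, 0, 0, 0, 0, 0, 0, ⟨0, 0⟩, 0⟩, 0, 472332⟩ 0 0)) (.cut .d 1673138 (.cut .v 50331648 (.pos 96 .pp ⟨⟨0, 0, 0, 0, 0, 0, 0, 0, 0, ⟨0, 0⟩, 0⟩, 94091854, 0⟩ 0 0) (.void 97 ⟨⟨0, 0, 0, 0, 0, 0, 0, 0, 0, ⟨0, 0⟩, 0⟩, 100000, 0⟩ 0 0)) (.pos 95 .pp ⟨⟨0, 0, 0, 0, 0, 0, 0, 0, 0, ⟨0, 0⟩, 0⟩, 40512022, 0⟩ 0 0))) (.pos 94 .pp ⟨⟨0, 0, 0, 0, 0, 0, 0, 0, 0, ⟨0, 0⟩, 0⟩, 0, 354249⟩ 0 0)) (.void 106 ⟨⟨0, 0, 0,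 45303, 0, 0, 0, 0, 0, ⟨0, 0⟩, 0⟩, 54697, 0⟩ 0 0)))),
    by decide +kernel⟩

def covers19 : cell.Covers Vale.Agent.P237.Petty.Cor.Grid.N13.table row19.1 :=
  ⟨(.cut .d 0 (.cut .v 16777216 (.cut .d (-8388608) (.void 1 ⟨⟨0, 0, 0, 0, 0, 100000, 0, 0, 0, ⟨0, 0⟩, 0⟩, 0, 0⟩ 0 0) (.cut .d (-4194304) (.void 1 ⟨⟨0, 0, 0, 0, 0, 100000, 0, 0, 0, ⟨0, 0⟩, 0⟩, 0, 0⟩ 0 0) (.cut .d (-2097152) (.void 1 ⟨⟨0, 0, 0, 0, 0, 100000, 0, 0, 0, ⟨0, 0⟩, 0⟩, 0, 0⟩ 0 0) (.cut .d (-1048576) (.void 1 ⟨⟨0, 0, 0, 0, 0, 100000, 0, 0, 0, ⟨0, 0⟩, 0⟩, 0, 0⟩ 0 0) (.cut .d (-524288) (.void 1 ⟨⟨0, 0, 0, 0, 0, 100000, 0, 0, 0, ⟨0, 0⟩, 0⟩, 0, 0⟩ 0 0) (.cut .d (-262144) (.void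 1 ⟨⟨0, 0, 0, 0, 0, 100000, 0, 0, 0, ⟨0, 0⟩, 0⟩, 0, 0⟩ 0 0) (.cut .d (-131072) (.void 1 ⟨⟨0, 0, 0, 0, 0, 100000, 0, 0, 0, ⟨0, 0⟩, 0⟩, 0, 0⟩ 0 0) (.cut .d (-65536) (.void 1 ⟨⟨0, 0, 0, 0, 0, 100000, 0, 0, 0, ⟨0, 0⟩, 0⟩, 0, 0⟩ 0 0) (.cut .d (-32768) (.void 1 ⟨⟨0, 0, 0, 0, 0, 100000, 0, 0, 0, ⟨0, 0⟩, 0⟩, 0, 0⟩ 0 0) (.cut .v 8388608 (.cut .v 4194304 (.void 4 ⟨⟨0, 0, 100000, 0, 0, 0, 0, 0, 0, ⟨0, 0⟩, 0⟩, 0, 0⟩ 0 0) (.pos 5 .mm ⟨⟨0, 0, 8010072, 0, 0, 153709552, 0, 0, 0, ⟨0, 0⟩, 0⟩, 0, 0⟩ 0 0)) (.cut .s 12386304 (.pos 3 .mm ⟨⟨0, 0, 0, 0, 0, 443807509, 0, 0, 0, ⟨0, 0⟩, 0⟩, 0, 0⟩ 0 0) (.pos 3 .mm ⟨⟨0, 0, 0, 0, 0, 486181458, 0, 0, 0, ⟨0, 0⟩,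 0⟩, 0, 0⟩ 0 0)))))))))))) (.cut .v 268435456 (.cut .v 67108864 (.cut .v 33554432 (.cut .v 25165824 (.cut .d (-8388608) (.void 25 ⟨⟨100000, 0, 0, 0, 0, 0, 0, 0, 0, ⟨0, 0⟩, 0⟩, 0, 0⟩ 0 0) (.cut .d (-4194304) (.void 25 ⟨⟨100000, 0, 0, 0, 0, 0, 0, 0, 0, ⟨0, 0⟩, 0⟩, 0, 0⟩ 0 0) (.cut .v 20971520 (.cut .d (-2097152) (.void 27 ⟨⟨100000, 0, 0, 0, 0, 0, 0, 0, 0, ⟨0, 0⟩, 0⟩, 0, 0⟩ 0 0) (.cut .v 18874368 (.cut .d (-1048576) (.void 29 ⟨⟨100000, 0, 0, 0, 0, 0, 0, 0, 0, ⟨0, 0⟩, 0⟩, 0, 0⟩ 0 0) (.cut .v 17825792 (.cut .d (-524288) (.void 31 ⟨⟨100000, 0, 0, 0, 0, 0, 0, 0, 0, ⟨0, 0⟩, 0⟩, 0, 0⟩ 0 0) (.cut .v 17301504 (.cut .d (-262144) (.void 33 ⟨⟨100000,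 0, 0, 0, 0, 0, 0, 0, 0, ⟨0, 0⟩, 0⟩, 0, 0⟩ 0 0) (.cut .d (-131072) (.void 33 ⟨⟨100000, 0, 0, 0, 0, 0, 0, 0, 0, ⟨0, 0⟩, 0⟩, 0, 0⟩ 0 0) (.cut .d (-65536) (.void 33 ⟨⟨100000, 0, 0, 0, 0, 0, 0, 0, 0, ⟨0, 0⟩, 0⟩, 0, 0⟩ 0 0) (.cut .d (-32768) (.void 33 ⟨⟨100000, 0, 0, 0, 0, 0, 0, 0, 0, ⟨0, 0⟩, 0⟩, 0, 0⟩ 0 0) (.cut .v 17039360 (.cut .v 16908288 (.cut .d (-16384) (.cut .v 16842752 (.cut .s 12386304 (.pos 39 .mp ⟨⟨204043552, 0, 0, 0, 0, 137472648, 0, 0, 0, ⟨0, 0⟩, 0⟩, 0, 0⟩ 0 0) (.void 39 ⟨⟨0, 0, 0, 0, 0, 100000, 0, 0, 0, ⟨0, 0⟩, 0⟩, 0, 0⟩ 0 0)) (.void 40 ⟨⟨100000, 0, 0, 0, 0, 0, 0, 0, 0, ⟨0, 0⟩, 0⟩, 0, 0⟩ 0 0)) (.cut .s 12386304 (.cut .s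 12320768 (.cut .v 16842752 (.cut .s 12288000 (.cut .s 12271616 (.cut .v 16809984 (.cut .d (-8192) (.pos 49 .mp ⟨⟨197851029, 0, 0, 0, 0, 109867702, 0, 0, 0, ⟨0, 0⟩, 0⟩, 0, 0⟩ 0 0) (.cut .s 12263424 (.pos 49 .mp ⟨⟨203874665, 0, 0, 0, 0, 95647310, 0, 0, 0, ⟨0, 0⟩, 0⟩, 0, 0⟩ 0 0) (.pos 49 .mp ⟨⟨204973003, 0, 0, 0, 0, 96049721, 0, 0, 0, ⟨0, 0⟩, 0⟩, 0, 0⟩ 0 0))) (.pos 50 .mp ⟨⟨223671106, 0, 0, 0, 0, 66005145, 0, 0, 0, ⟨0, 0⟩, 0⟩, 0, 0⟩ 0 0)) (.cut .v 16809984 (.cut .d (-8192) (.pos 49 .mp ⟨⟨199991946, 0, 0, 0, 0, 110777378, 0, 0, 0, ⟨0, 0⟩, 0⟩, 0, 0⟩ 0 0) (.cut .l 141961 (.cut .v 16793600 (.cut .s 12279808 (.pos 51 .mp ⟨⟨204188283, 0,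 0, 0, 0, 99699833, 0, 0, 0, ⟨0, 0⟩, 0⟩, 0, 0⟩ 0 0) (.pos 51 .mp ⟨⟨204799034, 0, 0, 0, 0, 101004632, 0, 0, 0, ⟨0, 0⟩, 0⟩, 0, 0⟩ 0 0)) (.pos 52 .mp ⟨⟨226720977, 0, 0, 0, 0, 64758540, 0, 0, 0, ⟨0, 0⟩, 0⟩, 0, 0⟩ 0 0)) (.pos 49 .mp ⟨⟨204480404, 0, 0, 0, 0, 0, 0, 0, 0, ⟨0, 0⟩, 0⟩, 0, 0⟩ 0 0))) (.pos 50 .mp ⟨⟨225418109, 0, 0, 0, 0, 67606667, 0, 0, 0, ⟨0, 0⟩, 0⟩, 0, 0⟩ 0 0))) (.cut .s 12304384 (.cut .v 16809984 (.cut .s 12296192 (.cut .s 12292096 (.pos 49 .mp ⟨⟨205839270, 0, 0, 0, 0, 101508190, 0, 0, 0, ⟨0, 0⟩, 0⟩, 0, 0⟩ 0 0) (.pos 49 .mp ⟨⟨206173598, 0, 0, 0, 0, 102126801, 0, 0, 0, ⟨0, 0⟩, 0⟩, 0, 0⟩ 0 0)) (.cut .s 12300288 (.pos 49 .mp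 ⟨⟨206529313, 0, 0, 0, 0, 102713249, 0, 0, 0, ⟨0, 0⟩, 0⟩, 0, 0⟩ 0 0) (.pos 49 .mp ⟨⟨206987075, 0, 0, 0, 0, 103128002, 0, 0, 0, ⟨0, 0⟩, 0⟩, 0, 0⟩ 0 0))) (.cut .s 12296192 (.pos 50 .mp ⟨⟨219913821, 0, 0, 0, 0, 79883236, 0, 0, 0, ⟨0, 0⟩, 0⟩, 0, 0⟩ 0 0) (.pos 50 .mp ⟨⟨220800676, 0, 0, 0, 0, 80722376, 0, 0, 0, ⟨0, 0⟩, 0⟩, 0, 0⟩ 0 0))) (.cut .v 16809984 (.cut .s 12312576 (.cut .s 12308480 (.pos 49 .mp ⟨⟨207449242, 0, 0, 0, 0, 103539883, 0, 0, 0, ⟨0, 0⟩, 0⟩, 0, 0⟩ 0 0) (.cut .s 12310528 (.pos 49 .mp ⟨⟨209902791, 0, 0, 0, 0, 100211428, 0, 0, 0, ⟨0, 0⟩, 0⟩, 0, 0⟩ 0 0) (.pos 49 .mp ⟨⟨210091658, 0, 0, 0, 0, 100493646, 0, 0, 0, ⟨0, 0⟩, 0⟩, 0,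 0⟩ 0 0))) (.cut .d (-8192) (.pos 49 .mp ⟨⟨205452761, 0, 0, 0, 0, 111923030, 0, 0, 0, ⟨0, 0⟩, 0⟩, 0, 0⟩ 0 0) (.cut .s 12316672 (.pos 49 .mp ⟨⟨211101915, 0, 0, 0, 0, 99284058, 0, 0, 0, ⟨0, 0⟩, 0⟩, 0, 0⟩ 0 0) (.pos 49 .mp ⟨⟨211698312, 0, 0, 0, 0, 99465706, 0, 0, 0, ⟨0, 0⟩, 0⟩, 0, 0⟩ 0 0)))) (.cut .s 12312576 (.pos 50 .mp ⟨⟨221712357, 0, 0, 0, 0, 81539552, 0, 0, 0, ⟨0, 0⟩, 0⟩, 0, 0⟩ 0 0) (.pos 50 .mp ⟨⟨222649417, 0, 0, 0, 0, 82333846, 0, 0, 0, ⟨0, 0⟩, 0⟩, 0, 0⟩ 0 0))))) (.pos 40 .mp ⟨⟨270506745, 0, 0, 0, 0, 0, 0, 0, 0, ⟨0, 0⟩, 0⟩, 0, 0⟩ 0 0)) (.cut .v 16842752 (.cut .s 12353536 (.cut .s 12337152 (.cut .v 16809984 (.cut .s 12328960 (.cut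 .d (-8192) (.pos 49 .mp ⟨⟨206563787, 0, 0, 0, 0, 112435524, 0, 0, 0, ⟨0, 0⟩, 0⟩, 0, 0⟩ 0 0) (.cut .s 12324864 (.pos 49 .mp ⟨⟨212269359, 0, 0, 0, 0, 99698502, 0, 0, 0, ⟨0, 0⟩, 0⟩, 0, 0⟩ 0 0) (.pos 49 .mp ⟨⟨212842057, 0, 0, 0, 0, 99933385, 0, 0, 0, ⟨0, 0⟩, 0⟩, 0, 0⟩ 0 0))) (.cut .d (-8192) (.pos 49 .mp ⟨⟨207681176, 0, 0, 0, 0, 112958910, 0, 0, 0, ⟨0, 0⟩, 0⟩, 0, 0⟩ 0 0) (.cut .s 12333056 (.pos 49 .mp ⟨⟨213416411, 0, 0, 0, 0, 100170353, 0, 0, 0, ⟨0, 0⟩, 0⟩, 0, 0⟩ 0 0) (.pos 49 .mp ⟨⟨213992425, 0, 0, 0, 0, 100409405, 0, 0, 0, ⟨0, 0⟩, 0⟩, 0, 0⟩ 0 0)))) (.cut .s 12328960 (.pos 50 .mp ⟨⟨223612413, 0, 0, 0, 0, 83104336, 0, 0, 0, ⟨0, 0⟩, 0⟩,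 0, 0⟩ 0 0) (.pos 50 .mp ⟨⟨224601905, 0, 0, 0, 0, 83850090, 0, 0, 0, ⟨0, 0⟩, 0⟩, 0, 0⟩ 0 0))) (.cut .v 16809984 (.cut .s 12345344 (.cut .d (-8192) (.pos 49 .mp ⟨⟨208804963, 0, 0, 0, 0, 113493255, 0, 0, 0, ⟨0, 0⟩, 0⟩, 0, 0⟩ 0 0) (.cut .s 12341248 (.pos 49 .mp ⟨⟨214570103, 0, 0, 0, 0, 100650543, 0, 0, 0, ⟨0, 0⟩, 0⟩, 0, 0⟩ 0 0) (.pos 49 .mp ⟨⟨215149450, 0, 0, 0, 0, 100893764, 0, 0, 0, ⟨0, 0⟩, 0⟩, 0, 0⟩ 0 0))) (.cut .d (-8192) (.pos 49 .mp ⟨⟨209935180, 0, 0, 0, 0, 114038627, 0, 0, 0, ⟨0, 0⟩, 0⟩, 0, 0⟩ 0 0) (.cut .s 12349440 (.pos 49 .mp ⟨⟨215730470, 0, 0, 0, 0, 101139070, 0, 0, 0, ⟨0, 0⟩, 0⟩, 0, 0⟩ 0 0) (.pos 49 .mp ⟨⟨216313167, 0, 0,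 0, 0, 101386459, 0, 0, 0, ⟨0, 0⟩, 0⟩, 0, 0⟩ 0 0)))) (.cut .s 12345344 (.pos 50 .mp ⟨⟨225618456, 0, 0, 0, 0, 84570172, 0, 0, 0, ⟨0, 0⟩, 0⟩, 0, 0⟩ 0 0) (.pos 50 .mp ⟨⟨226662632, 0, 0, 0, 0, 85263638, 0, 0, 0, ⟨0, 0⟩, 0⟩, 0, 0⟩ 0 0)))) (.cut .s 12369920 (.cut .v 16809984 (.cut .s 12361728 (.cut .d (-8192) (.pos 49 .mp ⟨⟨211071862, 0, 0, 0, 0, 114595093, 0, 0, 0, ⟨0, 0⟩, 0⟩, 0, 0⟩ 0 0) (.cut .s 12357632 (.pos 49 .mp ⟨⟨216897546, 0, 0, 0, 0, 101635931, 0, 0, 0, ⟨0, 0⟩, 0⟩, 0, 0⟩ 0 0) (.pos 49 .mp ⟨⟨217483611, 0, 0, 0, 0, 101887486, 0, 0, 0, ⟨0, 0⟩, 0⟩, 0, 0⟩ 0 0))) (.cut .d (-8192) (.pos 49 .mp ⟨⟨212215042, 0, 0, 0, 0, 115162722, 0, 0,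 0, ⟨0, 0⟩, 0⟩, 0, 0⟩ 0 0) (.cut .s 12365824 (.pos 49 .mp ⟨⟨218071367, 0, 0, 0, 0, 102141122, 0, 0, 0, ⟨0, 0⟩, 0⟩, 0, 0⟩ 0 0) (.pos 49 .mp ⟨⟨218660818, 0, 0, 0, 0, 102396841, 0, 0, 0, ⟨0, 0⟩, 0⟩, 0, 0⟩ 0 0)))) (.cut .s 12361728 (.pos 50 .mp ⟨⟨227735002, 0, 0, 0, 0, 85929537, 0, 0, 0, ⟨0, 0⟩, 0⟩, 0, 0⟩ 0 0) (.pos 50 .mp ⟨⟨228836139, 0, 0, 0, 0, 86566912, 0, 0, 0, ⟨0, 0⟩, 0⟩, 0, 0⟩ 0 0))) (.cut .v 16809984 (.cut .s 12378112 (.cut .d (-8192) (.pos 49 .mp ⟨⟨213364756, 0, 0, 0, 0, 115741582, 0, 0, 0, ⟨0, 0⟩, 0⟩, 0, 0⟩ 0 0) (.cut .s 12374016 (.pos 49 .mp ⟨⟨219251968, 0, 0, 0, 0, 102654641, 0, 0, 0, ⟨0, 0⟩, 0⟩, 0, 0⟩ 0 0) (.pos 49 .mp ⟨⟨219844823,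 0, 0, 0, 0, 102914521, 0, 0, 0, ⟨0, 0⟩, 0⟩, 0, 0⟩ 0 0))) (.cut .d (-8192) (.pos 49 .mp ⟨⟨214521037, 0, 0, 0, 0, 116331742, 0, 0, 0, ⟨0, 0⟩, 0⟩, 0, 0⟩ 0 0) (.cut .s 12382208 (.pos 49 .mp ⟨⟨220439387, 0, 0, 0, 0, 103176482, 0, 0, 0, ⟨0, 0⟩, 0⟩, 0, 0⟩ 0 0) (.pos 49 .mp ⟨⟨221035663, 0, 0, 0, 0, 103440522, 0, 0, 0, ⟨0, 0⟩, 0⟩, 0, 0⟩ 0 0)))) (.cut .s 12378112 (.pos 50 .mp ⟨⟨229966617, 0, 0, 0, 0, 87174798, 0, 0, 0, ⟨0, 0⟩, 0⟩, 0, 0⟩ 0 0) (.pos 50 .mp ⟨⟨231127017, 0, 0, 0, 0, 87752224, 0, 0, 0, ⟨0, 0⟩, 0⟩, 0, 0⟩ 0 0))))) (.pos 40 .mp ⟨⟨281872246, 0, 0, 0, 0, 0, 0, 0, 0, ⟨0, 0⟩, 0⟩, 0, 0⟩ 0 0))) (.cut .s 12451840 (.cut .v 16842752 (.cut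 .s 12419072 (.cut .s 12402688 (.cut .v 16809984 (.cut .s 12394496 (.cut .d (-8192) (.pos 49 .mp ⟨⟨215683920, 0, 0, 0, 0, 116933274, 0, 0, 0, ⟨0, 0⟩, 0⟩, 0, 0⟩ 0 0) (.cut .s 12390400 (.pos 49 .mp ⟨⟨221633658, 0, 0, 0, 0, 103706642, 0, 0, 0, ⟨0, 0⟩, 0⟩, 0, 0⟩ 0 0) (.pos 49 .mp ⟨⟨222233374, 0, 0, 0, 0, 103974840, 0, 0, 0, ⟨0, 0⟩, 0⟩, 0, 0⟩ 0 0))) (.cut .d (-8192) (.pos 49 .mp ⟨⟨216853441, 0, 0, 0, 0, 117546246, 0, 0, 0, ⟨0, 0⟩, 0⟩, 0, 0⟩ 0 0) (.cut .s 12398592 (.pos 49 .mp ⟨⟨222834818, 0, 0, 0, 0, 104245116, 0, 0, 0, ⟨0, 0⟩, 0⟩, 0, 0⟩ 0 0) (.pos 49 .mp ⟨⟨223437993, 0, 0, 0, 0, 104517469, 0, 0, 0, ⟨0, 0⟩, 0⟩, 0, 0⟩ 0 0)))) (.cut .s 12394496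 (.pos 50 .mp ⟨⟨232317920, 0, 0, 0, 0, 88298212, 0, 0, 0, ⟨0, 0⟩, 0⟩, 0, 0⟩ 0 0) (.pos 50 .mp ⟨⟨233539912, 0, 0, 0, 0, 88811775, 0, 0, 0, ⟨0, 0⟩, 0⟩, 0, 0⟩ 0 0))) (.cut .v 16809984 (.cut .s 12410880 (.cut .d (-8192) (.pos 49 .mp ⟨⟨218029635, 0, 0, 0, 0, 118170729, 0, 0, 0, ⟨0, 0⟩, 0⟩, 0, 0⟩ 0 0) (.cut .s 12406784 (.pos 49 .mp ⟨⟨224042904, 0, 0, 0, 0, 104791898, 0, 0, 0, ⟨0, 0⟩, 0⟩, 0, 0⟩ 0 0) (.pos 49 .mp ⟨⟨224649555, 0, 0, 0, 0, 105068404, 0, 0, 0, ⟨0, 0⟩, 0⟩, 0, 0⟩ 0 0))) (.cut .d (-8192) (.pos 49 .mp ⟨⟨219212537, 0, 0, 0, 0, 118806796, 0, 0, 0, ⟨0, 0⟩, 0⟩, 0, 0⟩ 0 0) (.cut .s 12414976 (.pos 49 .mp ⟨⟨225257952, 0, 0, 0, 0, 105346985,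 0, 0, 0, ⟨0, 0⟩, 0⟩, 0, 0⟩ 0 0) (.pos 49 .mp ⟨⟨225868099, 0, 0, 0, 0, 105627640, 0, 0, 0, ⟨0, 0⟩, 0⟩, 0, 0⟩ 0 0)))) (.cut .s 12410880 (.pos 50 .mp ⟨⟨234793583, 0, 0, 0, 0, 89291922, 0, 0, 0, ⟨0, 0⟩, 0⟩, 0, 0⟩ 0 0) (.pos 50 .mp ⟨⟨236079523, 0, 0, 0, 0, 89737652, 0, 0, 0, ⟨0, 0⟩, 0⟩, 0, 0⟩ 0 0)))) (.cut .s 12435456 (.cut .v 16809984 (.cut .s 12427264 (.cut .d (-8192) (.pos 49 .mp ⟨⟨220402184, 0, 0, 0, 0, 119454517, 0, 0, 0, ⟨0, 0⟩, 0⟩, 0, 0⟩ 0 0) (.cut .s 12423168 (.pos 49 .mp ⟨⟨226480001, 0, 0, 0, 0, 105910369, 0, 0, 0, ⟨0, 0⟩, 0⟩, 0, 0⟩ 0 0) (.pos 49 .mp ⟨⟨227093662, 0, 0, 0, 0, 106195172, 0, 0, 0, ⟨0, 0⟩, 0⟩, 0, 0⟩ 0 0))) (.cut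 .d (-8192) (.pos 49 .mp ⟨⟨221598611, 0, 0, 0, 0, 120113966, 0, 0, 0, ⟨0, 0⟩, 0⟩, 0, 0⟩ 0 0) (.cut .s 12431360 (.pos 49 .mp ⟨⟨227709087, 0, 0, 0, 0, 106482046, 0, 0, 0, ⟨0, 0⟩, 0⟩, 0, 0⟩ 0 0) (.pos 49 .mp ⟨⟨228326281, 0, 0, 0, 0, 106770993, 0, 0, 0, ⟨0, 0⟩, 0⟩, 0, 0⟩ 0 0)))) (.cut .s 12427264 (.pos 50 .mp ⟨⟨237398331, 0, 0, 0, 0, 90147958, 0, 0, 0, ⟨0, 0⟩, 0⟩, 0, 0⟩ 0 0) (.pos 50 .mp ⟨⟨238750603, 0, 0, 0, 0, 90521824, 0, 0, 0, ⟨0, 0⟩, 0⟩, 0, 0⟩ 0 0))) (.cut .v 16809984 (.cut .s 12443648 (.cut .d (-8192) (.pos 49 .mp ⟨⟨222801855, 0, 0, 0, 0, 120785214, 0, 0, 0, ⟨0, 0⟩, 0⟩, 0, 0⟩ 0 0) (.cut .s 12439552 (.pos 49 .mp ⟨⟨228945249, 0, 0,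 0, 0, 107062009, 0, 0, 0, ⟨0, 0⟩, 0⟩, 0, 0⟩ 0 0) (.pos 49 .mp ⟨⟨229565995, 0, 0, 0, 0, 107355096, 0, 0, 0, ⟨0, 0⟩, 0⟩, 0, 0⟩ 0 0))) (.cut .d (-8192) (.pos 49 .mp ⟨⟨224011952, 0, 0, 0, 0, 121468336, 0, 0, 0, ⟨0, 0⟩, 0⟩, 0, 0⟩ 0 0) (.cut .s 12447744 (.pos 49 .mp ⟨⟨230188524, 0, 0, 0, 0, 107650252, 0, 0, 0, ⟨0, 0⟩, 0⟩, 0, 0⟩ 0 0) (.pos 49 .mp ⟨⟨230812841, 0, 0, 0, 0, 107947476, 0, 0, 0, ⟨0, 0⟩, 0⟩, 0, 0⟩ 0 0)))) (.cut .s 12443648 (.pos 50 .mp ⟨⟨240136945, 0, 0, 0, 0, 90858229, 0, 0, 0, ⟨0, 0⟩, 0⟩, 0, 0⟩ 0 0) (.pos 50 .mp ⟨⟨241557961, 0, 0, 0, 0, 91156143, 0, 0, 0, ⟨0, 0⟩, 0⟩, 0, 0⟩ 0 0))))) (.pos 40 .mp ⟨⟨293800711, 0, 0, 0, 0, 0, 0,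 0, 0, ⟨0, 0⟩, 0⟩, 0, 0⟩ 0 0)) (.cut .v 16842752 (.cut .s 12484608 (.cut .s 12468224 (.cut .v 16809984 (.cut .s 12460032 (.cut .d (-8192) (.pos 49 .mp ⟨⟨225228941, 0, 0, 0, 0, 122163406, 0, 0, 0, ⟨0, 0⟩, 0⟩, 0, 0⟩ 0 0) (.cut .s 12455936 (.pos 49 .mp ⟨⟨231438951, 0, 0, 0, 0, 108246767, 0, 0, 0, ⟨0, 0⟩, 0⟩, 0, 0⟩ 0 0) (.pos 49 .mp ⟨⟨232066858, 0, 0, 0, 0, 108548125, 0, 0, 0, ⟨0, 0⟩, 0⟩, 0, 0⟩ 0 0))) (.cut .d (-8192) (.pos 49 .mp ⟨⟨226452857, 0, 0, 0, 0, 122870498, 0, 0, 0, ⟨0, 0⟩, 0⟩, 0, 0⟩ 0 0) (.cut .s 12464128 (.pos 49 .mp ⟨⟨232696568, 0, 0, 0, 0, 108851548, 0, 0, 0, ⟨0, 0⟩, 0⟩, 0, 0⟩ 0 0) (.pos 49 .mp ⟨⟨233328086, 0, 0, 0, 0, 109157036,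 0, 0, 0, ⟨0, 0⟩, 0⟩, 0, 0⟩ 0 0)))) (.cut .s 12460032 (.pos 50 .mp ⟨⟨243014263, 0, 0, 0, 0, 91414528, 0, 0, 0, ⟨0, 0⟩, 0⟩, 0, 0⟩ 0 0) (.pos 50 .mp ⟨⟨244506463, 0, 0, 0, 0, 91632339, 0, 0, 0, ⟨0, 0⟩, 0⟩, 0, 0⟩ 0 0))) (.cut .v 16809984 (.cut .s 12476416 (.cut .d (-8192) (.pos 49 .mp ⟨⟨227683739, 0, 0, 0, 0, 123589687, 0, 0, 0, ⟨0, 0⟩, 0⟩, 0, 0⟩ 0 0) (.cut .s 12472320 (.pos 49 .mp ⟨⟨233961415, 0, 0, 0, 0, 109464587, 0, 0, 0, ⟨0, 0⟩, 0⟩, 0, 0⟩ 0 0) (.pos 49 .mp ⟨⟨234596562, 0, 0, 0, 0, 109774200, 0, 0, 0, ⟨0, 0⟩, 0⟩, 0, 0⟩ 0 0))) (.cut .d (-8192) (.pos 49 .mp ⟨⟨228921624, 0, 0, 0, 0, 124321049, 0, 0, 0, ⟨0, 0⟩, 0⟩, 0, 0⟩ 0 0) (.cut .s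 12480512 (.pos 49 .mp ⟨⟨235233531, 0, 0, 0, 0, 110085875, 0, 0, 0, ⟨0, 0⟩, 0⟩, 0, 0⟩ 0 0) (.pos 49 .mp ⟨⟨235872328, 0, 0, 0, 0, 110399610, 0, 0, 0, ⟨0, 0⟩, 0⟩, 0, 0⟩ 0 0)))) (.cut .s 12476416 (.pos 50 .mp ⟨⟨246035180, 0, 0, 0, 0, 91808522, 0, 0, 0, ⟨0, 0⟩, 0⟩, 0, 0⟩ 0 0) (.pos 50 .mp ⟨⟨247601034, 0, 0, 0, 0, 91942018, 0, 0, 0, ⟨0, 0⟩, 0⟩, 0, 0⟩ 0 0)))) (.cut .s 12500992 (.cut .v 16809984 (.cut .s 12492800 (.cut .d (-8192) (.pos 49 .mp ⟨⟨230166550, 0, 0, 0, 0, 125064660, 0, 0, 0, ⟨0, 0⟩, 0⟩, 0, 0⟩ 0 0) (.cut .s 12488704 (.pos 49 .mp ⟨⟨236512956, 0, 0, 0, 0, 110715405, 0, 0, 0, ⟨0, 0⟩, 0⟩, 0, 0⟩ 0 0) (.pos 49 .mp ⟨⟨237155421, 0, 0,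 0, 0, 111033258, 0, 0, 0, ⟨0, 0⟩, 0⟩, 0, 0⟩ 0 0))) (.cut .d (-8192) (.pos 49 .mp ⟨⟨231418557, 0, 0, 0, 0, 125820598, 0, 0, 0, ⟨0, 0⟩, 0⟩, 0, 0⟩ 0 0) (.cut .s 12496896 (.pos 49 .mp ⟨⟨237799729, 0, 0, 0, 0, 111353168, 0, 0, 0, ⟨0, 0⟩, 0⟩, 0, 0⟩ 0 0) (.pos 49 .mp ⟨⟨238445884, 0, 0, 0, 0, 111675134, 0, 0, 0, ⟨0, 0⟩, 0⟩, 0, 0⟩ 0 0)))) (.cut .s 12492800 (.pos 50 .mp ⟨⟨249204651, 0, 0, 0, 0, 92031757, 0, 0, 0, ⟨0, 0⟩, 0⟩, 0, 0⟩ 0 0) (.pos 50 .mp ⟨⟨250846658, 0, 0, 0, 0, 92076662, 0, 0, 0, ⟨0, 0⟩, 0⟩, 0, 0⟩ 0 0))) (.cut .v 16809984 (.cut .s 12509184 (.cut .d (-8192) (.pos 49 .mp ⟨⟨232677682, 0, 0, 0, 0, 126588938, 0, 0, 0, ⟨0, 0⟩, 0⟩, 0,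 0⟩ 0 0) (.cut .s 12505088 (.pos 49 .mp ⟨⟨239093890, 0, 0, 0, 0, 111999155, 0, 0, 0, ⟨0, 0⟩, 0⟩, 0, 0⟩ 0 0) (.pos 49 .mp ⟨⟨239743755, 0, 0, 0, 0, 112325230, 0, 0, 0, ⟨0, 0⟩, 0⟩, 0, 0⟩ 0 0))) (.cut .s 12513280 (.cut .s 12511232 (.pos 49 .mp ⟨⟨239345291, 0, 0, 0, 0, 114590651, 0, 0, 0, ⟨0, 0⟩, 0⟩, 0, 0⟩ 0 0) (.pos 49 .mp ⟨⟨239775093, 0, 0, 0, 0, 114571245, 0, 0, 0, ⟨0, 0⟩, 0⟩, 0, 0⟩ 0 0)) (.pos 49 .mp ⟨⟨237889915, 0, 0, 0, 0, 118955908, 0, 0, 0, ⟨0, 0⟩, 0⟩, 0, 0⟩ 0 0))) (.cut .s 12509184 (.pos 50 .mp ⟨⟨252527689, 0, 0, 0, 0, 92075648, 0, 0, 0, ⟨0, 0⟩, 0⟩, 0, 0⟩ 0 0) (.pos 50 .mp ⟨⟨254248380, 0, 0, 0, 0, 92027623, 0, 0, 0, ⟨0, 0⟩, 0⟩,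 0, 0⟩ 0 0))))) (.pos 40 .mp ⟨⟨306272755, 0, 0, 0, 0, 0, 0, 0, 0, ⟨0, 0⟩, 0⟩, 0, 0⟩ 0 0))))) (.pos 38 .mp ⟨⟨305119232, 0, 0, 0, 0, 0, 0, 0, 0, ⟨0, 0⟩, 0⟩, 0, 0⟩ 0 0)) (.pos 36 .mp ⟨⟨318663309, 0, 0, 0, 0, 0, 0, 0, 0, ⟨0, 0⟩, 0⟩, 0, 0⟩ 0 0)))))) (.void 34 ⟨⟨100000, 0, 0, 0, 0, 0, 0, 0, 0, ⟨0, 0⟩, 0⟩, 0, 0⟩ 0 0))) (.void 32 ⟨⟨100000, 0, 0, 0, 0, 0, 0, 0, 0, ⟨0, 0⟩, 0⟩, 0, 0⟩ 0 0))) (.void 30 ⟨⟨100000, 0, 0, 0, 0, 0, 0, 0, 0, ⟨0, 0⟩, 0⟩, 0, 0⟩ 0 0))) (.void 28 ⟨⟨100000, 0, 0, 0, 0, 0, 0, 0, 0, ⟨0, 0⟩, 0⟩, 0, 0⟩ 0 0)))) (.void 26 ⟨⟨100000, 0, 0, 0, 0, 0, 0, 0, 0, ⟨0, 0⟩, 0⟩, 0, 0⟩ 0 0)) (.void 95 ⟨⟨100000, 0, 0, 0, 0, 0, 0, 0, 0, ⟨0,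 0⟩, 0⟩, 0, 0⟩ 0 0)) (.void 106 ⟨⟨100000, 0, 0, 0, 0, 0, 0, 0, 0, ⟨0, 0⟩, 0⟩, 0, 0⟩ 0 0)) (.void 115 ⟨⟨94940, 0, 0, 5060, 0, 0, 0, 0, 0, ⟨0, 0⟩, 0⟩, 0, 0⟩ 0 0))) (.cut .v 16777216 (.cut .v 8388608 (.cut .v 4194304 (.cut .v 2097152 (.cut .v 1048576 (.pos 111 .pm ⟨⟨0, 0, 28975414, 0, 0, 0, 0, 0, 36420170, ⟨0, 0⟩, 1983364⟩, 0, 0⟩ 0 0) (.pos 112 .pm ⟨⟨0, 0, 17752506, 0, 0, 0, 0, 0, 0, ⟨0, 0⟩, 0⟩, 0, 55320⟩ 0 0)) (.pos 7 .pm ⟨⟨0, 0, 18328138, 0, 0, 0, 0, 0, 0, ⟨0, 0⟩, 0⟩, 0, 85841⟩ 0 0)) (.pos 5 .pm ⟨⟨0, 0, 8001723, 0, 0, 0, 0, 0, 0, ⟨0, 0⟩, 0⟩, 0, 0⟩ 0 0)) (.pos 3 .pm ⟨⟨0, 0, 0, 0, 0, 0, 0, 0, 0, ⟨0, 0⟩, 0⟩, 0, 0⟩ 0 0)) (.cut .v 268435456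 (.cut .v 67108864 (.cut .d 3095263 (.cut .v 33554432 (.cut .d 1547631 (.cut .v 25165824 (.cut .d 773815 (.cut .d 386907 (.cut .v 20971520 (.cut .d 193453 (.cut .v 18874368 (.cut .v 17825792 (.cut .s 12386304 (.pos 31 .pp ⟨⟨200378498, 0, 0, 0, 0, 0, 0, 0, 0, ⟨0, 0⟩, 0⟩, 7495631, 0⟩ 0 0) (.pos 31 .pp ⟨⟨219630945, 0, 0, 0, 0, 0, 0, 0, 0, ⟨0, 0⟩, 0⟩, 7906885, 0⟩ 0 0)) (.pos 32 .pp ⟨⟨305897337, 0, 0, 0, 0, 0, 0, 0, 0, ⟨0, 0⟩, 0⟩, 0, 0⟩ 0 0)) (.pos 30 .pp ⟨⟨376111869, 0, 0, 0, 0, 0, 0, 0, 0, ⟨0, 0⟩, 0⟩, 0, 0⟩ 0 0)) (.pos 27 .pp ⟨⟨243819648, 0, 0, 0, 0, 0, 0, 0, 0, ⟨0, 0⟩, 0⟩, 0, 16227⟩ 0 0)) (.cut .d 193453 (.void 28 ⟨⟨0, 0, 0, 0, 0, 0,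 0, 0, 0, ⟨0, 0⟩, 0⟩, 100000, 0⟩ 0 0) (.pos 28 .pp ⟨⟨0, 0, 0, 0, 0, 0, 0, 0, 0, ⟨0, 0⟩, 0⟩, 48348893, 0⟩ 0 0))) (.pos 25 .pp ⟨⟨0, 0, 0, 0, 0, 0, 0, 0, 0, ⟨0, 0⟩, 0⟩, 31059360, 83547⟩ 0 0)) (.pos 25 .pp ⟨⟨0, 0, 0, 0, 0, 0, 0, 0, 0, ⟨0, 0⟩, 0⟩, 0, 360677⟩ 0 0)) (.cut .d 773815 (.pos 26 .pp ⟨⟨0, 0, 0, 0, 0, 0, 0, 0, 0, ⟨0, 0⟩, 0⟩, 72754015, 0⟩ 0 0) (.pos 26 .pp ⟨⟨0, 0, 0, 0, 0, 0, 156938, 0, 0, ⟨0, 0⟩, 0⟩, 35519607, 0⟩ 0 0))) (.pos 24 .pp ⟨⟨0, 0, 0, 0, 0, 0, 0, 0, 0, ⟨0, 0⟩, 0⟩, 0, 400753⟩ 0 0)) (.cut .d 1547631 (.cut .v 50331648 (.pos 96 .pp ⟨⟨0, 0, 0, 0, 0, 0, 0, 0, 0, ⟨0, 0⟩, 0⟩, 109736556, 0⟩ 0 0) (.void 97 ⟨⟨0, 0, 0, 0, 0, 0, 0,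 0, 0, ⟨0, 0⟩, 0⟩, 100000, 0⟩ 0 0)) (.pos 95 .pp ⟨⟨0, 0, 0, 0, 0, 0, 0, 0, 0, ⟨0, 0⟩, 0⟩, 45804120, 0⟩ 0 0))) (.pos 94 .pp ⟨⟨0, 0, 0, 0, 0, 0, 0, 0, 0, ⟨0, 0⟩, 0⟩, 0, 300564⟩ 0 0)) (.void 106 ⟨⟨0, 0, 0, 45706, 0, 0, 0, 0, 0, ⟨0, 0⟩, 0⟩, 54294, 0⟩ 0 0)) (.void 115 ⟨⟨0, 0, 0, 0, 0, 0, 0, 0, 0, ⟨0, 0⟩, 0⟩, 100000, 0⟩ 0 0)))),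
    by decide +kernel⟩

def covers20 : cell.Covers Vale.Agent.P237.Petty.Cor.Grid.N13.table row20.1 :=
  ⟨(.cut .d 0 (.cut .v 16777216 (.cut .d (-8388608) (.void 1 ⟨⟨0, 0, 0, 0, 0, 100000, 0, 0, 0, ⟨0, 0⟩, 0⟩, 0, 0⟩ 0 0) (.cut .d (-4194304) (.void 1 ⟨⟨0, 0, 0, 0, 0, 100000, 0, 0, 0, ⟨0, 0⟩, 0⟩, 0, 0⟩ 0 0) (.cut .d (-2097152) (.void 1 ⟨⟨0, 0, 0, 0, 0, 100000, 0, 0, 0, ⟨0, 0⟩, 0⟩, 0, 0⟩ 0 0) (.cut .d (-1048576) (.void 1 ⟨⟨0, 0, 0, 0, 0, 100000, 0, 0, 0, ⟨0, 0⟩, 0⟩, 0, 0⟩ 0 0) (.cut .d (-524288) (.void 1 ⟨⟨0, 0, 0, 0, 0, 100000, 0, 0, 0, ⟨0, 0⟩, 0⟩, 0, 0⟩ 0 0) (.cut .d (-262144) (.void 1 ⟨⟨0, 0, 0, 0, 0, 100000, 0, 0, 0, ⟨0, 0⟩, 0⟩,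 0, 0⟩ 0 0) (.cut .d (-131072) (.void 1 ⟨⟨0, 0, 0, 0, 0, 100000, 0, 0, 0, ⟨0, 0⟩, 0⟩, 0, 0⟩ 0 0) (.cut .d (-65536) (.void 1 ⟨⟨0, 0, 0, 0, 0, 100000, 0, 0, 0, ⟨0, 0⟩, 0⟩, 0, 0⟩ 0 0) (.cut .v 8388608 (.cut .v 4194304 (.void 4 ⟨⟨0, 0, 100000, 0, 0, 0, 0, 0, 0, ⟨0, 0⟩, 0⟩, 0, 0⟩ 0 0) (.pos 5 .mm ⟨⟨0, 0, 9730355, 0, 0, 186686642, 0, 0, 0, ⟨0, 0⟩, 0⟩, 0, 0⟩ 0 0)) (.pos 3 .mm ⟨⟨0, 0, 0, 0, 0, 548491883, 0, 0, 0, ⟨0, 0⟩, 0⟩, 0, 0⟩ 0 0)))))))))) (.cut .v 268435456 (.cut .v 67108864 (.cut .v 33554432 (.cut .v 25165824 (.cut .d (-8388608) (.void 25 ⟨⟨100000, 0, 0, 0, 0, 0, 0, 0, 0, ⟨0, 0⟩, 0⟩, 0, 0⟩ 0 0) (.cut .d (-4194304) (.void 25 ⟨⟨100000,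 0, 0, 0, 0, 0, 0, 0, 0, ⟨0, 0⟩, 0⟩, 0, 0⟩ 0 0) (.cut .v 20971520 (.cut .d (-2097152) (.void 27 ⟨⟨100000, 0, 0, 0, 0, 0, 0, 0, 0, ⟨0, 0⟩, 0⟩, 0, 0⟩ 0 0) (.cut .v 18874368 (.cut .d (-1048576) (.void 29 ⟨⟨100000, 0, 0, 0, 0, 0, 0, 0, 0, ⟨0, 0⟩, 0⟩, 0, 0⟩ 0 0) (.cut .v 17825792 (.cut .d (-524288) (.void 31 ⟨⟨100000, 0, 0, 0, 0, 0, 0, 0, 0, ⟨0, 0⟩, 0⟩, 0, 0⟩ 0 0) (.cut .v 17301504 (.cut .d (-262144) (.void 33 ⟨⟨100000, 0, 0, 0, 0, 0, 0, 0, 0, ⟨0, 0⟩, 0⟩, 0, 0⟩ 0 0) (.cut .v 17039360 (.cut .d (-131072) (.void 35 ⟨⟨100000, 0, 0, 0, 0, 0, 0, 0, 0, ⟨0, 0⟩, 0⟩, 0, 0⟩ 0 0) (.cut .d (-65536) (.void 35 ⟨⟨100000, 0, 0, 0, 0, 0, 0, 0, 0, ⟨0, 0⟩,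 0⟩, 0, 0⟩ 0 0) (.cut .d (-32768) (.void 35 ⟨⟨100000, 0, 0, 0, 0, 0, 0, 0, 0, ⟨0, 0⟩, 0⟩, 0, 0⟩ 0 0) (.cut .d (-16384) (.void 35 ⟨⟨0, 0, 0, 0, 0, 100000, 0, 0, 0, ⟨0, 0⟩, 0⟩, 0, 0⟩ 0 0) (.cut .v 16908288 (.cut .s 12615680 (.cut .v 16842752 (.cut .s 12566528 (.cut .s 12541952 (.cut .s 12529664 (.cut .v 16809984 (.cut .d (-8192) (.pos 49 .mp ⟨⟨235215916, 0, 0, 0, 0, 128991817, 0, 0, 0, ⟨0, 0⟩, 0⟩, 0, 0⟩ 0 0) (.cut .s 12523520 (.pos 49 .mp ⟨⟨242031883, 0, 0, 0, 0, 112981156, 0, 0, 0, ⟨0, 0⟩, 0⟩, 0, 0⟩ 0 0) (.pos 49 .mp ⟨⟨243020539, 0, 0, 0, 0, 113371919, 0, 0, 0, ⟨0, 0⟩, 0⟩, 0, 0⟩ 0 0))) (.pos 50 .mp ⟨⟨259937485, 0, 0, 0, 0, 86190808,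 0, 0, 0, ⟨0, 0⟩, 0⟩, 0, 0⟩ 0 0)) (.cut .v 16809984 (.cut .d (-8192) (.pos 49 .mp ⟨⟨237143755, 0, 0, 0, 0, 129873105, 0, 0, 0, ⟨0, 0⟩, 0⟩, 0, 0⟩ 0 0) (.cut .l 141961 (.cut .d (-4096) (.pos 49 .mp ⟨⟨241616840, 0, 0, 0, 0, 120868502, 0, 0, 0, ⟨0, 0⟩, 0⟩, 0, 0⟩ 0 0) (.cut .s 12535808 (.pos 49 .mp ⟨⟨242163800, 0, 0, 0, 0, 116880918, 0, 0, 0, ⟨0, 0⟩, 0⟩, 0, 0⟩ 0 0) (.pos 49 .mp ⟨⟨243196738, 0, 0, 0, 0, 117211053, 0, 0, 0, ⟨0, 0⟩, 0⟩, 0, 0⟩ 0 0))) (.pos 49 .mp ⟨⟨241434245, 0, 0, 0, 0, 115702718, 0, 0, 0, ⟨0, 0⟩, 0⟩, 0, 0⟩ 0 0))) (.pos 50 .mp ⟨⟨261631017, 0, 0, 0, 0, 87489917, 0, 0, 0, ⟨0, 0⟩, 0⟩, 0, 0⟩ 0 0))) (.cut .d (-8192) (.cut .l 141961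 (.void 39 ⟨⟨0, 0, 0, 0, 0, 100000, 0, 0, 0, ⟨0, 0⟩, 0⟩, 0, 0⟩ 0 0) (.cut .s 12554240 (.pos 39 .mp ⟨⟨239996376, 0, 0, 0, 0, 129291869, 0, 0, 0, ⟨0, 0⟩, 0⟩, 0, 0⟩ 0 0) (.pos 39 .mp ⟨⟨241965587, 0, 0, 0, 0, 130281817, 0, 0, 0, ⟨0, 0⟩, 0⟩, 0, 0⟩ 0 0))) (.cut .v 16809984 (.cut .l 141961 (.cut .s 12554240 (.cut .d (-4096) (.pos 49 .mp ⟨⟨243396891, 0, 0, 0, 0, 122145038, 0, 0, 0, ⟨0, 0⟩, 0⟩, 0, 0⟩ 0 0) (.cut .s 12548096 (.pos 49 .mp ⟨⟨244231635, 0, 0, 0, 0, 117551857, 0, 0, 0, ⟨0, 0⟩, 0⟩, 0, 0⟩ 0 0) (.pos 49 .mp ⟨⟨245268444, 0, 0, 0, 0, 117903457, 0, 0, 0, ⟨0, 0⟩, 0⟩, 0, 0⟩ 0 0))) (.cut .d (-4096) (.pos 49 .mp ⟨⟨245219068, 0, 0, 0, 0, 123397418,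 0, 0, 0, ⟨0, 0⟩, 0⟩, 0, 0⟩ 0 0) (.cut .s 12560384 (.pos 49 .mp ⟨⟨246307118, 0, 0, 0, 0, 118265985, 0, 0, 0, ⟨0, 0⟩, 0⟩, 0, 0⟩ 0 0) (.pos 49 .mp ⟨⟨247347610, 0, 0, 0, 0, 118639571, 0, 0, 0, ⟨0, 0⟩, 0⟩, 0, 0⟩ 0 0)))) (.pos 49 .mp ⟨⟨244825774, 0, 0, 0, 0, 114514852, 0, 0, 0, ⟨0, 0⟩, 0⟩, 0, 0⟩ 0 0)) (.pos 50 .mp ⟨⟨312737145, 0, 0, 0, 0, 0, 0, 0, 0, ⟨0, 0⟩, 0⟩, 0, 0⟩ 0 0)))) (.cut .s 12591104 (.cut .d (-8192) (.cut .l 141961 (.void 39 ⟨⟨0, 0, 0, 0, 0, 100000, 0, 0, 0, ⟨0, 0⟩, 0⟩, 0, 0⟩ 0 0) (.cut .d (-12288) (.pos 39 .mp ⟨⟨245639770, 0, 0, 0, 0, 133767101, 0, 0, 0, ⟨0, 0⟩, 0⟩, 0, 0⟩ 0 0) (.cut .s 12578816 (.pos 39 .mp ⟨⟨250698513, 0,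 0, 0, 0, 115994531, 0, 0, 0, ⟨0, 0⟩, 0⟩, 0, 0⟩ 0 0) (.pos 39 .mp ⟨⟨252765296, 0, 0, 0, 0, 116862626, 0, 0, 0, ⟨0, 0⟩, 0⟩, 0, 0⟩ 0 0)))) (.cut .v 16809984 (.cut .l 141961 (.cut .s 12578816 (.cut .d (-4096) (.pos 49 .mp ⟨⟨247084464, 0, 0, 0, 0, 124623688, 0, 0, 0, ⟨0, 0⟩, 0⟩, 0, 0⟩ 0 0) (.cut .s 12572672 (.pos 49 .mp ⟨⟨248367792, 0, 0, 0, 0, 119067965, 0, 0, 0, ⟨0, 0⟩, 0⟩, 0, 0⟩ 0 0) (.pos 49 .mp ⟨⟨249382173, 0, 0, 0, 0, 119522567, 0, 0, 0, ⟨0, 0⟩, 0⟩, 0, 0⟩ 0 0))) (.cut .d (-4096) (.pos 49 .mp ⟨⟨248994179, 0, 0, 0, 0, 125821880, 0, 0, 0, ⟨0, 0⟩, 0⟩, 0, 0⟩ 0 0) (.cut .s 12584960 (.pos 49 .mp ⟨⟨250401066, 0, 0, 0, 0, 119983050, 0, 0,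 0, ⟨0, 0⟩, 0⟩, 0, 0⟩ 0 0) (.pos 49 .mp ⟨⟨251424490, 0, 0, 0, 0, 120449411, 0, 0, 0, ⟨0, 0⟩, 0⟩, 0, 0⟩ 0 0)))) (.pos 49 .mp ⟨⟨248853256, 0, 0, 0, 0, 116368527, 0, 0, 0, ⟨0, 0⟩, 0⟩, 0, 0⟩ 0 0)) (.pos 50 .mp ⟨⟨317656905, 0, 0, 0, 0, 0, 0, 0, 0, ⟨0, 0⟩, 0⟩, 0, 0⟩ 0 0))) (.cut .d (-8192) (.cut .l 141961 (.void 39 ⟨⟨0, 0, 0, 0, 0, 100000, 0, 0, 0, ⟨0, 0⟩, 0⟩, 0, 0⟩ 0 0) (.cut .d (-12288) (.pos 39 .mp ⟨⟨249707105, 0, 0, 0, 0, 135825112, 0, 0, 0, ⟨0, 0⟩, 0⟩, 0, 0⟩ 0 0) (.cut .s 12603392 (.pos 39 .mp ⟨⟨254850566, 0, 0, 0, 0, 117753470, 0, 0, 0, ⟨0, 0⟩, 0⟩, 0, 0⟩ 0 0) (.pos 39 .mp ⟨⟨256954480, 0, 0, 0, 0, 118667035, 0, 0, 0, ⟨0, 0⟩, 0⟩, 0,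 0⟩ 0 0)))) (.cut .v 16809984 (.cut .l 141961 (.cut .s 12603392 (.cut .v 16793600 (.cut .d (-4096) (.pos 51 .mp ⟨⟨247899084, 0, 0, 0, 0, 132540880, 0, 0, 0, ⟨0, 0⟩, 0⟩, 0, 0⟩ 0 0) (.cut .s 12597248 (.pos 51 .mp ⟨⟨251980559, 0, 0, 0, 0, 121726667, 0, 0, 0, ⟨0, 0⟩, 0⟩, 0, 0⟩ 0 0) (.pos 51 .mp ⟨⟨253011276, 0, 0, 0, 0, 122208161, 0, 0, 0, ⟨0, 0⟩, 0⟩, 0, 0⟩ 0 0))) (.pos 52 .mp ⟨⟨273093388, 0, 0, 0, 0, 88841343, 0, 0, 0, ⟨0, 0⟩, 0⟩, 0, 0⟩ 0 0)) (.cut .v 16793600 (.cut .d (-4096) (.pos 51 .mp ⟨⟨249931577, 0, 0, 0, 0, 133602050, 0, 0, 0, ⟨0, 0⟩, 0⟩, 0, 0⟩ 0 0) (.cut .s 12609536 (.pos 51 .mp ⟨⟨254046574, 0, 0, 0, 0, 122695540, 0, 0, 0, ⟨0,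 0⟩, 0⟩, 0, 0⟩ 0 0) (.pos 51 .mp ⟨⟨255086471, 0, 0, 0, 0, 123188803, 0, 0, 0, ⟨0, 0⟩, 0⟩, 0, 0⟩ 0 0))) (.pos 52 .mp ⟨⟨275285082, 0, 0, 0, 0, 89608582, 0, 0, 0, ⟨0, 0⟩, 0⟩, 0, 0⟩ 0 0))) (.pos 49 .mp ⟨⟨252948952, 0, 0, 0, 0, 118271688, 0, 0, 0, ⟨0, 0⟩, 0⟩, 0, 0⟩ 0 0)) (.pos 50 .mp ⟨⟨322712880, 0, 0, 0, 0, 0, 0, 0, 0, ⟨0, 0⟩, 0⟩, 0, 0⟩ 0 0))))) (.pos 40 .mp ⟨⟨323699281, 0, 0, 0, 0, 0, 0, 0, 0, ⟨0, 0⟩, 0⟩, 0, 0⟩ 0 0)) (.cut .v 16842752 (.cut .s 12664832 (.cut .s 12640256 (.cut .d (-8192) (.cut .l 141961 (.void 39 ⟨⟨0, 0, 0, 0, 0, 100000, 0, 0, 0, ⟨0, 0⟩, 0⟩, 0, 0⟩ 0 0) (.cut .d (-12288) (.pos 39 .mp ⟨⟨253847122, 0, 0, 0, 0, 138007345,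 0, 0, 0, ⟨0, 0⟩, 0⟩, 0, 0⟩ 0 0) (.cut .s 12627968 (.pos 39 .mp ⟨⟨259077195, 0, 0, 0, 0, 119603290, 0, 0, 0, ⟨0, 0⟩, 0⟩, 0, 0⟩ 0 0) (.pos 39 .mp ⟨⟨261218870, 0, 0, 0, 0, 120562203, 0, 0, 0, ⟨0, 0⟩, 0⟩, 0, 0⟩ 0 0)))) (.cut .v 16809984 (.cut .l 141961 (.cut .s 12627968 (.cut .v 16793600 (.cut .d (-4096) (.pos 51 .mp ⟨⟨251982071, 0, 0, 0, 0, 134695265, 0, 0, 0, ⟨0, 0⟩, 0⟩, 0, 0⟩ 0 0) (.cut .s 12621824 (.pos 51 .mp ⟨⟨256130987, 0, 0, 0, 0, 123687946, 0, 0, 0, ⟨0, 0⟩, 0⟩, 0, 0⟩ 0 0) (.pos 51 .mp ⟨⟨257180141, 0, 0, 0, 0, 124192967, 0, 0, 0, ⟨0, 0⟩, 0⟩, 0, 0⟩ 0 0))) (.pos 52 .mp ⟨⟨277564914, 0, 0, 0, 0, 90280184, 0, 0, 0, ⟨0, 0⟩, 0⟩, 0,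 0⟩ 0 0)) (.cut .v 16793600 (.cut .d (-4096) (.pos 51 .mp ⟨⟨254050719, 0, 0, 0, 0, 135820837, 0, 0, 0, ⟨0, 0⟩, 0⟩, 0, 0⟩ 0 0) (.cut .s 12634112 (.pos 51 .mp ⟨⟨258233954, 0, 0, 0, 0, 124703862, 0, 0, 0, ⟨0, 0⟩, 0⟩, 0, 0⟩ 0 0) (.pos 51 .mp ⟨⟨259292444, 0, 0, 0, 0, 125220628, 0, 0, 0, ⟨0, 0⟩, 0⟩, 0, 0⟩ 0 0))) (.pos 52 .mp ⟨⟨279935437, 0, 0, 0, 0, 90851793, 0, 0, 0, ⟨0, 0⟩, 0⟩, 0, 0⟩ 0 0))) (.pos 49 .mp ⟨⟨257114043, 0, 0, 0, 0, 120220938, 0, 0, 0, ⟨0, 0⟩, 0⟩, 0, 0⟩ 0 0)) (.pos 50 .mp ⟨⟨327907280, 0, 0, 0, 0, 0, 0, 0, 0, ⟨0, 0⟩, 0⟩, 0, 0⟩ 0 0))) (.cut .d (-8192) (.cut .l 141961 (.void 39 ⟨⟨0, 0, 0, 0, 0, 100000, 0, 0, 0, ⟨0, 0⟩, 0⟩, 0,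 0⟩ 0 0) (.cut .d (-12288) (.pos 39 .mp ⟨⟨258061055, 0, 0, 0, 0, 140316185, 0, 0, 0, ⟨0, 0⟩, 0⟩, 0, 0⟩ 0 0) (.cut .s 12652544 (.pos 39 .mp ⟨⟨263379668, 0, 0, 0, 0, 121543740, 0, 0, 0, ⟨0, 0⟩, 0⟩, 0, 0⟩ 0 0) (.pos 39 .mp ⟨⟨265559751, 0, 0, 0, 0, 122547862, 0, 0, 0, ⟨0, 0⟩, 0⟩, 0, 0⟩ 0 0)))) (.cut .v 16809984 (.cut .l 141961 (.cut .s 12652544 (.cut .v 16793600 (.cut .d (-4096) (.pos 51 .mp ⟨⟨256137674, 0, 0, 0, 0, 136979082, 0, 0, 0, ⟨0, 0⟩, 0⟩, 0, 0⟩ 0 0) (.cut .s 12646400 (.pos 51 .mp ⟨⟨260355631, 0, 0, 0, 0, 125743261, 0, 0, 0, ⟨0, 0⟩, 0⟩, 0, 0⟩ 0 0) (.pos 51 .mp ⟨⟨261423537, 0, 0, 0, 0, 126271758, 0, 0, 0, ⟨0, 0⟩, 0⟩, 0, 0⟩ 0 0)))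 (.pos 52 .mp ⟨⟨282399226, 0, 0, 0, 0, 91319004, 0, 0, 0, ⟨0, 0⟩, 0⟩, 0, 0⟩ 0 0)) (.cut .d (-4096) (.pos 49 .mp ⟨⟨261445939, 0, 0, 0, 0, 132308588, 0, 0, 0, ⟨0, 0⟩, 0⟩, 0, 0⟩ 0 0) (.cut .s 12658688 (.pos 49 .mp ⟨⟨262986689, 0, 0, 0, 0, 125966560, 0, 0, 0, ⟨0, 0⟩, 0⟩, 0, 0⟩ 0 0) (.pos 49 .mp ⟨⟨264065995, 0, 0, 0, 0, 126503233, 0, 0, 0, ⟨0, 0⟩, 0⟩, 0, 0⟩ 0 0)))) (.pos 49 .mp ⟨⟨261349737, 0, 0, 0, 0, 122212831, 0, 0, 0, ⟨0, 0⟩, 0⟩, 0, 0⟩ 0 0)) (.pos 50 .mp ⟨⟨333242371, 0, 0, 0, 0, 0, 0, 0, 0, ⟨0, 0⟩, 0⟩, 0, 0⟩ 0 0)))) (.cut .s 12689408 (.cut .d (-8192) (.cut .l 141961 (.void 39 ⟨⟨0, 0, 0, 0, 0, 100000, 0, 0, 0, ⟨0, 0⟩, 0⟩, 0, 0⟩ 0 0)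 (.cut .s 12677120 (.cut .s 12670976 (.pos 39 .mp ⟨⟨261226828, 0, 0, 0, 0, 137125632, 0, 0, 0, ⟨0, 0⟩, 0⟩, 0, 0⟩ 0 0) (.pos 39 .mp ⟨⟨262335138, 0, 0, 0, 0, 137641835, 0, 0, 0, ⟨0, 0⟩, 0⟩, 0, 0⟩ 0 0)) (.pos 39 .mp ⟨⟨262642430, 0, 0, 0, 0, 141338796, 0, 0, 0, ⟨0, 0⟩, 0⟩, 0, 0⟩ 0 0))) (.cut .v 16809984 (.cut .l 141961 (.cut .s 12677120 (.cut .d (-4096) (.pos 49 .mp ⟨⟨263697466, 0, 0, 0, 0, 133253415, 0, 0, 0, ⟨0, 0⟩, 0⟩, 0, 0⟩ 0 0) (.cut .s 12670976 (.pos 49 .mp ⟨⟨265150089, 0, 0, 0, 0, 127045742, 0, 0, 0, ⟨0, 0⟩, 0⟩, 0, 0⟩ 0 0) (.pos 49 .mp ⟨⟨266238989, 0, 0, 0, 0, 127594083, 0, 0, 0, ⟨0, 0⟩, 0⟩, 0, 0⟩ 0 0))) (.cut .d (-4096) (.pos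 49 .mp ⟨⟨266002447, 0, 0, 0, 0, 134153687, 0, 0, 0, ⟨0, 0⟩, 0⟩, 0, 0⟩ 0 0) (.cut .s 12683264 (.pos 49 .mp ⟨⟨267332718, 0, 0, 0, 0, 128148252, 0, 0, 0, ⟨0, 0⟩, 0⟩, 0, 0⟩ 0 0) (.pos 49 .mp ⟨⟨268431295, 0, 0, 0, 0, 128708244, 0, 0, 0, ⟨0, 0⟩, 0⟩, 0, 0⟩ 0 0)))) (.pos 49 .mp ⟨⟨265657268, 0, 0, 0, 0, 124243870, 0, 0, 0, ⟨0, 0⟩, 0⟩, 0, 0⟩ 0 0)) (.pos 50 .mp ⟨⟨338720472, 0, 0, 0, 0, 0, 0, 0, 0, ⟨0, 0⟩, 0⟩, 0, 0⟩ 0 0))) (.cut .d (-8192) (.cut .l 141961 (.void 39 ⟨⟨0, 0, 0, 0, 0, 100000, 0, 0, 0, ⟨0, 0⟩, 0⟩, 0, 0⟩ 0 0) (.cut .s 12701696 (.pos 39 .mp ⟨⟨264811970, 0, 0, 0, 0, 142556940, 0, 0, 0, ⟨0, 0⟩, 0⟩, 0, 0⟩ 0 0) (.pos 39 .mp ⟨⟨267000669,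 0, 0, 0, 0, 143794885, 0, 0, 0, ⟨0, 0⟩, 0⟩, 0, 0⟩ 0 0))) (.cut .v 16809984 (.cut .l 141961 (.cut .s 12701696 (.cut .d (-4096) (.pos 49 .mp ⟨⟨268362067, 0, 0, 0, 0, 135007250, 0, 0, 0, ⟨0, 0⟩, 0⟩, 0, 0⟩ 0 0) (.cut .s 12695552 (.pos 49 .mp ⟨⟨269529052, 0, 0, 0, 0, 129285346, 0, 0, 0, ⟨0, 0⟩, 0⟩, 0, 0⟩ 0 0) (.pos 49 .mp ⟨⟨270596558, 0, 0, 0, 0, 129938027, 0, 0, 0, ⟨0, 0⟩, 0⟩, 0, 0⟩ 0 0))) (.cut .d (-4096) (.pos 49 .mp ⟨⟨270777523, 0, 0, 0, 0, 135811929, 0, 0, 0, ⟨0, 0⟩, 0⟩, 0, 0⟩ 0 0) (.cut .s 12707840 (.pos 49 .mp ⟨⟨271664648, 0, 0, 0, 0, 130605148, 0, 0, 0, ⟨0, 0⟩, 0⟩, 0, 0⟩ 0 0) (.pos 49 .mp ⟨⟨272733262, 0, 0, 0, 0, 131286871, 0,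 0, 0, ⟨0, 0⟩, 0⟩, 0, 0⟩ 0 0)))) (.pos 49 .mp ⟨⟨270037904, 0, 0, 0, 0, 126310511, 0, 0, 0, ⟨0, 0⟩, 0⟩, 0, 0⟩ 0 0)) (.pos 50 .mp ⟨⟨344343960, 0, 0, 0, 0, 0, 0, 0, 0, ⟨0, 0⟩, 0⟩, 0, 0⟩ 0 0))))) (.pos 40 .mp ⟨⟨345068781, 0, 0, 0, 0, 0, 0, 0, 0, ⟨0, 0⟩, 0⟩, 0, 0⟩ 0 0))) (.pos 38 .mp ⟨⟨342668497, 0, 0, 0, 0, 0, 0, 0, 0, ⟨0, 0⟩, 0⟩, 0, 0⟩ 0 0)))))) (.pos 36 .mp ⟨⟨382477515, 0, 0, 0, 0, 0, 0, 0, 0, ⟨0, 0⟩, 0⟩, 0, 0⟩ 0 0))) (.void 34 ⟨⟨100000, 0, 0, 0, 0, 0, 0, 0, 0, ⟨0, 0⟩, 0⟩, 0, 0⟩ 0 0))) (.void 32 ⟨⟨100000, 0, 0, 0, 0, 0, 0, 0, 0, ⟨0, 0⟩, 0⟩, 0, 0⟩ 0 0))) (.void 30 ⟨⟨100000, 0, 0, 0, 0, 0, 0, 0, 0, ⟨0, 0⟩, 0⟩, 0, 0⟩ 0 0))) (.void 28 ⟨⟨100000,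 0, 0, 0, 0, 0, 0, 0, 0, ⟨0, 0⟩, 0⟩, 0, 0⟩ 0 0)))) (.void 26 ⟨⟨100000, 0, 0, 0, 0, 0, 0, 0, 0, ⟨0, 0⟩, 0⟩, 0, 0⟩ 0 0)) (.void 95 ⟨⟨100000, 0, 0, 0, 0, 0, 0, 0, 0, ⟨0, 0⟩, 0⟩, 0, 0⟩ 0 0)) (.void 106 ⟨⟨100000, 0, 0, 0, 0, 0, 0, 0, 0, ⟨0, 0⟩, 0⟩, 0, 0⟩ 0 0)) (.void 115 ⟨⟨94865, 0, 0, 5135, 0, 0, 0, 0, 0, ⟨0, 0⟩, 0⟩, 0, 0⟩ 0 0))) (.cut .v 16777216 (.cut .v 8388608 (.cut .v 4194304 (.cut .v 2097152 (.cut .v 1048576 (.pos 111 .pm ⟨⟨0, 0, 20300211, 0, 0, 0, 0, 0, 0, ⟨0, 0⟩, 0⟩, 0, 17033⟩ 0 0) (.pos 112 .pm ⟨⟨0, 0, 18198805, 0, 0, 0, 0, 0, 0, ⟨0, 0⟩, 0⟩, 0, 47315⟩ 0 0)) (.pos 7 .pm ⟨⟨0, 0, 18800461, 0, 0, 0, 0, 0, 0, ⟨0, 0⟩, 0⟩, 0, 60833⟩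 0 0)) (.pos 5 .pm ⟨⟨0, 0, 9705296, 0, 0, 0, 0, 0, 0, ⟨0, 0⟩, 0⟩, 0, 0⟩ 0 0)) (.pos 3 .pm ⟨⟨0, 0, 0, 0, 0, 0, 0, 0, 0, ⟨0, 0⟩, 0⟩, 0, 0⟩ 0 0)) (.cut .v 268435456 (.cut .v 67108864 (.cut .d 2854763 (.cut .v 33554432 (.cut .d 1427381 (.cut .v 25165824 (.cut .d 713690 (.cut .d 356845 (.cut .v 20971520 (.cut .d 178422 (.cut .v 18874368 (.cut .v 17825792 (.pos 31 .pp ⟨⟨286364907, 0, 0, 0, 0, 0, 0, 0, 0, ⟨0, 0⟩, 0⟩, 2755919, 0⟩ 0 0) (.pos 32 .pp ⟨⟨354343887, 0, 0, 0, 0, 0, 0, 0, 0, ⟨0, 0⟩, 0⟩, 0, 0⟩ 0 0)) (.pos 30 .pp ⟨⟨430186500, 0, 0, 0, 0, 0, 0, 0, 0, ⟨0, 0⟩, 0⟩, 0, 0⟩ 0 0)) (.pos 27 .pp ⟨⟨286852826, 0, 0, 0, 0, 0, 0, 0, 0, ⟨0, 0⟩, 0⟩,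 0, 14479⟩ 0 0)) (.cut .d 178422 (.void 28 ⟨⟨0, 0, 0, 0, 0, 0, 0, 0, 0, ⟨0, 0⟩, 0⟩, 100000, 0⟩ 0 0) (.pos 28 .pp ⟨⟨0, 0, 0, 0, 0, 0, 0, 0, 0, ⟨0, 0⟩, 0⟩, 55661580, 0⟩ 0 0))) (.pos 25 .pp ⟨⟨0, 0, 0, 0, 0, 0, 0, 0, 0, ⟨0, 0⟩, 0⟩, 36456345, 70413⟩ 0 0)) (.pos 25 .pp ⟨⟨0, 0, 0, 0, 0, 0, 0, 0, 0, ⟨0, 0⟩, 0⟩, 0, 298769⟩ 0 0)) (.cut .d 713690 (.pos 26 .pp ⟨⟨0, 0, 0, 0, 0, 0, 0, 0, 0, ⟨0, 0⟩, 0⟩, 82762958, 0⟩ 0 0) (.pos 26 .pp ⟨⟨0, 0, 0, 0, 0, 0, 140045, 0, 0, ⟨0, 0⟩, 0⟩, 41292822, 0⟩ 0 0))) (.pos 24 .pp ⟨⟨0, 0, 0, 0, 0, 0, 0, 0, 0, ⟨0, 0⟩, 0⟩, 0, 331966⟩ 0 0)) (.cut .d 1427381 (.pos 95 .pp ⟨⟨0, 0, 0, 0, 0, 0, 0, 0, 0, ⟨0, 0⟩, 0⟩, 151808030,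 0⟩ 0 0) (.pos 95 .pp ⟨⟨0, 0, 0, 0, 0, 0, 0, 0, 0, ⟨0, 0⟩, 0⟩, 52384175, 0⟩ 0 0))) (.pos 94 .pp ⟨⟨0, 0, 0, 0, 0, 0, 0, 0, 0, ⟨0, 0⟩, 0⟩, 0, 248974⟩ 0 0)) (.void 106 ⟨⟨0, 0, 0, 46006, 0, 0, 0, 0, 0, ⟨0, 0⟩, 0⟩, 53994, 0⟩ 0 0)) (.void 115 ⟨⟨0, 0, 0, 0, 0, 0, 0, 0, 0, ⟨0, 0⟩, 0⟩, 100000, 0⟩ 0 0)))),
    by decide +kernel⟩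

def covers21 : cell.Covers Vale.Agent.P237.Petty.Cor.Grid.N13.table row21.1 :=
  ⟨(.cut .d 0 (.cut .v 16777216 (.cut .d (-8388608) (.void 1 ⟨⟨0, 0, 0, 0, 0, 100000, 0, 0, 0, ⟨0, 0⟩, 0⟩, 0, 0⟩ 0 0) (.cut .v 8388608 (.pos 2 .mm ⟨⟨0, 0, 462017001, 0, 0, 163320432, 0, 0, 0, ⟨0, 0⟩, 0⟩, 0, 30616⟩ 0 0) (.cut .d (-4194304) (.void 3 ⟨⟨100000, 0, 0, 0, 0, 0, 0, 0, 0, ⟨0, 0⟩, 0⟩, 0, 0⟩ 0 0) (.cut .d (-2097152) (.void 3 ⟨⟨0, 0, 0, 0, 0, 100000, 0, 0, 0, ⟨0, 0⟩, 0⟩, 0, 0⟩ 0 0) (.cut .d (-1048576) (.void 3 ⟨⟨0, 0, 0, 0, 0, 100000, 0, 0, 0, ⟨0, 0⟩, 0⟩, 0, 0⟩ 0 0) (.cut .d (-524288) (.void 3 ⟨⟨0, 0, 0, 0, 0, 100000, 0, 0, 0, ⟨0, 0⟩, 0⟩, 0, 0⟩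 0 0) (.cut .d (-262144) (.void 3 ⟨⟨0, 0, 0, 0, 0, 100000, 0, 0, 0, ⟨0, 0⟩, 0⟩, 0, 0⟩ 0 0) (.cut .s 12845056 (.pos 3 .mm ⟨⟨0, 0, 0, 0, 0, 618854835, 0, 0, 0, ⟨0, 0⟩, 0⟩, 0, 0⟩ 0 0) (.pos 3 .mm ⟨⟨0, 0, 0, 0, 0, 682601391, 0, 0, 0, ⟨0, 0⟩, 0⟩, 0, 0⟩ 0 0))))))))) (.cut .v 268435456 (.cut .v 67108864 (.cut .v 33554432 (.cut .v 25165824 (.cut .d (-8388608) (.void 25 ⟨⟨100000, 0, 0, 0, 0, 0, 0, 0, 0, ⟨0, 0⟩, 0⟩, 0, 0⟩ 0 0) (.cut .d (-4194304) (.void 25 ⟨⟨100000, 0, 0, 0, 0, 0, 0, 0, 0, ⟨0, 0⟩, 0⟩, 0, 0⟩ 0 0) (.cut .v 20971520 (.cut .d (-2097152) (.void 27 ⟨⟨100000, 0, 0, 0, 0, 0, 0, 0, 0, ⟨0, 0⟩, 0⟩, 0, 0⟩ 0 0) (.cut .v 18874368 (.cut .d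 (-1048576) (.void 29 ⟨⟨100000, 0, 0, 0, 0, 0, 0, 0, 0, ⟨0, 0⟩, 0⟩, 0, 0⟩ 0 0) (.cut .v 17825792 (.cut .d (-524288) (.void 31 ⟨⟨100000, 0, 0, 0, 0, 0, 0, 0, 0, ⟨0, 0⟩, 0⟩, 0, 0⟩ 0 0) (.cut .v 17301504 (.cut .d (-262144) (.void 33 ⟨⟨100000, 0, 0, 0, 0, 0, 0, 0, 0, ⟨0, 0⟩, 0⟩, 0, 0⟩ 0 0) (.cut .v 17039360 (.cut .d (-131072) (.void 35 ⟨⟨100000, 0, 0, 0, 0, 0, 0, 0, 0, ⟨0, 0⟩, 0⟩, 0, 0⟩ 0 0) (.cut .d (-65536) (.void 35 ⟨⟨100000, 0, 0, 0, 0, 0, 0, 0, 0, ⟨0, 0⟩, 0⟩, 0, 0⟩ 0 0) (.cut .d (-32768) (.void 35 ⟨⟨100000, 0, 0, 0, 0, 0, 0, 0, 0, ⟨0, 0⟩, 0⟩, 0, 0⟩ 0 0) (.cut .d (-16384) (.void 35 ⟨⟨0, 0, 0, 0, 0, 100000, 0, 0, 0, ⟨0, 0⟩, 0⟩, 0,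 0⟩ 0 0) (.cut .v 16908288 (.cut .s 12845056 (.cut .s 12779520 (.cut .v 16842752 (.cut .s 12746752 (.cut .d (-8192) (.cut .d (-12288) (.pos 39 .mp ⟨⟨271162696, 0, 0, 0, 0, 152609001, 0, 0, 0, ⟨0, 0⟩, 0⟩, 0, 0⟩ 0 0) (.cut .l 141961 (.void 39 ⟨⟨0, 0, 0, 0, 0, 100000, 0, 0, 0, ⟨0, 0⟩, 0⟩, 0, 0⟩ 0 0) (.cut .s 12730368 (.pos 39 .mp ⟨⟨277524831, 0, 0, 0, 0, 127375246, 0, 0, 0, ⟨0, 0⟩, 0⟩, 0, 0⟩ 0 0) (.cut .s 12738560 (.pos 39 .mp ⟨⟨279061534, 0, 0, 0, 0, 130103263, 0, 0, 0, ⟨0, 0⟩, 0⟩, 0, 0⟩ 0 0) (.pos 39 .mp ⟨⟨280607750, 0, 0, 0, 0, 130724817, 0, 0, 0, ⟨0, 0⟩, 0⟩, 0, 0⟩ 0 0))))) (.cut .v 16809984 (.cut .l 141961 (.cut .s 12730368 (.cut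 .s 12722176 (.cut .s 12718080 (.pos 49 .mp ⟨⟨275584789, 0, 0, 0, 0, 128600533, 0, 0, 0, ⟨0, 0⟩, 0⟩, 0, 0⟩ 0 0) (.pos 49 .mp ⟨⟨276342955, 0, 0, 0, 0, 128910634, 0, 0, 0, ⟨0, 0⟩, 0⟩, 0, 0⟩ 0 0)) (.cut .s 12726272 (.pos 49 .mp ⟨⟨277103468, 0, 0, 0, 0, 129223602, 0, 0, 0, ⟨0, 0⟩, 0⟩, 0, 0⟩ 0 0) (.pos 49 .mp ⟨⟨277866334, 0, 0, 0, 0, 129539430, 0, 0, 0, ⟨0, 0⟩, 0⟩, 0, 0⟩ 0 0))) (.cut .s 12738560 (.cut .s 12734464 (.pos 49 .mp ⟨⟨278631560, 0, 0, 0, 0, 129858111, 0, 0, 0, ⟨0, 0⟩, 0⟩, 0, 0⟩ 0 0) (.pos 49 .mp ⟨⟨279399152, 0, 0, 0, 0, 130179638, 0, 0, 0, ⟨0, 0⟩, 0⟩, 0, 0⟩ 0 0)) (.cut .s 12742656 (.pos 49 .mp ⟨⟨280169119, 0, 0, 0, 0, 130504005,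 0, 0, 0, ⟨0, 0⟩, 0⟩, 0, 0⟩ 0 0) (.pos 49 .mp ⟨⟨280941466, 0, 0, 0, 0, 130831205, 0, 0, 0, ⟨0, 0⟩, 0⟩, 0, 0⟩ 0 0)))) (.pos 49 .mp ⟨⟨277552593, 0, 0, 0, 0, 123970565, 0, 0, 0, ⟨0, 0⟩, 0⟩, 0, 0⟩ 0 0)) (.pos 50 .mp ⟨⟨351213187, 0, 0, 0, 0, 0, 0, 0, 0, ⟨0, 0⟩, 0⟩, 0, 0⟩ 0 0))) (.cut .d (-8192) (.cut .d (-12288) (.pos 39 .mp ⟨⟨277220697, 0, 0, 0, 0, 155647834, 0, 0, 0, ⟨0, 0⟩, 0⟩, 0, 0⟩ 0 0) (.cut .l 141961 (.void 39 ⟨⟨0, 0, 0, 0, 0, 100000, 0, 0, 0, ⟨0, 0⟩, 0⟩, 0, 0⟩ 0 0) (.cut .l 212942 (.cut .s 12763136 (.pos 39 .mp ⟨⟨277490361, 0, 0, 0, 0, 146127466, 0, 0, 0, ⟨0, 0⟩, 0⟩, 0, 0⟩ 0 0) (.pos 39 .mp ⟨⟨280475084, 0, 0, 0, 0, 147895910, 0,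 0, 0, ⟨0, 0⟩, 0⟩, 0, 0⟩ 0 0)) (.pos 39 .mp ⟨⟨285157766, 0, 0, 0, 0, 125391576, 0, 0, 0, ⟨0, 0⟩, 0⟩, 0, 0⟩ 0 0)))) (.cut .v 16809984 (.cut .l 141961 (.cut .s 12763136 (.cut .s 12754944 (.cut .s 12750848 (.pos 49 .mp ⟨⟨281716200, 0, 0, 0, 0, 131161232, 0, 0, 0, ⟨0, 0⟩, 0⟩, 0, 0⟩ 0 0) (.pos 49 .mp ⟨⟨282493329, 0, 0, 0, 0, 131494078, 0, 0, 0, ⟨0, 0⟩, 0⟩, 0, 0⟩ 0 0)) (.cut .s 12759040 (.pos 49 .mp ⟨⟨283272860, 0, 0, 0, 0, 131829736, 0, 0, 0, ⟨0, 0⟩, 0⟩, 0, 0⟩ 0 0) (.pos 49 .mp ⟨⟨284054799, 0, 0, 0, 0, 132168201, 0, 0, 0, ⟨0, 0⟩, 0⟩, 0, 0⟩ 0 0))) (.cut .s 12771328 (.cut .s 12767232 (.pos 49 .mp ⟨⟨284839154, 0, 0, 0, 0, 132509463, 0, 0,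 0, ⟨0, 0⟩, 0⟩, 0, 0⟩ 0 0) (.pos 49 .mp ⟨⟨285625931, 0, 0, 0, 0, 132853518, 0, 0, 0, ⟨0, 0⟩, 0⟩, 0, 0⟩ 0 0)) (.cut .d (-4096) (.pos 49 .mp ⟨⟨280120645, 0, 0, 0, 0, 148666477, 0, 0, 0, ⟨0, 0⟩, 0⟩, 0, 0⟩ 0 0) (.cut .s 12775424 (.pos 49 .mp ⟨⟨284067743, 0, 0, 0, 0, 137190204, 0, 0, 0, ⟨0, 0⟩, 0⟩, 0, 0⟩ 0 0) (.pos 49 .mp ⟨⟨284870180, 0, 0, 0, 0, 137510800, 0, 0, 0, ⟨0, 0⟩, 0⟩, 0, 0⟩ 0 0))))) (.pos 49 .mp ⟨⟨283745231, 0, 0, 0, 0, 126613044, 0, 0, 0, ⟨0, 0⟩, 0⟩, 0, 0⟩ 0 0)) (.pos 50 .mp ⟨⟨358643873, 0, 0, 0, 0, 0, 0, 0, 0, ⟨0, 0⟩, 0⟩, 0, 0⟩ 0 0)))) (.pos 40 .mp ⟨⟨364833607, 0, 0, 0, 0, 0, 0, 0, 0, ⟨0, 0⟩, 0⟩, 0, 0⟩ 0 0)) (.cut .v 16842752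 (.cut .s 12812288 (.cut .d (-8192) (.cut .l 141961 (.void 39 ⟨⟨0, 0, 0, 0, 0, 100000, 0, 0, 0, ⟨0, 0⟩, 0⟩, 0, 0⟩ 0 0) (.cut .d (-12288) (.pos 39 .mp ⟨⟨283429124, 0, 0, 0, 0, 157967774, 0, 0, 0, ⟨0, 0⟩, 0⟩, 0, 0⟩ 0 0) (.cut .l 212942 (.cut .s 12795904 (.pos 39 .mp ⟨⟨283517534, 0, 0, 0, 0, 149662205, 0, 0, 0, ⟨0, 0⟩, 0⟩, 0, 0⟩ 0 0) (.pos 39 .mp ⟨⟨286619199, 0, 0, 0, 0, 151423370, 0, 0, 0, ⟨0, 0⟩, 0⟩, 0, 0⟩ 0 0)) (.cut .s 12795904 (.pos 39 .mp ⟨⟨288338160, 0, 0, 0, 0, 133074490, 0, 0, 0, ⟨0, 0⟩, 0⟩, 0, 0⟩ 0 0) (.pos 39 .mp ⟨⟨291557847, 0, 0, 0, 0, 134523641, 0, 0, 0, ⟨0, 0⟩, 0⟩, 0, 0⟩ 0 0))))) (.cut .l 141961 (.cut .v 16809984 (.cut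 .s 12795904 (.cut .s 12787712 (.cut .d (-4096) (.pos 49 .mp ⟨⟨281666243, 0, 0, 0, 0, 149446388, 0, 0, 0, ⟨0, 0⟩, 0⟩, 0, 0⟩ 0 0) (.cut .s 12783616 (.pos 49 .mp ⟨⟨285673422, 0, 0, 0, 0, 137837847, 0, 0, 0, ⟨0, 0⟩, 0⟩, 0, 0⟩ 0 0) (.pos 49 .mp ⟨⟨286477449, 0, 0, 0, 0, 138171398, 0, 0, 0, ⟨0, 0⟩, 0⟩, 0, 0⟩ 0 0))) (.cut .d (-4096) (.pos 49 .mp ⟨⟨283221293, 0, 0, 0, 0, 150243763, 0, 0, 0, ⟨0, 0⟩, 0⟩, 0, 0⟩ 0 0) (.cut .s 12791808 (.pos 49 .mp ⟨⟨287282243, 0, 0, 0, 0, 138511507, 0, 0, 0, ⟨0, 0⟩, 0⟩, 0, 0⟩ 0 0) (.pos 49 .mp ⟨⟨288087781, 0, 0, 0, 0, 138858229, 0, 0, 0, ⟨0, 0⟩, 0⟩, 0, 0⟩ 0 0)))) (.cut .s 12804096 (.cut .d (-4096) (.pos 49 .mp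 ⟨⟨284785849, 0, 0, 0, 0, 151058720, 0, 0, 0, ⟨0, 0⟩, 0⟩, 0, 0⟩ 0 0) (.cut .s 12800000 (.pos 49 .mp ⟨⟨288894045, 0, 0, 0, 0, 139211619, 0, 0, 0, ⟨0, 0⟩, 0⟩, 0, 0⟩ 0 0) (.pos 49 .mp ⟨⟨289701014, 0, 0, 0, 0, 139571732, 0, 0, 0, ⟨0, 0⟩, 0⟩, 0, 0⟩ 0 0))) (.cut .d (-4096) (.pos 49 .mp ⟨⟨286359969, 0, 0, 0, 0, 151891377, 0, 0, 0, ⟨0, 0⟩, 0⟩, 0, 0⟩ 0 0) (.cut .s 12808192 (.pos 49 .mp ⟨⟨290508667, 0, 0, 0, 0, 139938624, 0, 0, 0, ⟨0, 0⟩, 0⟩, 0, 0⟩ 0 0) (.pos 49 .mp ⟨⟨291316984, 0, 0, 0, 0, 140312352, 0, 0, 0, ⟨0, 0⟩, 0⟩, 0, 0⟩ 0 0))))) (.pos 50 .mp ⟨⟨377502467, 0, 0, 0, 0, 0, 0, 0, 0, ⟨0, 0⟩, 0⟩, 0, 0⟩ 0 0)) (.pos 39 .mp ⟨⟨291173535, 0, 0,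 0, 0, 127707174, 0, 0, 0, ⟨0, 0⟩, 0⟩, 0, 0⟩ 0 0))) (.cut .d (-8192) (.cut .d (-12288) (.pos 39 .mp ⟨⟨289791535, 0, 0, 0, 0, 162555000, 0, 0, 0, ⟨0, 0⟩, 0⟩, 0, 0⟩ 0 0) (.cut .l 141961 (.void 39 ⟨⟨0, 0, 0, 0, 0, 100000, 0, 0, 0, ⟨0, 0⟩, 0⟩, 0, 0⟩ 0 0) (.cut .l 212942 (.cut .s 12828672 (.pos 39 .mp ⟨⟨289781583, 0, 0, 0, 0, 153176385, 0, 0, 0, ⟨0, 0⟩, 0⟩, 0, 0⟩ 0 0) (.pos 39 .mp ⟨⟨293006209, 0, 0, 0, 0, 154918194, 0, 0, 0, ⟨0, 0⟩, 0⟩, 0, 0⟩ 0 0)) (.cut .s 12828672 (.pos 39 .mp ⟨⟨294817296, 0, 0, 0, 0, 135994521, 0, 0, 0, ⟨0, 0⟩, 0⟩, 0, 0⟩ 0 0) (.pos 39 .mp ⟨⟨298111305, 0, 0, 0, 0, 137502580, 0, 0, 0, ⟨0, 0⟩, 0⟩, 0, 0⟩ 0 0))))) (.cut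 .l 141961 (.cut .v 16809984 (.cut .s 12828672 (.cut .s 12820480 (.cut .d (-4096) (.pos 49 .mp ⟨⟨287943709, 0, 0, 0, 0, 152741854, 0, 0, 0, ⟨0, 0⟩, 0⟩, 0, 0⟩ 0 0) (.cut .s 12816384 (.pos 49 .mp ⟨⟨292125944, 0, 0, 0, 0, 140692972, 0, 0, 0, ⟨0, 0⟩, 0⟩, 0, 0⟩ 0 0) (.pos 49 .mp ⟨⟨292935525, 0, 0, 0, 0, 141080539, 0, 0, 0, ⟨0, 0⟩, 0⟩, 0, 0⟩ 0 0))) (.cut .d (-4096) (.pos 49 .mp ⟨⟨289537127, 0, 0, 0, 0, 153610272, 0, 0, 0, ⟨0, 0⟩, 0⟩, 0, 0⟩ 0 0) (.cut .s 12824576 (.pos 49 .mp ⟨⟨293745708, 0, 0, 0, 0, 141475113, 0, 0, 0, ⟨0, 0⟩, 0⟩, 0, 0⟩ 0 0) (.pos 49 .mp ⟨⟨294556469, 0, 0, 0, 0, 141876750, 0, 0, 0, ⟨0, 0⟩, 0⟩, 0, 0⟩ 0 0)))) (.cut .s 12836864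 (.cut .d (-4096) (.pos 49 .mp ⟨⟨291140279, 0, 0, 0, 0, 154496752, 0, 0, 0, ⟨0, 0⟩, 0⟩, 0, 0⟩ 0 0) (.cut .s 12832768 (.pos 49 .mp ⟨⟨295367789, 0, 0, 0, 0, 142285507, 0, 0, 0, ⟨0, 0⟩, 0⟩, 0, 0⟩ 0 0) (.pos 49 .mp ⟨⟨296179644, 0, 0, 0, 0, 142701445, 0, 0, 0, ⟨0, 0⟩, 0⟩, 0, 0⟩ 0 0))) (.cut .d (-4096) (.pos 49 .mp ⟨⟨292753224, 0, 0, 0, 0, 155401418, 0, 0, 0, ⟨0, 0⟩, 0⟩, 0, 0⟩ 0 0) (.cut .s 12840960 (.pos 49 .mp ⟨⟨296992015, 0, 0, 0, 0, 143124620, 0, 0, 0, ⟨0, 0⟩, 0⟩, 0, 0⟩ 0 0) (.pos 49 .mp ⟨⟨297804877, 0, 0, 0, 0, 143555093, 0, 0, 0, ⟨0, 0⟩, 0⟩, 0, 0⟩ 0 0))))) (.pos 50 .mp ⟨⟨385684670, 0, 0, 0, 0, 0, 0, 0, 0, ⟨0, 0⟩, 0⟩, 0, 0⟩ 0 0)) (.pos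 39 .mp ⟨⟨297700197, 0, 0, 0, 0, 130505711, 0, 0, 0, ⟨0, 0⟩, 0⟩, 0, 0⟩ 0 0)))) (.pos 40 .mp ⟨⟨380676714, 0, 0, 0, 0, 0, 0, 0, 0, ⟨0, 0⟩, 0⟩, 0, 0⟩ 0 0))) (.cut .s 12910592 (.cut .v 16842752 (.cut .s 12877824 (.cut .d (-8192) (.cut .d (-12288) (.pos 39 .mp ⟨⟨296311608, 0, 0, 0, 0, 166438370, 0, 0, 0, ⟨0, 0⟩, 0⟩, 0, 0⟩ 0 0) (.cut .l 141961 (.void 39 ⟨⟨0, 0, 0, 0, 0, 100000, 0, 0, 0, ⟨0, 0⟩, 0⟩, 0, 0⟩ 0 0) (.cut .l 212942 (.cut .s 12861440 (.pos 39 .mp ⟨⟨296294620, 0, 0, 0, 0, 156645701, 0, 0, 0, ⟨0, 0⟩, 0⟩, 0, 0⟩ 0 0) (.pos 39 .mp ⟨⟨299648374, 0, 0, 0, 0, 158355773, 0, 0, 0, ⟨0, 0⟩, 0⟩, 0, 0⟩ 0 0)) (.cut .s 12861440 (.pos 39 .mp ⟨⟨301410532,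 0, 0, 0, 0, 139134342, 0, 0, 0, ⟨0, 0⟩, 0⟩, 0, 0⟩ 0 0) (.pos 39 .mp ⟨⟨304703014, 0, 0, 0, 0, 140924601, 0, 0, 0, ⟨0, 0⟩, 0⟩, 0, 0⟩ 0 0))))) (.cut .l 141961 (.cut .v 16809984 (.cut .s 12861440 (.cut .s 12853248 (.cut .d (-4096) (.pos 49 .mp ⟨⟨294376021, 0, 0, 0, 0, 156324393, 0, 0, 0, ⟨0, 0⟩, 0⟩, 0, 0⟩ 0 0) (.cut .s 12849152 (.pos 49 .mp ⟨⟨298618210, 0, 0, 0, 0, 143992922, 0, 0, 0, ⟨0, 0⟩, 0⟩, 0, 0⟩ 0 0) (.pos 49 .mp ⟨⟨299431991, 0, 0, 0, 0, 144438167, 0, 0, 0, ⟨0, 0⟩, 0⟩, 0, 0⟩ 0 0))) (.cut .d (-4096) (.pos 49 .mp ⟨⟨296008728, 0, 0, 0, 0, 157265801, 0, 0, 0, ⟨0, 0⟩, 0⟩, 0, 0⟩ 0 0) (.cut .s 12857344 (.pos 49 .mp ⟨⟨300246198, 0, 0,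 0, 0, 144890890, 0, 0, 0, ⟨0, 0⟩, 0⟩, 0, 0⟩ 0 0) (.pos 49 .mp ⟨⟨301060808, 0, 0, 0, 0, 145351149, 0, 0, 0, ⟨0, 0⟩, 0⟩, 0, 0⟩ 0 0)))) (.cut .s 12869632 (.cut .d (-4096) (.pos 49 .mp ⟨⟨297651406, 0, 0, 0, 0, 158225769, 0, 0, 0, ⟨0, 0⟩, 0⟩, 0, 0⟩ 0 0) (.cut .s 12865536 (.pos 49 .mp ⟨⟨301875798, 0, 0, 0, 0, 145819007, 0, 0, 0, ⟨0, 0⟩, 0⟩, 0, 0⟩ 0 0) (.pos 49 .mp ⟨⟨302691145, 0, 0, 0, 0, 146294525, 0, 0, 0, ⟨0, 0⟩, 0⟩, 0, 0⟩ 0 0))) (.cut .s 12873728 (.cut .s 12871680 (.pos 49 .mp ⟨⟨305678799, 0, 0, 0, 0, 142591682, 0, 0, 0, ⟨0, 0⟩, 0⟩, 0, 0⟩ 0 0) (.pos 49 .mp ⟨⟨306103990, 0, 0, 0, 0, 142798623, 0, 0, 0, ⟨0, 0⟩, 0⟩, 0, 0⟩ 0 0)) (.pos 49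 .mp ⟨⟨306956334, 0, 0, 0, 0, 142754428, 0, 0, 0, ⟨0, 0⟩, 0⟩, 0, 0⟩ 0 0)))) (.pos 50 .mp ⟨⟨394073750, 0, 0, 0, 0, 0, 0, 0, 0, ⟨0, 0⟩, 0⟩, 0, 0⟩ 0 0)) (.pos 39 .mp ⟨⟨304388581, 0, 0, 0, 0, 133385198, 0, 0, 0, ⟨0, 0⟩, 0⟩, 0, 0⟩ 0 0))) (.cut .d (-8192) (.cut .d (-12288) (.pos 39 .mp ⟨⟨302993144, 0, 0, 0, 0, 170618704, 0, 0, 0, ⟨0, 0⟩, 0⟩, 0, 0⟩ 0 0) (.cut .l 141961 (.void 39 ⟨⟨0, 0, 0, 0, 0, 100000, 0, 0, 0, ⟨0, 0⟩, 0⟩, 0, 0⟩ 0 0) (.cut .v 16809984 (.pos 49 .mp ⟨⟨274426640, 0, 0, 0, 0, 209455056, 0, 0, 0, ⟨0, 0⟩, 0⟩, 0, 0⟩ 0 0) (.cut .s 12894208 (.pos 50 .mp ⟨⟨311275675, 0, 0, 0, 0, 142080700, 0, 0, 0, ⟨0, 0⟩, 0⟩, 0, 0⟩ 0 0) (.pos 50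 .mp ⟨⟨314774592, 0, 0, 0, 0, 143779302, 0, 0, 0, ⟨0, 0⟩, 0⟩, 0, 0⟩ 0 0))))) (.cut .l 141961 (.cut .v 16809984 (.cut .s 12894208 (.cut .s 12886016 (.cut .s 12881920 (.pos 49 .mp ⟨⟨307811303, 0, 0, 0, 0, 143170992, 0, 0, 0, ⟨0, 0⟩, 0⟩, 0, 0⟩ 0 0) (.pos 49 .mp ⟨⟨308668905, 0, 0, 0, 0, 143590128, 0, 0, 0, ⟨0, 0⟩, 0⟩, 0, 0⟩ 0 0)) (.cut .s 12890112 (.pos 49 .mp ⟨⟨309529149, 0, 0, 0, 0, 144011827, 0, 0, 0, ⟨0, 0⟩, 0⟩, 0, 0⟩ 0 0) (.pos 49 .mp ⟨⟨310392041, 0, 0, 0, 0, 144436080, 0, 0, 0, ⟨0, 0⟩, 0⟩, 0, 0⟩ 0 0))) (.cut .s 12902400 (.cut .s 12898304 (.pos 49 .mp ⟨⟨311257589, 0, 0, 0, 0, 144862878, 0, 0, 0, ⟨0, 0⟩, 0⟩, 0, 0⟩ 0 0) (.pos 49 .mp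 ⟨⟨312125803, 0, 0, 0, 0, 145292213, 0, 0, 0, ⟨0, 0⟩, 0⟩, 0, 0⟩ 0 0)) (.cut .s 12906496 (.pos 49 .mp ⟨⟨312996691, 0, 0, 0, 0, 145724074, 0, 0, 0, ⟨0, 0⟩, 0⟩, 0, 0⟩ 0 0) (.pos 49 .mp ⟨⟨313870259, 0, 0, 0, 0, 146158455, 0, 0, 0, ⟨0, 0⟩, 0⟩, 0, 0⟩ 0 0)))) (.pos 50 .mp ⟨⟨402666254, 0, 0, 0, 0, 0, 0, 0, 0, ⟨0, 0⟩, 0⟩, 0, 0⟩ 0 0)) (.pos 39 .mp ⟨⟨311242626, 0, 0, 0, 0, 136334817, 0, 0, 0, ⟨0, 0⟩, 0⟩, 0, 0⟩ 0 0)))) (.pos 40 .mp ⟨⟨397353808, 0, 0, 0, 0, 0, 0, 0, 0, ⟨0, 0⟩, 0⟩, 0, 0⟩ 0 0)) (.cut .v 16842752 (.cut .s 12943360 (.cut .d (-8192) (.cut .d (-12288) (.pos 39 .mp ⟨⟨309840077, 0, 0, 0, 0, 175104155, 0, 0, 0, ⟨0, 0⟩, 0⟩, 0, 0⟩ 0 0) (.cut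 .l 141961 (.void 39 ⟨⟨0, 0, 0, 0, 0, 100000, 0, 0, 0, ⟨0, 0⟩, 0⟩, 0, 0⟩ 0 0) (.cut .s 12926976 (.pos 39 .mp ⟨⟨307467698, 0, 0, 0, 0, 166902495, 0, 0, 0, ⟨0, 0⟩, 0⟩, 0, 0⟩ 0 0) (.pos 39 .mp ⟨⟨310915076, 0, 0, 0, 0, 168986592, 0, 0, 0, ⟨0, 0⟩, 0⟩, 0, 0⟩ 0 0)))) (.cut .l 141961 (.cut .v 16809984 (.cut .s 12926976 (.cut .d (-4096) (.pos 49 .mp ⟨⟨307720250, 0, 0, 0, 0, 167259096, 0, 0, 0, ⟨0, 0⟩, 0⟩, 0, 0⟩ 0 0) (.cut .v 16793600 (.cut .l 70980 (.cut .d (-2048) (.pos 51 .mp ⟨⟨307848661, 0, 0, 0, 0, 166206564, 0, 0, 0, ⟨0, 0⟩, 0⟩, 0, 0⟩ 0 0) (.cut .s 12918784 (.pos 51 .mp ⟨⟨311409986, 0, 0, 0, 0, 152931943, 0, 0, 0, ⟨0, 0⟩, 0⟩, 0, 0⟩ 0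 0) (.pos 51 .mp ⟨⟨313041777, 0, 0, 0, 0, 154095644, 0, 0, 0, ⟨0, 0⟩, 0⟩, 0, 0⟩ 0 0))) (.pos 51 .mp ⟨⟨312486972, 0, 0, 0, 0, 147757637, 0, 0, 0, ⟨0, 0⟩, 0⟩, 0, 0⟩ 0 0)) (.pos 52 .mp ⟨⟨397120434, 0, 0, 0, 0, 0, 0, 0, 0, ⟨0, 0⟩, 0⟩, 0, 0⟩ 0 0))) (.cut .d (-4096) (.pos 49 .mp ⟨⟨311159079, 0, 0, 0, 0, 169514567, 0, 0, 0, ⟨0, 0⟩, 0⟩, 0, 0⟩ 0 0) (.cut .s 12935168 (.cut .s 12931072 (.pos 49 .mp ⟨⟨316310289, 0, 0, 0, 0, 151961423, 0, 0, 0, ⟨0, 0⟩, 0⟩, 0, 0⟩ 0 0) (.pos 49 .mp ⟨⟨317289574, 0, 0, 0, 0, 152279733, 0, 0, 0, ⟨0, 0⟩, 0⟩, 0, 0⟩ 0 0)) (.pos 49 .mp ⟨⟨318503651, 0, 0, 0, 0, 152679827, 0, 0, 0, ⟨0, 0⟩, 0⟩, 0, 0⟩ 0 0)))) (.pos 50 .mp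 ⟨⟨411458785, 0, 0, 0, 0, 0, 0, 0, 0, ⟨0, 0⟩, 0⟩, 0, 0⟩ 0 0)) (.pos 39 .mp ⟨⟨318266403, 0, 0, 0, 0, 139343507, 0, 0, 0, ⟨0, 0⟩, 0⟩, 0, 0⟩ 0 0))) (.cut .d (-8192) (.cut .s 12959744 (.cut .s 12951552 (.pos 39 .mp ⟨⟨314404652, 0, 0, 0, 0, 170972544, 0, 0, 0, ⟨0, 0⟩, 0⟩, 0, 0⟩ 0 0) (.pos 39 .mp ⟨⟨316165427, 0, 0, 0, 0, 172147857, 0, 0, 0, ⟨0, 0⟩, 0⟩, 0, 0⟩ 0 0)) (.pos 39 .mp ⟨⟨317936948, 0, 0, 0, 0, 176376961, 0, 0, 0, ⟨0, 0⟩, 0⟩, 0, 0⟩ 0 0)) (.cut .l 141961 (.cut .v 16809984 (.cut .s 12959744 (.cut .d (-4096) (.pos 49 .mp ⟨⟨314640028, 0, 0, 0, 0, 171849397, 0, 0, 0, ⟨0, 0⟩, 0⟩, 0, 0⟩ 0 0) (.cut .s 12951552 (.pos 49 .mp ⟨⟨320282266, 0,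 0, 0, 0, 153655638, 0, 0, 0, ⟨0, 0⟩, 0⟩, 0, 0⟩ 0 0) (.pos 49 .mp ⟨⟨322071800, 0, 0, 0, 0, 154644200, 0, 0, 0, ⟨0, 0⟩, 0⟩, 0, 0⟩ 0 0))) (.cut .d (-4096) (.pos 49 .mp ⟨⟨318163618, 0, 0, 0, 0, 174264686, 0, 0, 0, ⟨0, 0⟩, 0⟩, 0, 0⟩ 0 0) (.cut .s 12967936 (.pos 49 .mp ⟨⟨323792954, 0, 0, 0, 0, 155804568, 0, 0, 0, ⟨0, 0⟩, 0⟩, 0, 0⟩ 0 0) (.pos 49 .mp ⟨⟨325442506, 0, 0, 0, 0, 157143455, 0, 0, 0, ⟨0, 0⟩, 0⟩, 0, 0⟩ 0 0)))) (.pos 50 .mp ⟨⟨420447998, 0, 0, 0, 0, 0, 0, 0, 0, ⟨0, 0⟩, 0⟩, 0, 0⟩ 0 0)) (.pos 39 .mp ⟨⟨325464129, 0, 0, 0, 0, 142399955, 0, 0, 0, ⟨0, 0⟩, 0⟩, 0, 0⟩ 0 0)))) (.pos 40 .mp ⟨⟨414837420, 0, 0, 0, 0, 0, 0, 0, 0, ⟨0, 0⟩, 0⟩, 0,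 0⟩ 0 0)))) (.pos 38 .mp ⟨⟨403281518, 0, 0, 0, 0, 0, 0, 0, 0, ⟨0, 0⟩, 0⟩, 0, 0⟩ 0 0)))))) (.pos 36 .mp ⟨⟨456048193, 0, 0, 0, 0, 0, 0, 0, 0, ⟨0, 0⟩, 0⟩, 0, 0⟩ 0 0))) (.void 34 ⟨⟨100000, 0, 0, 0, 0, 0, 0, 0, 0, ⟨0, 0⟩, 0⟩, 0, 0⟩ 0 0))) (.void 32 ⟨⟨100000, 0, 0, 0, 0, 0, 0, 0, 0, ⟨0, 0⟩, 0⟩, 0, 0⟩ 0 0))) (.void 30 ⟨⟨100000, 0, 0, 0, 0, 0, 0, 0, 0, ⟨0, 0⟩, 0⟩, 0, 0⟩ 0 0))) (.void 28 ⟨⟨100000, 0, 0, 0, 0, 0, 0, 0, 0, ⟨0, 0⟩, 0⟩, 0, 0⟩ 0 0)))) (.void 26 ⟨⟨100000, 0, 0, 0, 0, 0, 0, 0, 0, ⟨0, 0⟩, 0⟩, 0, 0⟩ 0 0)) (.void 95 ⟨⟨100000, 0, 0, 0, 0, 0, 0, 0, 0, ⟨0, 0⟩, 0⟩, 0, 0⟩ 0 0)) (.void 106 ⟨⟨100000, 0, 0, 0, 0, 0, 0, 0, 0, ⟨0, 0⟩, 0⟩, 0,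 0⟩ 0 0)) (.void 115 ⟨⟨95591, 0, 0, 5117, 0, 0, 0, 0, 0, ⟨0, 0⟩, 0⟩, 0, 0⟩ 0 0))) (.cut .v 16777216 (.cut .v 8388608 (.cut .v 4194304 (.cut .v 2097152 (.cut .v 1048576 (.pos 111 .pm ⟨⟨0, 0, 19801692, 0, 0, 0, 0, 0, 0, ⟨0, 0⟩, 0⟩, 0, 13536⟩ 0 0) (.pos 112 .pm ⟨⟨0, 0, 17068683, 0, 0, 0, 0, 0, 0, ⟨0, 0⟩, 0⟩, 0, 37600⟩ 0 0)) (.pos 7 .pm ⟨⟨0, 0, 16675922, 0, 0, 0, 0, 0, 0, ⟨0, 0⟩, 0⟩, 0, 48343⟩ 0 0)) (.pos 5 .pm ⟨⟨0, 0, 11203211, 0, 0, 0, 0, 0, 0, ⟨0, 0⟩, 0⟩, 0, 0⟩ 0 0)) (.pos 3 .pm ⟨⟨0, 0, 0, 0, 0, 0, 0, 0, 0, ⟨0, 0⟩, 0⟩, 0, 0⟩ 0 0)) (.cut .v 268435456 (.cut .v 67108864 (.cut .d 2680896 (.cut .v 33554432 (.cut .d 1340448 (.cut .v 25165824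 (.cut .d 670224 (.cut .d 335112 (.cut .v 20971520 (.cut .d 167556 (.cut .v 18874368 (.cut .v 17825792 (.cut .s 12845056 (.pos 31 .pp ⟨⟨276831743, 0, 0, 0, 0, 0, 0, 0, 0, ⟨0, 0⟩, 0⟩, 9135063, 0⟩ 0 0) (.pos 31 .pp ⟨⟨305004103, 0, 0, 0, 0, 0, 0, 0, 0, ⟨0, 0⟩, 0⟩, 9510050, 0⟩ 0 0)) (.pos 32 .pp ⟨⟨410947294, 0, 0, 0, 0, 0, 0, 0, 0, ⟨0, 0⟩, 0⟩, 0, 0⟩ 0 0)) (.pos 30 .pp ⟨⟨504615049, 0, 0, 0, 0, 0, 0, 0, 0, ⟨0, 0⟩, 0⟩, 0, 0⟩ 0 0)) (.pos 27 .pp ⟨⟨325548550, 0, 0, 0, 0, 0, 0, 0, 0, ⟨0, 0⟩, 0⟩, 0, 12595⟩ 0 0)) (.cut .d 167556 (.void 28 ⟨⟨0, 0, 0, 0, 0, 0, 0, 0, 0, ⟨0, 0⟩, 0⟩, 100000, 0⟩ 0 0) (.pos 28 .pp ⟨⟨0, 0, 0, 0, 0, 0, 0, 0, 0, ⟨0, 0⟩,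 0⟩, 64635227, 0⟩ 0 0))) (.pos 25 .pp ⟨⟨0, 0, 0, 0, 0, 0, 0, 0, 0, ⟨0, 0⟩, 0⟩, 41221379, 60911⟩ 0 0)) (.pos 25 .pp ⟨⟨0, 0, 0, 0, 0, 0, 0, 0, 0, ⟨0, 0⟩, 0⟩, 0, 255350⟩ 0 0)) (.cut .d 670224 (.pos 26 .pp ⟨⟨0, 0, 0, 0, 0, 0, 0, 0, 0, ⟨0, 0⟩, 0⟩, 96857873, 0⟩ 0 0) (.pos 26 .pp ⟨⟨0, 0, 0, 0, 0, 0, 124966, 0, 0, ⟨0, 0⟩, 0⟩, 46439717, 0⟩ 0 0))) (.pos 24 .pp ⟨⟨0, 0, 0, 0, 0, 0, 0, 0, 0, ⟨0, 0⟩, 0⟩, 0, 283722⟩ 0 0)) (.cut .d 1340448 (.cut .v 50331648 (.pos 96 .pp ⟨⟨0, 0, 0, 0, 0, 0, 0, 0, 0, ⟨0, 0⟩, 0⟩, 144693701, 0⟩ 0 0) (.void 97 ⟨⟨0, 0, 0, 0, 0, 0, 0, 0, 0, ⟨0, 0⟩, 0⟩, 100000, 0⟩ 0 0)) (.pos 95 .pp ⟨⟨0, 0, 0, 0, 0, 0, 0, 0, 0, ⟨0, 0⟩, 0⟩,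 58438188, 0⟩ 0 0))) (.pos 94 .pp ⟨⟨0, 0, 0, 0, 0, 0, 0, 0, 0, ⟨0, 0⟩, 0⟩, 0, 212792⟩ 0 0)) (.void 106 ⟨⟨0, 0, 0, 46403, 0, 0, 0, 0, 0, ⟨0, 0⟩, 0⟩, 53597, 0⟩ 0 0)) (.void 115 ⟨⟨0, 0, 0, 0, 0, 0, 0, 0, 0, ⟨0, 0⟩, 0⟩, 100000, 0⟩ 0 0)))),
    by decide +kernel⟩

end Vale.Agent.P237.Petty.Cor.Grid.Tiny.N13
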